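import Crest.Agent.R164.T2

/-! # Towers: morphisms and products -/

set_option autoImplicit false
set_option linter.unusedVariables false
set_option linter.unusedSectionVars false

open MeasureTheory ProbabilityTheory Real
open scoped ENNReal

namespace Crest.Agent.R164

namespace Tower

variable {S S' : Type} [MeasurableSpace S] [MeasurableSpace S'] {T : Tower S} {T' : Tower S'}
  {pm : S → S'} {a0 : ℕ}

theorem Mor.t4_gr (h : T.Mor T' pm a0) (C : ℝ) :
    ∃ C' : ℝ, ∀ x, C * (1 + T'.ν (pm x)) ≤ C' * (1 + T.ν x) := by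
  obtain ⟨D, hD⟩ := h.growth
  refine ⟨|C| * (1 + |D|), fun x => ?_⟩
  have h1 := T.ν_nonneg x
  have h2 := T'.ν_nonneg (pm x)
  have h3 := (hD x).trans (mul_le_mul_of_nonneg_right (le_abs_self D) (by positivity))
  rw [mul_assoc]
  exact mul_le_mul (le_abs_self C) (by linarith) (by positivity) (abs_nonneg C)

theorem Mor.t4_int (h : T.Mor T' pm a0) {a : ℕ} (h0 : a0 ≤ a) (ha : a < T.L) (x : S) {G : S' → ℝ}
    (hG : Measurable G) :
    ∫ y, G (pm (T.mix a x y)) ∂T.μ = ∫ y, G (T'.mix a (pm x) y) ∂T'.μ := by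
  rw [← integral_map (T'.measurable_mix a _).aemeasurable hG.aestronglyMeasurable, ← h.map a h0 ha]
  exact (integral_map (h.meas.comp (T.measurable_mix a x)).aemeasurable hG.aestronglyMeasurable).symm

theorem Mor.t4_lint (h : T.Mor T' pm a0) {a : ℕ} (h0 : a0 ≤ a) (ha : a < T.L) (x : S)
    {G : S' → ℝ≥0∞} (hG : Measurable G) :
    ∫⁻ y, G (pm (T.mix a x y)) ∂T.μ = ∫⁻ y, G (T'.mix a (pm x) y) ∂T'.μ := by
  rw [← lintegral_map hG (T'.measurable_mix a _), ← h.map a h0 ha]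
  exact (lintegral_map hG (h.meas.comp (T.measurable_mix a x))).symm

theorem Mor.lg (h : T.Mor T' pm a0) {H : S' → ℝ} (hH : T'.LG H) : T.LG (fun x => H (pm x)) := by
  obtain ⟨C, hC⟩ := hH.2
  obtain ⟨C', hC'⟩ := h.t4_gr C
  exact ⟨hH.1.comp h.meas, C', fun x => (hC _).trans (hC' x)⟩
theorem Mor.ub (h : T.Mor T' pm a0) {H : S' → ℝ} (hH : T'.UB H) : T.UB (fun x => H (pm x)) := by
  obtain ⟨C, hC⟩ := hH.2
  obtain ⟨C', hC'⟩ := h.t4_gr C
  exact ⟨hH.1.comp h.meas, C', fun x => (hC _).trans (hC' x)⟩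
theorem Mor.gr (h : T.Mor T' pm a0) {H : S' → ℝ} (hH : T'.Gr H) : T.Gr (fun x => H (pm x)) := by
  obtain ⟨C, hC⟩ := hH.2
  obtain ⟨C', hC'⟩ := h.t4_gr C
  exact ⟨hH.1.comp h.meas, C', fun x => (hC _).trans (exp_le_exp.2 (hC' x))⟩
theorem Mor.mono (h : T.Mor T' pm a0) {a1 : ℕ} (h1 : a0 ≤ a1) : T.Mor T' pm a1 :=
  ⟨h.L_eq, h.e_eq, h.meas, h.growth, fun a ha => h.map a (h1.trans ha)⟩

theorem Mor.X (h : T.Mor T' pm a0) {H : S' → ℝ} (hH : Measurable H) {a : ℕ} (ha : a0 ≤ a) (x : S) :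
    T.X (fun y => H (pm y)) a x = T'.X H a (pm x) := by
  induction a using T.down_ind generalizing x with
  | h0 a hL => rw [T.X_of_ge _ hL, T'.X_of_ge _ (h.L_eq ▸ hL)]
  | h1 a hL ih =>
    rw [T.X_step _ hL, T'.X_step _ (h.L_eq ▸ hL), step, step, ← h.e_eq]
    simp only [ih (ha.trans (Nat.le_succ a))]
    rw [h.t4_int ha hL x (G := fun w => exp (T.e a * T'.X H (a + 1) w))
      ((T'.measurable_X hH _).const_mul _).exp]

theorem Mor.K (h : T.Mor T' pm a0) {H : S' → ℝ} (hH : T'.UB H) {a : ℕ} (ha : a0 ≤ a) (x : S) :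
    (T.K (fun y => H (pm y)) a x).map pm = T'.K H a (pm x) := by
  induction a using T.down_ind generalizing x with
  | h0 a hL =>
    rw [T.K_of_ge _ hL, T'.K_of_ge _ (h.L_eq ▸ hL), Kernel.id_apply, Kernel.id_apply,
      Measure.map_dirac' h.meas]
  | h1 a hL ih =>
    have hL' : a < T'.L := h.L_eq ▸ hL
    have ha' := ha.trans (Nat.le_succ a)
    refine Measure.ext_of_lintegral _ fun f hf => ?_
    rw [lintegral_map hf h.meas, lintegral_K_step (h.ub hH) hL (hf.fun_comp h.meas),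
      lintegral_K_step hH hL' hf, ← h.t4_lint ha hL x
        (G := fun w => (∫⁻ z, f z ∂(T'.K H (a + 1) w)) * T'.dens H a (pm x) w)
        (hf.lintegral_kernel.mul (hH.good hL').1.of_uncurry_left)]
    refine lintegral_congr fun y => ?_
    rw [← ih ha', lintegral_map hf h.meas, dens, dens, h.X hH.1 ha, h.X hH.1 ha', h.e_eq]

theorem Mor.E (h : T.Mor T' pm a0) {H φ : S' → ℝ} (hH : T'.UB H) (hφ : Measurable φ) {a : ℕ}
    (ha : a0 ≤ a) (x : S) :
    T.E (fun y => H (pm y)) a (fun y => φ (pm y)) x = T'.E H a φ (pm x) := by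
  rw [Tower.E, Tower.E, ← h.K hH ha, integral_map h.meas.aemeasurable hφ.aestronglyMeasurable]

theorem Mor.A (h : T.Mor T' pm 0) {H : S' → ℝ} (hH : Measurable H) :
    T.A (fun y => H (pm y)) = T'.A H := by
  rw [Tower.A, h.X hH le_rfl, X_zero]

theorem Mor.PP (h : T.Mor T' pm 0) {H : S' → ℝ} (hH : T'.UB H) :
    (T.PP (fun y => H (pm y))).map pm = T'.PP H := by
  rw [Tower.PP, h.K hH le_rfl, K_zero hH]

theorem Mor.integral (h : T.Mor T' pm 0) {H φ : S' → ℝ} (hH : T'.UB H) (hφ : Measurable φ) :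
    ∫ y, φ (pm y) ∂(T.PP (fun y => H (pm y))) = ∫ y, φ y ∂(T'.PP H) := by
  rw [← h.PP hH, integral_map h.meas.aemeasurable hφ.aestronglyMeasurable]

theorem Mor.ov (h : T.Mor T' pm 0) {ι : Type} {H : S' → ℝ} (hH : T'.UB H) {s : ι → S' → ℝ}
    (J : Finset ι) (hs : ∀ i ∈ J, Measurable (s i)) (r : ℕ) :
    T.ov (fun y => H (pm y)) (fun i y => s i (pm y)) J r = T'.ov H s J r := by
  rw [Tower.ov, Tower.ov, ← h.integral hH
    (Finset.measurable_sum J fun i hi => (T'.measurable_E H r (hs i hi)).pow_const 2)]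
  refine integral_congr_ae (.of_forall fun x => Finset.sum_congr rfl fun i hi => ?_)
  rw [h.E hH (hs i hi) (Nat.zero_le r)]

section Prod

variable {S1 S2 : Type} [MeasurableSpace S1] [MeasurableSpace S2] {T1 : Tower S1} {T2 : Tower S2}
  {p1 : S → S1} {p2 : S → S2}

theorem Indep.t4_ub (h : T.Indep T1 T2 p1 p2) {H1 : S1 → ℝ} {H2 : S2 → ℝ} (h1 : T1.UB H1)
    (h2 : T2.UB H2) : T.UB (fun y => H1 (p1 y) + H2 (p2 y)) := (h.m1.ub h1).add (h.m2.ub h2)

theorem Indep.t4_meas (h : T.Indep T1 T2 p1 p2) (a : ℕ) (x : S) :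
    Measurable fun y => (p1 (T.mix a x y), p2 (T.mix a x y)) :=
  (h.m1.meas.comp (T.measurable_mix a x)).prodMk (h.m2.meas.comp (T.measurable_mix a x))

theorem Indep.t4_int (h : T.Indep T1 T2 p1 p2) {a : ℕ} (ha : a < T.L) (x : S) {G1 : S1 → ℝ}
    {G2 : S2 → ℝ} (h1 : Measurable G1) (h2 : Measurable G2) :
    ∫ y, G1 (p1 (T.mix a x y)) * G2 (p2 (T.mix a x y)) ∂T.μ =
      (∫ y, G1 (T1.mix a (p1 x) y) ∂T1.μ) * ∫ y, G2 (T2.mix a (p2 x) y) ∂T2.μ := by
  rw [← integral_map (T1.measurable_mix a _).aemeasurable h1.aestronglyMeasurable,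
    ← integral_map (T2.measurable_mix a _).aemeasurable h2.aestronglyMeasurable,
    ← integral_prod_mul, ← h.map a ha]
  exact (integral_map (h.t4_meas a x).aemeasurable
    ((h1.comp measurable_fst).mul (h2.comp measurable_snd)).aestronglyMeasurable).symm

theorem Indep.t4_lint (h : T.Indep T1 T2 p1 p2) {a : ℕ} (ha : a < T.L) (x : S) {G1 : S1 → ℝ≥0∞}
    {G2 : S2 → ℝ≥0∞} (h1 : Measurable G1) (h2 : Measurable G2) :
    ∫⁻ y, G1 (p1 (T.mix a x y)) * G2 (p2 (T.mix a x y)) ∂T.μ =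
      (∫⁻ y, G1 (T1.mix a (p1 x) y) ∂T1.μ) * ∫⁻ y, G2 (T2.mix a (p2 x) y) ∂T2.μ := by
  rw [← lintegral_map h1 (T1.measurable_mix a _), ← lintegral_map h2 (T2.measurable_mix a _),
    ← lintegral_prod_mul h1.aemeasurable h2.aemeasurable, ← h.map a ha]
  exact (lintegral_map ((h1.comp measurable_fst).mul (h2.comp measurable_snd)) (h.t4_meas a x)).symm

theorem Indep.X (h : T.Indep T1 T2 p1 p2) {H1 : S1 → ℝ} {H2 : S2 → ℝ} (h1 : T1.UB H1)
    (h2 : T2.UB H2) (a : ℕ) (x : S) :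
    T.X (fun y => H1 (p1 y) + H2 (p2 y)) a x = T1.X H1 a (p1 x) + T2.X H2 a (p2 x) := by
  induction a using T.down_ind generalizing x with
  | h0 a hL => rw [T.X_of_ge _ hL, T1.X_of_ge _ (h.m1.L_eq ▸ hL), T2.X_of_ge _ (h.m2.L_eq ▸ hL)]
  | h1 a hL ih =>
    have e1 := exp_X_step h1 (h.m1.L_eq ▸ hL) (p1 x)
    have e2 := exp_X_step h2 (h.m2.L_eq ▸ hL) (p2 x)
    rw [← h.m1.e_eq] at e1
    rw [← h.m2.e_eq] at e2
    rw [T.X_step _ hL, step]
    simp only [ih, mul_add, exp_add]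
    rw [h.t4_int hL x (G1 := fun w => exp (T.e a * T1.X H1 (a + 1) w))
      (G2 := fun w => exp (T.e a * T2.X H2 (a + 1) w)) ((T1.measurable_X h1.1 _).const_mul _).exp
      ((T2.measurable_X h2.1 _).const_mul _).exp, ← e1, ← e2, ← exp_add, log_exp, ← mul_add,
      inv_mul_cancel_left₀ (T.e_pos' a).ne']

theorem Indep.A (h : T.Indep T1 T2 p1 p2) {H1 : S1 → ℝ} {H2 : S2 → ℝ} (h1 : T1.UB H1)
    (h2 : T2.UB H2) : T.A (fun y => H1 (p1 y) + H2 (p2 y)) = T1.A H1 + T2.A H2 := by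
  rw [Tower.A, h.X h1 h2, X_zero, X_zero]

/-- the first marginal of the Gibbs kernel of a sum of independent Hamiltonians -/
theorem Indep.K (h : T.Indep T1 T2 p1 p2) {H1 : S1 → ℝ} {H2 : S2 → ℝ} (h1 : T1.UB H1)
    (h2 : T2.UB H2) (a : ℕ) (x : S) :
    (T.K (fun y => H1 (p1 y) + H2 (p2 y)) a x).map p1 = T1.K H1 a (p1 x) := by
  induction a using T.down_ind generalizing x with
  | h0 a hL =>
    rw [T.K_of_ge _ hL, T1.K_of_ge _ (h.m1.L_eq ▸ hL), Kernel.id_apply, Kernel.id_apply,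
      Measure.map_dirac' h.m1.meas]
  | h1 a hL ih =>
    have hL1 : a < T1.L := h.m1.L_eq ▸ hL
    have hL2 : a < T2.L := h.m2.L_eq ▸ hL
    have m2 : Measurable (T2.dens H2 a (p2 x)) := (h2.good hL2).1.of_uncurry_left
    have e2 := (h2.good hL2).2 (p2 x)
    rw [κ_apply, lintegral_map m2 (T2.measurable_mix a _)] at e2
    refine Measure.ext_of_lintegral _ fun f hf => ?_
    rw [lintegral_map hf h.m1.meas, lintegral_K_step (h.t4_ub h1 h2) hL (hf.fun_comp h.m1.meas),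
      lintegral_K_step h1 hL1 hf, ← mul_one (∫⁻ y, _ ∂T1.μ), ← e2, ← h.t4_lint hL x
        (G1 := fun w => (∫⁻ z, f z ∂(T1.K H1 (a + 1) w)) * T1.dens H1 a (p1 x) w)
        (hf.lintegral_kernel.mul (h1.good hL1).1.of_uncurry_left) m2]
    refine lintegral_congr fun y => ?_
    rw [← ih, lintegral_map hf h.m1.meas, dens, dens, dens, h.X h1 h2, h.X h1 h2, ← h.m1.e_eq,
      ← h.m2.e_eq, mul_assoc, ← ENNReal.ofReal_mul (exp_pos _).le, ← exp_add]
    congr 3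
    ring

theorem Indep.PP (h : T.Indep T1 T2 p1 p2) {H1 : S1 → ℝ} {H2 : S2 → ℝ} (h1 : T1.UB H1)
    (h2 : T2.UB H2) : (T.PP (fun y => H1 (p1 y) + H2 (p2 y))).map p1 = T1.PP H1 := by
  rw [Tower.PP, h.K h1 h2, K_zero h1]

theorem Indep.integral (h : T.Indep T1 T2 p1 p2) {H1 φ : S1 → ℝ} {H2 : S2 → ℝ} (h1 : T1.UB H1)
    (h2 : T2.UB H2) (hφ : Measurable φ) :
    ∫ y, φ (p1 y) ∂(T.PP (fun y => H1 (p1 y) + H2 (p2 y))) = ∫ y, φ y ∂(T1.PP H1) := by
  rw [← h.PP h1 h2, integral_map h.m1.meas.aemeasurable hφ.aestronglyMeasurable]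

theorem Indep.Err2 (h : T.Indep T1 T2 p1 p2) {ι : Type} {H1 : S1 → ℝ} {H2 : S2 → ℝ}
    (h1 : T1.UB H1) (h2 : T2.UB H2) {s : ι → S1 → ℝ} (J : Finset ι)
    (hs : ∀ i ∈ J, Measurable (s i)) (r : ℕ) (c : ℝ) :
    T.Err2 (fun y => H1 (p1 y) + H2 (p2 y)) (fun i y => s i (p1 y)) J r c =
      T1.Err2 H1 s J r c := by
  have m0 : Measurable fun q : (S1 × S1) × S1 => |∑ i ∈ J, s i q.1.2 * s i q.2 - c| :=
    ((Finset.measurable_sum J fun i hi => ((hs i hi).comp measurable_fst.snd).mul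
      ((hs i hi).comp measurable_snd)).sub_const c).abs
  have m1 : StronglyMeasurable fun q : S1 × S1 =>
      ∫ y', |∑ i ∈ J, s i q.2 * s i y' - c| ∂(T1.K H1 r q.1) :=
    m0.stronglyMeasurable.integral_kernel_prod_right'
      (κ := (T1.K H1 r).comap Prod.fst measurable_fst)
  rw [Tower.Err2, Tower.Err2, ← h.integral h1 h2 m1.integral_kernel_prod_right'.measurable]
  refine integral_congr_ae (.of_forall fun x => ?_)
  dsimp only
  rw [← h.K h1 h2, integral_map h.m1.meas.aemeasurable, h.K h1 h2]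
  · refine integral_congr_ae (.of_forall fun y => ?_)
    dsimp only
    rw [← h.K h1 h2, integral_map h.m1.meas.aemeasurable]
    exact (m0.comp (measurable_prodMk_left (x := (p1 x, p1 y)))).aestronglyMeasurable
  · rw [h.K h1 h2]
    exact (m1.measurable.comp (measurable_prodMk_left (x := p1 x))).aestronglyMeasurable

end Prod

end Tower

end Crest.Agent.R164
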