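import Crest.Agent.R164.GDefs
import Crest.Agent.R164.T4

/-! # Gaussian towers: level formulas, linear images of Gaussians, morphisms -/

set_option autoImplicit false
set_option linter.unusedVariables false
set_option linter.unusedSectionVars false

open MeasureTheory ProbabilityTheory Real
open scoped ENNReal

namespace Crest.Agent.R164

namespace Expo
variable (X : Expo)
theorem m_pos : 0 < X.m := X.pos
theorem m_le (a : ℕ) : X.m ≤ X.e a := X.mono (Nat.zero_le a)
theorem e_pos (a : ℕ) : 0 < X.e a := lt_of_lt_of_le X.pos (X.m_le a)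
theorem e_of_ge {a : ℕ} (h : X.n ≤ a) : X.e a = 1 := le_antisymm (X.le_one a) (X.en ▸ X.mono h)
theorem W_nonneg (r : ℕ) : 0 ≤ X.W r := sub_nonneg.2 (X.mono (Nat.sub_le r 1))
theorem W_one : X.W 1 = 0 := by simp [W, X.e01]
theorem W_of_gt {r : ℕ} (h : X.n < r) : X.W r = 0 := by
  unfold W; rw [X.e_of_ge h.le, X.e_of_ge (by omega)]; simp
theorem sum_W {l : ℕ} (h : l ≤ X.n) : ∑ r ∈ Finset.Icc (l + 1) X.n, X.W r = 1 - X.e l := by
  have key : ∀ k, l ≤ k → ∑ r ∈ Finset.Icc (l + 1) k, X.W r = X.e k - X.e l := by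
    intro k hk
    induction k, hk using Nat.le_induction with
    | base => simp
    | succ k hk ih =>
      rw [Finset.sum_Icc_succ_top (by omega), ih]
      simp [W]
  rw [key _ h, X.en]
/-- sums over the levels of the tower only see the levels `≤ n` -/
theorem sum_Ioo (l : ℕ) (z : ℕ → ℝ) :
    ∑ r ∈ Finset.Ioo l (X.n + 2), X.W r * z r = X.tau z l := by
  unfold tau
  symm
  refine Finset.sum_subset (fun r hr => ?_) (fun r hr hn => ?_)
  · simp only [Finset.mem_Icc, Finset.mem_Ioo] at hr ⊢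
    omega
  · simp only [Finset.mem_Icc, Finset.mem_Ioo] at hr hn
    rw [X.W_of_gt (by omega), zero_mul]
theorem tau_zero (z : ℕ → ℝ) : X.tau z 0 = X.tau z 1 := by
  unfold tau
  symm
  refine Finset.sum_subset (fun r hr => ?_) (fun r hr hn => ?_)
  · simp only [Finset.mem_Icc] at hr ⊢
    omega
  · simp only [Finset.mem_Icc] at hr hn
    have : r = 1 := by omega
    rw [this, X.W_one, zero_mul]
theorem D_eq (Q : ℕ → ℝ) {l : ℕ} (h : l ≤ X.n) :
    X.D Q l = Q (X.n + 1) - X.tau Q l - X.e l * Q l := by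
  have key : ∀ k, l ≤ k → ∑ c ∈ Finset.Icc l k, X.e c * (Q (c + 1) - Q c) =
      X.e k * Q (k + 1) - ∑ r ∈ Finset.Icc (l + 1) k, X.W r * Q r - X.e l * Q l := by
    intro k hk
    induction k, hk using Nat.le_induction with
    | base => simp; ring
    | succ k hk ih =>
      rw [Finset.sum_Icc_succ_top (by omega), ih, Finset.sum_Icc_succ_top (by omega)]
      simp only [W, Nat.add_sub_cancel]
      ring
  unfold D tau
  rw [key _ h, X.en, one_mul]
theorem D_top (Q : ℕ → ℝ) : X.D Q (X.n + 1) = 0 := by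
  simp [D]
theorem D_step (Q : ℕ → ℝ) {l : ℕ} (h : l ≤ X.n) :
    X.D Q l = X.e l * (Q (l + 1) - Q l) + X.D Q (l + 1) := by
  unfold D
  rw [Finset.Icc_add_one_left_eq_Ioc, ← Finset.sum_Ioc_add_eq_sum_Icc h, add_comm]
theorem Gam_D (Q : ℕ → ℝ) : X.Gam (X.D Q) = Q (X.n + 1) - Q 1 := by
  unfold Gam
  have key : ∀ k, ∑ l ∈ Finset.Icc 1 k, (Q (l + 1) - Q l) = Q (k + 1) - Q 1 := by
    intro k
    induction k with
    | zero => simp
    | succ k ih => rw [Finset.sum_Icc_succ_top (by omega), ih]; ring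
  rw [← key]
  refine Finset.sum_congr rfl fun l hl => ?_
  rw [X.D_step Q (Finset.mem_Icc.1 hl).2]
  have := (X.e_pos l).ne'
  field_simp
  ring
/-- summation by parts -/
theorem Gam_eq (z : ℕ → ℝ) : X.Gam z = z 1 / X.e 1 - z (X.n + 1) -
    ∑ l ∈ Finset.Icc 2 X.n, X.W l * z l / (X.e l * X.e (l - 1)) := by
  have key : ∀ k, 1 ≤ k → ∑ l ∈ Finset.Icc 1 k, (z l - z (l + 1)) / X.e l =
      z 1 / X.e 1 - z (k + 1) / X.e k -
        ∑ l ∈ Finset.Icc 2 k, X.W l * z l / (X.e l * X.e (l - 1)) := by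
    intro k hk
    induction k, hk using Nat.le_induction with
    | base => simp; ring
    | succ k hk ih =>
      rw [Finset.sum_Icc_succ_top (by omega), ih, Finset.sum_Icc_succ_top (by omega)]
      simp only [W, Nat.add_sub_cancel]
      have := (X.e_pos k).ne'
      have := (X.e_pos (k + 1)).ne'
      field_simp
      ring
  unfold Gam
  rw [key _ X.n_pos, X.en, div_one]
theorem abs_Gam_sub_le (z z' : ℕ → ℝ) (h : z (X.n + 1) = z' (X.n + 1)) :
    |X.Gam z - X.Gam z'| ≤ X.wn (fun l => |z l - z' l|) / X.m ^ 2 := by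
  have hm := X.m_pos
  have hm1 : X.m ≤ 1 := X.le_one 0
  have e : X.Gam z - X.Gam z' = (z 1 - z' 1) / X.e 1 -
      ∑ l ∈ Finset.Icc 2 X.n, X.W l * (z l - z' l) / (X.e l * X.e (l - 1)) := by
    rw [X.Gam_eq, X.Gam_eq, h]
    have : ∑ l ∈ Finset.Icc 2 X.n, X.W l * (z l - z' l) / (X.e l * X.e (l - 1)) =
        ∑ l ∈ Finset.Icc 2 X.n, X.W l * z l / (X.e l * X.e (l - 1)) -
          ∑ l ∈ Finset.Icc 2 X.n, X.W l * z' l / (X.e l * X.e (l - 1)) := by
      rw [← Finset.sum_sub_distrib]
      exact Finset.sum_congr rfl fun l _ => by ring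
    rw [this]
    ring
  rw [e, wn, add_div, Finset.sum_div]
  refine (abs_sub _ _).trans (add_le_add ?_ ((Finset.abs_sum_le_sum_abs _ _).trans
    (Finset.sum_le_sum fun l _ => ?_)))
  · rw [abs_div, abs_of_pos (X.e_pos 1)]
    refine div_le_div_of_nonneg_left (abs_nonneg _) (by positivity) ?_
    have := X.m_le 1
    nlinarith
  · rw [abs_div, abs_mul, abs_of_nonneg (X.W_nonneg l),
      abs_of_pos (mul_pos (X.e_pos _) (X.e_pos _))]
    refine div_le_div_of_nonneg_left (mul_nonneg (X.W_nonneg l) (abs_nonneg _)) (by positivity) ?_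
    rw [sq]
    exact mul_le_mul (X.m_le _) (X.m_le _) hm.le (X.e_pos _).le
theorem wn_mono {z z' : ℕ → ℝ} (h : ∀ l, 1 ≤ l → l ≤ X.n → z l ≤ z' l) : X.wn z ≤ X.wn z' := by
  unfold wn
  refine add_le_add (h 1 le_rfl X.n_pos) (Finset.sum_le_sum fun l hl => ?_)
  rw [Finset.mem_Icc] at hl
  exact mul_le_mul_of_nonneg_left (h l (by omega) hl.2) (X.W_nonneg l)
theorem wn_add (z z' : ℕ → ℝ) : X.wn (fun l => z l + z' l) = X.wn z + X.wn z' := by
  simp only [wn, mul_add, Finset.sum_add_distrib]
  ring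
theorem wn_const_mul (c : ℝ) (z : ℕ → ℝ) : X.wn (fun l => c * z l) = c * X.wn z := by
  simp only [wn, mul_add, Finset.mul_sum]
  congr 1
  exact Finset.sum_congr rfl fun l _ => by ring
theorem wn_const_le {c : ℝ} (hc : 0 ≤ c) : X.wn (fun _ => c) ≤ 2 * c := by
  unfold wn
  rw [← Finset.sum_mul, show (2 : ℕ) = 1 + 1 from rfl, X.sum_W X.n_pos]
  have := X.e_pos 1
  nlinarith
end Expo

theorem unif_eq (A : Type) [MeasurableSpace A] [Fintype A] :
    unif A = (Fintype.card A : ℝ≥0∞)⁻¹ • Measure.count := by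
  ext s hs
  rw [unif, uniformOn_univ, Measure.smul_apply, smul_eq_mul, ENNReal.div_eq_inv_mul]

theorem unif_singleton {A : Type} [MeasurableSpace A] [Fintype A] [MeasurableSingletonClass A]
    (a : A) : unif A {a} = (Fintype.card A : ℝ≥0∞)⁻¹ := by
  rw [unif_eq]
  simp

theorem integral_unif {A : Type} [MeasurableSpace A] [Fintype A] [Nonempty A]
    [MeasurableSingletonClass A] (f : A → ℝ) :
    ∫ a, f a ∂(unif A) = (Fintype.card A : ℝ)⁻¹ * ∑ a, f a := by
  rw [unif_eq, integral_smul_measure, integral_count]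
  simp

theorem unif_map_equiv {A B : Type} [MeasurableSpace A] [Fintype A] [Nonempty A]
    [MeasurableSingletonClass A] [MeasurableSpace B] [Fintype B] [Nonempty B]
    [MeasurableSingletonClass B] (e : A ≃ B) : (unif A).map e = unif B := by
  refine Measure.ext_of_singleton fun b => ?_
  rw [Measure.map_apply (measurable_of_finite _) (measurableSet_singleton b)]
  have : e ⁻¹' {b} = {e.symm b} := by
    ext a
    simp [Equiv.eq_symm_apply]
  rw [this, unif_singleton, unif_singleton, Fintype.card_congr e]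

theorem unif_prod (A B : Type) [MeasurableSpace A] [Fintype A] [Nonempty A]
    [MeasurableSingletonClass A] [MeasurableSpace B] [Fintype B] [Nonempty B]
    [MeasurableSingletonClass B] : unif (A × B) = (unif A).prod (unif B) := by
  refine Measure.ext_of_singleton fun p => ?_
  obtain ⟨a, b⟩ := p
  rw [unif_singleton, ← Set.singleton_prod_singleton, Measure.prod_prod, unif_singleton,
    unif_singleton, Fintype.card_prod, Nat.cast_mul, ENNReal.mul_inv (Or.inr (by simp))
      (Or.inl (by simp))]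

theorem gpi_char {I : Type} [Fintype I] (w : I → ℝ) :
    ∫ g : I → ℝ, Complex.exp (((∑ i, w i * g i : ℝ) : ℂ) * Complex.I) ∂(gpi I) =
      Complex.exp (-(((∑ i, w i ^ 2 : ℝ) : ℂ) / 2)) := by
  have h1 : ∀ g : I → ℝ, Complex.exp (((∑ i, w i * g i : ℝ) : ℂ) * Complex.I) =
      ∏ i, Complex.exp ((w i : ℂ) * (g i : ℂ) * Complex.I) := by
    intro g
    rw [← Complex.exp_sum]
    push_cast
    rw [Finset.sum_mul]
  simp_rw [h1]
  unfold gpi
  rw [integral_fintype_prod_eq_prod (fun i (x : ℝ) => Complex.exp ((w i : ℂ) * (x : ℂ) * Complex.I))]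
  simp_rw [← charFun_apply_real, charFun_gaussianReal]
  rw [← Complex.exp_sum]
  congr 1
  push_cast
  rw [Finset.sum_div, ← Finset.sum_neg_distrib]
  exact Finset.sum_congr rfl fun i _ => by simp

/-- Orthogonal linear statistics of a standard Gaussian vector are independent Gaussians
(characteristic functions, `Measure.ext_of_charFun` / `charFun_pi`, or Mathlib's
`HasGaussianLaw` API). -/
theorem gauss_lin {I J : Type} [Fintype I] [Fintype J] [DecidableEq J] (c : J → I → ℝ) (v : J → ℝ)
    (hc : ∀ a b, ∑ i, c a i * c b i = if a = b then v a else 0) :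
    (gpi I).map (fun g a => ∑ i, c a i * g i) = (gpi J).map (fun z a => √(v a) * z a) := by
  have hm1 : Measurable (fun (g : I → ℝ) a => ∑ i, c a i * g i) := by fun_prop
  have hm2 : Measurable (fun (z : J → ℝ) a => √(v a) * z a) := by fun_prop
  refine Measure.ext_of_charFunDual (funext fun L => ?_)
  obtain ⟨t, ht⟩ : ∃ t : J → ℝ, ∀ y, L y = ∑ a, y a * t a :=
    ⟨_, fun y => (L : (J → ℝ) →ₗ[ℝ] ℝ).pi_apply_eq_sum_univ y⟩
  have hF : Measurable (fun y : J → ℝ => Complex.exp (L y * Complex.I)) := by fun_prop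
  rw [charFunDual_apply, charFunDual_apply, integral_map hm1.aemeasurable hF.aestronglyMeasurable,
    integral_map hm2.aemeasurable hF.aestronglyMeasurable]
  have e1 : ∀ g : I → ℝ, L (fun a => ∑ i, c a i * g i) = ∑ i, (∑ a, t a * c a i) * g i := by
    intro g
    rw [ht]
    simp_rw [Finset.sum_mul]
    rw [Finset.sum_comm]
    exact Finset.sum_congr rfl fun i _ => Finset.sum_congr rfl fun a _ => by ring
  have e2 : ∀ z : J → ℝ, L (fun a => √(v a) * z a) = ∑ a, (t a * √(v a)) * z a := by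
    intro z
    rw [ht]
    exact Finset.sum_congr rfl fun a _ => by ring
  simp_rw [e1, e2]
  rw [gpi_char, gpi_char]
  congr 4
  have hv : ∀ a, 0 ≤ v a := by
    intro a
    have := hc a a
    rw [if_pos rfl] at this
    rw [← this]
    exact Finset.sum_nonneg fun i _ => mul_self_nonneg _
  calc ∑ i, (∑ a, t a * c a i) ^ 2 = ∑ i, ∑ a, ∑ b, t a * t b * (c a i * c b i) := by
        refine Finset.sum_congr rfl fun i _ => ?_
        rw [sq, Finset.sum_mul_sum]
        exact Finset.sum_congr rfl fun a _ => Finset.sum_congr rfl fun b _ => by ring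
    _ = ∑ a, ∑ b, t a * t b * ∑ i, c a i * c b i := by
        rw [Finset.sum_comm]
        refine Finset.sum_congr rfl fun a _ => ?_
        rw [Finset.sum_comm]
        exact Finset.sum_congr rfl fun b _ => by rw [Finset.mul_sum]
    _ = _ := by
        refine Finset.sum_congr rfl fun a _ => ?_
        simp_rw [hc, mul_ite, mul_zero]
        rw [Finset.sum_ite_eq, if_pos (Finset.mem_univ _), mul_pow, Real.sq_sqrt (hv a)]
        ring

theorem gpi_map_inj {I J : Type} [Fintype I] [Fintype J] (ι : J → I) (h : Function.Injective ι) :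
    (gpi I).map (fun g a => g (ι a)) = gpi J := by
  classical
  have h1 := gauss_lin (I := I) (J := J) (fun a i => if i = ι a then (1 : ℝ) else 0) (fun _ => 1)
    (by
      intro a b
      simp only [ite_mul, one_mul, zero_mul, Finset.sum_ite_eq', Finset.mem_univ, if_true,
        h.eq_iff])
  simp only [ite_mul, one_mul, zero_mul, Finset.sum_ite_eq', Finset.mem_univ, if_true,
    Real.sqrt_one] at h1
  rw [h1]
  exact Measure.map_id

variable {Ω I A : Type} [MeasurableSpace Ω] [Fintype I] [MeasurableSpace A] [Fintype A]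
  [Nonempty A] [MeasurableSingletonClass A] [Nonempty Ω] {X : Expo} {P : Measure Ω}
  [IsProbabilityMeasure P] {lev : I → Fin (X.n + 1)}

@[simp] theorem gT_L : (gT X P lev A).L = X.n + 2 := rfl
@[simp] theorem gT_e : (gT X P lev A).e = X.e := rfl
@[simp] theorem gT_W (r : ℕ) : (gT X P lev A).W r = X.W r := rfl
@[simp] theorem gT_ν (x : Ω × (I → ℝ) × A) : (gT X P lev A).ν x = ‖x.2.1‖ := rfl

theorem lg_coord (i : I) : (gT X P lev A).LG (fun x => x.2.1 i) := by
  refine ⟨by fun_prop, 1, fun x => ?_⟩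
  have := norm_le_pi_norm x.2.1 i
  rw [Real.norm_eq_abs] at this
  rw [gT_ν]
  linarith
theorem dep_coord (i : I) {r : ℕ} (h : (lev i).val < r) :
    (gT X P lev A).Dep r (fun x => x.2.1 i) := by
  intro x y hxy
  exact hxy.2.1 i h
theorem dep_fst (φ : Ω → ℝ) {r : ℕ} (h : 1 ≤ r) : (gT X P lev A).Dep r (fun x => φ x.1) := by
  intro x y hxy
  have : x.1 = y.1 := hxy.1 h
  simp only [this]

theorem measurable_mixg {n : ℕ} {lev : I → Fin (n + 1)} (a : ℕ) (g : I → ℝ) :
    Measurable (mixg lev a g) := by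
  unfold mixg
  refine measurable_pi_lambda _ fun i => ?_
  split_ifs <;> fun_prop

theorem gT_mix (a : ℕ) (x y : Ω × (I → ℝ) × A) : (gT X P lev A).mix a x y =
    (if a = 0 then y.1 else x.1, mixg lev a x.2.1 y.2.1, if a = X.n + 1 then y.2.2 else x.2.2) := rfl

theorem gT_μ : (gT X P lev A).μ = P.prod ((gpi I).prod (unif A)) := rfl

theorem integral_mix_zero {f : Ω × (I → ℝ) × A → ℝ} (hf : Measurable f) (x : Ω × (I → ℝ) × A) :
    ∫ y, f ((gT X P lev A).mix 0 x y) ∂(gT X P lev A).μ =
      ∫ p : Ω × (I → ℝ), f (p.1, mixg lev 0 x.2.1 p.2, x.2.2) ∂(P.prod (gpi I)) := by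
  have hm : MeasurePreserving (Prod.map (id : Ω → Ω) (Prod.fst : (I → ℝ) × A → I → ℝ))
      (P.prod ((gpi I).prod (unif A))) (P.prod (gpi I)) :=
    (MeasurePreserving.id P).prod (measurePreserving_fst (μ := gpi I) (ν := unif A))
  have hF : Measurable (fun p : Ω × (I → ℝ) => f (p.1, mixg lev 0 x.2.1 p.2, x.2.2)) :=
    hf.comp (measurable_fst.prodMk (((measurable_mixg 0 x.2.1).comp measurable_snd).prodMk
      measurable_const))
  rw [← hm.map_eq, integral_map hm.measurable.aemeasurable hF.aestronglyMeasurable]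
  rfl

theorem integral_mix_mid {f : Ω × (I → ℝ) × A → ℝ} (hf : Measurable f) {a : ℕ} (h1 : 1 ≤ a)
    (h2 : a ≤ X.n) (x : Ω × (I → ℝ) × A) :
    ∫ y, f ((gT X P lev A).mix a x y) ∂(gT X P lev A).μ =
      ∫ g, f (x.1, mixg lev a x.2.1 g, x.2.2) ∂(gpi I) := by
  have hm : MeasurePreserving (fun x : Ω × (I → ℝ) × A => x.2.1)
      (P.prod ((gpi I).prod (unif A))) (gpi I) :=
    (measurePreserving_fst (μ := gpi I) (ν := unif A)).comp
      (measurePreserving_snd (μ := P) (ν := (gpi I).prod (unif A)))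
  have hF : Measurable (fun g : I → ℝ => f (x.1, mixg lev a x.2.1 g, x.2.2)) :=
    hf.comp (measurable_const.prodMk ((measurable_mixg a x.2.1).prodMk measurable_const))
  rw [← hm.map_eq, integral_map hm.measurable.aemeasurable hF.aestronglyMeasurable]
  simp only [gT_mix, gT_μ, if_neg (show a ≠ 0 by omega), if_neg (show a ≠ X.n + 1 by omega)]

theorem integral_mix_last {f : Ω × (I → ℝ) × A → ℝ} (hf : Measurable f) (x : Ω × (I → ℝ) × A) :
    ∫ y, f ((gT X P lev A).mix (X.n + 1) x y) ∂(gT X P lev A).μ =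
      (Fintype.card A : ℝ)⁻¹ * ∑ σ : A, f (x.1, x.2.1, σ) := by
  have hm : MeasurePreserving (fun x : Ω × (I → ℝ) × A => x.2.2)
      (P.prod ((gpi I).prod (unif A))) (unif A) :=
    (measurePreserving_snd (μ := gpi I) (ν := unif A)).comp
      (measurePreserving_snd (μ := P) (ν := (gpi I).prod (unif A)))
  have hF : Measurable (fun σ : A => f (x.1, x.2.1, σ)) := measurable_of_finite _
  have hg : ∀ g, mixg lev (X.n + 1) x.2.1 g = x.2.1 := by
    intro g
    funext i
    have := (lev i).2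
    simp only [mixg]
    rw [if_neg (by omega)]
  rw [← integral_unif, ← hm.map_eq, integral_map hm.measurable.aemeasurable hF.aestronglyMeasurable]
  simp only [gT_mix, gT_μ, if_neg (show X.n + 1 ≠ 0 by omega), if_true, hg]

theorem X_last {H : Ω × (I → ℝ) × A → ℝ} (hH : Measurable H) (x : Ω × (I → ℝ) × A) :
    (gT X P lev A).X H (X.n + 1) x =
      log ((Fintype.card A : ℝ)⁻¹ * ∑ σ : A, exp (H (x.1, x.2.1, σ))) := by
  rw [Tower.X_step _ H (by simp), Tower.X_of_ge _ H (by simp), Tower.step, gT_e,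
    X.e_of_ge (Nat.le_succ _)]
  simp only [inv_one, one_mul]
  rw [integral_mix_last (f := fun y => exp (H y)) hH.exp]

/-- when there is no Gaussian coordinate at level `0` -/
theorem A_eq_of_lev_pos {H : Ω × (I → ℝ) × A → ℝ} (hH : Measurable H)
    (h0 : ∀ i, (lev i).val ≠ 0) (σ : A) : (gT X P lev A).A H =
      X.m⁻¹ * log (∫ ω, exp (X.m * (gT X P lev A).X H 1 (ω, 0, σ)) ∂P) := by
  rw [Tower.A, Tower.X_step _ H (by simp), Tower.step, gT_e, zero_add,
    integral_mix_zero (f := fun y => exp (X.e 0 * (gT X P lev A).X H 1 y))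
      ((Tower.measurable_X _ hH 1).const_mul _).exp]
  have e : ∀ p : Ω × (I → ℝ), (gT X P lev A).X H 1
      (p.1, mixg lev 0 (gT X P lev A).x0.2.1 p.2, (gT X P lev A).x0.2.2) =
      (gT X P lev A).X H 1 (p.1, 0, σ) := by
    intro p
    refine Tower.dep_X (T := gT X P lev A) H 1 _ _ ⟨fun _ => rfl, fun i hi => ?_, fun h => absurd h (by omega)⟩
    exact absurd (by omega) (h0 i)
  simp_rw [e]
  rw [integral_fun_fst (fun ω => exp (X.e 0 * (gT X P lev A).X H 1 (ω, 0, σ)))]
  simp [Expo.m]

theorem A_eq_of_lev_pos_aux {H : Ω × (I → ℝ) × A → ℝ} (hH : Measurable H) :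
    (gT X P lev A).A H = X.m⁻¹ * log (∫ p : Ω × (I → ℝ), exp (X.m * (gT X P lev A).X H 1
      (p.1, mixg lev 0 (gT X P lev A).x0.2.1 p.2, (gT X P lev A).x0.2.2)) ∂(P.prod (gpi I))) := by
  rw [Tower.A, Tower.X_step _ H (by simp), Tower.step, gT_e, zero_add,
    integral_mix_zero (f := fun y => exp (X.e 0 * (gT X P lev A).X H 1 y))
      ((Tower.measurable_X _ hH 1).const_mul _).exp]
  rfl

/-- a Hamiltonian without Gaussian fields -/
theorem A_plain {F : Ω → A → ℝ} (hF : ∀ σ, Measurable (fun ω => F ω σ)) :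
    (gT X P lev A).A (fun x => F x.1 x.2.2) =
      X.m⁻¹ * log (∫ ω, exp (X.m * log ((Fintype.card A : ℝ)⁻¹ * ∑ σ : A, exp (F ω σ))) ∂P) := by
  have hH : Measurable (fun x : Ω × (I → ℝ) × A => F x.1 x.2.2) :=
    (measurable_from_prod_countable_left (f := fun p : Ω × A => F p.1 p.2) hF).comp
      (measurable_fst.prodMk (measurable_snd.comp measurable_snd))
  set G : Ω → ℝ := fun ω => log ((Fintype.card A : ℝ)⁻¹ * ∑ σ : A, exp (F ω σ)) with hG
  have key : ∀ k a, a + k = X.n + 1 → 1 ≤ a → ∀ x,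
      (gT X P lev A).X (fun x => F x.1 x.2.2) a x = G x.1 := by
    intro k
    induction k with
    | zero =>
      intro a ha _ x
      rw [show a = X.n + 1 by omega, X_last hH]
    | succ k ih =>
      intro a ha h1 x
      rw [Tower.X_step _ _ (by simp; omega), Tower.step]
      simp_rw [ih (a + 1) (by omega) (by omega)]
      simp only [gT_mix, if_neg (show a ≠ 0 by omega), integral_const, probReal_univ, smul_eq_mul,
        one_mul, log_exp, gT_e]
      have := (X.e_pos a).ne'
      field_simp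
  rw [A_eq_of_lev_pos_aux hH]
  simp_rw [key X.n 1 (by omega) le_rfl]
  rw [integral_fun_fst (fun ω => exp (X.m * G ω))]
  simp [hG]

section Mor

variable {Ω' I' A' : Type} [MeasurableSpace Ω'] [Fintype I'] [MeasurableSpace A'] [Fintype A']
  [Nonempty A'] [MeasurableSingletonClass A'] [Nonempty Ω'] {P' : Measure Ω'}
  [IsProbabilityMeasure P'] {lev' : I' → Fin (X.n + 1)}

theorem map_three {α β γ α' β' γ' : Type} [MeasurableSpace α] [MeasurableSpace β]
    [MeasurableSpace γ] [MeasurableSpace α'] [MeasurableSpace β'] [MeasurableSpace γ']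
    (μ : Measure α) (ν : Measure β) (ρ : Measure γ) [SFinite μ] [SFinite ν] [SFinite ρ]
    {f : α → α'} {g : β → β'} {h : γ → γ'} (hf : Measurable f) (hg : Measurable g)
    (hh : Measurable h) :
    (μ.prod (ν.prod ρ)).map (fun y => (f y.1, g y.2.1, h y.2.2)) =
      (μ.map f).prod ((ν.map g).prod (ρ.map h)) := by
  rw [Measure.map_prod_map ν ρ hg hh, Measure.map_prod_map μ _ hf (hg.prodMap hh)]
  rfl

theorem map_ite {α β : Type} [MeasurableSpace α] [MeasurableSpace β] {μ : Measure α}
    {ν : Measure β} [IsProbabilityMeasure μ] [IsProbabilityMeasure ν] {f : α → β} (c : Prop)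
    [Decidable c] (h : c → μ.map f = ν) (x : α) :
    μ.map (fun y => f (if c then y else x)) = ν.map (fun y => if c then y else f x) := by
  by_cases hc : c
  · simp only [if_pos hc]
    rw [Measure.map_id', ← h hc]
  · simp only [if_neg hc, Measure.map_const, measure_univ]

theorem mor_gen {f : Ω → Ω'} (hf : Measurable f) {a0 : ℕ} (hP : a0 = 0 → P.map f = P')
    {Φ : (I → ℝ) → I' → ℝ} (hΦ : Measurable Φ) (hg : ∃ C : ℝ, ∀ g, ‖Φ g‖ ≤ C * (1 + ‖g‖))
    (hmap : (gpi I).map Φ = gpi I')
    (hmix : ∀ a g0 g, Φ (mixg lev a g0 g) = mixg lev' a (Φ g0) (Φ g)) {ς : A → A'}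
    (hς : (unif A).map ς = unif A') :
    (gT X P lev A).Mor (gT X P' lev' A') (fun x => (f x.1, Φ x.2.1, ς x.2.2)) a0 := by
  have hs : Measurable ς := measurable_of_finite _
  refine ⟨rfl, rfl, by fun_prop, ?_, fun a ha _ x => ?_⟩
  · obtain ⟨C, hC⟩ := hg
    exact ⟨C, fun x => hC x.2.1⟩
  · have m1 : Measurable (fun ω : Ω => f (if a = 0 then ω else x.1)) := by
      split_ifs <;> fun_prop
    have m2 : Measurable (fun g : I → ℝ => Φ (mixg lev a x.2.1 g)) :=
      hΦ.comp (measurable_mixg a x.2.1)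
    have m3 : Measurable (fun σ : A => ς (if a = X.n + 1 then σ else x.2.2)) :=
      measurable_of_finite _
    have n1 : Measurable (fun ω : Ω' => if a = 0 then ω else f x.1) := by
      split_ifs <;> fun_prop
    have n2 : Measurable (mixg lev' a (Φ x.2.1)) := measurable_mixg a _
    have n3 : Measurable (fun σ : A' => if a = X.n + 1 then σ else ς x.2.2) :=
      measurable_of_finite _
    have l := map_three P (gpi I) (unif A) m1 m2 m3
    have r := map_three P' (gpi I') (unif A') n1 n2 n3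
    refine l.trans (Eq.trans ?_ r.symm)
    rw [map_ite (a = 0) (fun h => hP (by omega)) x.1, map_ite (a = X.n + 1) (fun _ => hς) x.2.2,
      ← hmap, Measure.map_map n2 hΦ]
    simp only [hmix]
    rfl

/-- Morphisms of Gaussian towers: a map of the disorder (measure preserving if level `0` is
concerned), a level preserving linear map with orthonormal rows, a uniform spin map. -/
theorem mor_lin [DecidableEq I'] {f : Ω → Ω'} (hf : Measurable f) {a0 : ℕ}
    (hP : a0 = 0 → P.map f = P') (Λ : I' → I → ℝ)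
    (hΛ : ∀ a b, ∑ i, Λ a i * Λ b i = if a = b then 1 else 0)
    (hlev : ∀ a i, Λ a i ≠ 0 → lev i = lev' a) {ς : A → A'} (hς : (unif A).map ς = unif A') :
    (gT X P lev A).Mor (gT X P' lev' A')
      (fun x => (f x.1, fun a => ∑ i, Λ a i * x.2.1 i, ς x.2.2)) a0 := by
  refine mor_gen (Φ := fun g a => ∑ i, Λ a i * g i) hf hP (by fun_prop) ?_ ?_ ?_ hς
  · refine ⟨∑ a, ∑ i, |Λ a i|, fun g => ?_⟩
    have h0 : 0 ≤ ∑ a, ∑ i, |Λ a i| :=
      Finset.sum_nonneg fun a _ => Finset.sum_nonneg fun i _ => abs_nonneg _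
    refine (pi_norm_le_iff_of_nonneg (by positivity)).2 fun a => ?_
    rw [Real.norm_eq_abs]
    calc |∑ i, Λ a i * g i| ≤ ∑ i, |Λ a i * g i| := Finset.abs_sum_le_sum_abs _ _
      _ ≤ ∑ i, |Λ a i| * (1 + ‖g‖) := by
          refine Finset.sum_le_sum fun i _ => ?_
          rw [abs_mul]
          refine mul_le_mul_of_nonneg_left ?_ (abs_nonneg _)
          have := norm_le_pi_norm g i
          rw [Real.norm_eq_abs] at this
          linarith
      _ = (∑ i, |Λ a i|) * (1 + ‖g‖) := by rw [Finset.sum_mul]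
      _ ≤ _ := by
          refine mul_le_mul_of_nonneg_right ?_ (by positivity)
          exact Finset.single_le_sum (f := fun a => ∑ i, |Λ a i|)
            (fun a _ => Finset.sum_nonneg fun i _ => abs_nonneg _) (Finset.mem_univ a)
  · have h1 := gauss_lin Λ (fun _ => 1) hΛ
    simp only [Real.sqrt_one, one_mul] at h1
    rw [h1]
    exact Measure.map_id
  · intro a g0 g
    funext b
    simp only [mixg]
    split_ifs with hb
    · refine Finset.sum_congr rfl fun i _ => ?_
      by_cases h0 : Λ b i = 0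
      · simp [h0]
      · rw [hlev b i h0, if_pos hb]
    · refine Finset.sum_congr rfl fun i _ => ?_
      by_cases h0 : Λ b i = 0
      · simp [h0]
      · rw [hlev b i h0, if_neg hb]

theorem mor_inj {f : Ω → Ω'} (hf : Measurable f) {a0 : ℕ} (hP : a0 = 0 → P.map f = P')
    (ι : I' → I) (hι : Function.Injective ι) (hlev : ∀ a, lev (ι a) = lev' a) {ς : A → A'}
    (hς : (unif A).map ς = unif A') :
    (gT X P lev A).Mor (gT X P' lev' A')
      (fun x => (f x.1, fun a => x.2.1 (ι a), ς x.2.2)) a0 := by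
  refine mor_gen (Φ := fun g a => g (ι a)) hf hP (by fun_prop) ⟨1, fun g => ?_⟩
    (gpi_map_inj ι hι) ?_ hς
  · refine (pi_norm_le_iff_of_nonneg (by positivity)).2 fun a => ?_
    have := norm_le_pi_norm g (ι a)
    linarith
  · intro a g0 g
    funext b
    simp only [mixg, hlev]

theorem mp_shuffle {α β γ δ : Type} [MeasurableSpace α] [MeasurableSpace β] [MeasurableSpace γ]
    [MeasurableSpace δ] (a : Measure α) (b : Measure β) (c : Measure γ) (d : Measure δ)
    [SFinite a] [SFinite b] [SFinite c] [SFinite d] :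
    MeasurePreserving (fun p : (α × β) × (γ × δ) => ((p.1.1, p.2.1), (p.1.2, p.2.2)))
      ((a.prod b).prod (c.prod d)) ((a.prod c).prod (b.prod d)) := by
  have s1 := measurePreserving_prodAssoc a b (c.prod d)
  have s2 := (MeasurePreserving.id a).prod (measurePreserving_prodAssoc b c d).symm
  have s3 := (MeasurePreserving.id a).prod
    ((Measure.measurePreserving_swap (μ := b) (ν := c)).prod (MeasurePreserving.id d))
  have s4 := (MeasurePreserving.id a).prod (measurePreserving_prodAssoc c b d)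
  have s5 := (measurePreserving_prodAssoc a c (b.prod d)).symm
  exact s5.comp (s4.comp (s3.comp (s2.comp s1)))

/-- two projections on disjoint sets of coordinates are independent -/
theorem indep_inj {I2 A2 : Type} [Fintype I2] [MeasurableSpace A2] [Fintype A2] [Nonempty A2]
    [MeasurableSingletonClass A2] {lev2 : I2 → Fin (X.n + 1)}
    (ι : I' → I) (hι : Function.Injective ι) (hlev : ∀ a, lev (ι a) = lev' a)
    (ι2 : I2 → I) (hι2 : Function.Injective ι2) (hlev2 : ∀ a, lev (ι2 a) = lev2 a)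
    (hd : ∀ a b, ι a ≠ ι2 b) :
    (gT X P lev (A' × A2)).Indep (gT X P lev' A') (gT X (Measure.dirac ()) lev2 A2)
      (fun x => (x.1, fun a => x.2.1 (ι a), x.2.2.1))
      (fun x => ((), fun a => x.2.1 (ι2 a), x.2.2.2)) := by
  have u1 : (unif (A' × A2)).map Prod.fst = unif A' := by
    rw [unif_prod, Measure.map_fst_prod, measure_univ, one_smul]
  have u2 : (unif (A' × A2)).map Prod.snd = unif A2 := by
    rw [unif_prod, Measure.map_snd_prod, measure_univ, one_smul]
  have M1 := mor_inj (P := P) (P' := P) (lev := lev) (lev' := lev') (f := fun ω => ω) (a0 := 0)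
    measurable_id (fun _ => Measure.map_id) ι hι hlev u1
  have M2 := mor_inj (P := P) (P' := Measure.dirac ()) (lev := lev) (lev' := lev2)
    (f := fun _ => ()) (a0 := 0) measurable_const
    (fun _ => by rw [Measure.map_const, measure_univ, one_smul]) ι2 hι2 hlev2 u2
  refine ⟨M1, M2, fun a _ x => ?_⟩
  have hinj : Function.Injective (Sum.elim ι ι2) :=
    hι.sumElim hι2 hd
  have g1 : MeasurePreserving (fun (g : I → ℝ) (a : I' ⊕ I2) => g (Sum.elim ι ι2 a)) (gpi I)
      (gpi (I' ⊕ I2)) := ⟨by fun_prop, gpi_map_inj _ hinj⟩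
  have g2 : MeasurePreserving (fun g : I → ℝ => ((fun a => g (ι a)), (fun a => g (ι2 a)))) (gpi I)
      ((gpi I').prod (gpi I2)) :=
    (measurePreserving_sumPiEquivProdPi (X := fun _ : I' ⊕ I2 => ℝ)
      (fun _ => gaussianReal 0 1)).comp g1
  have s1 := (MeasurePreserving.id P).prod (g2.prod (MeasurePreserving.id ((unif A').prod (unif A2))))
  have s2 := (MeasurePreserving.id P).prod (mp_shuffle (gpi I') (gpi I2) (unif A') (unif A2))
  have s3 := (measurePreserving_prodAssoc P ((gpi I').prod (unif A'))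
    ((gpi I2).prod (unif A2))).symm
  have d : MeasurePreserving (Prod.mk ()) ((gpi I2).prod (unif A2))
      ((Measure.dirac ()).prod ((gpi I2).prod (unif A2))) :=
    ⟨measurable_prodMk_left, (Measure.dirac_prod _).symm⟩
  have s4 := (MeasurePreserving.id (P.prod ((gpi I').prod (unif A')))).prod d
  have s := s4.comp (s3.comp (s2.comp s1))
  rw [← unif_prod] at s
  have k1 := (gT X P lev' A').measurable_mix a (x.1, fun a => x.2.1 (ι a), x.2.2.1)
  have k2 := (gT X (Measure.dirac ()) lev2 A2).measurable_mix a ((), fun a => x.2.1 (ι2 a), x.2.2.2)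
  rw [Measure.map_prod_map _ _ k1 k2, gT_μ, gT_μ, gT_μ, ← s.map_eq,
    Measure.map_map (k1.prodMap k2) s.measurable]
  congr 1
  funext y
  refine Prod.ext (Prod.ext rfl (Prod.ext ?_ ?_)) (Prod.ext rfl (Prod.ext ?_ ?_))
  · funext b
    show mixg lev a x.2.1 y.2.1 (ι b) = mixg lev' a (fun a => x.2.1 (ι a)) (fun a => y.2.1 (ι a)) b
    simp only [mixg, hlev]
  · show (if a = X.n + 1 then y.2.2 else x.2.2).1 = if a = X.n + 1 then y.2.2.1 else x.2.2.1
    split_ifs <;> rfl
  · funext b
    show mixg lev a x.2.1 y.2.1 (ι2 b) = mixg lev2 a (fun a => x.2.1 (ι2 a)) (fun a => y.2.1 (ι2 a)) b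
    simp only [mixg, hlev2]
  · show (if a = X.n + 1 then y.2.2 else x.2.2).2 = if a = X.n + 1 then y.2.2.2 else x.2.2.2
    split_ifs <;> rfl

end Mor

end Crest.Agent.R164
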