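import Crest.Agent.R164.GDefs
import Crest.Agent.R164.G1
import Crest.Agent.Lib.PL.PrekopaLeindler
import Crest.Agent.R322.Cover

/-! # Gaussian concentration and the smallest singular value -/

set_option autoImplicit false
set_option linter.unusedVariables false
set_option linter.unusedSectionVars false

open MeasureTheory ProbabilityTheory Real
open scoped ENNReal

namespace Crest.Agent.R164

theorem c1_dens (κ : Type) [Fintype κ] :
    gpi κ = (volume : Measure (κ → ℝ)).withDensity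
        (fun a => ENNReal.ofReal (∏ k, gaussianPDFReal 0 1 (a k))) := by
  unfold gpi
  refine Measure.pi_eq fun s hs => ?_
  have hint : Integrable (fun a : κ → ℝ => ∏ k, gaussianPDFReal 0 1 (a k)) volume :=
    Integrable.fintype_prod (f := fun _ : κ => gaussianPDFReal 0 1)
      (fun _ => integrable_gaussianPDFReal 0 1)
  rw [withDensity_apply _ (MeasurableSet.univ_pi hs), ← ofReal_integral_eq_lintegral_ofReal
    hint.integrableOn (ae_of_all _ fun a => Finset.prod_nonneg fun k _ =>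
      gaussianPDFReal_nonneg _ _ _), ← integral_indicator (MeasurableSet.univ_pi hs)]
  have : (Set.univ.pi s).indicator (fun a : κ → ℝ => ∏ k, gaussianPDFReal 0 1 (a k)) =
      fun a => ∏ k, (s k).indicator (gaussianPDFReal 0 1) (a k) := by
    ext a
    by_cases ha : a ∈ Set.univ.pi s
    · rw [Set.indicator_of_mem ha]
      exact Finset.prod_congr rfl fun k _ => (Set.indicator_of_mem (ha k trivial) _).symm
    · rw [Set.indicator_of_notMem ha]
      simp only [Set.mem_pi, Set.mem_univ, true_imp_iff, not_forall] at ha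
      obtain ⟨k, hk⟩ := ha
      exact (Finset.prod_eq_zero (Finset.mem_univ k) (Set.indicator_of_notMem hk _)).symm
  rw [this, integral_fintype_prod_volume_eq_prod (fun k => (s k).indicator (gaussianPDFReal 0 1)),
    ENNReal.ofReal_prod_of_nonneg (fun k _ => integral_nonneg fun x =>
      Set.indicator_nonneg (fun y _ => gaussianPDFReal_nonneg _ _ _) _)]
  refine Finset.prod_congr rfl fun k _ => ?_
  rw [gaussianReal_apply_eq_integral _ one_ne_zero, integral_indicator (hs k)]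

theorem c1_pdf (x : ℝ) : gaussianPDFReal 0 1 x = (√(2 * π))⁻¹ * exp (-(x ^ 2 / 2)) := by
  simp only [gaussianPDFReal, NNReal.coe_one, mul_one, sub_zero]
  congr 2
  ring

theorem c1_prod_pdf {κ : Type} [Fintype κ] (a : κ → ℝ) :
    ∏ k, gaussianPDFReal 0 1 (a k) =
      (√(2 * π))⁻¹ ^ Fintype.card κ * exp (-((∑ k, a k ^ 2) / 2)) := by
  simp_rw [c1_pdf]
  rw [Finset.prod_mul_distrib, Finset.prod_const, ← exp_sum, Finset.sum_div,
    ← Finset.sum_neg_distrib, Finset.card_univ]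

theorem c1_pl (I : Type) [Fintype I] : Lib.PL.PLProp (1 / 2) (1 / 2) (volume : Measure (I → ℝ)) := by
  refine (Lib.PL.plProp_pi_fin (by norm_num) (by norm_num) (by norm_num)
    (Fintype.card I)).of_measurePreserving
    (volume_measurePreserving_piCongrLeft (fun _ : I => ℝ) (Fintype.equivFin I).symm) ?_
  intro x y
  funext i
  simp [MeasurableEquiv.coe_piCongrLeft, Equiv.piCongrLeft_apply_eq_cast]

/-- Prékopa–Leindler with `f = 1_A φ`, `g = 1_B φ`, `h = e^{-d²/8} φ` (`φ` the Gaussian density;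
`-|x|²/4 - |y|²/4 = -|(x+y)/2|²/2 - |x-y|²/8`); transport to `Fin n → ℝ` by `Fintype.equivFin`. -/
theorem gauss_conc {I : Type} [Fintype I] {A B : Set (I → ℝ)} (hA : MeasurableSet A)
    (hB : MeasurableSet B) {d : ℝ} (hd : 0 ≤ d)
    (h : ∀ x ∈ A, ∀ y ∈ B, d ^ 2 ≤ ∑ i, (x i - y i) ^ 2) :
    (gpi I).real A * (gpi I).real B ≤ exp (-d ^ 2 / 4) := by

  set φ : (I → ℝ) → ℝ≥0∞ := fun a => ENNReal.ofReal (∏ k, gaussianPDFReal 0 1 (a k)) with hφ
  have mφ : Measurable φ := by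
    refine Measurable.ennreal_ofReal (Finset.measurable_prod _ fun k _ => ?_)
    exact (measurable_gaussianPDFReal 0 1).comp (measurable_pi_apply k)
  have key := c1_pl I (A.indicator φ) (B.indicator φ)
    (fun z => ENNReal.ofReal (exp (-d ^ 2 / 8)) * φ z) (mφ.indicator hA) (mφ.indicator hB)
    (mφ.const_mul _) (by
      intro x y
      by_cases hx : x ∈ A
      · by_cases hy : y ∈ B
        · rw [Set.indicator_of_mem hx, Set.indicator_of_mem hy]
          simp only [hφ, c1_prod_pdf]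
          have hc : 0 ≤ (√(2 * π))⁻¹ ^ Fintype.card I := by positivity
          rw [← ENNReal.mul_rpow_of_nonneg _ _ (by norm_num), ← ENNReal.ofReal_mul (by positivity),
            ENNReal.ofReal_rpow_of_nonneg (by positivity) (by norm_num),
            ← ENNReal.ofReal_mul (by positivity)]
          refine ENNReal.ofReal_le_ofReal ?_
          rw [← Real.sqrt_eq_rpow, Real.sqrt_le_iff]
          refine ⟨by positivity, ?_⟩
          have e1 : ∀ c u v : ℝ, c * exp u * (c * exp v) = c ^ 2 * exp (u + v) := by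
            intro c u v; rw [exp_add]; ring
          have e2 : ∀ c u v : ℝ, (exp u * (c * exp v)) ^ 2 = c ^ 2 * exp (2 * u + 2 * v) := by
            intro c u v; rw [exp_add, two_mul, two_mul, exp_add, exp_add]; ring
          rw [e1, e2]
          refine mul_le_mul_of_nonneg_left (exp_le_exp.2 ?_) (by positivity)
          have h1 := h x hx y hy
          have h2 : ∑ k, (((1 / 2 : ℝ) • x + (1 / 2 : ℝ) • y) k) ^ 2 =
              (∑ k, x k ^ 2) / 2 + (∑ k, y k ^ 2) / 2 - (∑ k, (x k - y k) ^ 2) / 4 := by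
            rw [Finset.sum_div, Finset.sum_div, Finset.sum_div, ← Finset.sum_add_distrib,
              ← Finset.sum_sub_distrib]
            refine Finset.sum_congr rfl fun k _ => ?_
            simp only [Pi.add_apply, Pi.smul_apply, smul_eq_mul]
            ring
          rw [h2]
          linarith
        · simp [hy]
      · simp [hx])
  rw [lintegral_indicator hA, lintegral_indicator hB, lintegral_const_mul _ mφ,
    ← withDensity_apply _ hA, ← withDensity_apply _ hB, ← setLIntegral_univ,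
    ← withDensity_apply _ MeasurableSet.univ, ← c1_dens I, measure_univ, mul_one,
    ← ENNReal.mul_rpow_of_nonneg _ _ (by norm_num)] at key
  have k2 := ENNReal.rpow_le_rpow key (show (0 : ℝ) ≤ 2 by norm_num)
  rw [← ENNReal.rpow_mul, show (1 / 2 : ℝ) * 2 = 1 by norm_num, ENNReal.rpow_one,
    ENNReal.ofReal_rpow_of_nonneg (exp_pos _).le (by norm_num), ← exp_mul] at k2
  have k3 := ENNReal.toReal_mono ENNReal.ofReal_ne_top k2
  rw [ENNReal.toReal_mul, ENNReal.toReal_ofReal (exp_pos _).le] at k3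
  have e : -d ^ 2 / 8 * 2 = -d ^ 2 / 4 := by ring
  rw [e] at k3
  exact k3

/-- the rows in `J` of `G` are uniformly independent -/
def RowsOK {N : ℕ} (c : ℝ) (J : Finset (Fin N)) (G : Fin N × Fin N → ℝ) : Prop :=
  ∀ a : Fin N → ℝ, c ^ 2 * N * ∑ i ∈ J, a i ^ 2 ≤ ∑ j, (∑ i ∈ J, a i * G (i, j)) ^ 2

theorem measurableSet_rowsOK {N : ℕ} (c : ℝ) (J : Finset (Fin N)) :
    MeasurableSet {G | RowsOK c J G} := by

  have : {G : Fin N × Fin N → ℝ | RowsOK c J G} = ⋂ a : Fin N → ℝ,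
      {G | c ^ 2 * N * ∑ i ∈ J, a i ^ 2 ≤ ∑ j, (∑ i ∈ J, a i * G (i, j)) ^ 2} := by
    ext G
    simp [RowsOK]
  rw [this]
  refine (isClosed_iInter fun a => isClosed_le continuous_const ?_).measurableSet
  fun_prop

theorem c1_sq1 {s : ℝ} (hs : s < 1 / 2) :
    Integrable (fun x : ℝ => exp (s * x ^ 2)) (gaussianReal 0 1) ∧
      ∫ x, exp (s * x ^ 2) ∂(gaussianReal 0 1) = √(1 / (1 - 2 * s)) := by
  have e : ∀ x : ℝ, gaussianPDFReal 0 1 x * exp (s * x ^ 2) =
      (√(2 * π))⁻¹ * exp (-(1 / 2 - s) * x ^ 2) := by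
    intro x
    rw [c1_pdf, mul_assoc, ← exp_add]
    congr 2
    ring
  constructor
  · rw [gaussianReal_of_var_ne_zero _ one_ne_zero,
      integrable_withDensity_iff_integrable_smul' (measurable_gaussianPDF _ _)
        (Filter.Eventually.of_forall fun _ => gaussianPDF_lt_top)]
    simp only [toReal_gaussianPDF, smul_eq_mul, e]
    exact (integrable_exp_neg_mul_sq (by linarith)).const_mul _
  · rw [integral_gaussianReal_eq_integral_smul one_ne_zero]
    simp only [smul_eq_mul, e]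
    rw [integral_const_mul, integral_gaussian, ← Real.sqrt_inv,
      ← Real.sqrt_mul (by positivity)]
    congr 1
    have : 1 - 2 * s ≠ 0 := by linarith
    have : 1 / 2 - s ≠ 0 := by linarith
    have := pi_pos.ne'
    field_simp

theorem c1_sqN (N : ℕ) {s : ℝ} (hs : s < 1 / 2) :
    Integrable (fun z : Fin N → ℝ => exp (s * ∑ j, z j ^ 2)) (gpi (Fin N)) ∧
      mgf (fun z : Fin N → ℝ => ∑ j, z j ^ 2) (gpi (Fin N)) s = √(1 / (1 - 2 * s)) ^ N := by
  have e : ∀ z : Fin N → ℝ, exp (s * ∑ j, z j ^ 2) = ∏ j, exp (s * z j ^ 2) := by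
    intro z
    rw [Finset.mul_sum, exp_sum]
  constructor
  · simp_rw [e]
    exact Integrable.fintype_prod (f := fun _ x => exp (s * x ^ 2)) fun _ => (c1_sq1 hs).1
  · unfold mgf gpi
    simp_rw [e]
    rw [integral_fintype_prod_eq_pow (fun x : ℝ => exp (s * x ^ 2)), (c1_sq1 hs).2,
      Fintype.card_fin]

theorem c1_up (N : ℕ) :
    (gpi (Fin N)).real {z | 16 * (N : ℝ) ≤ ∑ j, z j ^ 2} ≤ (1 / 10) ^ N := by
  have h := measure_ge_le_exp_mul_mgf (μ := gpi (Fin N)) (X := fun z : Fin N → ℝ => ∑ j, z j ^ 2)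
    (t := 1 / 4) (16 * (N : ℝ)) (by norm_num) (c1_sqN N (by norm_num)).1
  rw [(c1_sqN N (by norm_num)).2] at h
  refine h.trans ?_
  have e : exp (-(1 / 4) * (16 * (N : ℝ))) = exp (-4) ^ N := by
    rw [← exp_nat_mul]; congr 1; ring
  rw [e, ← mul_pow]
  refine pow_le_pow_left₀ (by positivity) ?_ N
  have h1 : √(1 / (1 - 2 * (1 / 4 : ℝ))) ≤ 2 := by
    rw [Real.sqrt_le_iff]; norm_num
  have h2 : exp (-4) ≤ 1 / 20 := by
    rw [exp_neg, one_div]
    refine inv_anti₀ (by norm_num) ?_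
    have := Real.add_one_le_exp (1 : ℝ)
    have h3 : exp 4 = exp 1 ^ 4 := by rw [← exp_nat_mul]; norm_num
    have h4 := Real.exp_one_gt_d9
    rw [h3]
    calc (20 : ℝ) ≤ 2.7 ^ 4 := by norm_num
      _ ≤ _ := pow_le_pow_left₀ (by norm_num) (by linarith) 4
  have := exp_pos (-4)
  calc exp (-4) * √(1 / (1 - 2 * (1 / 4 : ℝ))) ≤ 1 / 20 * 2 := by gcongr
    _ = 1 / 10 := by norm_num

theorem c1_lo (N : ℕ) {t : ℝ} (ht : 0 < t) :
    (gpi (Fin N)).real {z | ∑ j, z j ^ 2 ≤ t ^ 2 * N} ≤ (2 * t) ^ N := by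
  have hs : -(1 / (2 * t ^ 2)) < (1 / 2 : ℝ) := by
    have : 0 < 1 / (2 * t ^ 2) := by positivity
    linarith
  have h := measure_le_le_exp_mul_mgf (μ := gpi (Fin N)) (X := fun z : Fin N → ℝ => ∑ j, z j ^ 2)
    (t := -(1 / (2 * t ^ 2))) (t ^ 2 * (N : ℝ)) (neg_nonpos.2 (by positivity)) (c1_sqN N hs).1
  rw [(c1_sqN N hs).2] at h
  refine h.trans ?_
  have e : exp (- -(1 / (2 * t ^ 2)) * (t ^ 2 * (N : ℝ))) = exp (1 / 2) ^ N := by
    rw [← exp_nat_mul]; congr 1; field_simp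
  rw [e, ← mul_pow]
  refine pow_le_pow_left₀ (by positivity) ?_ N
  have h1 : √(1 / (1 - 2 * -(1 / (2 * t ^ 2)))) ≤ t := by
    rw [Real.sqrt_le_iff]
    refine ⟨ht.le, ?_⟩
    have : 1 - 2 * -(1 / (2 * t ^ 2)) = (t ^ 2 + 1) / t ^ 2 := by field_simp; ring
    rw [this, one_div_div, div_le_iff₀ (by positivity)]
    nlinarith [sq_nonneg (t ^ 2)]
  have h2 : exp (1 / 2) ≤ 2 := by
    have h3 : exp (1 / 2) ^ 2 = exp 1 := by rw [← exp_nat_mul]; norm_num
    have h4 := Real.exp_one_lt_d9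
    have := exp_pos (1 / 2)
    nlinarith
  gcongr

theorem c1_law {K : Type} [Fintype K] (N : ℕ) (p : K → ℝ) :
    (gpi (K × Fin N)).map (fun H j => ∑ k, p k * H (k, j)) =
      (gpi (Fin N)).map (fun z j => √(∑ k, p k ^ 2) * z j) := by
  classical
  have h := gauss_lin (I := K × Fin N) (J := Fin N)
    (fun j q => if q.2 = j then p q.1 else 0) (fun _ => ∑ k, p k ^ 2) (by
      intro a b
      rw [Fintype.sum_prod_type]
      split_ifs with hab
      · subst hab
        refine Finset.sum_congr rfl fun k _ => ?_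
        simp [sq]
      · refine Finset.sum_eq_zero fun k _ => Finset.sum_eq_zero fun j _ => ?_
        by_cases h1 : j = a
        · have : j ≠ b := fun h => hab (h1.symm.trans h)
          simp [this]
        · simp [h1])
  rw [← h]
  congr 1
  funext H j
  rw [Fintype.sum_prod_type]
  refine Finset.sum_congr rfl fun k _ => ?_
  simp

theorem c1_law_real {K : Type} [Fintype K] (N : ℕ) (p : K → ℝ) {S : Set ℝ}
    (hS : MeasurableSet S) :
    (gpi (K × Fin N)).real {H | ∑ j, (∑ k, p k * H (k, j)) ^ 2 ∈ S} =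
      (gpi (Fin N)).real {z | (∑ k, p k ^ 2) * ∑ j, z j ^ 2 ∈ S} := by
  have hm : MeasurableSet {y : Fin N → ℝ | ∑ j, y j ^ 2 ∈ S} :=
    (show Measurable fun y : Fin N → ℝ => ∑ j, y j ^ 2 by fun_prop) hS
  have h := congrArg (fun μ : Measure (Fin N → ℝ) => μ {y | ∑ j, y j ^ 2 ∈ S}) (c1_law N p)
  rw [Measure.map_apply (by fun_prop) hm, Measure.map_apply (by fun_prop) hm] at h
  unfold Measure.real
  congr 1
  refine h.trans ?_
  congr 1
  ext z
  simp only [Set.mem_preimage, Set.mem_ofPred_eq, mul_pow,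
    Real.sq_sqrt (Finset.sum_nonneg fun k _ => sq_nonneg (p k)), ← Finset.mul_sum]

theorem c1_det {W V : Type*} [NormedAddCommGroup W] [NormedSpace ℝ W] [NormedAddCommGroup V]
    [NormedSpace ℝ V] (T : W →L[ℝ] V) (S1 S2 : Finset W) {A B ε : ℝ} (hA0 : 0 ≤ A) (hB0 : 0 ≤ B)
    (hε0 : 0 ≤ ε) (hε : ε ≤ 1 / 2)
    (h1 : ∀ x, ‖x‖ ≤ 1 → ∃ p ∈ S1, ‖x - p‖ ≤ 1 / 2) (h2 : ∀ x, ‖x‖ ≤ 1 → ∃ p ∈ S2, ‖x - p‖ ≤ ε)
    (hA : ∀ p ∈ S1, ‖T p‖ ≤ A * ‖p‖) (hB : ∀ p ∈ S2, B * ‖p‖ ≤ ‖T p‖) (x : W) :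
    (B / 2 - 3 * A * ε) * ‖x‖ ≤ ‖T x‖ := by
  have hn := norm_nonneg T
  have hT : ‖T‖ ≤ 3 * A := by
    have : ‖T‖ ≤ 3 / 2 * A + ‖T‖ / 2 := by
      refine T.opNorm_le_of_unit_norm (by positivity) fun y hy => ?_
      obtain ⟨p, hp, hyp⟩ := h1 y hy.le
      have a1 : ‖p‖ ≤ 3 / 2 := by
        have := norm_sub_norm_le p y
        rw [norm_sub_rev] at this
        linarith
      have a2 : ‖T y‖ ≤ ‖T p‖ + ‖T (y - p)‖ := by
        have : T y = T p + T (y - p) := by rw [← map_add]; simp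
        rw [this]; exact norm_add_le _ _
      have a3 := T.le_opNorm (y - p)
      have a4 := hA p hp
      nlinarith
    linarith
  have unit : ∀ y : W, ‖y‖ = 1 → B / 2 - 3 * A * ε ≤ ‖T y‖ := by
    intro y hy
    obtain ⟨p, hp, hyp⟩ := h2 y hy.le
    have a1 : 1 / 2 ≤ ‖p‖ := by
      have := norm_sub_norm_le y p
      linarith
    have a2 : ‖T p‖ ≤ ‖T y‖ + ‖T (y - p)‖ := by
      have : T p = T y - T (y - p) := by rw [← map_sub]; simp
      rw [this]; exact norm_sub_le _ _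
    have a3 := T.le_opNorm (y - p)
    have a4 := hB p hp
    have a5 : ‖T‖ * ‖y - p‖ ≤ 3 * A * ε := mul_le_mul hT hyp (norm_nonneg _) (by positivity)
    nlinarith
  by_cases hx : x = 0
  · simp [hx]
  · have hp : 0 < ‖x‖ := norm_pos_iff.2 hx
    have := unit (‖x‖⁻¹ • x) (by rw [norm_smul, norm_inv, norm_norm, inv_mul_cancel₀ hp.ne'])
    rw [map_smul, norm_smul, norm_inv, norm_norm, ← div_eq_inv_mul, le_div_iff₀ hp] at this
    exact this

/-- the linear map `p ↦ Hᵀ p` -/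
noncomputable def c1T {K : Type} [Fintype K] {N : ℕ} (H : K × Fin N → ℝ) :
    EuclideanSpace ℝ K →L[ℝ] EuclideanSpace ℝ (Fin N) :=
  LinearMap.toContinuousLinearMap
    { toFun := fun p => WithLp.toLp 2 fun j => ∑ k, p k * H (k, j)
      map_add' := by
        intro x y
        ext j
        simp [add_mul, Finset.sum_add_distrib]
      map_smul' := by
        intro c x
        ext j
        simp [Finset.mul_sum, mul_assoc] }

theorem c1T_sq {K : Type} [Fintype K] {N : ℕ} (H : K × Fin N → ℝ) (p : EuclideanSpace ℝ K) :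
    ‖c1T H p‖ ^ 2 = ∑ j, (∑ k, p k * H (k, j)) ^ 2 := by
  rw [EuclideanSpace.real_norm_sq_eq]
  rfl

theorem c1_main (K : Type) [Fintype K] (N : ℕ) {t : ℝ} (ht : 0 < t) (ht1 : t ≤ 1) :
    (gpi (K × Fin N)).real {H | ¬ ∀ x : K → ℝ,
      (t / 4) ^ 2 * N * ∑ k, x k ^ 2 ≤ ∑ j, (∑ k, x k * H (k, j)) ^ 2} ≤
      5 ^ Fintype.card K * (1 / 10) ^ N + (97 / t) ^ Fintype.card K * (2 * t) ^ N := by
  obtain ⟨S1, c1, n1⟩ := R322.exists_net (W := EuclideanSpace ℝ K) 1 (1 / 2) (by norm_num)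
    (by norm_num)
  obtain ⟨S2, c2, n2⟩ := R322.exists_net (W := EuclideanSpace ℝ K) 1 (t / 48) (by norm_num)
    (by positivity)
  rw [finrank_euclideanSpace] at c1 c2
  have c1' : (S1.card : ℝ) ≤ 5 ^ Fintype.card K := by
    refine c1.trans (le_of_eq ?_); norm_num
  have c2' : (S2.card : ℝ) ≤ (97 / t) ^ Fintype.card K := by
    refine c2.trans (pow_le_pow_left₀ (by positivity) ?_ _)
    rw [le_div_iff₀ ht]
    have : (1 + 2 * 1 / (t / 48)) * t = t + 96 := by field_simp; ring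
    linarith
  set E1 : EuclideanSpace ℝ K → Set (K × Fin N → ℝ) := fun p =>
    {H | ∑ j, (∑ k, p k * H (k, j)) ^ 2 ∈ Set.Ioi ((∑ k, p k ^ 2) * (16 * (N : ℝ)))} with hE1
  set E2 : EuclideanSpace ℝ K → Set (K × Fin N → ℝ) := fun p =>
    {H | ∑ j, (∑ k, p k * H (k, j)) ^ 2 ∈ Set.Iio ((∑ k, p k ^ 2) * (t ^ 2 * (N : ℝ)))} with hE2
  have b1 : ∀ p, (gpi (K × Fin N)).real (E1 p) ≤ (1 / 10) ^ N := by
    intro p
    simp only [hE1]
    rw [c1_law_real N (fun k => p k) measurableSet_Ioi]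
    refine (measureReal_mono ?_).trans (c1_up N)
    intro z hz
    simp only [Set.mem_ofPred_eq, Set.mem_Ioi, Set.mem_Iio] at hz ⊢
    exact (lt_of_mul_lt_mul_left hz (Finset.sum_nonneg fun k _ => sq_nonneg _)).le
  have b2 : ∀ p, (gpi (K × Fin N)).real (E2 p) ≤ (2 * t) ^ N := by
    intro p
    simp only [hE2]
    rw [c1_law_real N (fun k => p k) measurableSet_Iio]
    refine (measureReal_mono ?_).trans (c1_lo N ht)
    intro z hz
    simp only [Set.mem_ofPred_eq, Set.mem_Ioi, Set.mem_Iio] at hz ⊢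
    exact (lt_of_mul_lt_mul_left hz (Finset.sum_nonneg fun k _ => sq_nonneg _)).le
  have hsub : {H : K × Fin N → ℝ | ¬ ∀ x : K → ℝ,
      (t / 4) ^ 2 * N * ∑ k, x k ^ 2 ≤ ∑ j, (∑ k, x k * H (k, j)) ^ 2} ⊆
      (⋃ p ∈ S1, E1 p) ∪ ⋃ p ∈ S2, E2 p := by
    intro H hH
    by_contra hc
    simp only [Set.mem_union, Set.mem_iUnion, not_or, not_exists, hE1, hE2, Set.mem_ofPred_eq,
      Set.mem_Ioi, Set.mem_Iio, not_lt] at hc
    apply hH
    intro x
    have hN : 0 ≤ √(N : ℝ) := Real.sqrt_nonneg _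
    have hN2 : √(N : ℝ) ^ 2 = N := Real.sq_sqrt (Nat.cast_nonneg _)
    have key := c1_det (c1T H) S1 S2 (A := 4 * √(N : ℝ)) (B := t * √(N : ℝ)) (ε := t / 48)
      (by positivity) (by positivity) (by positivity) (by linarith) n1 n2
      (fun p hp => by
        refine (pow_le_pow_iff_left₀ (norm_nonneg _) (by positivity) two_ne_zero).1 ?_
        rw [c1T_sq, mul_pow, mul_pow, hN2, EuclideanSpace.real_norm_sq_eq]
        have := hc.1 p hp
        linarith)
      (fun p hp => by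
        refine (pow_le_pow_iff_left₀ (by positivity) (norm_nonneg _) two_ne_zero).1 ?_
        rw [c1T_sq, mul_pow, mul_pow, hN2, EuclideanSpace.real_norm_sq_eq]
        have := hc.2 p hp
        linarith) (WithLp.toLp 2 x)
    have e : t * √(N : ℝ) / 2 - 3 * (4 * √(N : ℝ)) * (t / 48) = t / 4 * √(N : ℝ) := by ring
    rw [e] at key
    have k2 := pow_le_pow_left₀ (by positivity) key 2
    rw [c1T_sq, mul_pow, mul_pow, hN2, EuclideanSpace.real_norm_sq_eq] at k2
    exact k2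
  refine (measureReal_mono hsub).trans ((measureReal_union_le _ _).trans (add_le_add ?_ ?_))
  · refine (measureReal_biUnion_finset_le _ _).trans ((Finset.sum_le_sum fun p _ => b1 p).trans ?_)
    rw [Finset.sum_const, nsmul_eq_mul]
    gcongr
  · refine (measureReal_biUnion_finset_le _ _).trans ((Finset.sum_le_sum fun p _ => b2 p).trans ?_)
    rw [Finset.sum_const, nsmul_eq_mul]
    gcongr

/-- Net argument (`R322.exists_net`).  For a unit vector `a`, `Gᵀ a` is standard Gaussian in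
`ℝ^N`, so `P(|Gᵀa|² ≤ t² N) ≤ e^{N/2} (E e^{-g²/(2t²)})^N ≤ (√e t)^N` and
`P(|Gᵀa|² ≥ L² N) ≤ (√2 e^{-L²/4})^N`.  With a `½`-net (size `≤ 5^N`) the operator norm is
`≤ 2L√N` with high probability; with a `t/(2L)`... net of size `(1 + 4L/t)^{|J|}` the bad event has
probability `≤ (1 + 4L/t)^{(1-δ)N} (2√e t)^N → 0` for small `t`. -/
theorem rowsOK_prob {δ η : ℝ} (hδ : 0 < δ) (hη : 0 < η) : ∃ c > 0, ∀ᶠ N : ℕ in Filter.atTop,
    ∀ J : Finset (Fin N), (J.card : ℝ) ≤ (1 - δ) * N →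
      (gpi (Fin N × Fin N)).real {G | ¬ RowsOK c J G} ≤ η := by

  set M : ℝ := log 388 / δ with hM
  have hl : 0 < log 388 := log_pos (by norm_num)
  have hM0 : 0 < M := div_pos hl hδ
  set t : ℝ := exp (-M) with ht
  have ht0 : 0 < t := exp_pos _
  have ht1 : t ≤ 1 := exp_le_one_iff.2 (by linarith)
  refine ⟨t / 4, by positivity, ?_⟩
  have lim : Filter.Tendsto (fun N : ℕ => 2 * (1 / 2 : ℝ) ^ N) Filter.atTop (nhds (2 * 0)) :=
    (tendsto_pow_atTop_nhds_zero_of_lt_one (by norm_num) (by norm_num)).const_mul 2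
  rw [mul_zero] at lim
  filter_upwards [lim.eventually (gt_mem_nhds hη)] with N hN J hJ
  have hk : Fintype.card J ≤ N := by
    simpa using Finset.card_le_univ J
  have hk2 : ((Fintype.card J : ℕ) : ℝ) ≤ (1 - δ) * N := by simpa using hJ
  set ι : J × Fin N → Fin N × Fin N := fun q => (q.1.1, q.2) with hι
  have ιinj : Function.Injective ι := by
    rintro ⟨a, b⟩ ⟨c, d⟩ h
    simp only [hι, Prod.mk.injEq] at h
    exact Prod.ext (Subtype.ext h.1) h.2
  set S : Set (J × Fin N → ℝ) := {H | ¬ ∀ x : J → ℝ,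
      (t / 4) ^ 2 * N * ∑ k, x k ^ 2 ≤ ∑ j, (∑ k, x k * H (k, j)) ^ 2} with hS
  have hsub : {G : Fin N × Fin N → ℝ | ¬ RowsOK (t / 4) J G} ⊆
      (fun (G : Fin N × Fin N → ℝ) q => G (ι q)) ⁻¹' S := by
    intro G hG hc
    apply hG
    intro a
    have := hc fun k => a k
    rw [← Finset.sum_coe_sort J]
    simp_rw [← Finset.sum_coe_sort J]
    exact this
  have h1 : (gpi (Fin N × Fin N)).real {G | ¬ RowsOK (t / 4) J G} ≤ (gpi (J × Fin N)).real S := by
    refine (measureReal_mono hsub).trans ?_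
    unfold Measure.real
    refine ENNReal.toReal_mono (measure_ne_top _ _) ?_
    rw [← gpi_map_inj ι ιinj]
    exact Measure.le_map_apply (Measurable.aemeasurable (by fun_prop)) S
  refine h1.trans ((c1_main J N ht0 ht1).trans (le_trans ?_ hN.le))
  set k := Fintype.card J
  have a1 : (5 : ℝ) ^ k * (1 / 10) ^ N ≤ (1 / 2) ^ N := by
    calc (5 : ℝ) ^ k * (1 / 10) ^ N ≤ 5 ^ N * (1 / 10) ^ N := by
          gcongr; norm_num
      _ = _ := by rw [← mul_pow]; norm_num
  have a2 : (97 / t) ^ k * (2 * t) ^ N ≤ (1 / 2) ^ N := by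
    have e1 : (97 / t) ^ k * (2 * t) ^ N = 97 ^ k * 2 ^ N * exp (-M * (N - k)) := by
      rw [div_eq_mul_inv, mul_pow, mul_pow, ht, ← exp_neg, ← exp_nat_mul, ← exp_nat_mul,
        show -M * ((N : ℝ) - k) = k * - -M + N * -M by ring, exp_add]
      ring
    have e2 : exp (-M * (N - k)) ≤ (1 / 388) ^ N := by
      have : (1 / 388 : ℝ) = exp (-log 388) := by rw [exp_neg, exp_log (by norm_num), one_div]
      rw [this, ← exp_nat_mul]
      refine exp_le_exp.2 ?_
      have h3 : log 388 = M * δ := by rw [hM]; field_simp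
      rw [h3]
      have : δ * N ≤ N - k := by linarith
      nlinarith
    rw [e1]
    calc (97 : ℝ) ^ k * 2 ^ N * exp (-M * (N - k)) ≤ 97 ^ N * 2 ^ N * (1 / 388) ^ N := by
          gcongr; norm_num
      _ = _ := by rw [← mul_pow, ← mul_pow]; norm_num
  linarith

end Crest.Agent.R164
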