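import Crest.Agent.R164.H1

/-! # Linear algebra for the cavity step -/

set_option autoImplicit false
set_option linter.unusedVariables false
set_option linter.unusedSectionVars false

open MeasureTheory ProbabilityTheory Real Crest.ProbabilityR.InvariantGlass
open scoped ENNReal

namespace Crest.Agent.R164

/-- `V ⊕ 1` -/
def ext1M {M : ℕ} (V : Matrix (Fin M) (Fin M) ℝ) : Matrix (Fin (M + 1)) (Fin (M + 1)) ℝ :=
  Matrix.of fun i j => Fin.lastCases (motive := fun _ => ℝ)
    (Fin.lastCases (motive := fun _ => ℝ) 1 (fun _ => 0) j)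
    (fun i' => Fin.lastCases (motive := fun _ => ℝ) 0 (fun j' => V i' j') j) i

@[simp] theorem ext1M_cc {M : ℕ} (V : Matrix (Fin M) (Fin M) ℝ) (i j : Fin M) :
    ext1M V i.castSucc j.castSucc = V i j := by simp [ext1M]
@[simp] theorem ext1M_cl {M : ℕ} (V : Matrix (Fin M) (Fin M) ℝ) (i : Fin M) :
    ext1M V i.castSucc (Fin.last M) = 0 := by simp [ext1M]
@[simp] theorem ext1M_lc {M : ℕ} (V : Matrix (Fin M) (Fin M) ℝ) (j : Fin M) :
    ext1M V (Fin.last M) j.castSucc = 0 := by simp [ext1M]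
@[simp] theorem ext1M_ll {M : ℕ} (V : Matrix (Fin M) (Fin M) ℝ) :
    ext1M V (Fin.last M) (Fin.last M) = 1 := by simp [ext1M]

theorem ext1M_mul {M : ℕ} (V W : Matrix (Fin M) (Fin M) ℝ) :
    ext1M (V * W) = ext1M V * ext1M W := by
  ext i j
  refine Fin.lastCases ?_ (fun i' => ?_) i <;> refine Fin.lastCases ?_ (fun j' => ?_) j <;>
    simp [Matrix.mul_apply, Fin.sum_univ_castSucc]

theorem ext1M_one {M : ℕ} : ext1M (1 : Matrix (Fin M) (Fin M) ℝ) = 1 := by
  ext i j
  refine Fin.lastCases ?_ (fun i' => ?_) i <;> refine Fin.lastCases ?_ (fun j' => ?_) j <;>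
    simp [Matrix.one_apply, Fin.castSucc_ne_last, (Fin.castSucc_ne_last _).symm]

theorem ext1M_transpose {M : ℕ} (V : Matrix (Fin M) (Fin M) ℝ) :
    ext1M V.transpose = (ext1M V).transpose := by
  ext i j
  refine Fin.lastCases ?_ (fun i' => ?_) i <;> refine Fin.lastCases ?_ (fun j' => ?_) j <;> simp

theorem ext1M_mem {M : ℕ} (V : Orth M) :
    ext1M V.1 ∈ Matrix.orthogonalGroup (Fin (M + 1)) ℝ := by
  rw [Matrix.mem_orthogonalGroup_iff, ← ext1M_transpose, ← ext1M_mul,
    (Matrix.mem_orthogonalGroup_iff _ _).1 V.2, ext1M_one]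

def ext1 {M : ℕ} (V : Orth M) : Orth (M + 1) := ⟨ext1M V.1, ext1M_mem V⟩

/-- the sign attached to a Boolean -/
def sg (ε : Bool) : ℝ := if ε then 1 else -1

theorem measurable_ext1 {M : ℕ} : Measurable (ext1 (M := M)) := by
  refine measurable_orth fun i j => ?_
  refine Fin.lastCases ?_ (fun i' => ?_) i <;> refine Fin.lastCases ?_ (fun j' => ?_) j <;>
    simp only [ext1, ext1M_cc, ext1M_cl, ext1M_lc, ext1M_ll, measurable_const]
  exact measurable_entry _ _

theorem ext1_mul {M : ℕ} (V W : Orth M) : ext1 (V * W) = ext1 V * ext1 W :=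
  Subtype.ext (ext1M_mul V.1 W.1)

theorem sv_ext1 {M : ℕ} (V : Orth M) (σ : Fin M → Bool) (ε : Bool) :
    sv (ext1 V) (Fin.snoc σ ε) = Fin.snoc (sv V σ) (sg ε) := by
  funext i
  refine Fin.lastCases ?_ (fun i' => ?_) i <;>
    simp [sv, ext1, Matrix.mulVec, dotProduct, Fin.sum_univ_castSucc, spinVec, sg]

theorem spinVec_snoc {M : ℕ} (σ : Fin M → Bool) (ε : Bool) :
    spinVec (Fin.snoc σ ε : Fin (M + 1) → Bool) = Fin.snoc (spinVec σ) (sg ε) := by
  funext i
  refine Fin.lastCases ?_ (fun i' => ?_) i <;> simp [spinVec, sg]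

/-- two orthogonal matrices with the same last column differ by `V ⊕ 1` -/
theorem exists_ext1 {M : ℕ} (U U' : Orth (M + 1))
    (h : ∀ i, U.1 i (Fin.last M) = U'.1 i (Fin.last M)) : ∃ V : Orth M, U' = U * ext1 V := by
  set W : Orth (M + 1) := U⁻¹ * U' with hW
  have hc : ∀ i, W.1 i (Fin.last M) = if i = Fin.last M then 1 else 0 := by
    intro i
    rw [← orth_col U i (Fin.last M)]
    show (star U.1 * U'.1) i (Fin.last M) = _
    simp [Matrix.mul_apply, h]
  have hr : ∀ j : Fin M, W.1 (Fin.last M) j.castSucc = 0 := by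
    intro j
    have := orth_col W (Fin.last M) j.castSucc
    simpa [hc, (Fin.castSucc_ne_last _).symm] using this
  have he : ext1M (W.1.submatrix Fin.castSucc Fin.castSucc) = W.1 := by
    ext i j
    refine Fin.lastCases ?_ (fun i' => ?_) i <;> refine Fin.lastCases ?_ (fun j' => ?_) j <;>
      simp [hc, hr, Fin.castSucc_ne_last]
  have hm : W.1.submatrix Fin.castSucc Fin.castSucc ∈ Matrix.orthogonalGroup (Fin M) ℝ := by
    rw [Matrix.mem_orthogonalGroup_iff]
    ext i j
    have := orth_row W i.castSucc j.castSucc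
    rw [Fin.sum_univ_castSucc] at this
    simpa [Matrix.mul_apply, Matrix.one_apply, hc, Fin.castSucc_ne_last] using this
  refine ⟨⟨_, hm⟩, ?_⟩
  have : ext1 ⟨_, hm⟩ = W := Subtype.ext he
  rw [this, hW, mul_inv_cancel_left]

/-- an orthogonal matrix acting on the coordinates `rep b` only -/
theorem exists_embO {N P : ℕ} (rep : Fin P → Fin N) (h : Function.Injective rep) (O : Orth P) :
    ∃ E : Orth N, (∀ (x : Fin N → ℝ) b, E.1.mulVec x (rep b) = ∑ b', O.1 b b' * x (rep b')) ∧
      (∀ (x : Fin N → ℝ) i, (∀ b, rep b ≠ i) → E.1.mulVec x i = x i) := by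
  let A : Matrix (Fin P) (Fin N) ℝ := Matrix.of fun b i => if rep b = i then 1 else 0
  have hA : A * A.transpose = 1 := by
    ext b b'
    simp [A, Matrix.mul_apply, Matrix.one_apply, h.eq_iff, eq_comm]
  have hO := (Matrix.mem_orthogonalGroup_iff _ _).1 O.2
  have hx : ∀ x : Fin N → ℝ, A.mulVec x = fun b => x (rep b) := by
    intro x; funext b
    simp [A, Matrix.mulVec, dotProduct]
  have hm : 1 + A.transpose * (O.1 - 1) * A ∈ Matrix.orthogonalGroup (Fin N) ℝ := by
    rw [Matrix.mem_orthogonalGroup_iff]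
    have e : (A.transpose * (O.1 - 1) * A) * (A.transpose * ((O.1.transpose - 1) * A)) =
        A.transpose * ((O.1 - 1) * (O.1.transpose - 1)) * A := by
      rw [Matrix.mul_assoc, ← Matrix.mul_assoc A, hA, Matrix.one_mul]
      simp only [Matrix.mul_assoc]
    simp only [Matrix.transpose_add, Matrix.transpose_mul, Matrix.transpose_one,
      Matrix.transpose_transpose, Matrix.transpose_sub, Matrix.add_mul, Matrix.mul_add,
      Matrix.one_mul, Matrix.mul_one, e]
    simp only [Matrix.sub_mul, Matrix.mul_sub, Matrix.one_mul, Matrix.mul_one, hO, Matrix.mul_assoc]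
    abel
  have hv : ∀ x : Fin N → ℝ, (1 + A.transpose * (O.1 - 1) * A).mulVec x =
      x + A.transpose.mulVec (O.1.mulVec (fun b => x (rep b)) - fun b => x (rep b)) := by
    intro x
    rw [Matrix.add_mulVec, Matrix.one_mulVec, ← Matrix.mulVec_mulVec, ← Matrix.mulVec_mulVec, hx,
      Matrix.sub_mulVec, Matrix.one_mulVec]
  refine ⟨⟨_, hm⟩, fun x b => ?_, fun x i hi => ?_⟩
  · rw [hv]
    simp [A, Matrix.mulVec, dotProduct, h.eq_iff]
  · rw [hv]
    simp [A, Matrix.mulVec, dotProduct, hi]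

/-- blockwise projection on `v` -/
noncomputable def bP {N : ℕ} {β : Type} [DecidableEq β] (blk : Fin N → β) (v : Fin N → ℝ) :
    Matrix (Fin N) (Fin N) ℝ :=
  Matrix.of fun i j => if blk j = blk i then v i * v j / ∑ k ∈ fib blk (blk i), v k ^ 2 else 0

theorem bP_mulVec {N : ℕ} {β : Type} [DecidableEq β] (blk : Fin N → β) (v x : Fin N → ℝ)
    (i : Fin N) : (bP blk v).mulVec x i =
      v i * (∑ k ∈ fib blk (blk i), v k * x k) / ∑ k ∈ fib blk (blk i), v k ^ 2 := by
  simp only [bP, Matrix.mulVec, dotProduct, Matrix.of_apply, ite_mul, zero_mul]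
  rw [← Finset.sum_filter, Finset.mul_sum, Finset.sum_div]
  exact Finset.sum_congr rfl fun k _ => by ring

theorem bP_symm {N : ℕ} {β : Type} [DecidableEq β] (blk : Fin N → β) (v : Fin N → ℝ) :
    (bP blk v).transpose = bP blk v := by
  ext i j
  simp only [bP, Matrix.transpose_apply, Matrix.of_apply]
  by_cases h : blk i = blk j
  · rw [if_pos h, if_pos h.symm, h, mul_comm]
  · rw [if_neg h, if_neg (Ne.symm h)]

theorem bP_idem {N : ℕ} {β : Type} [DecidableEq β] (blk : Fin N → β) (v : Fin N → ℝ) :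
    bP blk v * bP blk v = bP blk v := by
  ext i j
  have h1 : (bP blk v * bP blk v) i j = (bP blk v).mulVec (fun k => bP blk v k j) i := rfl
  rw [h1, bP_mulVec]
  have h2 : ∑ k ∈ fib blk (blk i), v k * bP blk v k j =
      if blk j = blk i then (∑ k ∈ fib blk (blk i), v k ^ 2) * v j /
        ∑ k ∈ fib blk (blk i), v k ^ 2 else 0 := by
    split_ifs with h
    · rw [Finset.sum_mul, Finset.sum_div]
      refine Finset.sum_congr rfl fun k hk => ?_
      have hk' : blk k = blk i := (Finset.mem_filter.1 hk).2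
      simp only [bP, Matrix.of_apply, hk', h, if_true]
      ring
    · refine Finset.sum_eq_zero fun k hk => ?_
      have hk' : blk k = blk i := (Finset.mem_filter.1 hk).2
      simp only [bP, Matrix.of_apply, hk', h, if_false, mul_zero]
  rw [h2]
  simp only [bP, Matrix.of_apply]
  split_ifs
  · by_cases h0 : ∑ k ∈ fib blk (blk i), v k ^ 2 = 0
    · simp [h0]
    · field_simp
  · simp

/-- blockwise reflection along `v` -/
noncomputable def bH {N : ℕ} {β : Type} [DecidableEq β] (blk : Fin N → β) (v : Fin N → ℝ) :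
    Orth N :=
  ⟨1 - (2 : ℝ) • bP blk v, by
    rw [Matrix.mem_orthogonalGroup_iff]
    simp only [Matrix.transpose_sub, Matrix.transpose_one, Matrix.transpose_smul, bP_symm,
      Matrix.sub_mul, Matrix.mul_sub, Matrix.one_mul, Matrix.mul_one, Matrix.smul_mul,
      Matrix.mul_smul, bP_idem]
    module⟩

theorem bH_apply {N : ℕ} {β : Type} [DecidableEq β] (blk : Fin N → β) (v : Fin N → ℝ)
    (i j : Fin N) : (bH blk v).1 i j = (if i = j then 1 else 0) - 2 * bP blk v i j := by
  simp [bH, Matrix.one_apply]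

theorem bH_symm {N : ℕ} {β : Type} [DecidableEq β] (blk : Fin N → β) (v : Fin N → ℝ)
    (i j : Fin N) : (bH blk v).1 i j = (bH blk v).1 j i := by
  rw [bH_apply, bH_apply, ← Matrix.transpose_apply (bP blk v), bP_symm]
  simp only [eq_comm]

theorem bH_mulVec {N : ℕ} {β : Type} [DecidableEq β] (blk : Fin N → β) (v x : Fin N → ℝ)
    (i : Fin N) : (bH blk v).1.mulVec x i =
      x i - 2 * (v i * (∑ k ∈ fib blk (blk i), v k * x k) / ∑ k ∈ fib blk (blk i), v k ^ 2) := by
  rw [← bP_mulVec]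
  simp [bH, Matrix.sub_mulVec, Matrix.smul_mulVec]

theorem bH_swap {N : ℕ} {β : Type} [DecidableEq β] (blk : Fin N → β) (a c : Fin N → ℝ)
    (h : ∀ b, ∑ k ∈ fib blk b, a k ^ 2 = ∑ k ∈ fib blk b, c k ^ 2) :
    (bH blk (fun k => a k - c k)).1.mulVec a = c := by
  funext i
  rw [bH_mulVec]
  have h1 : ∑ k ∈ fib blk (blk i), (a k - c k) ^ 2 =
      2 * ∑ k ∈ fib blk (blk i), (a k - c k) * a k := by
    have : ∑ k ∈ fib blk (blk i), (a k - c k) ^ 2 =
        ∑ k ∈ fib blk (blk i), (2 * ((a k - c k) * a k) + (c k ^ 2 - a k ^ 2)) :=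
      Finset.sum_congr rfl fun k _ => by ring
    rw [this, Finset.sum_add_distrib, Finset.sum_sub_distrib, h, Finset.mul_sum]
    ring
  by_cases h0 : ∑ k ∈ fib blk (blk i), (a k - c k) ^ 2 = 0
  · have := (Finset.sum_eq_zero_iff_of_nonneg fun k _ => sq_nonneg _).1 h0 i (by simp [fib])
    have h2 : a i - c i = 0 := by simpa using this
    rw [h2]
    simp only [zero_mul, zero_div, mul_zero, sub_zero]
    linarith
  · have h3 : ∑ k ∈ fib blk (blk i), (a k - c k) * a k =
        (∑ k ∈ fib blk (blk i), (a k - c k) ^ 2) / 2 := by linarith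
    rw [h3]
    field_simp
    ring

theorem fib_unit {N : ℕ} (b : Unit) : fib (fun _ : Fin N => ()) b = Finset.univ := by
  simp [fib]

/-- a block diagonal orthogonal matrix that spreads the block norms of `c` back to `c`
(a reflection in every block) -/
theorem exists_blockO {N P : ℕ} (blk : Fin N → Fin P) (rep : Fin P → Fin N)
    (h : ∀ b, blk (rep b) = b) (c : Fin N → ℝ) :
    ∃ D : Orth N, (∀ i j, D.1 i j ≠ 0 → blk i = blk j) ∧
      ∀ i, ∑ b, D.1 i (rep b) * √(∑ j ∈ fib blk b, c j ^ 2) = c i := by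
  let a : Fin N → ℝ := fun i => if rep (blk i) = i then √(∑ j ∈ fib blk (blk i), c j ^ 2) else 0
  have ha : ∀ b, a (rep b) = √(∑ j ∈ fib blk b, c j ^ 2) := fun b => by simp [a, h]
  have hinj : Function.Injective rep := fun b b' e => by rw [← h b, e, h]
  have hs : ∀ b, ∑ k ∈ fib blk b, a k ^ 2 = ∑ k ∈ fib blk b, c k ^ 2 := by
    intro b
    rw [Finset.sum_eq_single (rep b), ha, Real.sq_sqrt (Finset.sum_nonneg fun _ _ => sq_nonneg _)]
    · intro k hk hne
      have hk' : blk k = b := (Finset.mem_filter.1 hk).2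
      simp [a, hk', hne.symm]
    · intro hn
      exact absurd (by simp [fib, h]) hn
  refine ⟨bH blk (fun k => a k - c k), fun i j hij => ?_, fun i => ?_⟩
  · by_contra hne
    apply hij
    rw [bH_apply, if_neg (fun e => hne (by rw [e]))]
    simp [bP, Ne.symm hne]
  · rw [← congrFun (bH_swap blk a c hs) i]
    simp only [← ha, Matrix.mulVec, dotProduct]
    rw [← Finset.sum_image (s := Finset.univ) (g := rep)
      (f := fun k => (bH blk fun k => a k - c k).1 i k * a k) hinj.injOn]
    refine Finset.sum_subset (Finset.subset_univ _) fun k _ hk => ?_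
    have : rep (blk k) ≠ k := fun e => hk (Finset.mem_image.2 ⟨_, Finset.mem_univ _, e⟩)
    simp [a, this]

/-- a rotation close to the identity (product of the reflections along `w` and `w + w'`) -/
theorem exists_rotO {P : ℕ} (w w' : Fin P → ℝ) (h1 : ∑ b, w b ^ 2 = 1) (h2 : ∑ b, w' b ^ 2 = 1)
    (h3 : 0 ≤ ∑ b, w b * w' b) : ∃ R : Orth P, R.1.mulVec w = w' ∧
      ∀ x : Fin P → ℝ, ∑ b, (R.1.mulVec x b - x b) ^ 2 ≤
        4 * (∑ b, (w b - w' b) ^ 2) * ∑ b, x b ^ 2 := by
  set t := ∑ b, w b * w' b with ht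
  let u : Fin P → Unit := fun _ => ()
  let s : Fin P → ℝ := fun k => -w k - w' k
  have hs : ∑ k, s k ^ 2 = 2 + 2 * t := by
    have : ∑ k, s k ^ 2 = ∑ k, (w k ^ 2 + w' k ^ 2 + 2 * (w k * w' k)) :=
      Finset.sum_congr rfl fun k _ => by simp only [s]; ring
    rw [this, Finset.sum_add_distrib, Finset.sum_add_distrib, h1, h2, ← Finset.mul_sum]
    ring
  have hd : ∑ b, (w b - w' b) ^ 2 = 2 - 2 * t := by
    have : ∑ k, (w k - w' k) ^ 2 = ∑ k, (w k ^ 2 + w' k ^ 2 - 2 * (w k * w' k)) :=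
      Finset.sum_congr rfl fun k _ => by ring
    rw [this, Finset.sum_sub_distrib, Finset.sum_add_distrib, h1, h2, ← Finset.mul_sum]
    ring
  have hw : ∀ x : Fin P → ℝ, (bH u w).1.mulVec x = fun i => x i - 2 * (w i * ∑ k, w k * x k) := by
    intro x; funext i
    rw [bH_mulVec, fib_unit, h1, div_one]
  have hv : ∀ x : Fin P → ℝ, (bH u s).1.mulVec x =
      fun i => x i - 2 * (s i * (∑ k, s k * x k) / (2 + 2 * t)) := by
    intro x; funext i
    rw [bH_mulVec, fib_unit, hs]
  have hss : (bH u s).1 * (bH u s).1 = 1 := by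
    have := (Matrix.mem_orthogonalGroup_iff _ _).1 (bH u s).2
    rwa [show (bH u s).1.transpose = (bH u s).1 from by
      ext i j; rw [Matrix.transpose_apply, bH_symm]] at this
  refine ⟨bH u s * bH u w, ?_, fun x => ?_⟩
  · show ((bH u s).1 * (bH u w).1).mulVec w = w'
    rw [← Matrix.mulVec_mulVec, hw]
    have : (fun i => w i - 2 * (w i * ∑ k, w k * w k)) = fun i => -w i := by
      funext i
      simp only [← sq, h1]
      ring
    rw [this]
    exact bH_swap u (fun i => -w i) w' fun b => by simp [fib_unit, u, h1, h2]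
  · have e : ∀ b, (bH u s * bH u w).1.mulVec x b - x b =
        (bH u s).1.mulVec ((bH u w).1.mulVec x - (bH u s).1.mulVec x) b := by
      intro b
      rw [Matrix.mulVec_sub, Matrix.mulVec_mulVec, Matrix.mulVec_mulVec, hss, Matrix.one_mulVec]
      rfl
    simp only [e, sq ((bH u s).1.mulVec _ _)]
    rw [orth_inner, hd, hw, hv]
    set α := ∑ k, w k * x k with hα
    set β := ∑ k, w' k * x k with hβ
    set X := ∑ b, x b ^ 2 with hX
    have hsx : ∑ k, s k * x k = -(α + β) := by
      rw [hα, hβ, ← Finset.sum_add_distrib, ← Finset.sum_neg_distrib]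
      exact Finset.sum_congr rfl fun k _ => by simp only [s]; ring
    have hpos : 0 < 2 + 2 * t := by linarith
    set κ := (α + β) / (2 + 2 * t) with hκ
    have hκ' : κ * (2 + 2 * t) = α + β := div_mul_cancel₀ _ hpos.ne'
    have e2 : ∑ i, ((fun i => x i - 2 * (w i * α)) - fun i =>
        x i - 2 * (s i * (∑ k, s k * x k) / (2 + 2 * t))) i * ((fun i => x i - 2 * (w i * α)) -
          fun i => x i - 2 * (s i * (∑ k, s k * x k) / (2 + 2 * t))) i =
        ∑ i, (4 * (α - κ) ^ 2 * w i ^ 2 + 4 * κ ^ 2 * w' i ^ 2 -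
          8 * (α - κ) * κ * (w i * w' i)) := by
      refine Finset.sum_congr rfl fun i _ => ?_
      simp only [Pi.sub_apply, hsx, s, mul_div_assoc, neg_div, ← hκ]
      ring
    rw [e2, Finset.sum_sub_distrib, Finset.sum_add_distrib, ← Finset.mul_sum, ← Finset.mul_sum,
      ← Finset.mul_sum, h1, h2, ← ht]
    have c1 : α ^ 2 ≤ X := by
      have := Finset.sum_mul_sq_le_sq_mul_sq Finset.univ w x
      rwa [h1, one_mul] at this
    have c2 : (β - t * α) ^ 2 ≤ (1 - t ^ 2) * X := by
      have := Finset.sum_mul_sq_le_sq_mul_sq Finset.univ (fun k => w' k - t * w k) x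
      have e3 : ∑ k, (w' k - t * w k) * x k = β - t * α := by
        rw [hα, hβ, Finset.mul_sum, ← Finset.sum_sub_distrib]
        exact Finset.sum_congr rfl fun k _ => by ring
      have e4 : ∑ k, (w' k - t * w k) ^ 2 = 1 - t ^ 2 := by
        have : ∑ k, (w' k - t * w k) ^ 2 =
            ∑ k, (w' k ^ 2 + t ^ 2 * w k ^ 2 - 2 * t * (w k * w' k)) :=
          Finset.sum_congr rfl fun k _ => by ring
        rw [this, Finset.sum_sub_distrib, Finset.sum_add_distrib, ← Finset.mul_sum,
          ← Finset.mul_sum, h1, h2, ← ht]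
        ring
      rwa [e3, e4] at this
    have c3 : t ^ 2 ≤ 1 := by
      have := Finset.sum_mul_sq_le_sq_mul_sq Finset.univ w w'
      rwa [h1, h2, one_mul] at this
    have hX0 : 0 ≤ X := (sq_nonneg _).trans c1
    refine le_of_mul_le_mul_right ?_ hpos
    have e5 : (4 * (α - κ) ^ 2 * 1 + 4 * κ ^ 2 * 1 - 8 * (α - κ) * κ * t) * (2 + 2 * t) =
        4 * ((β - t * α) ^ 2 + (1 - t ^ 2) * α ^ 2) := by
      have : β = κ * (2 + 2 * t) - α := by linarith
      rw [this]
      ring
    rw [e5]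
    have c4 : (1 - t ^ 2) * α ^ 2 ≤ (1 - t ^ 2) * X := mul_le_mul_of_nonneg_left c1 (by linarith)
    have c5 : 0 ≤ (1 - t ^ 2) * X := mul_nonneg (by linarith) hX0
    nlinarith

/-- acts as the identity outside `T` -/
def OnT {M : ℕ} (T : Finset (Fin M)) (O : Orth M) : Prop :=
  ∀ i j, (i ∉ T ∨ j ∉ T) → O.1 i j = if i = j then 1 else 0

/-- every unit vector supported on `T` is a row of an orthogonal matrix acting on `T` -/
theorem exists_rowO {M : ℕ} (T : Finset (Fin M)) {i0 : Fin M} (hi : i0 ∈ T) (u : Fin M → ℝ)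
    (hu : ∑ i ∈ T, u i ^ 2 = 1) : ∃ O : Orth M, OnT T O ∧ ∀ i ∈ T, O.1 i0 i = u i := by
  let a : Fin M → ℝ := fun i => if i = i0 then 1 else 0
  let c : Fin M → ℝ := fun i => if i ∈ T then u i else 0
  have hv : ∀ i, i ∉ T → a i - c i = 0 := fun i h => by
    have : i ≠ i0 := fun e => h (e ▸ hi)
    simp [a, c, h, this]
  refine ⟨bH (fun _ => ()) (fun k => a k - c k), fun i j hij => ?_, fun i hiT => ?_⟩
  · rw [bH_apply]
    rcases hij with h | h <;> simp [bP, hv _ h]
  · have := congrFun (bH_swap (fun _ => ()) a c fun b => by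
      simp [fib_unit, a, c, Finset.sum_ite_mem, hu]) i
    rw [bH_symm]
    simpa [Matrix.mulVec, dotProduct, a, c, hiT] using this

end Crest.Agent.R164
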