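import Crest.Agent.R164.SDefs

/-! # Finite spectra: the R-transform and its primitives -/

set_option autoImplicit false
set_option linter.unusedVariables false
set_option linter.unusedSectionVars false

open MeasureTheory ProbabilityTheory Real Crest.ProbabilityR.InvariantGlass
open scoped ENNReal

namespace Crest.Agent.R164

namespace Spec

variable (S : Spec)

theorem κ_nonneg (b : Fin (S.k + 1)) : 0 ≤ S.κ b := sub_nonneg.2 (S.le_top b)
theorem κ_top : S.κ S.top = 0 := sub_self _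
theorem abs_lam_le (b : Fin (S.k + 1)) : |S.lam b| ≤ S.Λ :=
  Finset.single_le_sum (f := fun b => |S.lam b|) (fun _ _ => abs_nonneg _) (Finset.mem_univ b)
theorem Λ_nonneg : 0 ≤ S.Λ := Finset.sum_nonneg fun _ _ => abs_nonneg _
theorem κ_le (b : Fin (S.k + 1)) : S.κ b ≤ 2 * S.Λ := by
  have h1 := abs_le.1 (S.abs_lam_le b)
  have h2 := abs_le.1 (S.abs_lam_le S.top)
  rw [κ]
  linarith

theorem integral_μ (f : ℝ → ℝ) : ∫ x, f x ∂S.μ = S.av fun b => f (S.lam b) := by
  rw [μ, empiricalLaw, integral_smul_measure,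
    integral_finsetSum_measure fun b _ => integrable_dirac (by simp)]
  simp only [integral_dirac, av, smul_eq_mul, ENNReal.toReal_inv, ENNReal.toReal_natCast]
  push_cast
  rw [div_eq_inv_mul]

theorem s1_n_pos : (0 : ℝ) < (S.k : ℝ) + 1 := by positivity

theorem s1_av_congr {f g : Fin (S.k + 1) → ℝ} (h : ∀ b, f b = g b) : S.av f = S.av g := by
  rw [funext h]

theorem s1_av_const (c : ℝ) : S.av (fun _ => c) = c := by
  have := S.s1_n_pos
  simp only [av, Finset.sum_const, Finset.card_univ, Fintype.card_fin, nsmul_eq_mul]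
  push_cast
  field_simp

theorem s1_av_lin (c d : ℝ) (f g : Fin (S.k + 1) → ℝ) :
    S.av (fun b => c * f b + d * g b) = c * S.av f + d * S.av g := by
  simp only [av, Finset.sum_add_distrib, ← Finset.mul_sum]
  ring

theorem s1_av_mul (c : ℝ) (f : Fin (S.k + 1) → ℝ) : S.av (fun b => c * f b) = c * S.av f := by
  simp only [av, ← Finset.mul_sum]
  ring

theorem s1_av_pos {f : Fin (S.k + 1) → ℝ} (h : ∀ b, 0 < f b) : 0 < S.av f :=
  div_pos (Finset.sum_pos (fun b _ => h b) Finset.univ_nonempty) S.s1_n_pos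

theorem s1_av_mono {f g : Fin (S.k + 1) → ℝ} (h : ∀ b, f b ≤ g b) : S.av f ≤ S.av g :=
  div_le_div_of_nonneg_right (Finset.sum_le_sum fun b _ => h b) S.s1_n_pos.le

theorem s1_av_deriv {f : Fin (S.k + 1) → ℝ → ℝ} {f' : Fin (S.k + 1) → ℝ} {x : ℝ}
    (h : ∀ b, HasDerivAt (f b) (f' b) x) :
    HasDerivAt (fun y => S.av fun b => f b y) (S.av f') x :=
  (HasDerivAt.fun_sum fun b _ => h b).div_const _

theorem s1_av_cont {f : Fin (S.k + 1) → ℝ → ℝ} (h : ∀ b, Continuous (f b)) :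
    Continuous fun y => S.av fun b => f b y :=
  (continuous_finsetSum _ fun b _ => h b).div_const _

theorem s1_den {β : ℝ} (h : 0 ≤ β) (b : Fin (S.k + 1)) : 0 < 1 + S.κ b * β := by
  have := mul_nonneg (S.κ_nonneg b) h
  linarith

/-- weighted averages of the eigenvalues -/
noncomputable def s1W (n : ℕ) (β : ℝ) : ℝ :=
  S.lam S.top -
    (S.av fun b => S.κ b / (1 + S.κ b * β) ^ n) / (S.av fun b => 1 / (1 + S.κ b * β) ^ n)

theorem s1W_one : S.s1W 1 = S.Rh := by
  funext β
  simp only [s1W, Rh, pow_one]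

theorem s1_A_pos (n : ℕ) {β : ℝ} (h : 0 ≤ β) : 0 < S.av fun b => 1 / (1 + S.κ b * β) ^ n :=
  S.s1_av_pos fun b => by have := S.s1_den h b; positivity

theorem s1W_mul (n : ℕ) {β : ℝ} (h : 0 ≤ β) :
    S.s1W n β * (S.av fun b => 1 / (1 + S.κ b * β) ^ n) =
      S.av fun b => S.lam b * (1 / (1 + S.κ b * β) ^ n) := by
  rw [s1W, sub_mul, div_mul_cancel₀ _ (S.s1_A_pos n h).ne', sub_eq_add_neg, ← neg_one_mul,
    ← s1_av_lin]
  refine S.s1_av_congr fun b => ?_
  have : S.lam b = S.lam S.top - S.κ b := by rw [κ]; ring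
  rw [this]
  ring

theorem s1W_abs (n : ℕ) {β : ℝ} (h : 0 ≤ β) : |S.s1W n β| ≤ S.Λ := by
  have hA := S.s1_A_pos n h
  have hw : ∀ b, 0 ≤ 1 / (1 + S.κ b * β) ^ n := fun b => by have := S.s1_den h b; positivity
  rw [abs_le]
  constructor
  · refine le_of_mul_le_mul_right ?_ hA
    rw [s1W_mul S n h, ← s1_av_mul]
    exact S.s1_av_mono fun b => mul_le_mul_of_nonneg_right (abs_le.1 (S.abs_lam_le b)).1 (hw b)
  · refine le_of_mul_le_mul_right ?_ hA
    rw [s1W_mul S n h, ← s1_av_mul]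
    exact S.s1_av_mono fun b => mul_le_mul_of_nonneg_right (abs_le.1 (S.abs_lam_le b)).2 (hw b)

theorem s1_cheb {ι : Type} [Fintype ι] (c w w' : ι → ℝ)
    (h : ∀ a b, c b ≤ c a → w' a * w b ≤ w a * w' b) :
    (∑ a, c a * w' a) * ∑ b, w b ≤ (∑ a, c a * w a) * ∑ b, w' b := by
  have h1 : ∑ a, ∑ b, (c a - c b) * (w' a * w b - w a * w' b) ≤ 0 := by
    refine Finset.sum_nonpos fun a _ => Finset.sum_nonpos fun b _ => ?_
    rcases le_total (c b) (c a) with hh | hh
    · exact mul_nonpos_of_nonneg_of_nonpos (sub_nonneg.2 hh) (sub_nonpos.2 (h a b hh))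
    · have := h b a hh
      exact mul_nonpos_of_nonpos_of_nonneg (sub_nonpos.2 hh) (by linarith)
  have h2 : ∑ a, ∑ b, (c a - c b) * (w' a * w b - w a * w' b) =
      (∑ a, c a * w' a) * (∑ b, w b) - (∑ a, c a * w a) * (∑ b, w' b) -
        (∑ a, w' a) * (∑ b, c b * w b) + (∑ a, w a) * (∑ b, c b * w' b) := by
    simp only [Finset.sum_mul_sum, ← Finset.sum_sub_distrib, ← Finset.sum_add_distrib]
    refine Finset.sum_congr rfl fun a _ => Finset.sum_congr rfl fun b _ => ?_
    ring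
  nlinarith

theorem s1W_mono (n : ℕ) : MonotoneOn (S.s1W n) (Set.Ici 0) := by
  intro β hβ β' hβ' hle
  have hA := S.s1_A_pos n hβ
  have hA' := S.s1_A_pos n hβ'
  refine sub_le_sub_left ?_ _
  rw [div_le_div_iff₀ hA' hA]
  have := s1_cheb S.κ (fun b => 1 / (1 + S.κ b * β) ^ n) (fun b => 1 / (1 + S.κ b * β') ^ n)
    (fun a b hab => by
      have := S.s1_den hβ a
      have := S.s1_den hβ b
      have := S.s1_den hβ' a
      have := S.s1_den hβ' b
      rw [one_div_mul_one_div, one_div_mul_one_div, ← mul_pow, ← mul_pow]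
      refine one_div_le_one_div_of_le (by positivity) (pow_le_pow_left₀ (by positivity) ?_ n)
      nlinarith [mul_nonneg (sub_nonneg.2 hab) (sub_nonneg.2 hle)])
  simp only [av, div_mul_div_comm] at this ⊢
  refine div_le_div_of_nonneg_right ?_ (by positivity)
  simpa only [mul_one_div] using this

theorem s1W_cont (n : ℕ) : Continuous fun x => S.s1W n (max x 0) := by
  have hd : ∀ b x, (1 + S.κ b * max x 0) ^ n ≠ 0 := fun b x =>
    (pow_pos (S.s1_den (le_max_right x 0) b) n).ne'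
  refine continuous_const.sub (Continuous.div (S.s1_av_cont fun b => ?_) (S.s1_av_cont fun b => ?_)
    fun x => (S.s1_A_pos n (le_max_right x 0)).ne')
  · exact continuous_const.div (by fun_prop) (hd b)
  · exact continuous_const.div (by fun_prop) (hd b)

theorem s1_g_zero : S.g 0 = 0 := by simp [g, av]

theorem s1_g_eq (β : ℝ) : S.g β = β * S.av fun b => 1 / (1 + S.κ b * β) := by
  rw [g, ← s1_av_mul]
  exact S.s1_av_congr fun b => by ring

theorem s1_frac_deriv {β : ℝ} (h : 0 ≤ β) (b : Fin (S.k + 1)) :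
    HasDerivAt (fun β => β / (1 + S.κ b * β)) (1 / (1 + S.κ b * β) ^ 2) β := by
  have h1 : HasDerivAt (fun β => 1 + S.κ b * β) (S.κ b) β := by
    simpa using ((hasDerivAt_id β).const_mul (S.κ b)).const_add 1
  have h2 := (hasDerivAt_id' β).fun_div h1 (S.s1_den h b).ne'
  refine h2.congr_deriv ?_
  ring

theorem s1_g_deriv {β : ℝ} (h : 0 ≤ β) :
    HasDerivAt S.g (S.av fun b => 1 / (1 + S.κ b * β) ^ 2) β :=
  S.s1_av_deriv (S.s1_frac_deriv h)

/-- `g` extended by the identity to the negative axis -/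
noncomputable def s1G (β : ℝ) : ℝ := S.av fun b => β / (1 + S.κ b * max β 0)

theorem s1G_eq {β : ℝ} (h : 0 ≤ β) : S.s1G β = S.g β := by
  rw [s1G, max_eq_left h, g]

theorem s1G_neg {β : ℝ} (h : β ≤ 0) : S.s1G β = β := by
  simp only [s1G, max_eq_right h, mul_zero, add_zero, div_one, s1_av_const]

theorem s1G_cont : Continuous S.s1G :=
  S.s1_av_cont fun b =>
    continuous_id.div (by fun_prop) fun x => (S.s1_den (le_max_right x 0) b).ne'

theorem s1G_strictMono : StrictMono S.s1G := by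
  intro x y hxy
  refine div_lt_div_of_pos_right (Finset.sum_lt_sum_of_nonempty Finset.univ_nonempty fun b _ => ?_)
    S.s1_n_pos
  have hκ := S.κ_nonneg b
  rw [div_lt_div_iff₀ (S.s1_den (le_max_right x 0) b) (S.s1_den (le_max_right y 0) b)]
  rcases le_total 0 x with hx | hx
  · rw [max_eq_left hx, max_eq_left (hx.trans hxy.le)]
    nlinarith
  · rw [max_eq_right hx]
    have := mul_nonneg hκ (le_max_right y 0)
    nlinarith

theorem s1G_surj : Function.Surjective S.s1G := by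
  refine S.s1G_cont.surjective ?_ ?_
  · refine Filter.tendsto_atTop_mono' _ ?_ (Filter.tendsto_id.atTop_div_const S.s1_n_pos)
    filter_upwards [Filter.eventually_ge_atTop 0] with β hβ
    refine div_le_div_of_nonneg_right ?_ S.s1_n_pos.le
    have := Finset.single_le_sum (f := fun b => β / (1 + S.κ b * max β 0))
      (fun b _ => div_nonneg hβ (S.s1_den (le_max_right β 0) b).le) (Finset.mem_univ S.top)
    simpa [S.κ_top] using this
  · refine Filter.tendsto_id.congr' ?_
    filter_upwards [Filter.eventually_le_atBot 0] with β hβ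
    exact (S.s1G_neg hβ).symm

/-- the inverse of `g` -/
noncomputable def s1inv : ℝ ≃o ℝ := (S.s1G_strictMono.orderIsoOfSurjective _ S.s1G_surj).symm

theorem s1inv_G (β : ℝ) : S.s1inv (S.s1G β) = β :=
  (S.s1G_strictMono.orderIsoOfSurjective _ S.s1G_surj).symm_apply_apply β

theorem s1G_inv (x : ℝ) : S.s1G (S.s1inv x) = x :=
  (S.s1G_strictMono.orderIsoOfSurjective _ S.s1G_surj).apply_symm_apply x

theorem s1inv_g {β : ℝ} (h : 0 ≤ β) : S.s1inv (S.g β) = β := by
  rw [← S.s1G_eq h, s1inv_G]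

theorem s1inv_zero : S.s1inv 0 = 0 := by
  have := S.s1inv_g le_rfl
  rwa [s1_g_zero] at this

theorem s1_A_eq {β : ℝ} (h : 0 ≤ β) (n : ℕ) :
    (S.av fun b => 1 / (1 + S.κ b * β) ^ (n + 1)) = (S.av fun b => 1 / (1 + S.κ b * β) ^ n) -
      β * S.av fun b => S.κ b / (1 + S.κ b * β) ^ (n + 1) := by
  rw [sub_eq_add_neg, ← neg_mul, ← one_mul (S.av fun b => 1 / (1 + S.κ b * β) ^ n), ← s1_av_lin]
  refine S.s1_av_congr fun b => ?_
  have := S.s1_den h b
  field_simp
  ring

theorem Rh_zero : S.Rh 0 = S.av S.lam := by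
  have := S.s1W_mul 1 le_rfl
  simpa [s1W_one, s1_av_const] using this

/-- larger `β` puts more weight on the small gaps (Chebyshev's sum inequality, or derivative) -/
theorem Rh_mono : MonotoneOn S.Rh (Set.Ici 0) := S.s1W_one ▸ S.s1W_mono 1

theorem abs_Rh_le {β : ℝ} (h : 0 ≤ β) : |S.Rh β| ≤ S.Λ := S.s1W_one ▸ S.s1W_abs 1 h

/-- `g` is continuous, strictly increasing on `[0, ∞)` from `0` to `∞` (`κ top = 0`), with positive
derivative `av (1/(1+κβ)²)`; `b = lam top + 1/β` is the unique solution of the resolvent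
equation, so `R (g β) = lam top + 1/β - 1/(g β) = Rh β`. -/
theorem R_g {β : ℝ} (h : 0 ≤ β) : S.R (S.g β) = S.Rh β := by
  rcases h.eq_or_lt with rfl | hβ
  · rw [s1_g_zero, Rh_zero, R, rTransform, if_neg (lt_irrefl _), integral_μ]
  have hA := S.s1_A_pos 1 h
  have hA1 := S.s1_A_eq h 0
  simp only [pow_one, zero_add, pow_zero, div_one, s1_av_const] at hA hA1
  have hg : 0 < S.g β := by rw [s1_g_eq]; positivity
  have key : ∀ γ, 0 < γ → ∫ lam, (S.lam S.top + 1 / γ - lam)⁻¹ ∂S.μ = S.g γ := by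
    intro γ hγ
    rw [integral_μ, g]
    refine S.s1_av_congr fun b => ?_
    have h1 := S.s1_den hγ.le b
    have h2 : S.lam S.top + 1 / γ - S.lam b = (1 + S.κ b * γ) / γ := by
      rw [κ]; field_simp; ring
    rw [h2, inv_div]
  have hset : {b : ℝ | S.lam S.top < b ∧ ∫ lam, (b - lam)⁻¹ ∂S.μ = S.g β} =
      {S.lam S.top + 1 / β} := by
    ext b
    simp only [Set.mem_ofPred_eq, Set.mem_singleton_iff]
    constructor
    · rintro ⟨h1, h2⟩
      have hγ : 0 < 1 / (b - S.lam S.top) := one_div_pos.2 (sub_pos.2 h1)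
      have h3 := key _ hγ
      rw [one_div_one_div, add_sub_cancel, h2] at h3
      have h4 := congrArg S.s1inv h3
      rw [S.s1inv_g h, S.s1inv_g hγ.le] at h4
      rw [h4, one_div_one_div, add_sub_cancel]
    · rintro rfl
      exact ⟨lt_add_of_pos_right _ (one_div_pos.2 hβ), key β hβ⟩
  rw [R, rTransform, if_pos hg, resolventPoint,
    if_pos ⟨_, lt_add_of_pos_right _ (one_div_pos.2 hβ), key β hβ⟩, hset, csInf_singleton, Rh,
    s1_g_eq]
  generalize (S.av fun b => 1 / (1 + S.κ b * β)) = A at *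
  generalize (S.av fun b => S.κ b / (1 + S.κ b * β)) = B at *
  field_simp
  rw [hA1]
  ring

theorem s1_R_eq (x : ℝ) : S.R x = S.s1W 1 (max (S.s1inv x) 0) := by
  rw [s1W_one]
  rcases le_total 0 x with hx | hx
  · have h : 0 ≤ S.s1inv x := by
      have := S.s1inv.monotone hx
      rwa [s1inv_zero] at this
    rw [max_eq_left h, ← S.R_g h, ← S.s1G_eq h, s1G_inv]
  · have h : S.s1inv x ≤ 0 := by
      have := S.s1inv.monotone hx
      rwa [s1inv_zero] at this
    rw [max_eq_right h, Rh_zero, R, rTransform, if_neg (not_lt.2 hx), integral_μ]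

theorem s1_ext {f f' : ℝ → ℝ} (h0 : f 0 = f' 0)
    (h : ∀ β, 0 ≤ β → ∃ d, HasDerivAt f d β ∧ HasDerivAt f' d β) {β : ℝ} (hβ : 0 ≤ β) :
    f β = f' β := by
  have hd : ∀ x, 0 ≤ x → HasDerivAt (fun y => f y - f' y) 0 x := by
    intro x hx
    obtain ⟨d, h1, h2⟩ := h x hx
    simpa using h1.fun_sub h2
  have := constant_of_has_deriv_right_zero (f := fun y => f y - f' y) (a := 0) (b := β)
    (fun x hx => (hd x hx.1).continuousAt.continuousWithinAt)
    (fun x hx => (hd x hx.1).hasDerivWithinAt) β ⟨hβ, le_rfl⟩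
  simp only [h0, sub_self] at this
  exact sub_eq_zero.1 this

theorem s1_gRh {β : ℝ} (h : 0 ≤ β) :
    S.g β * S.Rh β = S.av fun b => S.lam b * (β / (1 + S.κ b * β)) := by
  have := S.s1W_mul 1 h
  simp only [s1W_one, pow_one] at this
  rw [s1_g_eq, mul_assoc, mul_comm _ (S.Rh β), this, ← s1_av_mul]
  exact S.s1_av_congr fun b => by ring

theorem s1_phi_deriv {β : ℝ} (h : 0 ≤ β) :
    HasDerivAt (fun β => S.av fun b => S.lam b * (β / (1 + S.κ b * β)))
      (S.s1W 2 β * S.av fun b => 1 / (1 + S.κ b * β) ^ 2) β := by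
  rw [S.s1W_mul 2 h]
  exact S.s1_av_deriv fun b => (S.s1_frac_deriv h b).const_mul _

theorem s1_LL_deriv {β : ℝ} (h : 0 ≤ β) :
    HasDerivAt S.LL ((S.av fun b => S.κ b / (1 + S.κ b * β)) +
      (S.av fun b => -(S.κ b / (1 + S.κ b * β) ^ 2)) / S.av fun b => 1 / (1 + S.κ b * β)) β := by
  have h1 : ∀ b, HasDerivAt (fun β => 1 + S.κ b * β) (S.κ b) β := fun b => by
    simpa using ((hasDerivAt_id β).const_mul (S.κ b)).const_add 1
  have hA := S.s1_A_pos 1 h
  simp only [pow_one] at hA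
  refine (S.s1_av_deriv fun b => (h1 b).log (S.s1_den h b).ne').add
    ((S.s1_av_deriv fun b => ?_).log hA.ne')
  have := (hasDerivAt_const β (1 : ℝ)).fun_div (h1 b) (S.s1_den h b).ne'
  refine this.congr_deriv ?_
  ring

/-- Let `ginv` be the inverse of `g` on `[0,∞)` (extended by `0`, differentiable on `(0,∞)` by the
inverse function rule), `ω x = x R x = lam top · x - av (κ β/(1+κβ))`,
`ρ = ω' = lam top - av (κ/(1+κβ)²) / av (1/(1+κβ)²)` (nondecreasing in `β`),
`I x = x R x - LL β = ∫_0^x R`, all at `β = ginv x`; for `x ≤ 0` extend `ρ`, `R` by their value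
`av lam` at `0` and `ω`, `I` linearly (or define `ω, I` as integrals of the continuous functions
`ρ`, `R` and check the formulas by differentiating in `β`). -/
theorem exists_primitives : ∃ ρ ω I : ℝ → ℝ, Continuous ρ ∧ Monotone ρ ∧ (∀ x, |ρ x| ≤ S.Λ) ∧
    (∀ x, HasDerivAt ω (ρ x) x) ∧ (∀ x, 0 ≤ x → ω x = x * S.R x) ∧
    (∀ β, 0 ≤ β → ω (S.g β) = S.av fun b => S.lam b * (β / (1 + S.κ b * β))) ∧
    Continuous S.R ∧ (∀ x, |S.R x| ≤ S.Λ) ∧ (∀ x, HasDerivAt I (S.R x) x) ∧
    (∀ β, 0 ≤ β → I (S.g β) = S.g β * S.Rh β - S.LL β) := by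
  have hc : ∀ n, Continuous fun x => S.s1W n (max (S.s1inv x) 0) := fun n =>
    (S.s1W_cont n).comp S.s1inv.continuous
  have hR : Continuous S.R := by
    rw [funext S.s1_R_eq]
    exact hc 1
  have hω : ∀ x, HasDerivAt (fun x => ∫ t in (0 : ℝ)..x, S.s1W 2 (max (S.s1inv t) 0))
      (S.s1W 2 (max (S.s1inv x) 0)) x := fun x => ((hc 2).integral_hasStrictDerivAt 0 x).hasDerivAt
  have hI : ∀ x, HasDerivAt (fun x => ∫ t in (0 : ℝ)..x, S.R t) (S.R x) x := fun x =>
    (hR.integral_hasStrictDerivAt 0 x).hasDerivAt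
  have hωg : ∀ β, 0 ≤ β → ∫ t in (0 : ℝ)..S.g β, S.s1W 2 (max (S.s1inv t) 0) =
      S.av fun b => S.lam b * (β / (1 + S.κ b * β)) := by
    intro β hβ
    refine s1_ext (f := fun β => ∫ t in (0 : ℝ)..S.g β, S.s1W 2 (max (S.s1inv t) 0))
      (f' := fun β => S.av fun b => S.lam b * (β / (1 + S.κ b * β))) ?_ (fun γ hγ => ?_) hβ
    · simp [s1_g_zero, av]
    · refine ⟨_, ?_, S.s1_phi_deriv hγ⟩
      have := (hω (S.g γ)).comp γ (S.s1_g_deriv hγ)
      rwa [S.s1inv_g hγ, max_eq_left hγ] at this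
  refine ⟨fun x => S.s1W 2 (max (S.s1inv x) 0),
    fun x => ∫ t in (0 : ℝ)..x, S.s1W 2 (max (S.s1inv t) 0), fun x => ∫ t in (0 : ℝ)..x, S.R t,
    hc 2, fun x y hxy => S.s1W_mono 2 (Set.mem_Ici.2 (le_max_right _ _)) (Set.mem_Ici.2 (le_max_right _ _))
      (max_le_max_right 0 (S.s1inv.monotone hxy)), fun x => S.s1W_abs 2 (le_max_right _ _), hω,
    fun x hx => ?_, hωg, hR, fun x => ?_, hI, fun β hβ => ?_⟩
  · have h : 0 ≤ S.s1inv x := by
      have := S.s1inv.monotone hx
      rwa [s1inv_zero] at this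
    have hx' : x = S.g (S.s1inv x) := by rw [← S.s1G_eq h, s1G_inv]
    generalize S.s1inv x = β at *
    subst hx'
    rw [S.R_g h, S.s1_gRh h]
    exact hωg β h
  · rw [s1_R_eq]
    exact S.s1W_abs 1 (le_max_right _ _)
  · rw [S.s1_gRh hβ]
    refine s1_ext (f := fun β => ∫ t in (0 : ℝ)..S.g β, S.R t)
      (f' := fun β => (S.av fun b => S.lam b * (β / (1 + S.κ b * β))) - S.LL β) ?_
      (fun γ hγ => ?_) hβ
    · have := S.s1_n_pos
      simp [s1_g_zero, LL, s1_av_const]
    · refine ⟨_, (hI (S.g γ)).comp γ (S.s1_g_deriv hγ), ?_⟩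
      refine ((S.s1_phi_deriv hγ).fun_sub (S.s1_LL_deriv hγ)).congr_deriv (Eq.symm ?_)
      have hA := S.s1_A_pos 1 hγ
      have hA2 := S.s1_A_pos 2 hγ
      have e1 := S.s1_A_eq hγ 0
      have e2 := S.s1_A_eq hγ 1
      have e3 : (S.av fun b => -(S.κ b / (1 + S.κ b * γ) ^ 2)) =
          -1 * S.av fun b => S.κ b / (1 + S.κ b * γ) ^ 2 := by
        rw [← s1_av_mul]
        exact S.s1_av_congr fun b => by ring
      simp only [pow_one, zero_add, pow_zero, div_one, s1_av_const, one_add_one_eq_two] at hA e1 e2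
      rw [S.R_g hγ, Rh, s1W, e3]
      generalize (S.av fun b => 1 / (1 + S.κ b * γ)) = A at *
      generalize (S.av fun b => S.κ b / (1 + S.κ b * γ)) = B at *
      generalize (S.av fun b => 1 / (1 + S.κ b * γ) ^ 2) = A2 at *
      generalize (S.av fun b => S.κ b / (1 + S.κ b * γ) ^ 2) = B2 at *
      field_simp
      rw [e2, e1]
      ring

end Spec

end Crest.Agent.R164
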