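import Crest.Agent.R164.SDefs

/-! # Quantiles, sorted matchings, counting from weak convergence -/

set_option autoImplicit false
set_option linter.unusedVariables false
set_option linter.unusedSectionVars false

open MeasureTheory ProbabilityTheory Real Crest.ProbabilityR.InvariantGlass
open scoped ENNReal

namespace Crest.Agent.R164

theorem exists_quantile (μ : Measure ℝ) [IsProbabilityMeasure μ] {lo hi : ℝ} (hle : lo ≤ hi)
    (hs : μ (Set.Icc lo hi) = 1) : ∃ Q : ℝ → ℝ, Monotone Q ∧ (∀ u, Q u ∈ Set.Icc lo hi) ∧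
      (volume.restrict (Set.Ioo (0 : ℝ) 1)).map Q = μ := by
  have hc0 : μ (Set.Icc lo hi)ᶜ = 0 := (prob_compl_eq_zero_iff measurableSet_Icc).2 hs
  have hlow : ∀ x, x < lo → cdf μ x = 0 := by
    intro x hx
    have h1 : μ (Set.Iic x) = 0 := by
      refine measure_mono_null ?_ hc0
      intro y hy hy'
      exact absurd (lt_of_le_of_lt hy hx) (not_lt.2 hy'.1)
    rw [cdf_eq_real, measureReal_def, h1]
    rfl
  have hhigh : ∀ x, hi ≤ x → cdf μ x = 1 := by
    intro x hx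
    have h1 : μ (Set.Iic x) = 1 :=
      le_antisymm prob_le_one (hs ▸ measure_mono fun y hy => le_trans hy.2 hx)
    rw [cdf_eq_real, measureReal_def, h1]
    rfl
  let S : ℝ → Set ℝ := fun u => {x | lo ≤ x ∧ (u ≤ cdf μ x ∨ hi ≤ x)}
  have hS1 : ∀ u, hi ∈ S u := fun u => ⟨hle, Or.inr le_rfl⟩
  have hS2 : ∀ u, BddBelow (S u) := fun u => ⟨lo, fun x hx => hx.1⟩
  have hmono : Monotone fun u => sInf (S u) := by
    intro u v huv
    refine csInf_le_csInf (hS2 u) ⟨hi, hS1 v⟩ ?_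
    rintro x ⟨hx1, hx2 | hx2⟩
    · exact ⟨hx1, Or.inl (huv.trans hx2)⟩
    · exact ⟨hx1, Or.inr hx2⟩
  have hkey : ∀ u ∈ Set.Ioo (0 : ℝ) 1, ∀ x, sInf (S u) ≤ x ↔ u ≤ cdf μ x := by
    intro u hu x
    constructor
    · intro hx
      have ht : Filter.Tendsto (cdf μ) (nhdsWithin x (Set.Ioi x)) (nhds (cdf μ x)) :=
        ((cdf μ).right_continuous x).mono Set.Ioi_subset_Ici_self
      refine ge_of_tendsto ht ?_
      filter_upwards [self_mem_nhdsWithin] with y hy
      obtain ⟨s, hs1, hs2⟩ := exists_lt_of_csInf_lt ⟨hi, hS1 u⟩ (lt_of_le_of_lt hx hy)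
      have h3 : u ≤ cdf μ s := by
        rcases hs1.2 with h | h
        · exact h
        · rw [hhigh s h]; exact hu.2.le
      exact h3.trans (monotone_cdf μ hs2.le)
    · intro hx
      have hlo : lo ≤ x := by
        by_contra hcon
        rw [hlow x (not_le.1 hcon)] at hx
        exact absurd hu.1 (not_lt.2 hx)
      exact csInf_le (hS2 u) ⟨hlo, Or.inl hx⟩
  refine ⟨fun u => sInf (S u), hmono, fun u => ⟨le_csInf ⟨hi, hS1 u⟩ fun x hx => hx.1,
    csInf_le (hS2 u) (hS1 u)⟩, ?_⟩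
  symm
  refine Measure.ext_of_Iic _ _ fun x => ?_
  rw [Measure.map_apply hmono.measurable measurableSet_Iic,
    Measure.restrict_apply (hmono.measurable measurableSet_Iic), ← ofReal_cdf]
  refine le_antisymm ?_ ?_
  · calc ENNReal.ofReal (cdf μ x) = volume (Set.Ioo (0 : ℝ) (cdf μ x)) := by
          rw [Real.volume_Ioo, sub_zero]
      _ ≤ _ := by
          refine measure_mono fun u hu => ?_
          have hu' : u ∈ Set.Ioo (0 : ℝ) 1 := ⟨hu.1, hu.2.trans_le (cdf_le_one μ x)⟩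
          exact ⟨(hkey u hu' x).2 hu.2.le, hu'⟩
  · calc _ ≤ volume (Set.Ioc (0 : ℝ) (cdf μ x)) :=
          measure_mono fun u hu => ⟨hu.2.1, (hkey u hu.2 x).1 hu.1⟩
      _ = ENNReal.ofReal (cdf μ x) := by rw [Real.volume_Ioc, sub_zero]

/-- sort both vectors (`Tuple.sort`) -/
theorem exists_perm_le {N : ℕ} (a b : Fin N → ℝ)
    (h : ∀ i, (Finset.univ.filter fun j => a i ≤ a j).card ≤
      (Finset.univ.filter fun j => a i ≤ b j).card) :
    ∃ ς : Equiv.Perm (Fin N), ∀ i, a i ≤ b (ς i) := by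
  have hperm : ∀ (c : Fin N → ℝ) (σ : Equiv.Perm (Fin N)) (x : ℝ),
      (Finset.univ.filter fun j => (c ∘ σ) j < x).card + (Finset.univ.filter fun j => x ≤ c j).card
        = N := by
    intro c σ x
    have h1 : (Finset.univ.filter fun j => (c ∘ σ) j < x).card =
        (Finset.univ.filter fun j => ¬ x ≤ c j).card :=
      Finset.card_equiv σ (by simp)
    rw [h1, add_comm, Finset.card_filter_add_card_filter_not]
    simp
  have hle : ∀ j, (a ∘ Tuple.sort a) j ≤ (b ∘ Tuple.sort b) j := by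
    intro j
    by_contra hcon
    have h1 := (Tuple.lt_card_lt_iff_apply_lt_of_monotone (j := j) (a := (a ∘ Tuple.sort a) j)
      (Tuple.monotone_sort b)).2 (not_le.1 hcon)
    have h2 := hperm a (Tuple.sort a) ((a ∘ Tuple.sort a) j)
    have h3 := hperm b (Tuple.sort b) ((a ∘ Tuple.sort a) j)
    have h4 := h (Tuple.sort a j)
    have h5 : (j : ℕ) < (Finset.univ.filter fun i => (a ∘ Tuple.sort a) i <
        (a ∘ Tuple.sort a) j).card := by
      simp only [Function.comp] at h1 h2 h3 h4 ⊢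
      omega
    exact lt_irrefl _ ((Tuple.lt_card_lt_iff_apply_lt_of_monotone (Tuple.monotone_sort a)).1 h5)
  refine ⟨(Tuple.sort a).symm.trans (Tuple.sort b), fun i => ?_⟩
  simpa using hle ((Tuple.sort a).symm i)

theorem s5_count {μ : Measure ℝ} [IsProbabilityMeasure μ] {eig : (N : ℕ) → Fin N → ℝ}
    (hweak : ∀ φ : ℝ → ℝ, Continuous φ → (∃ C : ℝ, ∀ x, |φ x| ≤ C) →
      Filter.Tendsto (fun N : ℕ => (1 / (N : ℝ)) * ∑ i : Fin N, φ (eig N i)) Filter.atTop
        (nhds (∫ x, φ x ∂μ))) {A : Set ℝ} (hA : MeasurableSet A) (p : ℝ → Prop) [DecidablePred p]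
    (φ : ℝ → ℝ) (hφ : Continuous φ) (h0 : ∀ y, 0 ≤ φ y) (h1 : ∀ y, φ y ≤ 1)
    (hAφ : ∀ y ∈ A, φ y = 1) (hp : ∀ y, ¬ p y → φ y = 0) {δ : ℝ} (hδ : 0 < δ) :
    ∀ᶠ N : ℕ in Filter.atTop, (μ.real A - δ) * N ≤
      ((Finset.univ.filter fun i => p (eig N i)).card : ℝ) := by
  have hb : ∀ y, |φ y| ≤ 1 := fun y => by rw [abs_of_nonneg (h0 y)]; exact h1 y
  have hint : Integrable φ μ :=
    Integrable.of_bound hφ.aestronglyMeasurable 1 (Filter.Eventually.of_forall hb)
  have hge : μ.real A ≤ ∫ x, φ x ∂μ := by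
    rw [← integral_indicator_one hA]
    refine integral_mono ((integrable_const (1 : ℝ)).indicator hA) hint fun y => ?_
    by_cases hy : y ∈ A
    · simp [Set.indicator_of_mem hy, hAφ y hy]
    · simp [Set.indicator_of_notMem hy, h0 y]
  have hev := (hweak φ hφ ⟨1, hb⟩).eventually
    (lt_mem_nhds (show ∫ x, φ x ∂μ - δ < ∫ x, φ x ∂μ by linarith))
  filter_upwards [hev, Filter.eventually_gt_atTop 0] with N hN hN0
  have hN' : (0 : ℝ) < N := by exact_mod_cast hN0
  have hsum : ∑ i : Fin N, φ (eig N i) ≤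
      ((Finset.univ.filter fun i => p (eig N i)).card : ℝ) := by
    rw [Finset.card_filter]
    push_cast
    refine Finset.sum_le_sum fun i _ => ?_
    split_ifs with hi
    · exact h1 _
    · exact (hp _ hi).le
  rw [one_div, ← div_eq_inv_mul, lt_div_iff₀ hN'] at hN
  nlinarith

/-- a one-sided portmanteau statement (test with a piecewise linear function) -/
theorem eventually_count_ge {μ : Measure ℝ} [IsProbabilityMeasure μ] {eig : (N : ℕ) → Fin N → ℝ}
    (hweak : ∀ φ : ℝ → ℝ, Continuous φ → (∃ C : ℝ, ∀ x, |φ x| ≤ C) →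
      Filter.Tendsto (fun N : ℕ => (1 / (N : ℝ)) * ∑ i : Fin N, φ (eig N i)) Filter.atTop
        (nhds (∫ x, φ x ∂μ))) (x : ℝ) {ε δ : ℝ} (hε : 0 < ε) (hδ : 0 < δ) :
    (∀ᶠ N : ℕ in Filter.atTop, (μ.real (Set.Ici x) - δ) * N ≤
      ((Finset.univ.filter fun i => x - ε ≤ eig N i).card : ℝ)) ∧
    (∀ᶠ N : ℕ in Filter.atTop, (μ.real (Set.Iic x) - δ) * N ≤
      ((Finset.univ.filter fun i => eig N i ≤ x + ε).card : ℝ)) := by
  have hcl : ∀ t : ℝ, 0 ≤ max 0 (min 1 t) ∧ max 0 (min 1 t) ≤ 1 := fun t =>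
    ⟨le_max_left _ _, max_le zero_le_one (min_le_left _ _)⟩
  constructor
  · refine s5_count hweak measurableSet_Ici (fun y => x - ε ≤ y)
      (fun y => max 0 (min 1 ((y - (x - ε)) / ε))) (by fun_prop) (fun y => (hcl _).1)
      (fun y => (hcl _).2) ?_ ?_ hδ
    · intro y hy
      have h1 : 1 ≤ (y - (x - ε)) / ε := by
        rw [le_div_iff₀ hε]
        have : x ≤ y := hy
        linarith
      rw [min_eq_left h1, max_eq_right zero_le_one]
    · intro y hy
      have h1 : (y - (x - ε)) / ε ≤ 0 :=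
        div_nonpos_of_nonpos_of_nonneg (by linarith [not_le.1 hy]) hε.le
      exact max_eq_left ((min_le_right _ _).trans h1)
  · refine s5_count hweak measurableSet_Iic (fun y => y ≤ x + ε)
      (fun y => max 0 (min 1 ((x + ε - y) / ε))) (by fun_prop) (fun y => (hcl _).1)
      (fun y => (hcl _).2) ?_ ?_ hδ
    · intro y hy
      have h1 : 1 ≤ (x + ε - y) / ε := by
        rw [le_div_iff₀ hε]
        have : y ≤ x := hy
        linarith
      rw [min_eq_left h1, max_eq_right zero_le_one]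
    · intro y hy
      have h1 : (x + ε - y) / ε ≤ 0 :=
        div_nonpos_of_nonpos_of_nonneg (by linarith [not_le.1 hy]) hε.le
      exact max_eq_left ((min_le_right _ _).trans h1)

theorem s5_card_per (k N : ℕ) (b : Fin (k + 1)) :
    (Finset.univ.filter fun i : Fin N => per k N i = b).card =
      N / (k + 1) + if (b : ℕ) < N % (k + 1) then 1 else 0 := by
  have h1 := Nat.count_modEq_card N (Nat.succ_pos k) (b : ℕ)
  rw [Nat.mod_eq_of_lt b.2, Nat.count_eq_card_filter_range] at h1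
  rw [← h1]
  refine Finset.card_bij (fun i _ => (i : ℕ)) ?_ ?_ ?_
  · intro i hi
    have h2 := congrArg Fin.val (Finset.mem_filter.1 hi).2
    refine Finset.mem_filter.2 ⟨Finset.mem_range.2 i.2, ?_⟩
    show (i : ℕ) % (k + 1) = (b : ℕ) % (k + 1)
    rw [Nat.mod_eq_of_lt b.2]
    exact h2
  · intro i _ j _ hij
    exact Fin.ext hij
  · intro n hn
    obtain ⟨hn1, hn2⟩ := Finset.mem_filter.1 hn
    refine ⟨⟨n, Finset.mem_range.1 hn1⟩, Finset.mem_filter.2 ⟨Finset.mem_univ _, Fin.ext ?_⟩, rfl⟩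
    have h3 : n % (k + 1) = (b : ℕ) % (k + 1) := hn2
    rw [Nat.mod_eq_of_lt b.2] at h3
    exact h3

theorem card_per (k N : ℕ) (b : Fin (k + 1)) :
    |((Finset.univ.filter fun i : Fin N => per k N i = b).card : ℝ) - (N : ℝ) / (k + 1)| ≤ 1 := by
  have hk : (0 : ℝ) < (k : ℝ) + 1 := by positivity
  have h1 : (N : ℝ) = ((k : ℝ) + 1) * ((N / (k + 1) : ℕ) : ℝ) + ((N % (k + 1) : ℕ) : ℝ) := by
    exact_mod_cast (Nat.div_add_mod N (k + 1)).symm
  have h2 : ((N % (k + 1) : ℕ) : ℝ) ≤ (k : ℝ) + 1 := by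
    exact_mod_cast (Nat.mod_lt N (Nat.succ_pos k)).le
  have h3 : (N : ℝ) / (k + 1) =
      ((N / (k + 1) : ℕ) : ℝ) + ((N % (k + 1) : ℕ) : ℝ) / ((k : ℝ) + 1) := by
    rw [div_eq_iff hk.ne', add_mul, div_mul_cancel₀ _ hk.ne']
    linarith
  have h4 : 0 ≤ ((N % (k + 1) : ℕ) : ℝ) / ((k : ℝ) + 1) := by positivity
  have h5 : ((N % (k + 1) : ℕ) : ℝ) / ((k : ℝ) + 1) ≤ 1 := (div_le_one hk).2 h2
  rw [s5_card_per, h3, abs_le]
  split_ifs
  · push_cast
    constructor <;> linarith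
  · push_cast
    constructor <;> linarith

theorem card_per_of_dvd {k N : ℕ} (h : k + 1 ∣ N) (b : Fin (k + 1)) :
    ((Finset.univ.filter fun i : Fin N => per k N i = b).card : ℝ) = (N : ℝ) / (k + 1) := by
  have hk : (k : ℝ) + 1 ≠ 0 := by positivity
  rw [s5_card_per, Nat.mod_eq_zero_of_dvd h, if_neg (Nat.not_lt_zero _), add_zero,
    Nat.cast_div h (by exact_mod_cast hk)]
  push_cast
  rfl

theorem sum_per_of_dvd {k N : ℕ} (h : k + 1 ∣ N) (f : Fin (k + 1) → ℝ) :
    ∑ i : Fin N, f (per k N i) = (N : ℝ) / (k + 1) * ∑ b, f b := by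
  rw [← Finset.sum_fiberwise Finset.univ (per k N), Finset.mul_sum]
  refine Finset.sum_congr rfl fun b _ => ?_
  rw [Finset.sum_congr rfl (g := fun _ => f b)
    (fun i hi => by rw [(Finset.mem_filter.1 hi).2]), Finset.sum_const, nsmul_eq_mul,
    card_per_of_dvd h]

/-- the law of `lam ⌊P u⌋` for uniform `u` -/
theorem map_floor_eq_empiricalLaw {k : ℕ} (lam : Fin (k + 1) → ℝ) :
    (volume.restrict (Set.Ioo (0 : ℝ) 1)).map
      (fun u => lam ⟨min ⌊((k : ℝ) + 1) * u⌋₊ k, Nat.lt_succ_of_le (min_le_right _ _)⟩) =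
      empiricalLaw lam := by
  have hk : (0 : ℝ) < (k : ℝ) + 1 := by positivity
  let g : ℝ → Fin (k + 1) := fun u =>
    ⟨min ⌊((k : ℝ) + 1) * u⌋₊ k, Nat.lt_succ_of_le (min_le_right _ _)⟩
  have hg : Measurable g :=
    (measurable_of_countable (fun n : ℕ =>
      (⟨min n k, Nat.lt_succ_of_le (min_le_right _ _)⟩ : Fin (k + 1)))).comp
      (measurable_const.mul measurable_id).nat_floor
  have hlam : Measurable lam := measurable_of_countable lam
  have hone : ∀ b : Fin (k + 1), (volume.restrict (Set.Ioo (0 : ℝ) 1)).map g {b} =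
      ((k + 1 : ℕ) : ℝ≥0∞)⁻¹ := by
    intro b
    have hb : ((b : ℕ) : ℝ) ≤ k := by exact_mod_cast Nat.lt_succ_iff.1 b.2
    have hb0 : (0 : ℝ) ≤ ((b : ℕ) : ℝ) := Nat.cast_nonneg _
    have hv : ENNReal.ofReal ((((b : ℕ) : ℝ) + 1) / ((k : ℝ) + 1) - ((b : ℕ) : ℝ) / ((k : ℝ) + 1)) =
        ((k + 1 : ℕ) : ℝ≥0∞)⁻¹ := by
      rw [← sub_div, add_sub_cancel_left, one_div, ENNReal.ofReal_inv_of_pos hk,
        ← ENNReal.ofReal_natCast]
      push_cast
      rfl
    have hiff : ∀ u ∈ Set.Ioo (0 : ℝ) 1, g u = b ↔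
        ((b : ℕ) : ℝ) / ((k : ℝ) + 1) ≤ u ∧ u < (((b : ℕ) : ℝ) + 1) / ((k : ℝ) + 1) := by
      intro u hu
      have h0 : 0 ≤ ((k : ℝ) + 1) * u := mul_nonneg hk.le hu.1.le
      have h1 : ⌊((k : ℝ) + 1) * u⌋₊ ≤ k := by
        rw [← Nat.lt_succ_iff, Nat.floor_lt h0]
        push_cast
        nlinarith [hu.2]
      rw [Fin.ext_iff, div_le_iff₀ hk, lt_div_iff₀ hk, mul_comm u]
      show min ⌊((k : ℝ) + 1) * u⌋₊ k = (b : ℕ) ↔ _
      rw [min_eq_left h1, Nat.floor_eq_iff h0]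
    rw [Measure.map_apply hg (measurableSet_singleton b),
      Measure.restrict_apply (hg (measurableSet_singleton b)), ← hv]
    refine le_antisymm ?_ ?_
    · rw [← Real.volume_Ico]
      exact measure_mono fun u hu => (hiff u hu.2).1 hu.1
    · rw [← Real.volume_Ioo]
      refine measure_mono fun u hu => ?_
      have hu' : u ∈ Set.Ioo (0 : ℝ) 1 :=
        ⟨lt_of_le_of_lt (div_nonneg hb0 hk.le) hu.1,
          lt_of_lt_of_le hu.2 ((div_le_one hk).2 (by linarith))⟩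
      exact ⟨(hiff u hu').2 ⟨hu.1.le, hu.2⟩, hu'⟩
  have hmap : (volume.restrict (Set.Ioo (0 : ℝ) 1)).map g =
      ((k + 1 : ℕ) : ℝ≥0∞)⁻¹ • ∑ r : Fin (k + 1), Measure.dirac r := by
    refine Measure.ext_iff_singleton.2 fun b => ?_
    rw [hone b, Measure.smul_apply, Measure.finset_sum_apply]
    simp [Pi.single_apply]
  show (volume.restrict (Set.Ioo (0 : ℝ) 1)).map (lam ∘ g) = _
  rw [← Measure.map_map hlam hg, hmap, Measure.map_smul, empiricalLaw]
  congr 1
  ext s hs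
  rw [Measure.map_apply hlam hs, Measure.finset_sum_apply, Measure.finset_sum_apply]
  refine Finset.sum_congr rfl fun r _ => ?_
  rw [Measure.dirac_apply' _ (hlam hs), Measure.dirac_apply' _ hs]
  rfl

end Crest.Agent.R164
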