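import Crest.Agent.R164.C1
import Crest.Agent.R164.H3
import Crest.Agent.R164.G1
import Crest.Agent.R164.S1
import Crest.Agent.R164.S5

/-! # Concentration of the free energy under Haar measure

Let `J_j = {i : per i ≤ j}` for `j < k` (at most `(1 - 1/(2(k+1))) N` rows), `Good` the event that
all `J_j` are `RowsOK c` (probability `≥ ½`), `Π_j(G)` the orthogonal projection of `ℝ^N` on the
span of the rows in `J_j` (`G_Jᵀ (G_J G_Jᵀ)⁻¹ G_J`, measurable in `G`), and
`Fg G = log (2^{-N} Σ_σ exp (½ (lam_k N + Σ_{j<k} (lam_j - lam_{j+1}) σᵀ Π_j σ) + f σ))`.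
* For `G ∈ Good` there is `U : Orth N` whose rows in `J_j` span the same spaces for all `j`
  (Gram–Schmidt along the order of the blocks, completed to a basis), and then
  `Fg (G O) = logZ lam f (U O)` for all `O`.
* `gpi` is invariant under `G ↦ G O` (`gauss_lin`), so is `Good`; by Fubini and left invariance
  `γ(Good ∩ {Fg ∈ A}) = γ(Good) · haar {logZ ∈ A}`.
* For `G, G' ∈ Good`: `Π - Π' = (1 - Π') Π - Π' (1 - Π)` and
  `(1 - Π') Π σ = (1 - Π') (G - G')ᵀ a` with `Π σ = Gᵀ a`, `c² N |a|² ≤ |Πσ|² ≤ N`; hence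
  `|σᵀ (Π - Π') σ| ≤ 2 √N ‖G - G'‖_F / c` and `|Fg G - Fg G'| ≤ 2 k Λ √N ‖G - G'‖_F / c`.
* `gauss_conc`. -/

set_option autoImplicit false
set_option linter.unusedVariables false
set_option linter.unusedSectionVars false

open MeasureTheory ProbabilityTheory Real Crest.ProbabilityR.InvariantGlass
open scoped ENNReal

namespace Crest.Agent.R164

/-- the combination of the rows in `J` with coefficients `a` -/
noncomputable def c2v {N : ℕ} (J : Finset (Fin N)) (G : Fin N × Fin N → ℝ) (a : Fin N → ℝ)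
    (j : Fin N) : ℝ := ∑ i ∈ J, a i * G (i, j)

noncomputable def c2Q {N : ℕ} (J : Finset (Fin N)) (G : Fin N × Fin N → ℝ) (x a : Fin N → ℝ) : ℝ :=
  2 * ∑ j, c2v J G a j * x j - ∑ j, c2v J G a j ^ 2

/-- squared norm of the projection of `x` on the span of the rows in `J` -/
noncomputable def c2q {N : ℕ} (J : Finset (Fin N)) (G : Fin N × Fin N → ℝ) (x : Fin N → ℝ) : ℝ :=
  ⨆ a : Fin N → ℝ, c2Q J G x a

theorem c2Q_eq {N : ℕ} (J : Finset (Fin N)) (G : Fin N × Fin N → ℝ) (x a : Fin N → ℝ) :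
    c2Q J G x a = ∑ j, x j ^ 2 - ∑ j, (x j - c2v J G a j) ^ 2 := by
  unfold c2Q
  rw [Finset.mul_sum, ← Finset.sum_sub_distrib, ← Finset.sum_sub_distrib]
  exact Finset.sum_congr rfl fun j _ => by ring

theorem c2Q_le {N : ℕ} (J : Finset (Fin N)) (G : Fin N × Fin N → ℝ) (x a : Fin N → ℝ) :
    c2Q J G x a ≤ ∑ j, x j ^ 2 := by
  rw [c2Q_eq]
  have : 0 ≤ ∑ j, (x j - c2v J G a j) ^ 2 := Finset.sum_nonneg fun j _ => sq_nonneg _
  linarith

theorem c2Q_bdd {N : ℕ} (J : Finset (Fin N)) (G : Fin N × Fin N → ℝ) (x : Fin N → ℝ) :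
    BddAbove (Set.range (c2Q J G x)) := ⟨_, by rintro _ ⟨a, rfl⟩; exact c2Q_le J G x a⟩

theorem c2Q_zero {N : ℕ} (J : Finset (Fin N)) (G : Fin N × Fin N → ℝ) (x : Fin N → ℝ) :
    c2Q J G x 0 = 0 := by simp [c2Q, c2v]

theorem c2q_nonneg {N : ℕ} (J : Finset (Fin N)) (G : Fin N × Fin N → ℝ) (x : Fin N → ℝ) :
    0 ≤ c2q J G x := (c2Q_zero J G x).symm.le.trans (le_ciSup (c2Q_bdd J G x) 0)

theorem measurable_c2q {N : ℕ} (J : Finset (Fin N)) (x : Fin N → ℝ) :
    Measurable (fun G => c2q J G x) := by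
  refine LowerSemicontinuous.measurable ?_
  refine lowerSemicontinuous_ciSup (fun G => c2Q_bdd J G x) fun a => ?_
  refine Continuous.lowerSemicontinuous ?_
  unfold c2Q c2v
  fun_prop

theorem c2_cs {N : ℕ} (u w : Fin N → ℝ) :
    ∑ j, (u j + w j) ^ 2 ≤ ∑ j, u j ^ 2 + 2 * (√(∑ j, u j ^ 2) * √(∑ j, w j ^ 2)) + ∑ j, w j ^ 2 := by
  have h := Real.sum_mul_le_sqrt_mul_sqrt Finset.univ u w
  have e : ∑ j, (u j + w j) ^ 2 = ∑ j, u j ^ 2 + 2 * ∑ j, u j * w j + ∑ j, w j ^ 2 := by
    rw [Finset.mul_sum, ← Finset.sum_add_distrib, ← Finset.sum_add_distrib]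
    exact Finset.sum_congr rfl fun j _ => by ring
  linarith

theorem c2q_lip {N : ℕ} (hN : 0 < N) {c : ℝ} (hc : 0 < c) {J : Finset (Fin N)}
    {G G' : Fin N × Fin N → ℝ} (hG : RowsOK c J G) {x : Fin N → ℝ} (hx : ∑ j, x j ^ 2 = N) :
    c2q J G x ≤ c2q J G' x + 6 / c * √(∑ p, (G p - G' p) ^ 2) * √N := by
  have hN0 : (0 : ℝ) < N := by exact_mod_cast hN
  set D := √(∑ p, (G p - G' p) ^ 2) with hD
  have hD0 : 0 ≤ D := Real.sqrt_nonneg _
  have hq0 := c2q_nonneg J G' x
  have hs : 0 < √(N : ℝ) := Real.sqrt_pos.2 hN0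
  have hss : √(N : ℝ) * √N = N := Real.mul_self_sqrt hN0.le
  refine ciSup_le fun a => ?_
  by_cases h0 : c2Q J G x a ≤ 0
  · have : 0 ≤ 6 / c * D * √N := by positivity
    linarith
  push_neg at h0
  -- the coefficients are small
  have hv : ∑ j, c2v J G a j ^ 2 ≤ 4 * N := by
    have h1 := Real.sum_mul_le_sqrt_mul_sqrt Finset.univ (c2v J G a) x
    rw [hx] at h1
    have h2 : 0 ≤ ∑ j, c2v J G a j ^ 2 := Finset.sum_nonneg fun j _ => sq_nonneg _
    have h3 := Real.mul_self_sqrt h2
    unfold c2Q at h0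
    nlinarith [sq_nonneg (√(∑ j, c2v J G a j ^ 2) - 2 * √N), Real.sqrt_nonneg (∑ j, c2v J G a j ^ 2)]
  have ha : ∑ i ∈ J, a i ^ 2 ≤ (2 / c) ^ 2 := by
    have h1 := (hG a).trans hv
    rw [div_pow, le_div_iff₀ (by positivity)]
    nlinarith
  have hδ : ∑ j, (c2v J G a j - c2v J G' a j) ^ 2 ≤ (2 / c * D) ^ 2 := by
    have h1 : ∀ j, (c2v J G a j - c2v J G' a j) ^ 2 ≤
        (2 / c) ^ 2 * ∑ i, (G (i, j) - G' (i, j)) ^ 2 := by
      intro j
      have e : c2v J G a j - c2v J G' a j = ∑ i ∈ J, a i * (G (i, j) - G' (i, j)) := by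
        unfold c2v
        rw [← Finset.sum_sub_distrib]
        exact Finset.sum_congr rfl fun i _ => by ring
      rw [e]
      refine (Finset.sum_mul_sq_le_sq_mul_sq J _ _).trans ?_
      refine mul_le_mul ha (Finset.sum_le_sum_of_subset_of_nonneg (Finset.subset_univ _)
        fun i _ _ => sq_nonneg _) (Finset.sum_nonneg fun i _ => sq_nonneg _) (by positivity)
    refine (Finset.sum_le_sum fun j _ => h1 j).trans ?_
    rw [← Finset.mul_sum, mul_pow, hD, Real.sq_sqrt (Finset.sum_nonneg fun i _ => sq_nonneg _),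
      Fintype.sum_prod_type_right]
  set δ := 2 / c * D with hδdef
  have hδ0 : 0 ≤ δ := by positivity
  have e6 : 6 / c * D * √N = 3 * δ * √N := by rw [hδdef]; ring
  rw [e6]
  by_cases hbig : √(N : ℝ) ≤ δ
  · have := c2Q_le J G x a
    rw [hx] at this
    nlinarith
  push_neg at hbig
  have h1 : c2Q J G' x a ≤ c2q J G' x := le_ciSup (c2Q_bdd J G' x) a
  rw [c2Q_eq] at h1 h0 ⊢
  have h2 := c2_cs (fun j => x j - c2v J G a j) (fun j => c2v J G a j - c2v J G' a j)
  have e : ∀ j, x j - c2v J G a j + (c2v J G a j - c2v J G' a j) = x j - c2v J G' a j :=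
    fun j => by ring
  simp only [e] at h2
  have h3 : √(∑ j, (x j - c2v J G a j) ^ 2) ≤ √N := Real.sqrt_le_sqrt (by rw [← hx]; linarith)
  have h4 : √(∑ j, (c2v J G a j - c2v J G' a j) ^ 2) ≤ δ := by
    rw [← Real.sqrt_sq hδ0]; exact Real.sqrt_le_sqrt hδ
  have h5 : √(∑ j, (x j - c2v J G a j) ^ 2) * √(∑ j, (c2v J G a j - c2v J G' a j) ^ 2) ≤ √N * δ :=
    mul_le_mul h3 h4 (Real.sqrt_nonneg _) hs.le
  nlinarith

/-- right multiplication by an orthogonal matrix -/
noncomputable def c2mul {N : ℕ} (G : Fin N × Fin N → ℝ) (O : Orth N) : Fin N × Fin N → ℝ :=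
  fun p => ∑ l, G (p.1, l) * O.1 l p.2

theorem c2v_mul {N : ℕ} (J : Finset (Fin N)) (G : Fin N × Fin N → ℝ) (O : Orth N) (a : Fin N → ℝ) :
    c2v J (c2mul G O) a = (O⁻¹).1.mulVec (c2v J G a) := by
  funext j
  have : (O⁻¹).1 = O.1.transpose := by
    simp [Matrix.star_eq_conjTranspose, Matrix.conjTranspose_eq_transpose_of_trivial]
  rw [this]
  simp only [c2v, c2mul, Matrix.mulVec, dotProduct, Matrix.transpose_apply, Finset.mul_sum]
  rw [Finset.sum_comm]
  exact Finset.sum_congr rfl fun l _ => Finset.sum_congr rfl fun i _ => by ring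

theorem c2_sq_mul {N : ℕ} (O : Orth N) (u : Fin N → ℝ) :
    ∑ j, O.1.mulVec u j ^ 2 = ∑ j, u j ^ 2 := by
  simpa [sq] using orth_inner O u u

theorem c2q_mul {N : ℕ} (J : Finset (Fin N)) (G : Fin N × Fin N → ℝ) (O : Orth N) (x : Fin N → ℝ) :
    c2q J (c2mul G O) x = c2q J G (O.1.mulVec x) := by
  unfold c2q
  congr 1
  funext a
  unfold c2Q
  rw [c2v_mul, c2_sq_mul, ← orth_inner O ((O⁻¹).1.mulVec (c2v J G a)) x, Matrix.mulVec_mulVec]
  have : O.1 * (O⁻¹).1 = 1 := by
    have := congrArg Subtype.val (mul_inv_cancel O)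
    simpa using this
  rw [this, Matrix.one_mulVec]

theorem rowsOK_mul {N : ℕ} (c : ℝ) (J : Finset (Fin N)) (G : Fin N × Fin N → ℝ) (O : Orth N) :
    RowsOK c J (c2mul G O) ↔ RowsOK c J G := by
  unfold RowsOK
  refine forall_congr' fun a => ?_
  have := c2_sq_mul O⁻¹ (c2v J G a)
  rw [← c2v_mul] at this
  unfold c2v at this
  rw [this]

theorem measurable_c2mul {N : ℕ} :
    Measurable (fun p : (Fin N × Fin N → ℝ) × Orth N => c2mul p.1 p.2) := by
  refine measurable_pi_lambda _ fun q => ?_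
  unfold c2mul
  refine Finset.measurable_sum _ fun l _ => Measurable.mul ?_ ?_
  · exact (measurable_pi_apply _).comp measurable_fst
  · exact (measurable_entry _ _).comp measurable_snd

theorem gpi_map_c2mul {N : ℕ} (O : Orth N) :
    (gpi (Fin N × Fin N)).map (fun G => c2mul G O) = gpi (Fin N × Fin N) := by
  have h := gauss_lin (I := Fin N × Fin N) (J := Fin N × Fin N)
    (fun p q => if q.1 = p.1 then O.1 q.2 p.2 else 0) (fun _ => 1) (by
      intro p p'
      rw [Fintype.sum_prod_type]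
      by_cases h1 : p.1 = p'.1
      · rw [Finset.sum_eq_single p.1]
        · simp only [if_true, h1]
          rw [orth_col]
          by_cases h2 : p.2 = p'.2
          · rw [if_pos h2, if_pos (Prod.ext h1 h2)]
          · rw [if_neg h2, if_neg (fun h => h2 (congrArg Prod.snd h))]
        · intro b _ hb
          simp [hb]
        · simp
      · rw [if_neg (fun h => h1 (congrArg Prod.fst h))]
        refine Finset.sum_eq_zero fun i _ => Finset.sum_eq_zero fun l _ => ?_
        by_cases h2 : i = p.1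
        · have : ¬ i = p'.1 := fun h => h1 (h2.symm.trans h)
          simp [this]
        · simp [h2])
  have e1 : (fun (g : Fin N × Fin N → ℝ) (a : Fin N × Fin N) =>
      ∑ i : Fin N × Fin N, (if i.1 = a.1 then O.1 i.2 a.2 else 0) * g i) = fun G => c2mul G O := by
    funext g a
    rw [Fintype.sum_prod_type, Finset.sum_eq_single a.1]
    · simp only [if_true, c2mul]
      exact Finset.sum_congr rfl fun l _ => mul_comm _ _
    · intro b _ hb
      simp [hb]
    · simp
  rw [e1] at h
  rw [h]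
  simp

theorem c2q_eq {N : ℕ} (hN : 0 < N) {c : ℝ} (hc : 0 < c) {J : Finset (Fin N)}
    {G : Fin N × Fin N → ℝ} (hG : RowsOK c J G) (U : Orth N)
    (hT : ∀ i ∈ J, ∀ l, l ∉ J → ∑ j, U.1 l j * G (i, j) = 0) (x : Fin N → ℝ) :
    c2q J G x = ∑ l ∈ J, U.1.mulVec x l ^ 2 := by
  have hN0 : (0 : ℝ) < N := by exact_mod_cast hN
  have hout : ∀ a l, l ∉ J → U.1.mulVec (c2v J G a) l = 0 := by
    intro a l hl
    simp only [Matrix.mulVec, dotProduct, c2v, Finset.mul_sum]
    rw [Finset.sum_comm]
    refine Finset.sum_eq_zero fun i hi => ?_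
    have := hT i hi l hl
    calc ∑ j, U.1 l j * (a i * G (i, j)) = a i * ∑ j, U.1 l j * G (i, j) := by
          rw [Finset.mul_sum]; exact Finset.sum_congr rfl fun j _ => by ring
      _ = 0 := by rw [this, mul_zero]
  have hQ : ∀ a, c2Q J G x a = ∑ l ∈ J, (2 * (U.1.mulVec (c2v J G a) l * U.1.mulVec x l) -
      U.1.mulVec (c2v J G a) l ^ 2) := by
    intro a
    unfold c2Q
    rw [← orth_inner U, ← c2_sq_mul U, Finset.mul_sum, ← Finset.sum_sub_distrib]
    symm
    refine Finset.sum_subset (Finset.subset_univ _) fun l _ hl => ?_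
    rw [hout a l hl]; ring
  refine le_antisymm (ciSup_le fun a => ?_) ?_
  · rw [hQ]
    exact Finset.sum_le_sum fun l _ => by
      nlinarith [sq_nonneg (U.1.mulVec (c2v J G a) l - U.1.mulVec x l)]
  · -- the linear map on coefficients
    let T : (Fin N → ℝ) →ₗ[ℝ] (Fin N → ℝ) :=
      { toFun := fun a l => if l ∈ J then U.1.mulVec (c2v J G a) l else a l
        map_add' := by
          intro a b
          funext l
          have : c2v J G (a + b) = c2v J G a + c2v J G b := by
            funext j; simp [c2v, add_mul, Finset.sum_add_distrib]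
          simp only [this, Matrix.mulVec_add, Pi.add_apply]
          split_ifs <;> rfl
        map_smul' := by
          intro r a
          funext l
          have : c2v J G (r • a) = r • c2v J G a := by
            funext j; simp [c2v, Finset.mul_sum, mul_assoc]
          simp only [this, Matrix.mulVec_smul, Pi.smul_apply, RingHom.id_apply]
          split_ifs <;> rfl }
    have hinj : Function.Injective T := by
      rw [injective_iff_map_eq_zero]
      intro a ha
      have h1 : ∀ l, U.1.mulVec (c2v J G a) l = 0 := by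
        intro l
        by_cases hl : l ∈ J
        · have := congrFun ha l
          simpa [T, hl] using this
        · exact hout a l hl
      have h2 : ∑ j, c2v J G a j ^ 2 = 0 := by
        rw [← c2_sq_mul U]; simp [h1]
      have h3 : ∑ i ∈ J, a i ^ 2 ≤ 0 := by
        have := hG a
        unfold c2v at h2
        rw [h2] at this
        by_contra hcon
        push_neg at hcon
        have : 0 < c ^ 2 * N * ∑ i ∈ J, a i ^ 2 := by positivity
        linarith
      funext l
      by_cases hl : l ∈ J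
      · have h4 : a l ^ 2 ≤ ∑ i ∈ J, a i ^ 2 :=
          Finset.single_le_sum (f := fun i => a i ^ 2) (fun i _ => sq_nonneg _) hl
        have : a l ^ 2 = 0 := le_antisymm (h4.trans h3) (sq_nonneg _)
        simpa using this
      · have := congrFun ha l
        simpa [T, hl] using this
    obtain ⟨a, ha⟩ := (LinearMap.injective_iff_surjective.1 hinj) (U.1.mulVec x)
    refine le_trans (le_of_eq ?_) (le_ciSup (c2Q_bdd J G x) a)
    rw [hQ]
    refine Finset.sum_congr rfl fun l hl => ?_
    have : U.1.mulVec (c2v J G a) l = U.1.mulVec x l := by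
      have := congrFun ha l
      simpa [T, hl] using this
    rw [this]; ring

/-- Gram–Schmidt along the order of the labels -/
theorem exists_flagO {N k : ℕ} (blk : Fin N → Fin (k + 1)) (G : Fin N × Fin N → ℝ) :
    ∃ U : Orth N, ∀ i l, blk i < blk l → ∑ j, U.1 l j * G (i, j) = 0 := by
  let ς := Tuple.sort blk
  have hmono : Monotone (blk ∘ ς) := Tuple.monotone_sort blk
  let f : Fin N → EuclideanSpace ℝ (Fin N) := fun i => WithLp.toLp 2 fun j => G (ς i, j)
  have hdim : Module.finrank ℝ (EuclideanSpace ℝ (Fin N)) = Fintype.card (Fin N) := by simp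
  let b := InnerProductSpace.gramSchmidtOrthonormalBasis hdim f
  refine ⟨⟨Matrix.of fun l j => b (ς.symm l) j, ?_⟩, ?_⟩
  · rw [Matrix.mem_orthogonalGroup_iff]
    ext l l'
    have := b.orthonormal
    rw [orthonormal_iff_ite] at this
    have h := this (ς.symm l) (ς.symm l')
    simp only [Matrix.mul_apply, Matrix.of_apply, Matrix.transpose_apply, Matrix.one_apply]
    rw [EuclideanSpace.inner_eq_star_dotProduct] at h
    simp only [dotProduct, star_trivial, EmbeddingLike.apply_eq_iff_eq] at h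
    rw [← h]
    exact Finset.sum_congr rfl fun j _ => mul_comm _ _
  · intro i l hil
    have hlt : ς.symm i < ς.symm l := by
      by_contra hcon
      push_neg at hcon
      have := hmono hcon
      simp only [Function.comp, Equiv.apply_symm_apply] at this
      exact absurd hil (not_lt.2 this)
    have h := InnerProductSpace.gramSchmidtOrthonormalBasis_inv_triangular hdim f hlt
    rw [EuclideanSpace.inner_eq_star_dotProduct] at h
    simp only [dotProduct, star_trivial, f, Equiv.apply_symm_apply] at h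
    simp only [Matrix.of_apply]
    rw [← h]
    exact Finset.sum_congr rfl fun j _ => mul_comm _ _

theorem c2_tele {k : ℕ} (lam : Fin (k + 1) → ℝ) (b : Fin (k + 1)) :
    lam b = lam (Fin.last k) +
      ∑ j : Fin k, if b ≤ j.castSucc then lam j.castSucc - lam j.succ else 0 := by
  induction b using Fin.reverseInduction with
  | last =>
    rw [Finset.sum_eq_zero, add_zero]
    intro j _
    rw [if_neg (not_le.2 (Fin.castSucc_lt_last j))]
  | cast i ih =>
    have e : ∀ j : Fin k, (if i.castSucc ≤ j.castSucc then lam j.castSucc - lam j.succ else 0) =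
        (if i.succ ≤ j.castSucc then lam j.castSucc - lam j.succ else 0) +
          if j = i then lam i.castSucc - lam i.succ else 0 := by
      intro j
      by_cases h1 : j = i
      · subst h1
        rw [if_pos le_rfl, if_neg (not_le.2 Fin.castSucc_lt_succ), if_pos rfl, zero_add]
      · rw [if_neg h1, add_zero]
        have : i.castSucc ≤ j.castSucc ↔ i.succ ≤ j.castSucc := by
          simp only [Fin.le_def, Fin.val_castSucc, Fin.val_succ]
          have : j.val ≠ i.val := fun h => h1 (Fin.ext h)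
          omega
        simp only [this]
    simp only [e, Finset.sum_add_distrib, Finset.sum_ite_eq', Finset.mem_univ, if_true]
    linarith

/-- the rows with label at most `j` -/
def c2J {N k : ℕ} (blk : Fin N → Fin (k + 1)) (j : Fin k) : Finset (Fin N) :=
  Finset.univ.filter fun i => blk i ≤ j.castSucc

noncomputable def c2F {N k : ℕ} (lam : Fin (k + 1) → ℝ) (blk : Fin N → Fin (k + 1))
    (f : (Fin N → Bool) → ℝ) (G : Fin N × Fin N → ℝ) : ℝ :=
  log ((1 / 2) ^ N * ∑ σ : Fin N → Bool, exp ((1 / 2) * (lam (Fin.last k) * N +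
    ∑ j : Fin k, (lam j.castSucc - lam j.succ) * c2q (c2J blk j) G (spinVec σ)) + f σ))

theorem measurable_c2F {N k : ℕ} (lam : Fin (k + 1) → ℝ) (blk : Fin N → Fin (k + 1))
    (f : (Fin N → Bool) → ℝ) : Measurable (c2F lam blk f) := by
  unfold c2F
  refine Measurable.log (Measurable.const_mul (Finset.measurable_sum _ fun σ _ => ?_) _)
  refine Measurable.exp (Measurable.add_const (Measurable.const_mul (Measurable.const_add
    (Finset.measurable_sum _ fun j _ => (measurable_c2q _ _).const_mul _) _) _) _)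

theorem c2F_mul {N k : ℕ} (hN : 0 < N) {c : ℝ} (hc : 0 < c) (lam : Fin (k + 1) → ℝ)
    (blk : Fin N → Fin (k + 1)) (f : (Fin N → Bool) → ℝ) {G : Fin N × Fin N → ℝ}
    (hG : ∀ j, RowsOK c (c2J blk j) G) :
    ∃ U : Orth N, ∀ O : Orth N, c2F lam blk f (c2mul G O) = logZ (fun i => lam (blk i)) f (U * O) := by
  obtain ⟨U, hU⟩ := exists_flagO blk G
  refine ⟨U, fun O => ?_⟩
  unfold c2F logZ
  congr 2
  refine Finset.sum_congr rfl fun σ _ => ?_
  congr 3
  have h1 : ∀ j, c2q (c2J blk j) (c2mul G O) (spinVec σ) = ∑ l ∈ c2J blk j, sv (U * O) σ l ^ 2 := by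
    intro j
    rw [c2q_mul, c2q_eq hN hc (hG j) U, sv_mul]
    · rfl
    · intro i hi l hl
      refine hU i l ?_
      simp only [c2J, Finset.mem_filter, Finset.mem_univ, true_and, not_le] at hi hl
      exact lt_of_le_of_lt hi hl
  simp only [h1]
  rw [← sum_sv_sq (U * O) σ, Finset.mul_sum]
  simp only [c2J, Finset.sum_filter, Finset.mul_sum]
  rw [Finset.sum_comm, ← Finset.sum_add_distrib]
  refine Finset.sum_congr rfl fun i _ => ?_
  conv_rhs => rw [c2_tele lam (blk i), add_mul, Finset.sum_mul]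
  congr 1
  refine Finset.sum_congr rfl fun j _ => ?_
  split_ifs <;> ring

theorem c2_law {N k : ℕ} (hN : 0 < N) {c : ℝ} (hc : 0 < c) (lam : Fin (k + 1) → ℝ)
    (blk : Fin N → Fin (k + 1)) (f : (Fin N → Bool) → ℝ) {A : Set ℝ} (hA : MeasurableSet A) :
    gpi (Fin N × Fin N) ({G | ∀ j, RowsOK c (c2J blk j) G} ∩ c2F lam blk f ⁻¹' A) =
      gpi (Fin N × Fin N) {G | ∀ j, RowsOK c (c2J blk j) G} *
        haar N (logZ (fun i => lam (blk i)) f ⁻¹' A) := by
  set Good := {G : Fin N × Fin N → ℝ | ∀ j, RowsOK c (c2J blk j) G} with hGood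
  have mG : MeasurableSet Good := by
    rw [hGood, Set.setOf_forall]
    exact MeasurableSet.iInter fun j => measurableSet_rowsOK _ _
  set S := Good ∩ c2F lam blk f ⁻¹' A with hS
  have mS : MeasurableSet S := mG.inter (measurable_c2F lam blk f hA)
  have mT : MeasurableSet ((fun p : (Fin N × Fin N → ℝ) × Orth N => c2mul p.1 p.2) ⁻¹' S) :=
    measurable_c2mul mS
  have h1 := Measure.prod_apply (μ := gpi (Fin N × Fin N)) (ν := haar N) mT
  have h2 := Measure.prod_apply_symm (μ := gpi (Fin N × Fin N)) (ν := haar N) mT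
  have e2 : ∀ O : Orth N, gpi (Fin N × Fin N) ((fun G => (G, O)) ⁻¹'
      ((fun p : (Fin N × Fin N → ℝ) × Orth N => c2mul p.1 p.2) ⁻¹' S)) = gpi (Fin N × Fin N) S := by
    intro O
    have hm : Measurable (fun G : Fin N × Fin N → ℝ => c2mul G O) :=
      measurable_c2mul.comp (measurable_id.prodMk measurable_const)
    conv_rhs => rw [← gpi_map_c2mul O, Measure.map_apply hm mS]
    rfl
  have e1 : ∀ G, haar N (Prod.mk G ⁻¹'
      ((fun p : (Fin N × Fin N → ℝ) × Orth N => c2mul p.1 p.2) ⁻¹' S)) =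
      Good.indicator (fun _ => haar N (logZ (fun i => lam (blk i)) f ⁻¹' A)) G := by
    intro G
    by_cases hG : G ∈ Good
    · rw [Set.indicator_of_mem hG]
      obtain ⟨U, hU⟩ := c2F_mul hN hc lam blk f hG
      conv_rhs => rw [← haar_map_mul_left U, Measure.map_apply (measurable_orth_mul_left U)
        (measurable_logZ _ _ hA)]
      congr 1
      ext O
      simp only [Set.mem_preimage, hS, Set.mem_inter_iff, hU, hGood, Set.mem_setOf_eq, rowsOK_mul]
      exact ⟨fun h => h.2, fun h => ⟨hG, h⟩⟩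
    · rw [Set.indicator_of_notMem hG]
      have : Prod.mk G ⁻¹' ((fun p : (Fin N × Fin N → ℝ) × Orth N => c2mul p.1 p.2) ⁻¹' S) = ∅ := by
        ext O
        simp only [Set.mem_preimage, hS, Set.mem_inter_iff, hGood, Set.mem_setOf_eq, rowsOK_mul,
          Set.mem_empty_iff_false, iff_false, not_and]
        exact fun h => absurd h hG
      rw [this, measure_empty]
  simp only [e1] at h1
  simp only [e2] at h2
  rw [lintegral_indicator_const mG] at h1
  rw [lintegral_const, measure_univ, mul_one] at h2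
  rw [← h2, h1, mul_comm]

theorem c2F_lip {N k : ℕ} (hN : 0 < N) {c Λ : ℝ} (hc : 0 < c) {lam : Fin (k + 1) → ℝ}
    (hl : ∀ b, |lam b| ≤ Λ) (blk : Fin N → Fin (k + 1)) (f : (Fin N → Bool) → ℝ)
    {G G' : Fin N × Fin N → ℝ} (hG : ∀ j, RowsOK c (c2J blk j) G)
    (hG' : ∀ j, RowsOK c (c2J blk j) G') :
    c2F lam blk f G ≤ c2F lam blk f G' + 6 * k * Λ / c * √(∑ p, (G p - G' p) ^ 2) * √N := by
  set D := 6 / c * √(∑ p, (G p - G' p) ^ 2) * √N with hD
  have hD0 : 0 ≤ D := by positivity
  have hq : ∀ j σ, |c2q (c2J blk j) G (spinVec σ) - c2q (c2J blk j) G' (spinVec σ)| ≤ D := by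
    intro j σ
    have hx : ∑ r, spinVec σ r ^ 2 = N := by simp [spinVec_sq]
    have h1 := c2q_lip hN hc (G' := G') (hG j) hx
    have h2 := c2q_lip hN hc (G' := G) (hG' j) hx
    have e : ∑ p, (G' p - G p) ^ 2 = ∑ p, (G p - G' p) ^ 2 :=
      Finset.sum_congr rfl fun p _ => by ring
    rw [e] at h2
    rw [abs_le]; constructor <;> linarith
  have hσ : ∀ σ : Fin N → Bool,
      ∑ j : Fin k, (lam j.castSucc - lam j.succ) * c2q (c2J blk j) G (spinVec σ) ≤
      ∑ j : Fin k, (lam j.castSucc - lam j.succ) * c2q (c2J blk j) G' (spinVec σ) +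
        k * (2 * Λ * D) := by
    intro σ
    have : ∀ j ∈ (Finset.univ : Finset (Fin k)),
        (lam j.castSucc - lam j.succ) * c2q (c2J blk j) G (spinVec σ) ≤
        (lam j.castSucc - lam j.succ) * c2q (c2J blk j) G' (spinVec σ) + 2 * Λ * D := by
      intro j _
      have h1 : |lam j.castSucc - lam j.succ| ≤ 2 * Λ := by
        have := hl j.castSucc
        have := hl j.succ
        have := abs_sub (lam j.castSucc) (lam j.succ)
        linarith
      have h2 := mul_le_mul h1 (hq j σ) (abs_nonneg _) ((abs_nonneg _).trans h1)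
      rw [← abs_mul] at h2
      have := le_abs_self ((lam j.castSucc - lam j.succ) *
        (c2q (c2J blk j) G (spinVec σ) - c2q (c2J blk j) G' (spinVec σ)))
      nlinarith
    refine (Finset.sum_le_sum this).trans ?_
    rw [Finset.sum_add_distrib]; simp
  have e : 6 * k * Λ / c * √(∑ p, (G p - G' p) ^ 2) * √N = k * Λ * D := by rw [hD]; ring
  rw [e]
  unfold c2F
  rw [← Real.log_exp (k * Λ * D), ← Real.log_mul (by positivity) (Real.exp_pos _).ne']
  refine Real.log_le_log (by positivity) ?_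
  rw [mul_assoc, Finset.sum_mul]
  refine mul_le_mul_of_nonneg_left (Finset.sum_le_sum fun σ _ => ?_) (by positivity)
  rw [← Real.exp_add]
  exact Real.exp_le_exp.2 (by have := hσ σ; linarith)

theorem logZ_conc (S : Spec) : ∃ c > 0, ∀ᶠ N : ℕ in Filter.atTop,
    ∀ (f : (Fin N → Bool) → ℝ) (a ε : ℝ), 0 ≤ ε →
      (haar N).real {U | a ≤ logZ (fun i => S.lam (per S.k N i)) f U} *
        (haar N).real {U | logZ (fun i => S.lam (per S.k N i)) f U ≤ a - ε * N} ≤
        4 * exp (-(c * ε ^ 2 * N)) := by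
  have hP : (0 : ℝ) < (S.k : ℝ) + 1 := by positivity
  obtain ⟨c, hc, hprob⟩ := rowsOK_prob (δ := 1 / (2 * ((S.k : ℝ) + 1)))
    (η := 1 / (2 * ((S.k : ℝ) + 1))) (by positivity) (by positivity)
  have hΛ := S.Λ_nonneg
  set Lc := 6 * S.k * S.Λ / c + 1 with hLc
  have hL0 : 0 < Lc := by positivity
  refine ⟨1 / (4 * Lc ^ 2), by positivity, ?_⟩
  filter_upwards [hprob, Filter.eventually_ge_atTop (2 * (S.k + 1))] with N hN hbig f a ε hε
  have hpos : 0 < N := by omega
  have hN0 : (0 : ℝ) < N := by exact_mod_cast hpos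
  have hbig' : 2 * ((S.k : ℝ) + 1) ≤ N := by exact_mod_cast hbig
  set blk := per S.k N with hblk
  set Good := {G : Fin N × Fin N → ℝ | ∀ j, RowsOK c (c2J blk j) G} with hGood
  have mG : MeasurableSet Good := by
    rw [hGood, Set.setOf_forall]
    exact MeasurableSet.iInter fun j => measurableSet_rowsOK _ _
  have hcard : ∀ j, ((c2J blk j).card : ℝ) ≤ (1 - 1 / (2 * ((S.k : ℝ) + 1))) * N := by
    intro j
    have h1 := card_per S.k N (Fin.last S.k)
    have h2 : (c2J blk j).card + (Finset.univ.filter fun i : Fin N => blk i = Fin.last S.k).card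
        ≤ N := by
      rw [← Finset.card_union_of_disjoint]
      · exact (Finset.card_le_univ _).trans (by simp)
      · rw [Finset.disjoint_left]
        intro i hi hi'
        simp only [c2J, Finset.mem_filter, Finset.mem_univ, true_and] at hi hi'
        rw [hi'] at hi
        exact absurd hi (not_le.2 (Fin.castSucc_lt_last j))
    have h3 : ((c2J blk j).card : ℝ) +
        ((Finset.univ.filter fun i : Fin N => blk i = Fin.last S.k).card : ℝ) ≤ N := by
      exact_mod_cast h2
    have h4 := (abs_le.1 h1).1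
    have h5 : (1 : ℝ) ≤ N / (2 * ((S.k : ℝ) + 1)) := by rw [le_div_iff₀ (by positivity)]; linarith
    have e1 : (N : ℝ) / ((S.k : ℝ) + 1) = 2 * (N / (2 * ((S.k : ℝ) + 1))) := by field_simp
    have e2 : (1 - 1 / (2 * ((S.k : ℝ) + 1))) * N = N - N / (2 * ((S.k : ℝ) + 1)) := by field_simp
    rw [e2]
    rw [e1] at h4
    linarith
  have hgood : 1 / 2 ≤ (gpi (Fin N × Fin N)).real Good := by
    have h1 : Goodᶜ = ⋃ j, {G | ¬ RowsOK c (c2J blk j) G} := by
      ext G; simp [hGood]
    have h2 : (gpi (Fin N × Fin N)).real Goodᶜ ≤ 1 / 2 := by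
      rw [h1]
      refine (measureReal_iUnion_fintype_le _).trans ?_
      refine (Finset.sum_le_card_nsmul _ _ _ fun j _ => hN _ (hcard j)).trans ?_
      simp only [Finset.card_univ, Fintype.card_fin, nsmul_eq_mul]
      rw [mul_one_div, div_le_div_iff₀ (by positivity) two_pos]
      linarith
    rw [measureReal_compl mG, probReal_univ] at h2
    linarith
  have l1 := congrArg ENNReal.toReal (c2_law hpos hc S.lam blk f (measurableSet_Ici (a := a)))
  have l2 := congrArg ENNReal.toReal
    (c2_law hpos hc S.lam blk f (measurableSet_Iic (a := a - ε * N)))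
  rw [ENNReal.toReal_mul] at l1 l2
  have hs : 0 < √(N : ℝ) := Real.sqrt_pos.2 hN0
  have hss : √(N : ℝ) * √N = N := Real.mul_self_sqrt hN0.le
  have key := gauss_conc (A := Good ∩ c2F S.lam blk f ⁻¹' Set.Ici a)
    (B := Good ∩ c2F S.lam blk f ⁻¹' Set.Iic (a - ε * N))
    (mG.inter (measurable_c2F _ _ _ measurableSet_Ici))
    (mG.inter (measurable_c2F _ _ _ measurableSet_Iic)) (d := ε * √N / Lc) (by positivity) (by
      intro G hG G' hG'
      have h1 := c2F_lip hpos hc S.abs_lam_le blk f hG.1 hG'.1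
      have h2 : a ≤ c2F S.lam blk f G := hG.2
      have h3 : c2F S.lam blk f G' ≤ a - ε * N := hG'.2
      set D := √(∑ p, (G p - G' p) ^ 2) with hD
      have hD0 : 0 ≤ D := Real.sqrt_nonneg _
      have h4 : ε * √N ≤ Lc * D := by
        have h5 : ε * √N * √N ≤ Lc * D * √N := by
          have : 0 ≤ D * √N := by positivity
          rw [mul_assoc ε, hss, hLc]
          nlinarith
        exact le_of_mul_le_mul_right h5 hs
      have h6 : ε * √N / Lc ≤ D := by rw [div_le_iff₀ hL0]; linarith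
      calc (ε * √N / Lc) ^ 2 ≤ D ^ 2 := pow_le_pow_left₀ (by positivity) h6 2
        _ = _ := Real.sq_sqrt (Finset.sum_nonneg fun p _ => sq_nonneg _))
  have e : -(ε * √N / Lc) ^ 2 / 4 = -(1 / (4 * Lc ^ 2) * ε ^ 2 * N) := by
    rw [div_pow, mul_pow, Real.sq_sqrt hN0.le]; field_simp
  rw [e] at key
  simp only [Measure.real] at key hgood ⊢
  rw [l1, l2] at key
  set g := (gpi (Fin N × Fin N) Good).toReal
  set u := (haar N (logZ (fun i => S.lam (blk i)) f ⁻¹' Set.Ici a)).toReal with hu
  set w := (haar N (logZ (fun i => S.lam (blk i)) f ⁻¹' Set.Iic (a - ε * N))).toReal with hw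
  have hu0 : 0 ≤ u := ENNReal.toReal_nonneg
  have hw0 : 0 ≤ w := ENNReal.toReal_nonneg
  change u * w ≤ _
  have : 1 / 4 * (u * w) ≤ g * u * (g * w) := by
    have h1 : 1 / 4 ≤ g * g := by nlinarith
    have := mul_le_mul_of_nonneg_right h1 (mul_nonneg hu0 hw0)
    nlinarith
  linarith

end Crest.Agent.R164
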