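import Crest.Agent.R164.T2

/-! # Towers: differentiation in a parameter (response formula)

Downward induction on the level with the one-step formula `E_step` and differentiation under the
integral sign (`hasDerivAt_integral_of_dominated_loc_of_deriv_le`; all bounds are uniform on
`U`).  Writing `φ_r = E_r φ`, `V_r = E_r H'`, one step gives
`d φ_a = E1_a [dφ_{a+1} + e_a φ_{a+1} V_{a+1}] - e_a φ_a V_a`; unrolling it gives `resp`. -/

set_option autoImplicit false
set_option linter.unusedVariables false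
set_option linter.unusedSectionVars false

open MeasureTheory ProbabilityTheory Real
open scoped ENNReal

namespace Crest.Agent.R164

namespace Tower

variable {S : Type} [MeasurableSpace S] {T : Tower S} {U : Set ℝ}

theorem DerL.lg {H H' : ℝ → S → ℝ} (h : T.DerL U H H') {t : ℝ} (ht : t ∈ U) : T.LG (H t) :=
  ⟨h.meas t ht, h.bd.imp fun _ hC x => (hC t ht x).1⟩
theorem DerL.gr' {H H' : ℝ → S → ℝ} (h : T.DerL U H H') {t : ℝ} (ht : t ∈ U) : T.Gr (H' t) :=
  ⟨h.meas' t ht, h.bd.imp fun _ hC x => (hC t ht x).2⟩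
theorem DerG.gr {φ φ' : ℝ → S → ℝ} (h : T.DerG U φ φ') {t : ℝ} (ht : t ∈ U) : T.Gr (φ t) :=
  ⟨h.meas t ht, h.bd.imp fun _ hC x => (hC t ht x).1⟩
theorem DerG.gr' {φ φ' : ℝ → S → ℝ} (h : T.DerG U φ φ') {t : ℝ} (ht : t ∈ U) : T.Gr (φ' t) :=
  ⟨h.meas' t ht, h.bd.imp fun _ hC x => (hC t ht x).2⟩

theorem t5_mono (T : Tower S) {C C' : ℝ} (h : C ≤ C') (x : S) :
    exp (C * (1 + T.ν x)) ≤ exp (C' * (1 + T.ν x)) :=
  exp_le_exp.2 (mul_le_mul_of_nonneg_right h (by linarith [T.ν_nonneg x]))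

theorem t5_two (T : Tower S) (C : ℝ) (x : S) :
    exp (C * (1 + T.ν x)) + exp (C * (1 + T.ν x)) ≤ exp ((C + 1) * (1 + T.ν x)) := by
  rw [add_mul C, exp_add, one_mul]
  have h1 := add_one_le_exp (1 + T.ν x)
  have h2 := T.ν_nonneg x
  have h3 := exp_pos (C * (1 + T.ν x))
  nlinarith

theorem t5_add (T : Tower S) {C C' a b : ℝ} {x : S} (ha : |a| ≤ exp (C * (1 + T.ν x)))
    (hb : |b| ≤ exp (C' * (1 + T.ν x))) : |a + b| ≤ exp ((max C C' + 1) * (1 + T.ν x)) :=
  (abs_add_le _ _).trans ((add_le_add (ha.trans (T.t5_mono (le_max_left _ _) x))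
    (hb.trans (T.t5_mono (le_max_right _ _) x))).trans (T.t5_two _ x))

theorem t5_mul (T : Tower S) {C C' a b : ℝ} {x : S} (ha : |a| ≤ exp (C * (1 + T.ν x)))
    (hb : |b| ≤ exp (C' * (1 + T.ν x))) : |a * b| ≤ exp ((C + C') * (1 + T.ν x)) := by
  rw [abs_mul, add_mul, exp_add]
  exact mul_le_mul ha hb (abs_nonneg _) (exp_pos _).le

theorem t5_const (T : Tower S) (c : ℝ) (x : S) : |c| ≤ exp (|c| * (1 + T.ν x)) := by
  have h1 := add_one_le_exp (|c| * (1 + T.ν x))
  have h2 := mul_nonneg (abs_nonneg c) (T.ν_nonneg x)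
  nlinarith

theorem DerG.const {φ : S → ℝ} (h : T.Gr φ) : T.DerG U (fun _ => φ) (fun _ _ => 0) := by
  obtain ⟨hm, C, hC⟩ := h
  exact ⟨fun _ _ => hm, fun _ _ => measurable_const,
    ⟨C, fun _ _ x => ⟨hC x, by rw [abs_zero]; exact (exp_pos _).le⟩⟩,
    fun t _ x => hasDerivAt_const t (φ x)⟩
theorem DerG.add {φ φ' ψ ψ' : ℝ → S → ℝ} (h : T.DerG U φ φ') (g : T.DerG U ψ ψ') :
    T.DerG U (fun t x => φ t x + ψ t x) (fun t x => φ' t x + ψ' t x) := by
  obtain ⟨C, hC⟩ := h.bd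
  obtain ⟨C', hC'⟩ := g.bd
  exact ⟨fun t ht => (h.meas t ht).add (g.meas t ht), fun t ht => (h.meas' t ht).add (g.meas' t ht),
    ⟨max C C' + 1, fun t ht x => ⟨T.t5_add (hC t ht x).1 (hC' t ht x).1,
      T.t5_add (hC t ht x).2 (hC' t ht x).2⟩⟩,
    fun t ht x => (h.der t ht x).add (g.der t ht x)⟩
theorem DerG.mul {φ φ' ψ ψ' : ℝ → S → ℝ} (h : T.DerG U φ φ') (g : T.DerG U ψ ψ') :
    T.DerG U (fun t x => φ t x * ψ t x) (fun t x => φ' t x * ψ t x + φ t x * ψ' t x) := by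
  obtain ⟨C, hC⟩ := h.bd
  obtain ⟨C', hC'⟩ := g.bd
  exact ⟨fun t ht => (h.meas t ht).mul (g.meas t ht),
    fun t ht => ((h.meas' t ht).mul (g.meas t ht)).add ((h.meas t ht).mul (g.meas' t ht)),
    ⟨max (C + C') (C + C') + 1, fun t ht x =>
      ⟨(T.t5_mul (hC t ht x).1 (hC' t ht x).1).trans (T.t5_mono (by rw [max_self]; linarith) x),
      T.t5_add (T.t5_mul (hC t ht x).2 (hC' t ht x).1) (T.t5_mul (hC t ht x).1 (hC' t ht x).2)⟩⟩,
    fun t ht x => (h.der t ht x).mul (g.der t ht x)⟩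
theorem DerG.congr {φ φ' ψ' : ℝ → S → ℝ} (h : T.DerG U φ φ') (e : ∀ t ∈ U, ψ' t = φ' t) :
    T.DerG U φ ψ' := by
  obtain ⟨C, hC⟩ := h.bd
  exact ⟨h.meas, fun t ht => e t ht ▸ h.meas' t ht, ⟨C, fun t ht x => e t ht ▸ hC t ht x⟩,
    fun t ht x => e t ht ▸ h.der t ht x⟩
/-- the linear family `H + t V` on a bounded interval -/
theorem DerL.lin {H V : S → ℝ} (h : T.LG H) (v : T.LG V) (a b : ℝ) :
    T.DerL (Set.Ioo a b) (fun t x => H x + t * V x) (fun _ => V) := by
  obtain ⟨hm, C, hC⟩ := h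
  obtain ⟨vm, C', hC'⟩ := v
  refine ⟨fun t _ => hm.add (vm.const_mul t), fun _ _ => vm,
    ⟨|C| + (|a| + |b| + 1) * |C'|, fun t ht x => ?_⟩, fun t _ x => ?_⟩
  · have hu : 0 ≤ 1 + T.ν x := by linarith [T.ν_nonneg x]
    have h1 : |H x| ≤ |C| * (1 + T.ν x) :=
      (hC x).trans (mul_le_mul_of_nonneg_right (le_abs_self _) hu)
    have h2 : |V x| ≤ |C'| * (1 + T.ν x) :=
      (hC' x).trans (mul_le_mul_of_nonneg_right (le_abs_self _) hu)
    have h3 : |t| ≤ |a| + |b| + 1 := by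
      rw [abs_le]
      constructor
      · linarith [ht.1, neg_abs_le a, abs_nonneg b]
      · linarith [ht.2, le_abs_self b, abs_nonneg a]
    constructor
    · refine (abs_add_le _ _).trans ?_
      rw [abs_mul, add_mul, mul_assoc]
      exact add_le_add h1 (mul_le_mul h3 h2 (abs_nonneg _) (by positivity))
    · refine h2.trans (le_trans ?_ (T.t5_mono (C := |C'|) ?_ x))
      · linarith [add_one_le_exp (|C'| * (1 + T.ν x))]
      · nlinarith [abs_nonneg C, abs_nonneg C', abs_nonneg a, abs_nonneg b]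
  · simpa using ((hasDerivAt_id t).mul_const (V x)).const_add (H x)

theorem DerG.t5_congr (hU : IsOpen U) {φ φ' ψ ψ' : ℝ → S → ℝ} (h : T.DerG U φ φ')
    (e : ∀ t ∈ U, ψ t = φ t) (e' : ∀ t ∈ U, ψ' t = φ' t) : T.DerG U ψ ψ' := by
  obtain ⟨C, hC⟩ := h.bd
  refine ⟨fun t ht => e t ht ▸ h.meas t ht, fun t ht => e' t ht ▸ h.meas' t ht,
    ⟨C, fun t ht x => by rw [e t ht, e' t ht]; exact hC t ht x⟩, fun t ht x => ?_⟩
  rw [e' t ht]
  refine (h.der t ht x).congr_of_eventuallyEq ?_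
  filter_upwards [hU.mem_nhds ht] with s hs
  rw [e s hs]

theorem DerL.t5_exp {H H' : ℝ → S → ℝ} (h : T.DerL U H H') (c : ℝ) :
    T.DerG U (fun t x => exp (c * H t x)) (fun t x => exp (c * H t x) * (c * H' t x)) := by
  obtain ⟨C, hC⟩ := h.bd
  have hb : ∀ t ∈ U, ∀ x, |exp (c * H t x)| ≤ exp (|c| * C * (1 + T.ν x)) := by
    intro t ht x
    rw [abs_of_pos (exp_pos _), mul_assoc]
    refine exp_le_exp.2 ((le_abs_self _).trans ?_)
    rw [abs_mul]
    exact mul_le_mul_of_nonneg_left (hC t ht x).1 (abs_nonneg _)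
  refine ⟨fun t ht => ((h.meas t ht).const_mul c).exp,
    fun t ht => ((h.meas t ht).const_mul c).exp.mul ((h.meas' t ht).const_mul c),
    ⟨max (|c| * C) (|c| * C + (|c| + C)), fun t ht x => ⟨?_, ?_⟩⟩,
    fun t ht x => ((h.der t ht x).const_mul c).exp⟩
  · exact (hb t ht x).trans (T.t5_mono (le_max_left _ _) x)
  · exact (T.t5_mul (hb t ht x) (T.t5_mul (T.t5_const c x) (hC t ht x).2)).trans
      (T.t5_mono (le_max_right _ _) x)

theorem t5_mix_le (T : Tower S) (C : ℝ) (a : ℕ) (x y : S) :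
    exp (C * (1 + T.ν (T.mix a x y))) ≤ exp (|C| * (1 + T.ν x)) * exp (|C| * T.ν y) := by
  rw [← exp_add]
  refine (T.t5_mono (le_abs_self C) _).trans (exp_le_exp.2 ?_)
  have := mul_le_mul_of_nonneg_left (T.ν_mix a x y) (abs_nonneg C)
  linarith

theorem t5_int_le (T : Tower S) (C : ℝ) (a : ℕ) : ∃ C' : ℝ, ∀ φ : S → ℝ,
    (∀ x, |φ x| ≤ exp (C * (1 + T.ν x))) → ∀ x,
      |∫ y, φ (T.mix a x y) ∂T.μ| ≤ exp (C' * (1 + T.ν x)) := by
  refine ⟨|C| + |∫ y, exp (|C| * T.ν y) ∂T.μ|, fun φ h x => ?_⟩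
  have h1 : ‖∫ y, φ (T.mix a x y) ∂T.μ‖ ≤
      ∫ y, exp (|C| * (1 + T.ν x)) * exp (|C| * T.ν y) ∂T.μ :=
    norm_integral_le_of_norm_le ((T.mom _).const_mul _)
      (Filter.Eventually.of_forall fun y => (h _).trans (T.t5_mix_le C a x y))
  rw [integral_const_mul] at h1
  refine h1.trans ((le_abs_self _).trans (T.t5_mul ?_ (T.t5_const _ x)))
  rw [abs_of_pos (exp_pos _)]

theorem t5_meas_int (T : Tower S) (a : ℕ) {φ : S → ℝ} (h : Measurable φ) :
    Measurable fun x => ∫ y, φ (T.mix a x y) ∂T.μ :=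
  ((h.comp (T.meas_mix a)).stronglyMeasurable.integral_prod_right' (ν := T.μ)).measurable

theorem DerG.t5_mix (hU : IsOpen U) {φ φ' : ℝ → S → ℝ} (h : T.DerG U φ φ') (a : ℕ) :
    T.DerG U (fun t x => ∫ y, φ t (T.mix a x y) ∂T.μ)
      (fun t x => ∫ y, φ' t (T.mix a x y) ∂T.μ) := by
  obtain ⟨C, hC⟩ := h.bd
  obtain ⟨C', hC'⟩ := T.t5_int_le C a
  refine ⟨fun t ht => T.t5_meas_int a (h.meas t ht), fun t ht => T.t5_meas_int a (h.meas' t ht),
    ⟨C', fun t ht x => ⟨hC' _ (fun x => (hC t ht x).1) x, hC' _ (fun x => (hC t ht x).2) x⟩⟩,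
    fun t ht x => ?_⟩
  refine (hasDerivAt_integral_of_dominated_loc_of_deriv_le (μ := T.μ)
    (F := fun t y => φ t (T.mix a x y)) (F' := fun t y => φ' t (T.mix a x y))
    (bound := fun y => exp (|C| * (1 + T.ν x)) * exp (|C| * T.ν y)) (hU.mem_nhds ht) ?_
    ((h.gr ht).integrable_mix a x)
    ((h.meas' t ht).comp (T.measurable_mix a x)).aestronglyMeasurable ?_
    ((T.mom _).const_mul _) ?_).2
  · filter_upwards [hU.mem_nhds ht] with s hs
    exact ((h.meas s hs).comp (T.measurable_mix a x)).aestronglyMeasurable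
  · exact Filter.Eventually.of_forall fun y s hs => (hC s hs _).2.trans (T.t5_mix_le C a x y)
  · exact Filter.Eventually.of_forall fun y s hs => h.der s hs _

theorem t5_E_step {H φ : S → ℝ} (h : T.LG H) (hφ : T.Gr φ) {a : ℕ} (ha : a < T.L) (x : S) :
    T.E H a φ x = (∫ y, T.E H (a + 1) φ (T.mix a x y) *
      exp (T.e a * T.X H (a + 1) (T.mix a x y)) ∂T.μ) * exp (-T.e a * T.X H a x) := by
  rw [E_step h hφ ha, ← integral_mul_const]
  refine integral_congr_ae (Filter.Eventually.of_forall fun y => ?_)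
  dsimp only
  rw [mul_assoc, ← exp_add]
  congr 2
  ring

theorem DerL.X (hU : IsOpen U) {H H' : ℝ → S → ℝ} (h : T.DerL U H H') (a : ℕ) :
    T.DerL U (fun t => T.X (H t) a) (fun t => T.E (H t) a (H' t)) := by
  have mk : ∀ a, (∀ t ∈ U, ∀ x, HasDerivAt (fun t => T.X (H t) a x) (T.E (H t) a (H' t) x) t) →
      T.DerL U (fun t => T.X (H t) a) (fun t => T.E (H t) a (H' t)) := by
    intro a hd
    obtain ⟨C, hC⟩ := h.bd
    obtain ⟨C1, h1⟩ := X_bound (T := T) a C
    obtain ⟨C2, h2⟩ := E_bound (T := T) a C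
    refine ⟨fun t ht => T.measurable_X (h.meas t ht) a,
      fun t ht => T.measurable_E _ a (h.meas' t ht), ⟨max C1 C2, fun t ht x => ⟨?_, ?_⟩⟩, hd⟩
    · exact (h1 _ (h.meas t ht) (fun x => (hC t ht x).1) x).trans
        (mul_le_mul_of_nonneg_right (le_max_left _ _) (by linarith [T.ν_nonneg x]))
    · exact (h2 _ _ (h.meas t ht) (fun x => (hC t ht x).1) (fun x => (hC t ht x).2) x).trans
        (T.t5_mono (le_max_right _ _) x)
  induction a using T.down_ind with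
  | h0 a ha =>
    refine mk a fun t ht x => ?_
    simp only [T.X_of_ge _ ha, T.E_of_ge _ ha (h.meas' t ht)]
    exact h.der t ht x
  | h1 a ha ih =>
    refine mk a fun t ht x => ?_
    have h1 := ((ih.t5_exp (T.e a)).t5_mix hU a).der t ht x
    have h2 := exp_X_step (h.lg ht).ub ha x
    have he := T.e_pos' a
    have h3 := (h1.log (by rw [← h2]; exact (exp_pos _).ne')).const_mul (T.e a)⁻¹
    simp only [T.X_step _ ha, step]
    refine h3.congr_deriv (Eq.symm ?_)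
    rw [← h2, t5_E_step (h.lg ht) (h.gr' ht) ha, neg_mul, exp_neg, ← div_eq_mul_inv, ← mul_div_assoc,
      ← integral_const_mul]
    congr 1
    refine integral_congr_ae (Filter.Eventually.of_forall fun y => ?_)
    dsimp only
    field_simp

theorem DerL.hasDerivAt_A (hU : IsOpen U) {H H' : ℝ → S → ℝ} (h : T.DerL U H H') {t : ℝ}
    (ht : t ∈ U) : HasDerivAt (fun t => T.A (H t)) (∫ y, H' t y ∂(T.PP (H t))) t :=
  (h.X hU 0).der t ht T.x0

theorem t5_gr_resp {H V φ : S → ℝ} (h : T.LG H) (hV : T.Gr V) (hφ : T.Gr φ) (a : ℕ) :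
    T.Gr (T.resp H V φ a) :=
  (((hφ.mul hV).E h a).sub (Gr.sum _ fun r _ =>
    (((hφ.E h r).mul (hV.E h r)).E h a).const_mul (T.W r))).sub
    (((hφ.E h a).mul (hV.E h a)).const_mul (T.e a))

theorem t5_resp_step {H V φ : S → ℝ} (h : T.LG H) (hV : T.Gr V) (hφ : T.Gr φ) {a : ℕ}
    (ha : a < T.L) (x : S) :
    T.E H a (T.resp H V φ (a + 1)) x +
      T.e a * T.E H a (fun y => T.E H (a + 1) φ y * T.E H (a + 1) V y) x -
      T.e a * (T.E H a φ x * T.E H a V x) = T.resp H V φ a x := by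
  have g1 := (hφ.mul hV).E h (a + 1)
  have g2 : ∀ r, T.Gr (fun y => T.E H r φ y * T.E H r V y) := fun r => (hφ.E h r).mul (hV.E h r)
  have g3 : ∀ r, T.Gr (fun y => T.W r * T.E H (a + 1) (fun y => T.E H r φ y * T.E H r V y) y) :=
    fun r => ((g2 r).E h (a + 1)).const_mul (T.W r)
  have g4 := Gr.sum (Finset.Ioo (a + 1) T.L) fun r _ => g3 r
  have e1 : T.E H a (T.resp H V φ (a + 1)) x = T.E H a (fun y => φ y * V y) x -
      ∑ r ∈ Finset.Ioo (a + 1) T.L, T.W r * T.E H a (fun y => T.E H r φ y * T.E H r V y) x -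
      T.e (a + 1) * T.E H a (fun y => T.E H (a + 1) φ y * T.E H (a + 1) V y) x := by
    unfold resp
    rw [E_sub h (g1.sub g4) ((g2 (a + 1)).const_mul _), E_sub h g1 g4, E_sum _ h fun r _ => g3 r,
      E_const_mul, E_E h (Nat.le_succ a) (hφ.mul hV)]
    congr 2
    refine Finset.sum_congr rfl fun r _ => ?_
    rw [E_const_mul, E_E h (Nat.le_succ a) (g2 r)]
  rw [e1]
  unfold resp
  rcases Nat.lt_or_ge (a + 1) T.L with h1 | h1
  · have e2 : Finset.Ioo a T.L = insert (a + 1) (Finset.Ioo (a + 1) T.L) := by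
      ext r
      simp only [Finset.mem_Ioo, Finset.mem_insert]
      omega
    rw [e2, Finset.sum_insert (by simp)]
    simp only [W, Nat.add_sub_cancel]
    ring
  · have e2 : Finset.Ioo a T.L = ∅ := by
      ext r
      simp only [Finset.mem_Ioo, Finset.notMem_empty, iff_false]
      omega
    have e3 : Finset.Ioo (a + 1) T.L = ∅ := by
      ext r
      simp only [Finset.mem_Ioo, Finset.notMem_empty, iff_false]
      omega
    rw [e2, e3, T.e_of_ge (a := a) (by omega), T.e_of_ge (a := a + 1) (by omega)]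
    simp

theorem DerG.E (hU : IsOpen U) {H H' φ φ' : ℝ → S → ℝ} (h : T.DerL U H H') (g : T.DerG U φ φ')
    (a : ℕ) :
    T.DerG U (fun t => T.E (H t) a (φ t))
      (fun t x => T.E (H t) a (φ' t) x + T.resp (H t) (H' t) (φ t) a x) := by
  induction a using T.down_ind with
  | h0 a ha =>
    refine g.t5_congr hU (fun t ht => T.E_of_ge _ ha (g.meas t ht)) fun t ht => ?_
    funext x
    have e2 : Finset.Ioo a T.L = ∅ := by
      ext r
      simp only [Finset.mem_Ioo, Finset.notMem_empty, iff_false]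
      omega
    have m : Measurable fun y => φ t y * H' t y := (g.meas t ht).mul (h.meas' t ht)
    rw [resp, e2, T.E_of_ge _ ha (g.meas t ht), T.E_of_ge _ ha (g.meas' t ht),
      T.E_of_ge _ ha (h.meas' t ht), T.E_of_ge _ ha m, T.e_of_ge (a := a) (by omega)]
    simp
  | h1 a ha ih =>
    have G := ((ih.mul ((h.X hU (a + 1)).t5_exp (T.e a))).t5_mix hU a).mul
      ((h.X hU a).t5_exp (-T.e a))
    refine G.t5_congr hU (fun t ht => funext fun x => t5_E_step (h.lg ht) (g.gr ht) ha x)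
      fun t ht => funext fun x => ?_
    have hl := h.lg ht
    have hV := h.gr' ht
    have hφ := g.gr ht
    have hφ' := g.gr' ht
    have g1 := hφ'.E hl (a + 1)
    have g2 := t5_gr_resp hl hV hφ (a + 1)
    have g3 := ((hφ.E hl (a + 1)).mul (hV.E hl (a + 1))).const_mul (T.e a)
    have g4 := (g1.add g2).add g3
    have hd : T.Dep (a + 1) (fun y => T.E (H t) (a + 1) (φ' t) y +
        T.resp (H t) (H' t) (φ t) (a + 1) y +
        T.e a * (T.E (H t) (a + 1) (φ t) y * T.E (H t) (a + 1) (H' t) y)) := by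
      intro y y' hy
      have := fun ψ => dep_E hl.ub ψ (a + 1) y y' hy
      simp only [resp, this]
    have e1 := t5_E_step hl g4 ha x
    simp only [E_of_dep hl.ub g4.1 hd] at e1
    rw [E_add hl (g1.add g2) g3, E_add hl g1 g2, E_const_mul, E_E hl (Nat.le_succ a) hφ'] at e1
    have e2 := t5_resp_step hl hV hφ ha x
    have e3 := t5_E_step hl hφ ha x
    rw [← mul_assoc, ← e3, ← e2]
    have e4 : ∫ y, ((T.E (H t) (a + 1) (φ' t) (T.mix a x y) +
          T.resp (H t) (H' t) (φ t) (a + 1) (T.mix a x y)) *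
          exp (T.e a * T.X (H t) (a + 1) (T.mix a x y)) +
        T.E (H t) (a + 1) (φ t) (T.mix a x y) * (exp (T.e a * T.X (H t) (a + 1) (T.mix a x y)) *
          (T.e a * T.E (H t) (a + 1) (H' t) (T.mix a x y)))) ∂T.μ =
        ∫ y, (T.E (H t) (a + 1) (φ' t) (T.mix a x y) +
          T.resp (H t) (H' t) (φ t) (a + 1) (T.mix a x y) +
          T.e a * (T.E (H t) (a + 1) (φ t) (T.mix a x y) *
            T.E (H t) (a + 1) (H' t) (T.mix a x y))) *
          exp (T.e a * T.X (H t) (a + 1) (T.mix a x y)) ∂T.μ :=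
      integral_congr_ae (Filter.Eventually.of_forall fun y => by dsimp only; ring)
    rw [e4, ← e1]
    ring

theorem DerG.hasDerivAt_integral (hU : IsOpen U) {H H' φ φ' : ℝ → S → ℝ} (h : T.DerL U H H')
    (g : T.DerG U φ φ') {t : ℝ} (ht : t ∈ U) :
    HasDerivAt (fun t => ∫ y, φ t y ∂(T.PP (H t)))
      (∫ y, φ' t y ∂(T.PP (H t)) + T.resp (H t) (H' t) (φ t) 0 T.x0) t :=
  (g.E hU h 0).der t ht T.x0

end Tower

end Crest.Agent.R164
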