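import Crest.Agent.R164.G1
import Crest.Agent.R164.T5

/-! # Gaussian towers: integration by parts, freezing the level-0 coordinates -/

set_option autoImplicit false
set_option linter.unusedVariables false
set_option linter.unusedSectionVars false

open MeasureTheory ProbabilityTheory Real
open scoped ENNReal

namespace Crest.Agent.R164

theorem g2_int_exp (C : ℝ) : Integrable (fun x : ℝ => exp (C * (1 + |x|))) (gaussianReal 0 1) := by
  have h := integrable_exp_mul_abs (X := fun x : ℝ => x) (t := C)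
    (integrable_exp_mul_gaussianReal (μ := 0) (v := 1) C)
    (integrable_exp_mul_gaussianReal (μ := 0) (v := 1) (-C))
  refine (h.const_mul (exp C)).congr (Filter.Eventually.of_forall fun x => ?_)
  simp only [← exp_add]
  congr 1
  ring

theorem g2_mul_le {x a b C : ℝ} (hx : |x| ≤ a) (hb : |b| ≤ exp (C * (1 + a))) :
    |x * b| ≤ exp ((C + 1) * (1 + a)) := by
  rw [abs_mul, add_mul, exp_add, mul_comm]
  refine mul_le_mul hb ?_ (abs_nonneg _) (exp_pos _).le
  have := add_one_le_exp (1 * (1 + a))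
  linarith

theorem g2_exp_le {C a b D : ℝ} (ha : 0 ≤ a) (h : 1 + a ≤ D * (1 + b)) :
    exp (C * (1 + a)) ≤ exp (|C| * D * (1 + b)) := by
  refine exp_le_exp.2 ?_
  calc C * (1 + a) ≤ |C| * (1 + a) := mul_le_mul_of_nonneg_right (le_abs_self C) (by linarith)
    _ ≤ |C| * (D * (1 + b)) := mul_le_mul_of_nonneg_left h (abs_nonneg C)
    _ = _ := by ring

/-- one-dimensional Gaussian integration by parts -/
theorem gauss_ibp {f f' : ℝ → ℝ} (hf : ∀ x, HasDerivAt f (f' x) x) {C : ℝ}
    (hb : ∀ x, |f x| ≤ exp (C * (1 + |x|)) ∧ |f' x| ≤ exp (C * (1 + |x|))) :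
    ∫ x, x * f x ∂(gaussianReal 0 1) = ∫ x, f' x ∂(gaussianReal 0 1) := by
  have hc : Continuous f := continuous_iff_continuousAt.2 fun x => (hf x).continuousAt
  have hm' : Measurable f' := by
    have : f' = deriv f := funext fun x => (hf x).deriv.symm
    rw [this]
    exact measurable_deriv f
  have i0 : Integrable f (gaussianReal 0 1) :=
    (g2_int_exp C).mono' hc.aestronglyMeasurable (Filter.Eventually.of_forall fun x => (hb x).1)
  have i1 : Integrable f' (gaussianReal 0 1) :=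
    (g2_int_exp C).mono' hm'.aestronglyMeasurable (Filter.Eventually.of_forall fun x => (hb x).2)
  have i2 : Integrable (fun x => x * f x) (gaussianReal 0 1) :=
    (g2_int_exp (C + 1)).mono' (continuous_id.mul hc).aestronglyMeasurable
      (Filter.Eventually.of_forall fun x => g2_mul_le le_rfl (hb x).1)
  have hv : ∀ {g : ℝ → ℝ}, Integrable g (gaussianReal 0 1) →
      Integrable (fun x => gaussianPDFReal 0 1 x * g x) := fun {g} hg => by
    rw [gaussianReal_of_var_ne_zero _ one_ne_zero,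
      integrable_withDensity_iff_integrable_smul' (measurable_gaussianPDF _ _)
        (Filter.Eventually.of_forall fun _ => gaussianPDF_lt_top)] at hg
    simpa using hg
  have hp : ∀ x, HasDerivAt (gaussianPDFReal 0 1) (-(x * gaussianPDFReal 0 1 x)) x := fun x => by
    have h1 : HasDerivAt (fun x : ℝ => -(x - 0) ^ 2 / (2 * ((1 : NNReal) : ℝ))) (-x) x := by
      have := ((((hasDerivAt_id' x).sub_const 0).fun_pow 2).fun_neg).div_const
        (2 * ((1 : NNReal) : ℝ))
      refine this.congr_deriv ?_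
      simp
      ring
    have h2 := h1.exp.const_mul (√(2 * π * ((1 : NNReal) : ℝ)))⁻¹
    refine HasDerivAt.congr_deriv h2 ?_
    rw [gaussianPDFReal]
    ring
  have h0 := integral_eq_zero_of_hasDerivAt_of_integrable
    (f := fun x => gaussianPDFReal 0 1 x * f x)
    (f' := fun x => gaussianPDFReal 0 1 x * f' x - gaussianPDFReal 0 1 x * (x * f x))
    (fun x => ((hp x).fun_mul (hf x)).congr_deriv (by ring)) ((hv i1).sub (hv i2)) (hv i0)
  rw [integral_sub (hv i1) (hv i2)] at h0
  rw [integral_gaussianReal_eq_integral_smul one_ne_zero,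
    integral_gaussianReal_eq_integral_smul one_ne_zero]
  simp only [smul_eq_mul]
  linarith

theorem g2_update {I : Type} [Fintype I] [DecidableEq I] (i : I) :
    MeasurePreserving (fun p : (I → ℝ) × ℝ => Function.update p.1 i p.2)
      ((gpi I).prod (gaussianReal 0 1)) (gpi I) := by
  have hm : Measurable (fun p : (I → ℝ) × ℝ => Function.update p.1 i p.2) := measurable_update'
  refine ⟨hm, (Measure.pi_eq fun s hs => ?_).symm⟩
  have e : (fun p : (I → ℝ) × ℝ => Function.update p.1 i p.2) ⁻¹' Set.univ.pi s =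
      (Set.univ.pi (Function.update s i Set.univ)) ×ˢ s i := by
    ext p
    simp only [Set.mem_preimage, Set.mem_univ_pi, Set.mem_prod]
    constructor
    · intro h
      refine ⟨fun j => ?_, by simpa using h i⟩
      by_cases hj : j = i
      · subst hj
        simp
      · simpa [hj] using h j
    · rintro ⟨h1, h2⟩ j
      by_cases hj : j = i
      · subst hj
        simpa using h2
      · simpa [hj] using h1 j
  rw [Measure.map_apply hm (MeasurableSet.univ_pi hs), e, Measure.prod_prod, gpi, Measure.pi_pi,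
    ← Finset.mul_prod_erase _ _ (Finset.mem_univ i),
    ← Finset.mul_prod_erase _ (fun j => gaussianReal 0 1 (s j)) (Finset.mem_univ i)]
  rw [Function.update_self, measure_univ, one_mul, mul_comm]
  congr 1
  exact Finset.prod_congr rfl fun j hj => by rw [Function.update_of_ne (Finset.ne_of_mem_erase hj)]

theorem g2_norm_update {I : Type} [Fintype I] [DecidableEq I] (g : I → ℝ) (i : I) (t : ℝ) :
    ‖Function.update g i t‖ ≤ ‖g‖ + |t| := by
  refine (pi_norm_le_iff_of_nonneg (by positivity)).2 fun j => ?_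
  by_cases hj : j = i
  · subst hj
    simp
  · rw [Function.update_of_ne hj]
    linarith [norm_le_pi_norm g j, abs_nonneg t]

theorem g2_int_gpi {I : Type} [Fintype I] {f : (I → ℝ) → ℝ} (hm : Measurable f) {C : ℝ}
    (hb : ∀ g, |f g| ≤ exp (C * (1 + ‖g‖))) : Integrable f (gpi I) := by
  refine ((integrable_exp_norm_gpi I C).const_mul (exp C)).mono' hm.aestronglyMeasurable
    (Filter.Eventually.of_forall fun g => (hb g).trans (le_of_eq ?_))
  rw [← exp_add]
  congr 1
  ring

theorem g2_fubini {I : Type} [Fintype I] [DecidableEq I] (i : I) {f : (I → ℝ) → ℝ}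
    (hm : Measurable f) (hf : Integrable f (gpi I)) :
    ∫ g, f g ∂(gpi I) = ∫ g, ∫ t, f (Function.update g i t) ∂(gaussianReal 0 1) ∂(gpi I) := by
  rw [← integral_prod (fun p : (I → ℝ) × ℝ => f (Function.update p.1 i p.2))
    ((g2_update i).integrable_comp_of_integrable hf)]
  conv_lhs => rw [← (g2_update i).map_eq]
  exact integral_map (g2_update i).measurable.aemeasurable hm.aestronglyMeasurable

/-- the same in one coordinate of a product (Fubini) -/
theorem gpi_ibp {I : Type} [Fintype I] [DecidableEq I] (i : I) {f f' : (I → ℝ) → ℝ}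
    (hm : Measurable f) (hm' : Measurable f')
    (hf : ∀ g, HasDerivAt (fun t => f (Function.update g i (g i + t))) (f' g) 0) {C : ℝ}
    (hb : ∀ g, |f g| ≤ exp (C * (1 + ‖g‖)) ∧ |f' g| ≤ exp (C * (1 + ‖g‖))) :
    ∫ g, g i * f g ∂(gpi I) = ∫ g, f' g ∂(gpi I) := by
  have m2 : Measurable fun g : I → ℝ => g i * f g := (measurable_pi_apply i).mul hm
  rw [g2_fubini i m2 (g2_int_gpi m2 fun g => g2_mul_le (norm_le_pi_norm g i) (hb g).1),
    g2_fubini i hm' (g2_int_gpi hm' fun g => (hb g).2)]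
  refine integral_congr_ae (Filter.Eventually.of_forall fun g => ?_)
  simp only [Function.update_self]
  refine gauss_ibp (C := |C| * (1 + ‖g‖)) (fun t => ?_) fun t => ?_
  · have h := hf (Function.update g i t)
    simp only [Function.update_self, Function.update_idem] at h
    have h' := HasDerivAt.comp_sub_const t t (f := fun s => f (Function.update g i (t + s)))
      (by rwa [sub_self])
    simpa using h'
  · have h1 : 1 + ‖Function.update g i t‖ ≤ (1 + ‖g‖) * (1 + |t|) := by
      nlinarith [g2_norm_update g i t, mul_nonneg (norm_nonneg g) (abs_nonneg t)]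
    exact ⟨(hb _).1.trans (g2_exp_le (norm_nonneg _) h1), (hb _).2.trans (g2_exp_le (norm_nonneg _) h1)⟩

variable {Ω I A : Type} [MeasurableSpace Ω] [Fintype I] [MeasurableSpace A] [Fintype A]
  [Nonempty A] [MeasurableSingletonClass A] [Nonempty Ω] {X : Expo} {P : Measure Ω}
  [IsProbabilityMeasure P] {lev : I → Fin (X.n + 1)} [DecidableEq I]

theorem g2_norm_shift (i : I) (t : ℝ) (x : Ω × (I → ℝ) × A) :
    ‖(shift i t x).2.1‖ ≤ ‖x.2.1‖ + |t| := by
  refine (pi_norm_le_iff_of_nonneg (by positivity)).2 fun j => ?_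
  simp only [shift]
  by_cases hj : j = i
  · subst hj
    rw [Function.update_self]
    exact (norm_add_le _ _).trans (add_le_add (norm_le_pi_norm _ _) le_rfl)
  · rw [Function.update_of_ne hj]
    linarith [norm_le_pi_norm x.2.1 j, abs_nonneg t]

theorem g2_meas_shift (i : I) (t : ℝ) :
    Measurable (shift i t : Ω × (I → ℝ) × A → Ω × (I → ℝ) × A) := by
  unfold shift
  refine measurable_fst.prodMk (Measurable.prodMk ?_ measurable_snd.snd)
  exact measurable_update'.comp (f := fun x : Ω × (I → ℝ) × A => (x.2.1, x.2.1 i + t)) (by fun_prop)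

theorem g2_shift_zero (i : I) (x : Ω × (I → ℝ) × A) : shift i 0 x = x := by
  simp [shift]

theorem g2_shift_shift (i : I) (s t : ℝ) (x : Ω × (I → ℝ) × A) :
    shift i s (shift i t x) = shift i (t + s) x := by
  simp [shift, add_assoc]

theorem g2_PD {i : I} {φ dφ : Ω × (I → ℝ) × A → ℝ} (h : PD i φ dφ) (t : ℝ)
    (x : Ω × (I → ℝ) × A) : HasDerivAt (fun t => φ (shift i t x)) (dφ (shift i t x)) t := by
  have h1 := h (shift i t x)
  simp only [g2_shift_shift] at h1
  have h' := HasDerivAt.comp_sub_const t t (f := fun s => φ (shift i (t + s) x))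
    (by rwa [sub_self])
  simpa using h'

theorem mor_shift (i : I) (t : ℝ) :
    (gT X P lev A).Mor (gT X P lev A) (shift i t) ((lev i).val + 1) := by
  refine ⟨rfl, rfl, g2_meas_shift i t, ⟨1 + |t|, fun x => ?_⟩, fun a ha _ x => ?_⟩
  · simp only [gT_ν]
    nlinarith [g2_norm_shift i t x, mul_nonneg (norm_nonneg x.2.1) (abs_nonneg t)]
  · congr 1
    funext y
    refine Prod.ext rfl (Prod.ext (funext fun j => ?_) rfl)
    change Function.update (mixg lev a x.2.1 y.2.1) i (mixg lev a x.2.1 y.2.1 i + t) j =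
      mixg lev a (Function.update x.2.1 i (x.2.1 i + t)) y.2.1 j
    have hi : (lev i).val ≠ a := by omega
    by_cases hj : j = i
    · subst hj
      simp [mixg, hi]
    · simp [mixg, hj]

theorem g2_shift_bd (i : I) {t : ℝ} (ht : t ∈ Set.Ioo (-1 : ℝ) 1) (x : Ω × (I → ℝ) × A) :
    1 + ‖(shift i t x).2.1‖ ≤ 2 * (1 + ‖x.2.1‖) := by
  have := g2_norm_shift i t x
  have := abs_lt.2 ht
  have := norm_nonneg x.2.1
  linarith

theorem g2_exp_mono {C D a : ℝ} (h : C ≤ D) (ha : 0 ≤ a) : exp (C * (1 + a)) ≤ exp (D * (1 + a)) :=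
  exp_le_exp.2 (mul_le_mul_of_nonneg_right h (by linarith))

theorem g2_derL (i : I) {H dH : Ω × (I → ℝ) × A → ℝ} (hH : (gT X P lev A).LG H)
    (hdH : (gT X P lev A).Gr dH) (pH : PD i H dH) :
    (gT X P lev A).DerL (Set.Ioo (-1) 1) (fun t x => H (shift i t x))
      (fun t x => dH (shift i t x)) := by
  obtain ⟨m1, C1, h1⟩ := hH
  obtain ⟨m2, C2, h2⟩ := hdH
  refine ⟨fun t _ => m1.comp (g2_meas_shift i t), fun t _ => m2.comp (g2_meas_shift i t),
    ⟨|C1| * 2 + |C2| * 2, fun t ht x => ⟨?_, ?_⟩⟩, fun t _ x => g2_PD pH t x⟩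
  · refine (h1 _).trans ?_
    simp only [gT_ν]
    have h3 := g2_shift_bd i ht x
    have h4 := norm_nonneg (shift i t x).2.1
    have h5 := norm_nonneg x.2.1
    nlinarith [mul_le_mul_of_nonneg_right (le_abs_self C1) (show 0 ≤ 1 + ‖(shift i t x).2.1‖ by
      linarith), mul_le_mul_of_nonneg_left h3 (abs_nonneg C1), abs_nonneg C2]
  · exact (h2 _).trans ((g2_exp_le (norm_nonneg _) (g2_shift_bd i ht x)).trans
      (g2_exp_mono (by linarith [abs_nonneg C1]) (norm_nonneg _)))

theorem g2_derG (i : I) {H dH : Ω × (I → ℝ) × A → ℝ} (hH : (gT X P lev A).Gr H)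
    (hdH : (gT X P lev A).Gr dH) (pH : PD i H dH) :
    (gT X P lev A).DerG (Set.Ioo (-1) 1) (fun t x => H (shift i t x))
      (fun t x => dH (shift i t x)) := by
  obtain ⟨m1, C1, h1⟩ := hH
  obtain ⟨m2, C2, h2⟩ := hdH
  refine ⟨fun t _ => m1.comp (g2_meas_shift i t), fun t _ => m2.comp (g2_meas_shift i t),
    ⟨|C1| * 2 + |C2| * 2, fun t ht x => ⟨?_, ?_⟩⟩, fun t _ x => g2_PD pH t x⟩
  · exact (h1 _).trans ((g2_exp_le (norm_nonneg _) (g2_shift_bd i ht x)).trans
      (g2_exp_mono (by linarith [abs_nonneg C2]) (norm_nonneg _)))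
  · exact (h2 _).trans ((g2_exp_le (norm_nonneg _) (g2_shift_bd i ht x)).trans
      (g2_exp_mono (by linarith [abs_nonneg C1]) (norm_nonneg _)))

theorem g2_PD_X (i : I) {H dH : Ω × (I → ℝ) × A → ℝ} (hH : (gT X P lev A).LG H)
    (hdH : (gT X P lev A).Gr dH) (pH : PD i H dH) {r : ℕ} (hr : (lev i).val + 1 ≤ r) :
    PD i ((gT X P lev A).X H r) ((gT X P lev A).E H r dH) := by
  intro x
  have h := ((g2_derL i hH hdH pH).X isOpen_Ioo r).der 0 ⟨by norm_num, by norm_num⟩ x
  simp only [(mor_shift i _).X hH.1 hr, g2_shift_zero] at h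
  exact h

theorem g2_PD_E (i : I) {H dH φ dφ : Ω × (I → ℝ) × A → ℝ} (hH : (gT X P lev A).LG H)
    (hdH : (gT X P lev A).Gr dH) (pH : PD i H dH) (hφ : (gT X P lev A).Gr φ)
    (hdφ : (gT X P lev A).Gr dφ) (pφ : PD i φ dφ) {r : ℕ} (hr : (lev i).val + 1 ≤ r) :
    PD i ((gT X P lev A).E H r φ)
      (fun x => (gT X P lev A).E H r dφ x + (gT X P lev A).resp H dH φ r x) := by
  intro x
  have h := ((g2_derG i hφ hdφ pφ).E isOpen_Ioo (g2_derL i hH hdH pH) r).der 0
    ⟨by norm_num, by norm_num⟩ x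
  simp only [(mor_shift i _).E hH.ub hφ.1 hr, g2_shift_zero] at h
  exact h

theorem g2_fub1 {G : Ω × (I → ℝ) × A → ℝ} (hG : Integrable G (gT X P lev A).μ) :
    ∫ y, G y ∂(gT X P lev A).μ = ∫ ω, ∫ σ, ∫ g, G (ω, g, σ) ∂(gpi I) ∂(unif A) ∂P := by
  have hG' : Integrable G (P.prod ((gpi I).prod (unif A))) := hG
  refine (integral_prod G hG').trans (integral_congr_ae ?_)
  filter_upwards [hG'.prod_right_ae] with ω hω
  exact integral_prod_symm _ hω

theorem g2_fub2 {G : Ω × (I → ℝ) × A → ℝ} (hG : Integrable G (gT X P lev A).μ) :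
    ∫ y, G y ∂(gT X P lev A).μ = ∫ g, ∫ σ, ∫ ω, G (ω, g, σ) ∂P ∂(unif A) ∂(gpi I) := by
  have hG' : Integrable G (P.prod ((gpi I).prod (unif A))) := hG
  exact (integral_prod_symm G hG').trans (integral_prod _ hG'.integral_prod_right)

theorem g2_ibp_mix (i : I) {F dF : Ω × (I → ℝ) × A → ℝ} (hF : (gT X P lev A).Gr F)
    (hdF : (gT X P lev A).Gr dF) (pF : PD i F dF) (x : Ω × (I → ℝ) × A) :
    ∫ y, ((gT X P lev A).mix (lev i).val x y).2.1 i * F ((gT X P lev A).mix (lev i).val x y)
      ∂(gT X P lev A).μ = ∫ y, dF ((gT X P lev A).mix (lev i).val x y) ∂(gT X P lev A).μ := by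
  rw [g2_fub1 (((lg_coord i).gr.mul hF).integrable_mix _ x), g2_fub1 (hdF.integrable_mix _ x)]
  refine integral_congr_ae (Filter.Eventually.of_forall fun ω => ?_)
  refine integral_congr_ae (Filter.Eventually.of_forall fun σ => ?_)
  have hm : Measurable fun g : I → ℝ => (gT X P lev A).mix (lev i).val x (ω, g, σ) :=
    ((gT X P lev A).measurable_mix _ x).comp (by fun_prop)
  have e1 : ∀ g : I → ℝ, ((gT X P lev A).mix (lev i).val x (ω, g, σ)).2.1 i = g i := fun g => by
    change mixg lev (lev i).val x.2.1 g i = g i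
    simp [mixg]
  have e2 : ∀ (g : I → ℝ) (t : ℝ),
      (gT X P lev A).mix (lev i).val x (ω, Function.update g i (g i + t), σ) =
        shift i t ((gT X P lev A).mix (lev i).val x (ω, g, σ)) := fun g t => by
    refine Prod.ext rfl (Prod.ext (funext fun j => ?_) rfl)
    change mixg lev (lev i).val x.2.1 (Function.update g i (g i + t)) j =
      Function.update (mixg lev (lev i).val x.2.1 g) i (mixg lev (lev i).val x.2.1 g i + t) j
    by_cases hj : j = i
    · subst hj
      simp [mixg]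
    · simp [mixg, hj]
  obtain ⟨m1, C1, h1⟩ := hF
  obtain ⟨m2, C2, h2⟩ := hdF
  simp only [e1]
  have hn : ∀ g : I → ℝ, 1 + (gT X P lev A).ν ((gT X P lev A).mix (lev i).val x (ω, g, σ)) ≤
      (1 + ‖x.2.1‖) * (1 + ‖g‖) := fun g => by
    have := (gT X P lev A).ν_mix (lev i).val x (ω, g, σ)
    simp only [gT_ν] at this ⊢
    nlinarith [mul_nonneg (norm_nonneg x.2.1) (norm_nonneg g)]
  have hx : 0 ≤ 1 + ‖x.2.1‖ := by positivity
  refine gpi_ibp i (C := |C1| * (1 + ‖x.2.1‖) + |C2| * (1 + ‖x.2.1‖)) (m1.comp hm) (m2.comp hm)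
    (fun g => ?_) fun g => ⟨?_, ?_⟩
  · simp only [e2]
    exact pF _
  · exact (h1 _).trans ((g2_exp_le (norm_nonneg _) (hn g)).trans
      (g2_exp_mono (by linarith [mul_nonneg (abs_nonneg C2) hx]) (norm_nonneg _)))
  · exact (h2 _).trans ((g2_exp_le (norm_nonneg _) (hn g)).trans
      (g2_exp_mono (by linarith [mul_nonneg (abs_nonneg C1) hx]) (norm_nonneg _)))

/-- Gaussian integration by parts in the tower.  Let `l = lev i`.  For `r > l` the functions
`X_r`, `E_r φ` commute with the shift (`mor_shift`), so by `DerL.X`, `DerG.E` (family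
`t ↦ H ∘ shift i t` on `Ioo (-1) 1`) their partial derivatives are `E_r dH` and
`E_r dφ + resp`.  At level `l` use `E_step`, pull `g i` out (`E_mul_dep`) and apply
`gpi_ibp` to `g ↦ E_{l+1} φ · exp (e_l X_{l+1})`; then use the tower property for `a ≤ l`. -/
theorem ibp (i : I) {H dH φ dφ : Ω × (I → ℝ) × A → ℝ} (hH : (gT X P lev A).LG H)
    (hdH : (gT X P lev A).Gr dH) (pH : PD i H dH) (hφ : (gT X P lev A).Gr φ)
    (hdφ : (gT X P lev A).Gr dφ) (pφ : PD i φ dφ) {a : ℕ} (ha : a ≤ (lev i).val)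
    (x : Ω × (I → ℝ) × A) :
    (gT X P lev A).E H a (fun y => y.2.1 i * φ y) x =
      (gT X P lev A).E H a (fun y => dφ y + φ y * dH y) x -
      X.tau (fun r => (gT X P lev A).E H a
        (fun y => (gT X P lev A).E H r φ y * (gT X P lev A).E H r dH y) x) (lev i).val := by
  set T := gT X P lev A with hT
  set l := (lev i).val with hl
  have hlL : l + 1 < T.L := by
    have := (lev i).2
    change l + 1 < X.n + 2
    omega
  have gq : ∀ r, T.Gr fun y => T.E H r φ y * T.E H r dH y := fun r =>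
    (hφ.E hH r).mul (hdH.E hH r)
  have g1 : T.Gr fun y => dφ y + φ y * dH y := hdφ.add (hφ.mul hdH)
  have g2 : T.Gr fun y => ∑ r ∈ Finset.Ioo l T.L, T.W r * (T.E H r φ y * T.E H r dH y) :=
    Tower.Gr.sum _ fun r _ => (gq r).const_mul _
  set ψ : Ω × (I → ℝ) × A → ℝ := fun y => dφ y + φ y * dH y -
    ∑ r ∈ Finset.Ioo l T.L, T.W r * (T.E H r φ y * T.E H r dH y) with hψ
  have gψ : T.Gr ψ := g1.sub g2
  have hlin : ∀ c z, T.E H c ψ z = T.E H c (fun y => dφ y + φ y * dH y) z -
      ∑ r ∈ Finset.Ioo l T.L, T.W r * T.E H c (fun y => T.E H r φ y * T.E H r dH y) z := by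
    intro c z
    rw [hψ, Tower.E_sub hH g1 g2, Tower.E_sum _ hH fun r _ => (gq r).const_mul _]
    simp only [Tower.E_const_mul]
  have hb : ∀ z, T.E H (l + 1) ψ z = T.E H (l + 1) dφ z + T.resp H dH φ (l + 1) z +
      T.e l * (T.E H (l + 1) φ z * T.E H (l + 1) dH z) := by
    intro z
    have e : Finset.Ioo l T.L = insert (l + 1) (Finset.Ioo (l + 1) T.L) := by
      ext r
      simp only [Finset.mem_Ioo, Finset.mem_insert]
      omega
    rw [hlin, Tower.E_add hH hdφ (hφ.mul hdH), e, Finset.sum_insert (by simp),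
      Tower.E_of_dep hH.ub (gq _).1 ((Tower.dep_E hH.ub φ _).mul (Tower.dep_E hH.ub dH _)),
      Tower.resp, Tower.W, Nat.add_sub_cancel]
    ring
  have gc : T.Gr fun y => y.2.1 i * φ y := (lg_coord i).gr.mul hφ
  have hl0 : T.E H l (fun y => y.2.1 i * φ y) = T.E H l ψ := by
    funext z
    have ge : T.Gr fun y => exp (T.e l * (T.X H (l + 1) y - T.X H l z)) :=
      (((hH.X (l + 1)).sub (Tower.LG.const _)).const_mul _).ub.exp
    have h := g2_ibp_mix i
      (F := fun y => T.E H (l + 1) φ y * exp (T.e l * (T.X H (l + 1) y - T.X H l z)))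
      (dF := fun y => T.E H (l + 1) ψ y * exp (T.e l * (T.X H (l + 1) y - T.X H l z)))
      ((hφ.E hH _).mul ge) ((gψ.E hH _).mul ge) (fun y => by
        have d1 := g2_PD_E i hH hdH pH hφ hdφ pφ (le_refl (l + 1)) y
        have d2 := (((g2_PD_X i hH hdH pH (le_refl (l + 1)) y).sub_const (T.X H l z)).const_mul
          (T.e l)).exp
        refine (d1.fun_mul d2).congr_deriv ?_
        simp only [g2_shift_zero, hb]
        ring) z
    rw [Tower.E_step hH gc (by omega), Tower.E_step hH gψ (by omega), ← h]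
    refine integral_congr_ae (Filter.Eventually.of_forall fun y => ?_)
    simp only
    rw [Tower.E_mul_dep hH.ub (by fun_prop) (dep_coord i (Nat.lt_succ_self _)), mul_assoc]
  rw [← Tower.E_E hH ha gc, hl0, Tower.E_E hH ha gψ, hlin, ← X.sum_Ioo]
  rfl

theorem ibp_PP (i : I) {H dH φ dφ : Ω × (I → ℝ) × A → ℝ} (hH : (gT X P lev A).LG H)
    (hdH : (gT X P lev A).Gr dH) (pH : PD i H dH) (hφ : (gT X P lev A).Gr φ)
    (hdφ : (gT X P lev A).Gr dφ) (pφ : PD i φ dφ) :
    ∫ y, y.2.1 i * φ y ∂((gT X P lev A).PP H) =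
      ∫ y, (dφ y + φ y * dH y) ∂((gT X P lev A).PP H) -
      X.tau (fun r => ∫ y, (gT X P lev A).E H r φ y * (gT X P lev A).E H r dH y
        ∂((gT X P lev A).PP H)) (lev i).val :=
  ibp i hH hdH pH hφ hdφ pφ (Nat.zero_le _) _

theorem g2_mor_zero :
    (gT X P lev A).Mor (gT X P lev A) (fun x => (x.1, mixg lev 0 x.2.1 0, x.2.2)) 1 := by
  refine ⟨rfl, rfl, ?_, ⟨1, fun x => ?_⟩, fun a ha _ x => ?_⟩
  · refine measurable_fst.prodMk (Measurable.prodMk ?_ measurable_snd.snd)
    refine measurable_pi_lambda _ fun i => ?_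
    unfold mixg
    split_ifs <;> fun_prop
  · have := (gT X P lev A).ν_mix 0 x (x.1, 0, x.2.2)
    simp only [gT_ν, norm_zero] at this ⊢
    change ‖mixg lev 0 x.2.1 0‖ ≤ _ at this
    linarith
  · congr 1
    funext y
    refine Prod.ext rfl (Prod.ext (funext fun j => ?_) rfl)
    change mixg lev 0 (mixg lev a x.2.1 y.2.1) 0 j = mixg lev a (mixg lev 0 x.2.1 0) y.2.1 j
    simp only [mixg]
    split_ifs <;> first | rfl | omega

/-- Freezing the Gaussian coordinates of level `0`: the family `H g` sees `g` only through its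
level-0 coordinates and the state only through the other coordinates.  By `X_local`, at level
`1` the diagonal Hamiltonian has the same value as `H g`; then Fubini at level `0`. -/
theorem A_freeze {H : (I → ℝ) → Ω × (I → ℝ) × A → ℝ} (hm : Measurable (Function.uncurry H))
    {C : ℝ} (hb : ∀ g x, |H g x| ≤ C * (1 + ‖g‖ + ‖x.2.1‖))
    (h1 : ∀ g g' x, (∀ i, (lev i).val = 0 → g i = g' i) → H g x = H g' x)
    (h2 : ∀ g ω z z' σ, (∀ i, (lev i).val ≠ 0 → z i = z' i) → H g (ω, z, σ) = H g (ω, z', σ)) :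
    Measurable (fun g => (gT X P lev A).A (H g)) ∧
    (gT X P lev A).A (fun x => H x.2.1 x) =
      X.m⁻¹ * log (∫ g, exp (X.m * (gT X P lev A).A (H g)) ∂(gpi I)) := by
  set T := gT X P lev A with hT
  have hL : 0 < T.L := T.L_pos
  have hmg : ∀ g, Measurable (H g) := fun g => hm.of_uncurry_left
  have lg : ∀ g, T.LG (H g) := fun g => ⟨hmg g, |C| * (1 + ‖g‖), fun x => (hb g x).trans (by
    change _ ≤ |C| * (1 + ‖g‖) * (1 + ‖x.2.1‖)
    have h3 := norm_nonneg g
    have h4 := norm_nonneg x.2.1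
    nlinarith [mul_le_mul_of_nonneg_right (le_abs_self C) (show 0 ≤ 1 + ‖g‖ + ‖x.2.1‖ by linarith),
      mul_nonneg (abs_nonneg C) (mul_nonneg h3 h4)])⟩
  have ld : T.LG fun x => H x.2.1 x :=
    ⟨hm.comp (f := fun x : Ω × (I → ℝ) × A => (x.2.1, x)) (by fun_prop), |C| * 2,
      fun x => (hb _ x).trans (by
        change _ ≤ |C| * 2 * (1 + ‖x.2.1‖)
        have h4 := norm_nonneg x.2.1
        nlinarith [mul_le_mul_of_nonneg_right (le_abs_self C)
          (show 0 ≤ 1 + ‖x.2.1‖ + ‖x.2.1‖ by linarith), abs_nonneg C])⟩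
  refine ⟨(Tower.measurable_X_param (T := T) hm 0).comp (f := fun g => (g, T.x0)) (by fun_prop), ?_⟩
  have emix : ∀ ω g σ, T.mix 0 T.x0 (ω, g, σ) = (ω, mixg lev 0 0 g, T.x0.2.2) := fun ω g σ => rfl
  have k1 : ∀ g g' ω, T.X (H g) 1 (ω, mixg lev 0 0 g', T.x0.2.2) = T.X (H g) 1 (ω, 0, T.x0.2.2) := by
    intro g g' ω
    have e := (g2_mor_zero (X := X) (P := P) (lev := lev) (A := A)).X (hmg g) le_rfl
      (ω, mixg lev 0 0 g', T.x0.2.2)
    have e1 : (fun y : Ω × (I → ℝ) × A => H g (y.1, mixg lev 0 y.2.1 0, y.2.2)) = H g :=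
      funext fun y => h2 g _ _ _ _ fun i hi => by simp [mixg, hi]
    have e2 : mixg lev 0 (mixg lev 0 0 g') 0 = 0 := funext fun i => by
      simp only [mixg]
      split_ifs <;> rfl
    simp only [e1, e2] at e
    exact e
  have k2 : ∀ g ω, T.X (fun x => H x.2.1 x) 1 (ω, mixg lev 0 0 g, T.x0.2.2) =
      T.X (H g) 1 (ω, 0, T.x0.2.2) := by
    intro g ω
    rw [← k1 g g ω]
    refine Tower.X_local 1 _ fun y hy => h1 _ _ _ fun i hi => ?_
    rw [← hy.2.1 i (by omega)]
    simp [mixg, hi]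
  have hi : ∀ {F : Ω × (I → ℝ) × A → ℝ}, T.LG F →
      Integrable (fun y => exp (T.e 0 * T.X F (0 + 1) (T.mix 0 T.x0 y))) T.μ := fun hF =>
    ((hF.X _).const_mul _).ub.exp.integrable_mix 0 T.x0
  rw [Tower.A, T.X_step _ hL, Tower.step, g2_fub2 (hi ld)]
  change X.m⁻¹ * _ = _
  congr 2
  refine integral_congr_ae (Filter.Eventually.of_forall fun g => ?_)
  have e := Tower.exp_X_step (lg g).ub hL T.x0
  rw [g2_fub2 (hi (lg g))] at e
  simp only [emix, zero_add, k1, k2, integral_const, probReal_univ, one_smul] at e ⊢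
  exact e.symm

end Crest.Agent.R164
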