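import Crest.Agent.R164.T2

/-! # Towers: comparison inequalities -/

set_option autoImplicit false
set_option linter.unusedVariables false
set_option linter.unusedSectionVars false

open MeasureTheory ProbabilityTheory Real
open scoped ENNReal

namespace Crest.Agent.R164

namespace Tower

variable {S : Type} [MeasurableSpace S] {T : Tower S}

theorem t3_ub_mul {F : S → ℝ} (h : T.UB F) {c : ℝ} (hc : 0 ≤ c) : T.UB fun x => c * F x := by
  obtain ⟨hm, C, hC⟩ := h
  exact ⟨hm.const_mul c, c * C, fun x => by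
    rw [mul_assoc]
    exact mul_le_mul_of_nonneg_left (hC x) hc⟩

theorem t3_int {F : S → ℝ} (h : T.UB F) (a b : ℕ) (x : S) :
    Integrable (fun y => exp (T.e b * F (T.mix a x y))) T.μ :=
  (t3_ub_mul h (T.e_pos' b).le).exp.integrable_mix a x

/-- the one-step weights have total mass one -/
theorem t3_w {H : S → ℝ} (h : T.UB H) {a : ℕ} (ha : a < T.L) (x : S) :
    Integrable (fun y => exp (T.e a * (T.X H (a + 1) (T.mix a x y) - T.X H a x))) T.μ ∧
      ∫ y, exp (T.e a * (T.X H (a + 1) (T.mix a x y) - T.X H a x)) ∂T.μ = 1 := by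
  simp only [mul_sub, exp_sub]
  exact ⟨(t3_int (h.X _) a a x).div_const _, by
    rw [integral_div, ← exp_X_step h ha, div_self (exp_pos _).ne']⟩

theorem t3_exp_conv {l : ℝ} (h0 : 0 ≤ l) (h1 : l ≤ 1) (u v : ℝ) :
    exp ((1 - l) * u + l * v) ≤ (1 - l) * exp u + l * exp v :=
  convexOn_exp.2 (Set.mem_univ u) (Set.mem_univ v) (sub_nonneg.2 h1) h0 (sub_add_cancel 1 l)

theorem t3_jensen {Ω : Type} [MeasurableSpace Ω] {P : Measure Ω} [IsProbabilityMeasure P]
    {f : Ω → ℝ} (hf : Integrable f P) (he : Integrable (fun y => exp (f y)) P) :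
    ∫ y, f y ∂P ≤ log (∫ y, exp (f y) ∂P) :=
  (le_log_iff_exp_le (integral_exp_pos he)).2
    (convexOn_exp.map_integral_le continuous_exp.continuousOn isClosed_univ (by simp) hf he)

theorem X_mono {H G : S → ℝ} (h : T.UB H) (g : T.UB G) (hle : ∀ x, H x ≤ G x) (a : ℕ) (x : S) :
    T.X H a x ≤ T.X G a x := by
  induction a using T.down_ind generalizing x with
  | h0 a ha => rw [T.X_of_ge H ha, T.X_of_ge G ha]; exact hle x
  | h1 a ha ih =>
    refine le_of_mul_le_mul_left (exp_le_exp.1 ?_) (T.e_pos' a)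
    rw [exp_X_step h ha, exp_X_step g ha]
    exact integral_mono (t3_int (h.X _) a a x) (t3_int (g.X _) a a x) fun y =>
      exp_le_exp.2 (mul_le_mul_of_nonneg_left (ih _) (T.e_pos' a).le)

theorem X_add_const {H : S → ℝ} (h : T.UB H) (c : ℝ) (a : ℕ) (x : S) :
    T.X (fun y => H y + c) a x = T.X H a x + c := by
  induction a using T.down_ind generalizing x with
  | h0 a ha => rw [T.X_of_ge _ ha, T.X_of_ge _ ha]
  | h1 a ha ih =>
    refine mul_left_cancel₀ (T.e_pos' a).ne' (exp_injective ?_)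
    rw [exp_X_step (h.add (LG.const c).ub) ha, mul_add, exp_add, exp_X_step h ha,
      ← integral_mul_const]
    simp only [ih, mul_add, exp_add]

theorem X_const (c : ℝ) (a : ℕ) (x : S) : T.X (fun _ => c) a x = c := by
  induction a using T.down_ind generalizing x with
  | h0 a ha => rw [T.X_of_ge _ ha]
  | h1 a ha ih =>
    refine mul_left_cancel₀ (T.e_pos' a).ne' (exp_injective ?_)
    rw [exp_X_step (LG.const c).ub ha]
    simp [ih]

theorem abs_X_sub_le {H G : S → ℝ} (h : T.UB H) (g : T.UB G) {C : ℝ} (hle : ∀ x, |H x - G x| ≤ C)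
    (a : ℕ) (x : S) : |T.X H a x - T.X G a x| ≤ C := by
  have h1 := X_mono h (g.add (LG.const C).ub) (fun y => by linarith [(abs_le.1 (hle y)).2]) a x
  have h2 := X_mono g (h.add (LG.const C).ub) (fun y => by linarith [(abs_le.1 (hle y)).1]) a x
  rw [X_add_const g] at h1
  rw [X_add_const h] at h2
  exact abs_le.2 ⟨by linarith, by linarith⟩

/-- convexity in the Hamiltonian (Hölder at every level) -/
theorem X_convex {H G : S → ℝ} (h : T.UB H) (g : T.UB G) {l : ℝ} (h0 : 0 ≤ l) (h1 : l ≤ 1)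
    (a : ℕ) (x : S) :
    T.X (fun y => (1 - l) * H y + l * G y) a x ≤ (1 - l) * T.X H a x + l * T.X G a x := by
  have hu := (t3_ub_mul h (sub_nonneg.2 h1)).add (t3_ub_mul g h0)
  induction a using T.down_ind generalizing x with
  | h0 a ha => rw [T.X_of_ge _ ha, T.X_of_ge _ ha, T.X_of_ge _ ha]
  | h1 a ha ih =>
    refine le_of_mul_le_mul_left (exp_le_exp.1 ?_) (T.e_pos' a)
    obtain ⟨i1, e1⟩ := t3_w h ha x
    obtain ⟨i2, e2⟩ := t3_w g ha x
    have i3 := (i1.const_mul (1 - l)).add (i2.const_mul l)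
    rw [exp_X_step hu ha]
    refine (integral_mono (t3_int (hu.X _) a a x) (i3.const_mul
      (exp (T.e a * ((1 - l) * T.X H a x + l * T.X G a x)))) fun y => ?_).trans (le_of_eq ?_)
    · refine le_trans ?_ (mul_le_mul_of_nonneg_left (t3_exp_conv h0 h1 _ _) (exp_pos _).le)
      rw [← exp_add]
      have := mul_le_mul_of_nonneg_left (ih (T.mix a x y)) (T.e_pos' a).le
      exact exp_le_exp.2 (by linarith)
    · rw [integral_const_mul, integral_add' (i1.const_mul _) (i2.const_mul _), integral_const_mul,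
        integral_const_mul, e1, e2]
      ring

/-- With `Y a = X (H+V) a - X H a` one has
`exp (e a * Y a x) = ∫ exp (e a * Y (a+1)) d(K1 H a x)`; the power means are monotone in the
exponent, so by downward induction `log E_a e^{c V} ≤ c * Y a` for `0 < c ≤ e a`. -/
theorem log_E_exp_le {H V : S → ℝ} (h : T.LG H) (v : T.LG V) (a : ℕ) {c : ℝ} (hc : 0 < c)
    (hca : c ≤ T.e a) (x : S) :
    log (T.E H a (fun y => exp (c * V y)) x) ≤
      c * (T.X (fun y => H y + V y) a x - T.X H a x) := by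
  have hφ := (v.const_mul c).ub.exp
  refine (log_le_iff_le_exp (integral_exp_pos (hφ.integrable_K h a x))).2 ?_
  change T.E H a (fun y => exp (c * V y)) x ≤ _
  induction a using T.down_ind generalizing x with
  | h0 a ha => rw [T.X_of_ge _ ha, T.X_of_ge _ ha, T.E_of_ge _ ha hφ.1, add_sub_cancel_left]
  | h1 a ha ih =>
    obtain ⟨i1, e1⟩ := t3_w h.ub ha x
    obtain ⟨i2, e2⟩ := t3_w (h.add v).ub ha x
    have he := T.e_pos' a
    have i3 := (i1.const_mul (1 - c / T.e a)).add (i2.const_mul (c / T.e a))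
    rw [E_step h hφ ha]
    refine (integral_mono_of_nonneg (.of_forall fun y => mul_nonneg
      (integral_nonneg fun _ => (exp_pos _).le) (exp_pos _).le) (i3.const_mul
      (exp (c * (T.X (fun y => H y + V y) a x - T.X H a x)))) (.of_forall fun y => ?_)).trans
      (le_of_eq ?_)
    · refine le_trans ?_ (mul_le_mul_of_nonneg_left
        (t3_exp_conv (by positivity) ((div_le_one he).2 hca) _ _) (exp_pos _).le)
      refine (mul_le_mul_of_nonneg_right (ih (hca.trans (T.e_mono a.le_succ)) _)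
        (exp_pos _).le).trans (le_of_eq ?_)
      rw [← exp_add, ← exp_add]
      congr 1
      field_simp
      ring
    · rw [integral_const_mul, integral_add' (i1.const_mul _) (i2.const_mul _), integral_const_mul,
        integral_const_mul, e1, e2]
      ring

theorem E_le_X_sub {H V : S → ℝ} (h : T.LG H) (v : T.LG V) (a : ℕ) (x : S) :
    T.E H a V x ≤ T.X (fun y => H y + V y) a x - T.X H a x := by
  refine le_of_mul_le_mul_left (le_trans ?_ (log_E_exp_le h v a (T.e_pos' a) le_rfl x)) (T.e_pos' a)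
  rw [← E_const_mul]
  exact t3_jensen ((v.const_mul _).gr.integrable_K h a x) ((v.const_mul _).ub.exp.integrable_K h a x)

theorem X_sub_le_log {H V : S → ℝ} (h : T.LG H) (v : T.LG V) (a : ℕ) (x : S) :
    T.X (fun y => H y + V y) a x - T.X H a x ≤ log (T.E H a (fun y => exp (V y)) x) := by
  have hφ := v.ub.exp
  refine (le_log_iff_exp_le (integral_exp_pos (hφ.integrable_K h a x))).2 ?_
  change _ ≤ T.E H a (fun y => exp (V y)) x
  induction a using T.down_ind generalizing x with
  | h0 a ha => rw [T.X_of_ge _ ha, T.X_of_ge _ ha, T.E_of_ge _ ha hφ.1, add_sub_cancel_left]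
  | h1 a ha ih =>
    obtain ⟨i1, e1⟩ := t3_w h.ub ha x
    obtain ⟨i2, e2⟩ := t3_w (h.add v).ub ha x
    have he := T.e_pos' a
    have i3 := ((hφ.E h (a + 1)).mul
      (((h.X (a + 1)).sub (LG.const (T.X H a x))).const_mul (T.e a)).ub.exp).integrable_mix a x
    set Y := T.X (fun y => H y + V y) a x - T.X H a x with hY
    have h4 := integral_mono i2 ((i1.const_mul (1 - T.e a)).add
      ((i3.const_mul (exp (-Y))).const_mul (T.e a))) fun y => by
        refine le_trans ?_ (add_le_add le_rfl (mul_le_mul_of_nonneg_left (mul_le_mul_of_nonneg_left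
          (mul_le_mul_of_nonneg_right (ih _) (exp_pos _).le) (exp_pos _).le) he.le))
        rw [← exp_add, ← exp_add]
        exact le_trans (exp_le_exp.2 (le_of_eq (by rw [hY]; ring)))
          (t3_exp_conv he.le (T.e_le a) _ _)
    rw [e2, integral_add' (i1.const_mul _) ((i3.const_mul _).const_mul _), integral_const_mul,
      integral_const_mul, integral_const_mul, e1, ← E_step h hφ ha, exp_neg] at h4
    have h5 : 1 ≤ (exp Y)⁻¹ * T.E H a (fun y => exp (V y)) x := le_of_mul_le_mul_left (by linarith) he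
    rwa [← div_eq_inv_mul, one_le_div (exp_pos _)] at h5

/-- `X (H+V) - X H ≤ E_{H+V} V` (apply `E_le_X_sub` to `H+V` and `-V`) -/
theorem X_sub_le_E {H V : S → ℝ} (h : T.LG H) (v : T.LG V) (a : ℕ) (x : S) :
    T.X (fun y => H y + V y) a x - T.X H a x ≤ T.E (fun y => H y + V y) a V x := by
  have h1 := E_le_X_sub (h.add v) v.neg a x
  simp only [add_neg_cancel_right, E, integral_neg] at h1
  unfold E
  linarith

/-- A bounded perturbation changes the Gibbs kernels by a bounded factor.  Induction hypothesis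
(`Y` as above): `K (H+V) a x ≤ exp (C + (1 - e a) C - e a * Y a x) • K H a x`. -/
theorem K_le_of_bdd {H V : S → ℝ} (h : T.LG H) (hm : Measurable V) {C : ℝ} (hV : ∀ x, |V x| ≤ C)
    (a : ℕ) (x : S) :
    T.K (fun y => H y + V y) a x ≤ ENNReal.ofReal (exp (2 * C)) • T.K H a x := by
  have v : T.LG V := LG.of_bdd hm hV
  have hY : ∀ a x, |T.X (fun y => H y + V y) a x - T.X H a x| ≤ C :=
    abs_X_sub_le (h.add v).ub h.ub fun x => by simpa using hV x
  refine Measure.le_iff.2 fun s hs => ?_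
  have hf : Measurable (s.indicator (1 : S → ℝ≥0∞)) := measurable_one.indicator hs
  rw [Measure.smul_apply, smul_eq_mul, ← lintegral_indicator_one hs, ← lintegral_indicator_one hs]
  refine le_trans ?_ (mul_le_mul_left (ENNReal.ofReal_le_ofReal (exp_le_exp.2
    (?_ : C + (1 - T.e a) * C - T.e a * (T.X (fun y => H y + V y) a x - T.X H a x) ≤ _))) _)
  swap
  · nlinarith [(abs_le.1 (hY a x)).1, T.e_pos' a]
  induction a using T.down_ind generalizing x with
  | h0 a ha =>
    rw [T.K_of_ge _ ha, T.K_of_ge _ ha]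
    refine le_mul_of_one_le_left' (ENNReal.one_le_ofReal.2 (one_le_exp ?_))
    rw [T.e_of_ge ((Nat.sub_le _ _).trans ha)]
    linarith [(abs_le.1 (hY a x)).2]
  | h1 a ha ih =>
    rw [lintegral_K_step (h.add v).ub ha hf, lintegral_K_step h.ub ha hf,
      ← lintegral_const_mul' _ _ ENNReal.ofReal_ne_top]
    refine lintegral_mono fun y => (mul_le_mul_left (ih _) _).trans ?_
    rw [mul_right_comm, mul_left_comm, mul_comm]
    refine mul_le_mul_right ?_ _
    unfold dens
    rw [← ENNReal.ofReal_mul (exp_pos _).le, ← ENNReal.ofReal_mul (exp_pos _).le, ← exp_add,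
      ← exp_add]
    refine ENNReal.ofReal_le_ofReal (exp_le_exp.2 ?_)
    nlinarith [(abs_le.1 (hY (a + 1) (T.mix a x y))).1, T.e_mono a.le_succ]

theorem t3_le {μ μ' : Measure S} {k : ℝ} (hle : μ' ≤ ENNReal.ofReal (exp k) • μ) {f f' : S → ℝ}
    (h0 : ∀ y, 0 ≤ f' y) (h1 : ∀ y, f' y ≤ f y) (hf : Integrable f μ) :
    ∫ y, f' y ∂μ' ≤ exp k * ∫ y, f y ∂μ := by
  have h2 := hf.smul_measure (ENNReal.ofReal_ne_top (r := exp k))
  refine (integral_mono_of_nonneg (.of_forall h0) (h2.mono_measure hle) (.of_forall h1)).trans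
    ((integral_mono_measure hle (.of_forall fun y => (h0 y).trans (h1 y)) h2).trans (le_of_eq ?_))
  rw [integral_smul_measure, ENNReal.toReal_ofReal (exp_pos _).le, smul_eq_mul]

theorem E_le_of_bdd {H V φ : S → ℝ} (h : T.LG H) (hm : Measurable V) {C : ℝ} (hV : ∀ x, |V x| ≤ C)
    (hφ : T.Gr φ) (h0 : ∀ y, 0 ≤ φ y) (a : ℕ) (x : S) :
    T.E (fun y => H y + V y) a φ x ≤ exp (2 * C) * T.E H a φ x := by
  exact t3_le (K_le_of_bdd h hm hV a x) h0 (fun _ => le_rfl) (hφ.integrable_K h a x)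

theorem Err2_le_of_bdd {ι : Type} {H V : S → ℝ} {s : ι → S → ℝ} (J : Finset ι) (h : T.LG H)
    (hm : Measurable V) {C : ℝ} (hV : ∀ x, |V x| ≤ C) (hs : ∀ i ∈ J, Measurable (s i)) {B : ℝ}
    (hB : ∀ i ∈ J, ∀ x, |s i x| ≤ B) (r : ℕ) (c : ℝ) :
    T.Err2 (fun y => H y + V y) s J r c ≤ exp (6 * C) * T.Err2 H s J r c := by
  have hg : Measurable fun p : S × S => |∑ i ∈ J, s i p.1 * s i p.2 - c| :=
    ((Finset.measurable_sum _ fun i hi => ((hs i hi).comp measurable_fst).mul
      ((hs i hi).comp measurable_snd)).sub_const c).abs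
  set M := ∑ i ∈ J, B * B + |c| with hM
  have hb : ∀ y y', ‖|∑ i ∈ J, s i y * s i y' - c|‖ ≤ M := fun y y' => by
    rw [Real.norm_eq_abs, abs_abs]
    refine (abs_sub _ _).trans (add_le_add ((Finset.abs_sum_le_sum_abs _ _).trans
      (Finset.sum_le_sum fun i hi => ?_)) le_rfl)
    rw [abs_mul]
    exact mul_le_mul (hB i hi y) (hB i hi y') (abs_nonneg _) ((abs_nonneg _).trans (hB i hi y))
  have m1 : StronglyMeasurable fun p : S × S =>
      ∫ y', |∑ i ∈ J, s i p.2 * s i y' - c| ∂(T.K H r p.1) :=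
    StronglyMeasurable.integral_kernel_prod_right' (κ := Kernel.prodMkRight S (T.K H r))
      (f := fun q : (S × S) × S => |∑ i ∈ J, s i q.1.2 * s i q.2 - c|)
      (hg.comp (measurable_fst.snd.prodMk measurable_snd)).stronglyMeasurable
  have b1 : ∀ x y, ‖∫ y', |∑ i ∈ J, s i y * s i y' - c| ∂(T.K H r x)‖ ≤ M := fun x y => by
    simpa using norm_integral_le_of_norm_le_const (μ := T.K H r x) (.of_forall (hb y))
  have hK := K_le_of_bdd h hm hV
  refine (t3_le (hK 0 T.x0) (fun x => integral_nonneg fun y => integral_nonneg fun _ => abs_nonneg _)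
    (fun x => t3_le (hK r x) (fun y => integral_nonneg fun _ => abs_nonneg _)
      (fun y => t3_le (hK r x) (fun _ => abs_nonneg _) (fun _ => le_rfl) ?_) ?_) ?_).trans
    (le_of_eq ?_)
  · exact (integrable_const M).mono' (hg.comp measurable_prodMk_left).aestronglyMeasurable
      (.of_forall (hb y))
  · exact ((integrable_const M).mono' (m1.comp_measurable
      measurable_prodMk_left).aestronglyMeasurable (.of_forall (b1 x))).const_mul _
  · simp only [integral_const_mul]
    refine (((integrable_const M).mono' m1.integral_kernel_prod_right'.aestronglyMeasurable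
      (.of_forall fun x => ?_)).const_mul _).const_mul _
    simpa using norm_integral_le_of_norm_le_const (μ := T.K H r x) (.of_forall (b1 x))
  · simp only [integral_const_mul]
    rw [← mul_assoc, ← mul_assoc, ← exp_add, ← exp_add, show 2 * C + 2 * C + 2 * C = 6 * C by ring]
    rfl

/-- small (in `L¹`) bounded perturbation on top of a bounded tilt -/
theorem pert {H V R : S → ℝ} (h : T.LG H) (hV : Measurable V) (hR : Measurable R) {C C' : ℝ}
    (bV : ∀ x, |V x| ≤ C) (bR : ∀ x, |R x| ≤ C') :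
    |T.A (fun y => H y + V y + R y) - T.A (fun y => H y + V y)| ≤
      exp (2 * (C + C')) * ∫ y, |R y| ∂(T.PP H) := by
  have v : T.LG V := LG.of_bdd hV bV
  have r : T.LG R := LG.of_bdd hR bR
  have h1 := X_sub_le_E (h.add v) r 0 T.x0
  have h2 := E_le_X_sub (h.add v) r 0 T.x0
  have h3 := E_mono ((h.add v).add r) r.gr r.abs.gr (fun y => le_abs_self _) 0 T.x0
  have h4 := E_mono (h.add v) r.neg.gr r.abs.gr (fun y => neg_le_abs _) 0 T.x0
  have h5 := E_le_of_bdd h (hV.add hR) (C := C + C')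
    (fun y => (abs_add_le _ _).trans (add_le_add (bV y) (bR y))) r.abs.gr (fun y => abs_nonneg _) 0 T.x0
  have h6 := E_le_of_bdd h hV (C := C + C') (fun y => (bV y).trans
    (le_add_of_nonneg_right ((abs_nonneg _).trans (bR y)))) r.abs.gr (fun y => abs_nonneg _) 0 T.x0
  simp only [Pi.add_apply, ← add_assoc] at h5
  simp only [E, integral_neg] at h1 h2 h3 h4 h5 h6
  unfold A PP
  exact abs_le.2 ⟨by linarith, by linarith⟩

/-- second order bound for a bounded perturbation -/
theorem A_add_bdd {H V : S → ℝ} (h : T.LG H) (hV : Measurable V) (bV : ∀ x, |V x| ≤ 1) {δ : ℝ}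
    (hδ : |δ| ≤ 1) :
    0 ≤ T.A (fun y => H y + δ * V y) - T.A H - δ * ∫ y, V y ∂(T.PP H) ∧
    T.A (fun y => H y + δ * V y) - T.A H - δ * ∫ y, V y ∂(T.PP H) ≤ δ ^ 2 := by
  have v : T.LG V := LG.of_bdd hV bV
  have h1 := E_le_X_sub h (v.const_mul δ) 0 T.x0
  have h2 := X_sub_le_log h (v.const_mul δ) 0 T.x0
  have i1 := (v.const_mul δ).ub.exp.integrable_PP h
  have i2 := (v.gr.integrable_PP h).const_mul δ
  have h3 := log_le_sub_one_of_pos (integral_exp_pos i1)
  have h4 := integral_mono i1 (i2.add (integrable_const (1 + δ ^ 2))) fun y => by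
    have b1 : |δ * V y| ≤ |δ| := by
      rw [abs_mul]
      exact mul_le_of_le_one_right (abs_nonneg _) (bV y)
    have b2 := (abs_le.1 (Real.abs_exp_sub_one_sub_id_le (b1.trans hδ))).2
    have b3 := sq_le_sq.2 b1
    simp only [Pi.add_apply]
    linarith
  rw [integral_add' i2 (integrable_const _), integral_const_mul, integral_const, probReal_univ,
    one_smul] at h4
  rw [E_const_mul, E_zero_eq] at h1
  rw [E_zero_eq] at h2
  unfold A
  exact ⟨by linarith, by linarith⟩

/-- subadditivity: `(u+v)^θ ≤ u^θ + v^θ` for `θ ≤ 1` at every level -/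
theorem exp_X_logAdd {H G : S → ℝ} (h : T.UB H) (g : T.UB G) (a : ℕ) (x : S) :
    exp (T.e a * T.X (fun y => log (exp (H y) + exp (G y))) a x) ≤
      exp (T.e a * T.X H a x) + exp (T.e a * T.X G a x) := by
  induction a using T.down_ind generalizing x with
  | h0 a ha =>
    rw [T.X_of_ge _ ha, T.X_of_ge _ ha, T.X_of_ge _ ha, T.e_of_ge ((Nat.sub_le _ _).trans ha),
      one_mul, one_mul, one_mul, exp_log (by positivity)]
  | h1 a ha ih =>
    rw [exp_X_step (h.logAdd g) ha, exp_X_step h ha, exp_X_step g ha,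
      ← integral_add (t3_int (h.X _) a a x) (t3_int (g.X _) a a x)]
    refine integral_mono (t3_int ((h.logAdd g).X _) a a x)
      ((t3_int (h.X _) a a x).add (t3_int (g.X _) a a x)) fun y => ?_
    have h1 := T.e_pos' (a + 1)
    have h2 : 0 ≤ T.e a / T.e (a + 1) := div_nonneg (T.e_pos' a).le h1.le
    have e : ∀ u, exp (T.e a * u) = exp (T.e (a + 1) * u) ^ (T.e a / T.e (a + 1)) := fun u => by
      rw [← exp_mul]
      congr 1
      field_simp
    simp only [e]
    exact (rpow_le_rpow (exp_pos _).le (ih _) h2).trans (rpow_add_le_add_rpow (exp_pos _).le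
      (exp_pos _).le h2 ((div_le_one h1).2 (T.e_mono a.le_succ)))

/-- putting a floor `τ` under the weight `e^V` costs little -/
theorem floor_le {H V : S → ℝ} (h : T.UB H) (v : T.UB (fun y => H y + V y)) (hV : Measurable V)
    {τ D : ℝ} (hτ : 0 < τ) (hD : T.A H ≤ T.A (fun y => H y + V y) + D) :
    T.A (fun y => H y + V y) ≤ T.A (fun y => H y + log (exp (V y) + τ)) ∧
    T.A (fun y => H y + log (exp (V y) + τ)) ≤
      T.A (fun y => H y + V y) + τ ^ T.e 0 * exp (T.e 0 * D) / T.e 0 := by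
  have e : (fun y => H y + log (exp (V y) + τ)) =
      fun y => log (exp (H y + V y) + exp (H y + log τ)) := funext fun y => by
    rw [exp_add, exp_add, exp_log hτ, ← mul_add, log_mul (exp_pos _).ne' (by positivity), log_exp]
  have g := h.add (LG.const (log τ)).ub
  have he := T.e_pos
  constructor
  · refine X_mono v (e ▸ v.logAdd g) (fun y => add_le_add le_rfl ?_) 0 T.x0
    exact (le_log_iff_exp_le (by positivity)).2 (by linarith)
  have h1 := exp_X_logAdd v g 0 T.x0
  rw [X_add_const h, ← e] at h1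
  unfold A at hD ⊢
  have h2 : exp (T.e 0 * (T.X H 0 T.x0 + log τ)) ≤
      exp (T.e 0 * T.X (fun y => H y + V y) 0 T.x0) * (τ ^ T.e 0 * exp (T.e 0 * D)) := by
    rw [rpow_def_of_pos hτ, ← exp_add, ← exp_add]
    exact exp_le_exp.2 (by nlinarith)
  have h3 := mul_le_mul_of_nonneg_left (add_one_le_exp (τ ^ T.e 0 * exp (T.e 0 * D)))
    (exp_pos (T.e 0 * T.X (fun y => H y + V y) 0 T.x0)).le
  rw [← exp_add] at h3
  have h4 := exp_le_exp.1 (h1.trans (le_trans (by linarith) h3))
  refine le_of_mul_le_mul_left (h4.trans (le_of_eq ?_)) he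
  field_simp

theorem t3_up {H Q : S → ℝ} (h : T.LG H) (q : T.LG Q) {c d s : ℝ} (hc : 0 < c) (hs : 0 ≤ s)
    (hsc : s ≤ c) (hd : T.A (fun y => H y + c * Q y) ≤ T.A H + d) :
    T.A (fun y => H y + s * Q y) ≤ T.A H + s / c * d := by
  have h0 : 0 ≤ s / c := by positivity
  have h1 := X_convex h.ub (h.add (q.const_mul c)).ub h0 ((div_le_one hc).2 hsc) 0 T.x0
  rw [show (fun y => (1 - s / c) * H y + s / c * (H y + c * Q y)) = fun y => H y + s * Q y from
    funext fun y => by field_simp; ring] at h1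
  unfold A at hd ⊢
  nlinarith [mul_le_mul_of_nonneg_left hd h0]

theorem t3_low {H Q : S → ℝ} (h : T.LG H) (q : T.LG Q) {c d s : ℝ} (hc : 0 < c) (hs : 0 ≤ s)
    (hd : T.A (fun y => H y + c * Q y) ≤ T.A H + d) :
    T.A H - s / c * d ≤ T.A (fun y => H y + -s * Q y) := by
  have h1 := t3_up (h.add (q.const_mul (-s))) q (c := c + s) (s := s)
    (d := T.A H + d - T.A fun y => H y + -s * Q y) (by positivity) hs (by linarith) (by
      rw [show (fun y => H y + -s * Q y + (c + s) * Q y) = fun y => H y + c * Q y from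
        funext fun y => by ring]
      linarith)
  rw [show (fun y => H y + -s * Q y + s * Q y) = H from funext fun y => by ring,
    div_mul_eq_mul_div, ← sub_le_iff_le_add', le_div_iff₀ (by positivity)] at h1
  rw [sub_le_comm, div_mul_eq_mul_div, le_div_iff₀ hc]
  linarith

theorem t3_mono {H G : S → ℝ} (h : T.LG H) (g : T.LG G) {c : ℝ} (hle : ∀ x, H x ≤ G x + c) :
    T.A H ≤ T.A G + c := by
  have := X_mono h.ub (g.add (LG.const c)).ub hle 0 T.x0
  rwa [X_add_const g.ub] at this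

/-- Quadratic perturbations.  If `A (H + c Q) ≤ A H + d` then, by convexity and monotonicity,
`A (H - C0 Q) ≥ A H - (C0 / c) d`, hence `A (H+V+cQ) - A (H+V) ≤ d + 2 C0 + C0 d / c` and
`A (H+V+δQ) - A (H+V) ≤ (δ/c) (…)`, `A (H+V) - A (H+V-δQ) ≤ A (H+V+δQ) - A (H+V)`. -/
theorem quad {H Q V R : S → ℝ} (h : T.LG H) (q : T.LG Q) (v : T.LG V) (r : T.LG R)
    {c d C0 δ : ℝ} (hc : 0 < c) (hC0 : 0 ≤ C0) (hδ : 0 ≤ δ) (hδc : δ ≤ c) (q0 : ∀ x, 0 ≤ Q x)
    (hd : T.A (fun y => H y + c * Q y) ≤ T.A H + d)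
    (v1 : ∀ x, -(C0 * (1 + Q x)) ≤ V x) (v2 : ∀ x, V x ≤ C0) (r1 : ∀ x, |R x| ≤ δ * (1 + Q x)) :
    |T.A (fun y => H y + V y + R y) - T.A (fun y => H y + V y)| ≤
      δ * (1 + (d + 2 * C0 + C0 * d / c) / c) := by
  have g := h.add v
  have h1 := t3_low h q hc hC0 hd
  have h2 := t3_mono (h.add (q.const_mul (-C0))) g (c := C0) fun x => by linarith [v1 x]
  have h3 := t3_mono (g.add (q.const_mul c)) (h.add (q.const_mul c)) (c := C0)
    fun x => by linarith [v2 x]
  have h4 : T.A (fun y => H y + V y + c * Q y) ≤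
      T.A (fun y => H y + V y) + (d + 2 * C0 + C0 * d / c) := by
    rw [div_mul_eq_mul_div] at h1
    linarith
  have h5 := t3_up g q hc hδ hδc h4
  have h6 := t3_low g q hc hδ h4
  have h7 := t3_mono (g.add r) (g.add (q.const_mul δ)) (c := δ)
    fun x => by linarith [(abs_le.1 (r1 x)).2]
  have h8 := t3_mono (g.add (q.const_mul (-δ))) (g.add r) (c := δ)
    fun x => by linarith [(abs_le.1 (r1 x)).1]
  rw [div_mul_eq_mul_div, mul_div_assoc] at h5 h6
  exact abs_le.2 ⟨by linarith, by linarith⟩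

theorem quad_crude {H Q V : S → ℝ} (h : T.LG H) (q : T.LG Q) (v : T.LG V)
    {c d C0 : ℝ} (hc : 0 < c) (hC0 : 0 ≤ C0) (q0 : ∀ x, 0 ≤ Q x)
    (hd : T.A (fun y => H y + c * Q y) ≤ T.A H + d)
    (v1 : ∀ x, -(C0 * (1 + Q x)) ≤ V x) (v2 : ∀ x, V x ≤ C0 + c * Q x) :
    |T.A (fun y => H y + V y) - T.A H| ≤ C0 + d + C0 * d / c := by
  have h1 := t3_low h q hc hC0 hd
  have h2 := t3_mono (h.add (q.const_mul (-C0))) (h.add v) (c := C0) fun x => by linarith [v1 x]
  have h3 := t3_mono (h.add v) (h.add (q.const_mul c)) (c := C0) fun x => by linarith [v2 x]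
  have h4 := t3_mono h (h.add (q.const_mul c)) (c := 0)
    fun x => by linarith [mul_nonneg hc.le (q0 x)]
  have h5 : 0 ≤ d := by linarith
  have h6 : 0 ≤ C0 * d / c := by positivity
  rw [div_mul_eq_mul_div] at h1
  exact abs_le.2 ⟨by linarith, by linarith⟩

/-- Concentration at a contact point: `E e^{± m (Y - c)/ρ} ≤ e^{m B}` by `log_E_exp_le`, and
`|u| ≤ e^u + e^{-u}`. -/
theorem contact_conc {H Y : S → ℝ} (h : T.LG H) (hY : T.LG Y) {ρ c B : ℝ} (hρ : 0 < ρ)
    (h1 : T.A (fun y => H y + ρ⁻¹ * Y y) ≤ T.A H + ρ⁻¹ * c + B)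
    (h2 : T.A (fun y => H y + (-ρ⁻¹) * Y y) ≤ T.A H + (-ρ⁻¹) * c + B) :
    ∫ y, |Y y - c| ∂(T.PP H) ≤ 2 * ρ * exp (T.e 0 * B) / T.e 0 := by
  have he := T.e_pos
  have key : ∀ t : ℝ, T.A (fun y => H y + t * Y y) ≤ T.A H + t * c + B →
      Integrable (fun y => exp (T.e 0 * (t * (Y y - c)))) (T.PP H) ∧
        ∫ y, exp (T.e 0 * (t * (Y y - c))) ∂(T.PP H) ≤ exp (T.e 0 * B) := fun t ht => by
    have i1 := ((hY.const_mul t).const_mul (T.e 0)).ub.exp.integrable_PP h
    have a1 := log_E_exp_le h (hY.const_mul t) 0 he le_rfl T.x0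
    rw [E_zero_eq, log_le_iff_le_exp (integral_exp_pos i1)] at a1
    simp only [mul_sub, exp_sub]
    refine ⟨i1.div_const _, ?_⟩
    rw [integral_div, div_le_iff₀ (exp_pos _), ← exp_add]
    unfold A at ht
    exact a1.trans (exp_le_exp.2 (by nlinarith))
  obtain ⟨i1, a1⟩ := key _ h1
  obtain ⟨i2, a2⟩ := key _ h2
  have h3 := integral_mono_of_nonneg (f := fun y => |Y y - c|) (.of_forall fun y => abs_nonneg _)
    ((i1.add i2).const_mul (ρ / T.e 0)) (.of_forall fun y => by
      have b1 := add_one_le_exp (T.e 0 * (ρ⁻¹ * (Y y - c)))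
      have b2 := add_one_le_exp (T.e 0 * (-ρ⁻¹ * (Y y - c)))
      have b3 := exp_pos (T.e 0 * (ρ⁻¹ * (Y y - c)))
      have b4 := exp_pos (T.e 0 * (-ρ⁻¹ * (Y y - c)))
      have b5 : |T.e 0 * (ρ⁻¹ * (Y y - c))| ≤ exp (T.e 0 * (ρ⁻¹ * (Y y - c))) +
          exp (T.e 0 * (-ρ⁻¹ * (Y y - c))) := abs_le.2 ⟨by linarith, by linarith⟩
      refine le_trans (le_of_eq ?_) (mul_le_mul_of_nonneg_left b5 (by positivity))
      rw [abs_mul, abs_mul, abs_of_pos he, abs_of_pos (inv_pos.2 hρ)]
      field_simp)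
  rw [integral_const_mul, integral_add' i1 i2] at h3
  refine h3.trans ((mul_le_mul_of_nonneg_left (add_le_add a1 a2) (by positivity)).trans
    (le_of_eq ?_))
  ring

/-- `A` is convex, hence continuous, in finitely many linear parameters -/
theorem continuous_A_lin {D : Type} [Fintype D] {H : S → ℝ} {Y : D → S → ℝ} (h : T.LG H)
    (hY : ∀ d, T.LG (Y d)) :
    Continuous (fun p : D → ℝ => T.A (fun y => H y + ∑ d, p d * Y d y)) := by
  have g : ∀ p : D → ℝ, T.UB fun y => H y + ∑ d, p d * Y d y := fun p =>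
    (h.add (LG.sum _ fun d _ => (hY d).const_mul _)).ub
  refine continuousOn_univ.1 (ConvexOn.continuousOn isOpen_univ
    ⟨convex_univ, fun p _ p' _ a b ha hb hab => ?_⟩)
  obtain rfl : a = 1 - b := by linarith
  refine le_trans (le_of_eq ?_) (X_convex (g p) (g p') hb (by linarith) 0 T.x0)
  refine congrArg (fun G => T.X G 0 T.x0) (funext fun y => ?_)
  simp only [Pi.add_apply, Pi.smul_apply, smul_eq_mul, add_mul, mul_add, Finset.sum_add_distrib,
    Finset.mul_sum, mul_assoc]
  ring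

end Tower

/-- Existence of an interior contact point for a quadratic penalty. -/
theorem exists_contact {Z D : Type} [TopologicalSpace Z] [Fintype D] {K : Set Z} (hK : IsCompact K)
    (hne : K.Nonempty) (F : Z → (D → ℝ) → ℝ) (hF : Continuous (fun p : Z × (D → ℝ) => F p.1 p.2))
    (c : D → ℝ) {η Osc Lp : ℝ} (hη : 0 < η) (hL : 0 < Lp) (hLO : Osc ≤ Lp * (η / 2) ^ 2)
    (hO : ∀ z ∈ K, ∀ p ∈ Metric.closedBall c η, F z p ≤ F z c + Osc) :
    ∃ z ∈ K, ∃ p ∈ Metric.closedBall c (η / 2), ∀ z' ∈ K, ∀ p' ∈ Metric.closedBall c η,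
      F z' p' - Lp * ∑ d, (p' d - c d) ^ 2 ≤ F z p - Lp * ∑ d, (p d - c d) ^ 2 := by
  have hc : c ∈ Metric.closedBall c η := Metric.mem_closedBall_self hη.le
  obtain ⟨⟨z, p⟩, ⟨hz, hp⟩, hmax⟩ := (hK.prod (isCompact_closedBall c η)).exists_isMaxOn
    (hne.prod ⟨c, hc⟩) (f := fun q => F q.1 q.2 - Lp * ∑ d, (q.2 d - c d) ^ 2)
    (hF.sub (by fun_prop)).continuousOn
  by_cases h : p ∈ Metric.closedBall c (η / 2)
  · exact ⟨z, hz, p, h, fun z' hz' p' hp' => hmax (Set.mk_mem_prod hz' hp')⟩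
  refine ⟨z, hz, c, Metric.mem_closedBall_self (by positivity), fun z' hz' p' hp' =>
    le_trans (hmax (Set.mk_mem_prod hz' hp')) ?_⟩
  rw [Metric.mem_closedBall, dist_pi_le_iff (by positivity)] at h
  obtain ⟨d, hd⟩ := not_forall.1 h
  have h1 : (η / 2) ^ 2 ≤ ∑ d, (p d - c d) ^ 2 := by
    refine le_trans ?_ (Finset.single_le_sum (fun _ _ => sq_nonneg _) (Finset.mem_univ d))
    rw [← sq_abs (p d - c d)]
    exact pow_le_pow_left₀ (by positivity) (not_le.1 hd).le 2
  have h2 := hO z hz p hp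
  have h3 := mul_le_mul_of_nonneg_left h1 hL.le
  simp only [sub_self, sq (0 : ℝ), mul_zero, Finset.sum_const_zero]
  linarith

/-- a log-mean-exp of a bounded variable that is close to `a` in `L¹` -/
theorem lme_close {Ω : Type} [MeasurableSpace Ω] (P : Measure Ω) [IsProbabilityMeasure P]
    {F : Ω → ℝ} (hF : Measurable F) {a B m : ℝ} (hm : 0 < m) (hm1 : m ≤ 1)
    (hB : ∀ ω, |F ω - a| ≤ B) :
    |m⁻¹ * log (∫ ω, exp (m * F ω) ∂P) - a| ≤ exp B * ∫ ω, |F ω - a| ∂P ∧
    |m⁻¹ * log (∫ ω, exp (m * F ω) ∂P) - a| ≤ B := by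
  obtain ⟨ω₀⟩ := nonempty_of_isProbabilityMeasure P
  have hB0 : 0 ≤ B := (abs_nonneg _).trans (hB ω₀)
  have hG : ∀ ω, m * (F ω - a) ≤ m * B := fun ω =>
    mul_le_mul_of_nonneg_left ((le_abs_self _).trans (hB ω)) hm.le
  have i1 : Integrable (fun ω => F ω - a) P :=
    (integrable_const B).mono' (hF.sub_const a).aestronglyMeasurable (.of_forall hB)
  have i2 : Integrable (fun ω => exp (m * (F ω - a))) P :=
    (integrable_const (exp (m * B))).mono' (by fun_prop) (.of_forall fun ω => by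
      rw [Real.norm_eq_abs, abs_exp]
      exact exp_le_exp.2 (hG ω))
  have hpos := integral_exp_pos i2
  have e : m⁻¹ * log (∫ ω, exp (m * F ω) ∂P) - a = log (∫ ω, exp (m * (F ω - a)) ∂P) / m := by
    have : ∫ ω, exp (m * F ω) ∂P = (∫ ω, exp (m * (F ω - a)) ∂P) * exp (m * a) := by
      rw [← integral_mul_const]
      simp only [← exp_add, ← mul_add, sub_add_cancel]
    rw [this, log_mul hpos.ne' (exp_pos _).ne', log_exp]
    field_simp
    ring
  have h1 := Tower.t3_jensen (i1.const_mul m) i2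
  have h2 := (abs_le.1 (abs_integral_le_integral_abs (μ := P) (f := fun ω => F ω - a))).1
  have h3 : ∫ ω, |F ω - a| ∂P ≤ B := by
    simpa using integral_mono i1.abs (integrable_const B) hB
  have h4 : log (∫ ω, exp (m * (F ω - a)) ∂P) ≤ m * B := (log_le_iff_le_exp hpos).2 (by
    simpa using integral_mono i2 (integrable_const (exp (m * B))) fun ω => exp_le_exp.2 (hG ω))
  have h5 := log_le_sub_one_of_pos hpos
  have h6 := integral_mono i2 ((i1.abs.const_mul (m * exp B)).add (integrable_const 1)) fun ω => by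
    have b1 := mul_le_mul_of_nonneg_left (add_one_le_exp (-(m * (F ω - a))))
      (exp_pos (m * (F ω - a))).le
    rw [← exp_add, add_neg_cancel, exp_zero] at b1
    have b2 : exp (m * (F ω - a)) ≤ exp B := exp_le_exp.2 ((hG ω).trans (by nlinarith))
    have b3 := mul_le_mul (mul_le_mul_of_nonneg_left (le_abs_self (F ω - a)) hm.le) b2
      (exp_pos _).le (by positivity)
    simp only [Pi.add_apply]
    linarith
  rw [integral_add' (i1.abs.const_mul _) (integrable_const _), integral_const_mul, integral_const,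
    probReal_univ, one_smul] at h6
  rw [integral_const_mul] at h1
  have h7 : ∫ ω, |F ω - a| ∂P ≤ exp B * ∫ ω, |F ω - a| ∂P :=
    le_mul_of_one_le_left (integral_nonneg fun _ => abs_nonneg _) (one_le_exp hB0)
  rw [e, abs_div, abs_of_pos hm, div_le_iff₀ hm, div_le_iff₀ hm]
  exact ⟨abs_le.2 ⟨by nlinarith, by linarith⟩, abs_le.2 ⟨by nlinarith, by linarith⟩⟩

end Crest.Agent.R164
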