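import Crest.Agent.R164.G2
import Crest.Agent.R164.T3

/-! # Gaussian towers: auxiliary lemmas for `G3` -/

set_option autoImplicit false
set_option linter.unusedVariables false
set_option linter.unusedSectionVars false

open MeasureTheory ProbabilityTheory Real
open scoped ENNReal

namespace Crest.Agent.R164

namespace Tower

variable {S : Type} [MeasurableSpace S] {T : Tower S}

theorem g3_E_nonneg (H : S → ℝ) {φ : S → ℝ} (h : ∀ y, 0 ≤ φ y) (a : ℕ) (x : S) :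
    0 ≤ T.E H a φ x := integral_nonneg h

theorem g3_abs_E (H φ : S → ℝ) (a : ℕ) (x : S) :
    |T.E H a φ x| ≤ T.E H a (fun y => |φ y|) x := abs_integral_le_integral_abs

/-- Cauchy–Schwarz -/
theorem g3_cs {H f g : S → ℝ} (h : T.LG H) (hf : T.Gr f) (hg : T.Gr g) (a : ℕ) (x : S) :
    |T.E H a (fun y => f y * g y) x| ≤
      √(T.E H a (fun y => f y ^ 2) x) * √(T.E H a (fun y => g y ^ 2) x) := by
  have key : ∀ t : ℝ, 0 ≤ T.E H a (fun y => f y ^ 2) x * (t * t) +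
      (2 * T.E H a (fun y => f y * g y) x) * t + T.E H a (fun y => g y ^ 2) x := by
    intro t
    have h0 : 0 ≤ T.E H a (fun y => (t * t) * f y ^ 2 + (2 * t) * (f y * g y) + g y ^ 2) x :=
      g3_E_nonneg H (fun y => by nlinarith [sq_nonneg (t * f y + g y)]) a x
    rw [E_add h (((hf.pow 2).const_mul _).add ((hf.mul hg).const_mul _)) (hg.pow 2),
      E_add h ((hf.pow 2).const_mul _) ((hf.mul hg).const_mul _), E_const_mul, E_const_mul] at h0
    linarith
  have hd := discrim_le_zero key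
  rw [discrim] at hd
  rw [← Real.sqrt_mul (g3_E_nonneg H (fun y => sq_nonneg _) a x)]
  apply Real.abs_le_sqrt
  nlinarith

theorem g3_E_sq_E {H f : S → ℝ} (h : T.LG H) (hf : T.Gr f) {a r : ℕ} (har : a ≤ r) (x : S) :
    T.E H a (fun y => T.E H r f y ^ 2) x ≤ T.E H a (fun y => f y ^ 2) x := by
  rw [← E_E h har (hf.pow 2) x]
  exact E_mono h ((hf.E h r).pow 2) ((hf.pow 2).E h r) (fun y => sq_E_le h hf r y) a x

theorem g3_cs_E {H f g : S → ℝ} (h : T.LG H) (hf : T.Gr f) (hg : T.Gr g) {a r : ℕ} (har : a ≤ r)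
    (x : S) : |T.E H a (fun y => T.E H r f y * T.E H r g y) x| ≤
      √(T.E H a (fun y => f y ^ 2) x) * √(T.E H a (fun y => g y ^ 2) x) := by
  refine (g3_cs h (hf.E h r) (hg.E h r) a x).trans ?_
  exact mul_le_mul (Real.sqrt_le_sqrt (g3_E_sq_E h hf har x))
    (Real.sqrt_le_sqrt (g3_E_sq_E h hg har x)) (Real.sqrt_nonneg _) (Real.sqrt_nonneg _)

theorem g3_abs_E_mul {H φ V : S → ℝ} (h : T.LG H) (hφ : Measurable φ) (h1 : ∀ y, |φ y| ≤ 1)
    (hV : T.Gr V) (a : ℕ) (x : S) :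
    |T.E H a (fun y => φ y * V y) x| ≤ T.E H a (fun y => |V y|) x := by
  refine (g3_abs_E _ _ _ _).trans (E_mono h ((Gr.of_bdd hφ h1).mul hV).abs hV.abs (fun y => ?_) a x)
  rw [abs_mul]
  exact mul_le_of_le_one_left (abs_nonneg _) (h1 y)

theorem g3_abs_EE {H φ V : S → ℝ} (h : T.LG H) (hφ : Measurable φ) (h1 : ∀ y, |φ y| ≤ 1)
    (hV : T.Gr V) {a r : ℕ} (har : a ≤ r) (x : S) :
    |T.E H a (fun y => T.E H r φ y * T.E H r V y) x| ≤ T.E H a (fun y => |V y|) x := by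
  refine (g3_abs_E_mul h (T.measurable_E H r hφ) (fun y => abs_E_le H h1 r y) (hV.E h r) a x).trans ?_
  rw [← E_E h har hV.abs x]
  exact E_mono h (hV.E h r).abs (hV.abs.E h r) (fun y => g3_abs_E _ _ _ _) a x

theorem g3_abs_resp {H φ V : S → ℝ} (h : T.LG H) (hφ : Measurable φ) (h1 : ∀ y, |φ y| ≤ 1)
    (hV : T.Gr V) {a : ℕ} (ha : a < T.L) (x : S) :
    |T.resp H V φ a x| ≤ 2 * T.E H a (fun y => |V y|) x := by
  set M := T.E H a (fun y => |V y|) x with hM
  have e1 := g3_abs_E_mul h hφ h1 hV a x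
  have e2 : |∑ r ∈ Finset.Ioo a T.L, T.W r * T.E H a (fun y => T.E H r φ y * T.E H r V y) x| ≤
      (∑ r ∈ Finset.Ioo a T.L, T.W r) * M := by
    rw [Finset.sum_mul]
    refine (Finset.abs_sum_le_sum_abs _ _).trans (Finset.sum_le_sum fun r hr => ?_)
    rw [abs_mul, abs_of_nonneg (T.W_nonneg r)]
    exact mul_le_mul_of_nonneg_left (g3_abs_EE h hφ h1 hV (Finset.mem_Ioo.1 hr).1.le x)
      (T.W_nonneg r)
  have e3 : |T.e a * (T.E H a φ x * T.E H a V x)| ≤ T.e a * M := by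
    rw [abs_mul, abs_of_pos (T.e_pos' a), abs_mul]
    refine mul_le_mul_of_nonneg_left ?_ (T.e_pos' a).le
    exact (mul_le_of_le_one_left (abs_nonneg _) (abs_E_le H h1 a x)).trans (g3_abs_E _ _ _ _)
  have e4 := T.sum_W ha
  have e5 : (∑ r ∈ Finset.Ioo a T.L, T.W r) * M + T.e a * M = M := by rw [← add_mul, e4, one_mul]
  unfold resp
  rw [abs_le] at e1 e2 e3 ⊢
  constructor <;> linarith [e1.1, e1.2, e2.1, e2.2, e3.1, e3.2]

theorem g3_derL {H V Q : S → ℝ} (h : T.LG H) (v : T.LG V) (q : T.LG Q) :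
    T.DerL (Set.Ioo (-1) 2) (fun t x => H x + t * V x + (1 - t ^ 2) / 2 * Q x)
      (fun t x => V x - t * Q x) := by
  obtain ⟨hm, C1, h1⟩ := h
  obtain ⟨vm, C2, h2⟩ := v
  obtain ⟨qm, C3, h3⟩ := q
  refine ⟨fun t _ => by fun_prop, fun t _ => by fun_prop, ⟨|C1| + 2 * |C2| + 2 * |C3|, ?_⟩, ?_⟩
  · intro t ht x
    have hν : 0 ≤ 1 + T.ν x := by linarith [T.ν_nonneg x]
    have b1 : |H x| ≤ |C1| * (1 + T.ν x) :=
      (h1 x).trans (mul_le_mul_of_nonneg_right (le_abs_self _) hν)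
    have b2 : |V x| ≤ |C2| * (1 + T.ν x) :=
      (h2 x).trans (mul_le_mul_of_nonneg_right (le_abs_self _) hν)
    have b3 : |Q x| ≤ |C3| * (1 + T.ν x) :=
      (h3 x).trans (mul_le_mul_of_nonneg_right (le_abs_self _) hν)
    have t1 : |t| ≤ 2 := abs_le.2 ⟨by linarith [ht.1], ht.2.le⟩
    have t2 : |(1 - t ^ 2) / 2| ≤ 2 := by
      rw [abs_le]
      constructor <;> nlinarith [ht.1, ht.2]
    have c1 : |t * V x| ≤ 2 * (|C2| * (1 + T.ν x)) := by
      rw [abs_mul]; exact mul_le_mul t1 b2 (abs_nonneg _) (by norm_num)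
    have c2 : |(1 - t ^ 2) / 2 * Q x| ≤ 2 * (|C3| * (1 + T.ν x)) := by
      rw [abs_mul]; exact mul_le_mul t2 b3 (abs_nonneg _) (by norm_num)
    have c3 : |t * Q x| ≤ 2 * (|C3| * (1 + T.ν x)) := by
      rw [abs_mul]; exact mul_le_mul t1 b3 (abs_nonneg _) (by norm_num)
    have p1 : 0 ≤ |C1| * (1 + T.ν x) := by positivity
    have p2 : 0 ≤ |C2| * (1 + T.ν x) := by positivity
    constructor
    · calc _ ≤ |H x + t * V x| + |(1 - t ^ 2) / 2 * Q x| := abs_add_le _ _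
        _ ≤ |H x| + |t * V x| + |(1 - t ^ 2) / 2 * Q x| := by gcongr; exact abs_add_le _ _
        _ ≤ _ := by linarith
    · refine le_trans ?_ (le_trans (le_add_of_nonneg_right zero_le_one) (Real.add_one_le_exp _))
      calc _ ≤ |V x| + |t * Q x| := abs_sub _ _
        _ ≤ _ := by linarith
  · intro t _ x
    have d1 : HasDerivAt (fun t : ℝ => t * V x) (V x) t := by
      simpa using (hasDerivAt_id t).mul_const (V x)
    have d2 : HasDerivAt (fun t : ℝ => (1 - t ^ 2) / 2 * Q x) (-(t * Q x)) t := by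
      refine ((((hasDerivAt_pow 2 t).const_sub 1).div_const 2).mul_const (Q x)).congr_deriv ?_
      push_cast; ring
    exact ((d1.const_add (H x)).fun_add d2).congr_deriv (by ring)

end Tower

theorem Expo.g3_abs_tau (X : Expo) {Q : ℕ → ℝ} {c : ℝ} {l : ℕ} (hl : l ≤ X.n) (hc : 0 ≤ c)
    (h : ∀ r, l < r → r ≤ X.n → |Q r| ≤ c) : |X.tau Q l| ≤ c := by
  unfold Expo.tau
  calc _ ≤ ∑ r ∈ Finset.Icc (l + 1) X.n, X.W r * c := by
        refine (Finset.abs_sum_le_sum_abs _ _).trans (Finset.sum_le_sum fun r hr => ?_)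
        rw [abs_mul, abs_of_nonneg (X.W_nonneg r)]
        have := Finset.mem_Icc.1 hr
        exact mul_le_mul_of_nonneg_left (h r (by omega) this.2) (X.W_nonneg r)
    _ = (1 - X.e l) * c := by rw [← Finset.sum_mul, X.sum_W hl]
    _ ≤ c := by nlinarith [X.e_pos l]

theorem Expo.g3_tau_le (X : Expo) {Q : ℕ → ℝ} {c : ℝ} {l : ℕ} (hl : l ≤ X.n)
    (h : ∀ r, l < r → r ≤ X.n → Q r ≤ c) : X.tau Q l ≤ (1 - X.e l) * c := by
  unfold Expo.tau
  rw [← X.sum_W hl, Finset.sum_mul]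
  refine Finset.sum_le_sum fun r hr => ?_
  have := Finset.mem_Icc.1 hr
  exact mul_le_mul_of_nonneg_left (h r (by omega) this.2) (X.W_nonneg r)

theorem Expo.g3_tau_eq (X : Expo) {Q : ℕ → ℝ} {c : ℝ} {l : ℕ} (hl : l ≤ X.n)
    (h : ∀ r, l < r → r ≤ X.n → Q r = c) : X.tau Q l = (1 - X.e l) * c := by
  unfold Expo.tau
  rw [← X.sum_W hl, Finset.sum_mul]
  refine Finset.sum_congr rfl fun r hr => ?_
  have := Finset.mem_Icc.1 hr
  rw [h r (by omega) this.2]

theorem Expo.g3_tau_nonneg (X : Expo) {Q : ℕ → ℝ} (l : ℕ) (h : ∀ r, 0 ≤ Q r) : 0 ≤ X.tau Q l :=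
  Finset.sum_nonneg fun r _ => mul_nonneg (X.W_nonneg r) (h r)

theorem Expo.g3_tau_mul (X : Expo) (c : ℝ) (Q : ℕ → ℝ) (l : ℕ) :
    X.tau (fun r => c * Q r) l = c * X.tau Q l := by
  unfold Expo.tau
  rw [Finset.mul_sum]
  exact Finset.sum_congr rfl fun r _ => by ring

theorem Expo.g3_tau_sub (X : Expo) (Q Q' : ℕ → ℝ) (l : ℕ) :
    X.tau (fun r => Q r - Q' r) l = X.tau Q l - X.tau Q' l := by
  unfold Expo.tau
  rw [← Finset.sum_sub_distrib]
  exact Finset.sum_congr rfl fun r _ => by ring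

theorem Expo.g3_tau_sum (X : Expo) {κ : Type} (s : Finset κ) (Q : κ → ℕ → ℝ) (l : ℕ) :
    X.tau (fun r => ∑ j ∈ s, Q j r) l = ∑ j ∈ s, X.tau (Q j) l := by
  unfold Expo.tau
  simp only [Finset.mul_sum]
  exact Finset.sum_comm

theorem g3_cubic {g g' : ℝ → ℝ} {K : ℝ} (h0 : g 0 = 0)
    (hd : ∀ s, |s| ≤ 1 → HasDerivAt g (g' s) s) (hb : ∀ s, |s| ≤ 1 → |g' s| ≤ 3 * K * s ^ 2)
    {ϑ : ℝ} (hϑ : |ϑ| ≤ 1) : |g ϑ| ≤ K * |ϑ| ^ 3 := by
  have key : ∀ σ : ℝ, |σ| = 1 → MonotoneOn (fun s => K * s ^ 3 + σ * g s) (Set.Icc (-1) 1) := by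
    intro σ hσ
    have hD : ∀ s ∈ Set.Icc (-1 : ℝ) 1,
        HasDerivAt (fun s => K * s ^ 3 + σ * g s) (K * (3 * s ^ 2) + σ * g' s) s := by
      intro s hs
      refine (((hasDerivAt_pow 3 s).const_mul K).fun_add
        ((hd s (abs_le.2 hs)).const_mul σ)).congr_deriv ?_
      push_cast; ring
    refine monotoneOn_of_deriv_nonneg (convex_Icc _ _)
      (fun s hs => (hD s hs).continuousAt.continuousWithinAt)
      (fun s hs => (hD s (interior_subset hs)).differentiableAt.differentiableWithinAt) ?_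
    intro s hs
    have hs' := interior_subset hs
    rw [(hD s hs').deriv]
    have b := hb s (abs_le.2 hs')
    have : |σ * g' s| ≤ 3 * K * s ^ 2 := by rw [abs_mul, hσ, one_mul]; exact b
    have := (abs_le.1 this).1
    linarith
  have m0 : (0 : ℝ) ∈ Set.Icc (-1 : ℝ) 1 := ⟨by norm_num, by norm_num⟩
  have mϑ : ϑ ∈ Set.Icc (-1 : ℝ) 1 := abs_le.1 hϑ
  rcases le_total 0 ϑ with h | h
  · have a1 := key 1 (by simp) m0 mϑ h
    have a2 := key (-1) (by simp) m0 mϑ h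
    simp only [h0] at a1 a2
    rw [abs_of_nonneg h, abs_le]
    constructor <;> linarith
  · have a1 := key 1 (by simp) mϑ m0 h
    have a2 := key (-1) (by simp) mϑ m0 h
    simp only [h0] at a1 a2
    rw [abs_of_nonpos h, abs_le]
    constructor <;> linarith

section PDs

variable {Ω I A : Type} [DecidableEq I]

theorem g3_shift_zero (i : I) (x : Ω × (I → ℝ) × A) : shift i 0 x = x := by
  simp [shift]

theorem Inv.g3_pd {i : I} {φ : Ω × (I → ℝ) × A → ℝ} (h : Inv i φ) : PD i φ (fun _ => 0) := by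
  intro x
  have : (fun t => φ (shift i t x)) = fun _ => φ x := funext fun t => h t x
  rw [this]
  exact hasDerivAt_const _ _

theorem g3_pd_coord (i j : I) :
    PD i (fun x : Ω × (I → ℝ) × A => x.2.1 j) (fun _ => if j = i then 1 else 0) := by
  intro x
  by_cases h : j = i
  · subst h
    simp only [shift, Function.update_self, if_true]
    simpa using (hasDerivAt_id (0 : ℝ)).const_add (x.2.1 j)
  · simp only [shift, Function.update_of_ne h, if_neg h]
    exact hasDerivAt_const _ _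

theorem PD.g3_add {i : I} {φ dφ ψ dψ : Ω × (I → ℝ) × A → ℝ} (h : PD i φ dφ) (g : PD i ψ dψ) :
    PD i (fun x => φ x + ψ x) (fun x => dφ x + dψ x) := fun x => (h x).fun_add (g x)

theorem PD.g3_const_mul {i : I} {φ dφ : Ω × (I → ℝ) × A → ℝ} (h : PD i φ dφ) (c : ℝ) :
    PD i (fun x => c * φ x) (fun x => c * dφ x) := fun x => (h x).const_mul c

theorem PD.g3_sub_const {i : I} {φ dφ : Ω × (I → ℝ) × A → ℝ} (h : PD i φ dφ) (c : ℝ) :
    PD i (fun x => φ x - c) dφ := fun x => (h x).sub_const c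

theorem PD.g3_mul_inv {i : I} {φ dφ ψ : Ω × (I → ℝ) × A → ℝ} (h : PD i φ dφ) (g : Inv i ψ) :
    PD i (fun x => φ x * ψ x) (fun x => dφ x * ψ x) := by
  intro x
  have : (fun t => φ (shift i t x) * ψ (shift i t x)) = fun t => φ (shift i t x) * ψ x :=
    funext fun t => by rw [g t x]
  show HasDerivAt (fun t => φ (shift i t x) * ψ (shift i t x)) _ _
  rw [this]
  exact (h x).mul_const _

theorem PD.g3_sum {κ : Type} (s : Finset κ) {i : I} {φ dφ : κ → Ω × (I → ℝ) × A → ℝ}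
    (h : ∀ j ∈ s, PD i (φ j) (dφ j)) :
    PD i (fun x => ∑ j ∈ s, φ j x) (fun x => ∑ j ∈ s, dφ j x) := fun x =>
  HasDerivAt.fun_sum fun j hj => h j hj x

theorem PD.g3_congr {i : I} {φ dφ dψ : Ω × (I → ℝ) × A → ℝ} (h : PD i φ dφ)
    (e : ∀ x, dφ x = dψ x) : PD i φ dψ := fun x => e x ▸ h x

end PDs

end Crest.Agent.R164
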