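import Crest.Agent.R164.G2
import Crest.Agent.R164.T3
import Crest.Agent.R164.G3Aux

/-! # Gaussian towers: adding Gaussian fields -/

set_option autoImplicit false
set_option linter.unusedVariables false
set_option linter.unusedSectionVars false

open MeasureTheory ProbabilityTheory Real
open scoped ENNReal

namespace Crest.Agent.R164

variable {Ω I A : Type} [MeasurableSpace Ω] [Fintype I] [MeasurableSpace A] [Fintype A]
  [Nonempty A] [MeasurableSingletonClass A] [Nonempty Ω] {X : Expo} {P : Measure Ω}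
  [IsProbabilityMeasure P] {lev : I → Fin (X.n + 1)} [DecidableEq I]

/-- Adding independent Gaussian fields increases the value (Jensen `E_le_X_sub`; the fields are
centred under the Gibbs law of `H` by `ibp_PP`), by at most the annealed correction
(interpolate `H + r Σ g_i a_i + (1 - r²)/2 Σ a_i²`; by `DerL.hasDerivAt_A` and `ibp_PP` the
derivative is `- r Σ_i τ(∫ (E_r a_i)²) ≤ 0`). -/
theorem sandwich (J : Finset I) {H : Ω × (I → ℝ) × A → ℝ} {a : I → Ω × (I → ℝ) × A → ℝ}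
    (hH : (gT X P lev A).LG H) (hm : ∀ i ∈ J, Measurable (a i)) {B : ℝ}
    (hB : ∀ i ∈ J, ∀ x, |a i x| ≤ B) (iH : ∀ i ∈ J, Inv i H) (ia : ∀ i ∈ J, ∀ j ∈ J, Inv i (a j)) :
    (gT X P lev A).A H ≤ (gT X P lev A).A (fun x => H x + ∑ i ∈ J, x.2.1 i * a i x) ∧
    (gT X P lev A).A (fun x => H x + ∑ i ∈ J, x.2.1 i * a i x) ≤
      (gT X P lev A).A (fun x => H x + (1 / 2) * ∑ i ∈ J, a i x ^ 2) := by
  set T := gT X P lev A with hT
  have ga : ∀ i ∈ J, T.Gr (a i) := fun i hi => Tower.Gr.of_bdd (hm i hi) (hB i hi)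
  have lt : ∀ i ∈ J, T.LG (fun x => x.2.1 i * a i x) := fun i hi =>
    (lg_coord i).mul_bdd (hm i hi) (hB i hi)
  have lV : T.LG (fun x => ∑ i ∈ J, x.2.1 i * a i x) := Tower.LG.sum J lt
  have lq : ∀ i ∈ J, T.LG (fun x => a i x ^ 2) := fun i hi => by
    have := (Tower.LG.of_bdd (T := T) (hm i hi) (hB i hi)).mul_bdd (hm i hi) (hB i hi)
    simpa only [sq] using this
  have lQ : T.LG (fun x => ∑ i ∈ J, a i x ^ 2) := Tower.LG.sum J lq
  -- integration by parts for a Hamiltonian with derivative `r a_i`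
  have key : ∀ (G : Ω × (I → ℝ) × A → ℝ) (r : ℝ), T.LG G →
      (∀ i ∈ J, PD i G (fun x => r * a i x)) →
      ∫ y, ((∑ i ∈ J, y.2.1 i * a i y) - r * ∑ i ∈ J, a i y ^ 2) ∂(T.PP G) =
        -(r * ∑ i ∈ J, X.tau (fun l => ∫ y, (T.E G l (a i) y) ^ 2 ∂(T.PP G)) (lev i).val) := by
    intro G r hG pG
    rw [integral_sub (lV.gr.integrable_PP hG) ((lQ.gr.const_mul r).integrable_PP hG),
      integral_const_mul, integral_finsetSum _ (fun i hi => (lt i hi).gr.integrable_PP hG),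
      integral_finsetSum _ (fun i hi => (lq i hi).gr.integrable_PP hG), Finset.mul_sum,
      Finset.mul_sum, ← Finset.sum_sub_distrib, ← Finset.sum_neg_distrib]
    refine Finset.sum_congr rfl fun i hi => ?_
    rw [ibp_PP i hG ((ga i hi).const_mul r) (pG i hi) (ga i hi) (Tower.Gr.const 0)
      (ia i hi i hi).g3_pd, ← X.g3_tau_mul, ← integral_const_mul]
    have e1 : (fun y => 0 + a i y * (r * a i y)) = fun y => r * a i y ^ 2 := by
      funext y; ring
    have e2 : (fun l => ∫ y, T.E G l (a i) y * T.E G l (fun x => r * a i x) y ∂(T.PP G)) =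
        fun l => r * ∫ y, (T.E G l (a i) y) ^ 2 ∂(T.PP G) := by
      funext l
      rw [← integral_const_mul]
      congr 1; funext y
      rw [Tower.E_const_mul]; ring
    rw [e1, e2]
    ring
  constructor
  · have h1 := Tower.E_le_X_sub hH lV 0 T.x0
    have h2 := key H 0 hH (fun i hi => (iH i hi).g3_pd.g3_congr (fun x => by simp))
    simp only [zero_mul, sub_zero, neg_zero] at h2
    rw [Tower.E_zero_eq, h2] at h1
    exact sub_nonneg.1 h1
  · have hD := Tower.g3_derL hH lV lQ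
    have hder : ∀ r ∈ Set.Ioo (-1 : ℝ) 2, HasDerivAt
        (fun t => T.A (fun x => H x + t * (∑ i ∈ J, x.2.1 i * a i x) +
          (1 - t ^ 2) / 2 * ∑ i ∈ J, a i x ^ 2)) _ r :=
      fun r hr => hD.hasDerivAt_A isOpen_Ioo hr
    obtain ⟨r, hr, hr'⟩ := exists_hasDerivAt_eq_slope _ _ (zero_lt_one' ℝ)
      (fun r hr => (hder r ⟨by linarith [hr.1], by linarith [hr.2]⟩).continuousAt.continuousWithinAt)
      (fun r hr => hder r ⟨by linarith [hr.1], by linarith [hr.2]⟩)
    have hrU : r ∈ Set.Ioo (-1 : ℝ) 2 := ⟨by linarith [hr.1], by linarith [hr.2]⟩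
    have pG : ∀ i ∈ J, PD i (fun x => H x + r * (∑ i ∈ J, x.2.1 i * a i x) +
        (1 - r ^ 2) / 2 * ∑ i ∈ J, a i x ^ 2) (fun x => r * a i x) := by
      intro i hi
      have p1 := (PD.g3_sum J (fun j hj => (g3_pd_coord (Ω := Ω) (A := A) i j).g3_mul_inv
        (ia i hi j hj))).g3_const_mul r
      have iq : Inv i (fun x => (1 - r ^ 2) / 2 * ∑ i ∈ J, a i x ^ 2) := by
        intro t x
        show (1 - r ^ 2) / 2 * ∑ j ∈ J, a j (shift i t x) ^ 2 = _
        rw [Finset.sum_congr rfl (fun j hj => by rw [ia i hi j hj t x])]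
      refine (((iH i hi).g3_pd.g3_add p1).g3_add iq.g3_pd).g3_congr fun x => ?_
      simp [hi]
    rw [key _ r (hD.lg hrU) pG] at hr'
    have h0 : 0 ≤ r * ∑ i ∈ J, X.tau (fun l => ∫ y, (T.E (fun x => H x + r *
        (∑ i ∈ J, x.2.1 i * a i x) + (1 - r ^ 2) / 2 * ∑ i ∈ J, a i x ^ 2) l (a i) y) ^ 2
        ∂(T.PP (fun x => H x + r * (∑ i ∈ J, x.2.1 i * a i x) +
          (1 - r ^ 2) / 2 * ∑ i ∈ J, a i x ^ 2))) (lev i).val :=
      mul_nonneg hr.1.le (Finset.sum_nonneg fun i _ =>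
        X.g3_tau_nonneg _ fun l => integral_nonneg fun y => sq_nonneg _)
    have e1 : (fun x : Ω × (I → ℝ) × A => H x + 1 * (∑ i ∈ J, x.2.1 i * a i x) +
        (1 - 1 ^ 2) / 2 * ∑ i ∈ J, a i x ^ 2) = fun x => H x + ∑ i ∈ J, x.2.1 i * a i x := by
      funext x; ring
    have e0 : (fun x : Ω × (I → ℝ) × A => H x + 0 * (∑ i ∈ J, x.2.1 i * a i x) +
        (1 - 0 ^ 2) / 2 * ∑ i ∈ J, a i x ^ 2) = fun x => H x + (1 / 2) * ∑ i ∈ J, a i x ^ 2 := by
      funext x; ring
    rw [e1, e0, sub_zero, div_one] at hr'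
    linarith

/-- Second order expansion in the strength of one extra field on a `±1` observable.  With
`f ϑ = A (H + ϑ g_i ε)`: `f' ϑ = ϑ (1 - τ ϑ)` by `ibp_PP`, `τ ϑ = Σ_{r > lev i} W_r ∫ (E_r ε)²`.
By `DerG.E` and `DerG.hasDerivAt_integral`, `|τ' ϑ| ≤ 6 ∫ |g_i| ≤ 15` (for `r > lev i` the
coordinate `g_i` comes out of `E_r`, so `|∂ E_r ε| ≤ 2 |g_i|`; and
`∫ g_i² ≤ 1 + 2 |ϑ| (∫ g_i²)^{1/2}` by `ibp_PP`). -/
theorem taylor2 (i : I) {H ε : Ω × (I → ℝ) × A → ℝ} (hH : (gT X P lev A).LG H)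
    (hm : Measurable ε) (h1 : ∀ x, ε x ^ 2 = 1) (iH : Inv i H) (iε : Inv i ε) {ϑ : ℝ}
    (hϑ : |ϑ| ≤ 1) :
    |(gT X P lev A).A (fun x => H x + ϑ * (x.2.1 i * ε x)) - (gT X P lev A).A H -
      ϑ ^ 2 / 2 * (1 - X.tau (fun r => ∫ y, ((gT X P lev A).E H r ε y) ^ 2
        ∂((gT X P lev A).PP H)) (lev i).val)| ≤ 10 * |ϑ| ^ 3 := by
  set T := gT X P lev A with hT
  have hl : (lev i).val ≤ X.n := Nat.lt_succ_iff.1 (lev i).2
  have b1 : ∀ x, |ε x| ≤ 1 := fun x => by
    rw [← sq_le_one_iff₀ (abs_nonneg _), sq_abs, h1 x]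
  have b2 : ∀ x, |ε x| = 1 := fun x => by
    rw [← sq_eq_sq₀ (abs_nonneg _) zero_le_one, sq_abs, h1 x, one_pow]
  have gε : T.Gr ε := Tower.Gr.of_bdd hm b1
  have lV : T.LG (fun x => x.2.1 i * ε x) := (lg_coord i).mul_bdd hm b1
  have hD := Tower.DerL.lin hH lV (-2) 2
  set G : ℝ → Ω × (I → ℝ) × A → ℝ := fun t x => H x + t * (x.2.1 i * ε x) with hG
  have hU : ∀ s : ℝ, |s| ≤ 1 → s ∈ Set.Ioo (-2 : ℝ) 2 := fun s hs =>
    ⟨by linarith [(abs_le.1 hs).1], by linarith [(abs_le.1 hs).2]⟩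
  have lG : ∀ s, |s| ≤ 1 → T.LG (G s) := fun s hs => hD.lg (hU s hs)
  have pG : ∀ s, PD i (G s) (fun x => s * ε x) := fun s =>
    (iH.g3_pd.g3_add (((g3_pd_coord (Ω := Ω) (A := A) i i).g3_mul_inv iε).g3_const_mul s)).g3_congr
      fun x => by simp
  set q : ℝ → ℕ → ℝ := fun s r => ∫ y, (T.E (G s) r ε y) ^ 2 ∂(T.PP (G s)) with hq
  -- the derivative of the value
  have d1 : ∀ s, |s| ≤ 1 → ∫ y, y.2.1 i * ε y ∂(T.PP (G s)) =
      s * (1 - X.tau (q s) (lev i).val) := by
    intro s hs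
    rw [ibp_PP i (lG s hs) (gε.const_mul s) (pG s) gε (Tower.Gr.const 0) iε.g3_pd]
    have e1 : (fun y => 0 + ε y * (s * ε y)) = fun _ => s := by
      funext y; linear_combination s * h1 y
    have e2 : (fun r => ∫ y, T.E (G s) r ε y * T.E (G s) r (fun x => s * ε x) y ∂(T.PP (G s))) =
        fun r => s * q s r := by
      funext r
      rw [hq, ← integral_const_mul]
      congr 1; funext y
      rw [Tower.E_const_mul]; ring
    rw [e1, e2, X.g3_tau_mul]
    simp only [integral_const, probReal_univ, smul_eq_mul, one_mul]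
    ring
  -- first absolute moment of the Gaussian coordinate
  have mom : ∀ s, |s| ≤ 1 → ∫ y, |y.2.1 i * ε y| ∂(T.PP (G s)) ≤ 5 / 2 := by
    intro s hs
    have gc : T.Gr (fun x => x.2.1 i) := (lg_coord i).gr
    have bs : ∀ x, |s * ε x| ≤ 1 := fun x => by rw [abs_mul, b2, mul_one]; exact hs
    have ms : Measurable (fun x => s * ε x) := hm.const_mul s
    have e0 : (fun y : Ω × (I → ℝ) × A => |y.2.1 i * ε y|) = fun y => |y.2.1 i| := by
      funext y; rw [abs_mul, b2, mul_one]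
    rw [e0]
    set M := ∫ y, |y.2.1 i| ∂(T.PP (G s)) with hM
    have h2 := ibp_PP i (lG s hs) (gε.const_mul s) (pG s) gc (Tower.Gr.const _) (g3_pd_coord i i)
    rw [integral_add (integrable_const _) ((gc.mul (gε.const_mul s)).integrable_PP (lG s hs))] at h2
    simp only [if_true, integral_const, probReal_univ, smul_eq_mul, one_mul] at h2
    have a1 : |∫ y, y.2.1 i * (s * ε y) ∂(T.PP (G s))| ≤ M := by
      have := Tower.g3_abs_E_mul (lG s hs) ms bs gc 0 T.x0
      rw [Tower.E_zero_eq, Tower.E_zero_eq] at this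
      simpa only [mul_comm] using this
    have hM0 : 0 ≤ M := integral_nonneg fun y => abs_nonneg _
    have a2 : |X.tau (fun r => ∫ y, T.E (G s) r (fun x => x.2.1 i) y *
        T.E (G s) r (fun x => s * ε x) y ∂(T.PP (G s))) (lev i).val| ≤ M := by
      refine X.g3_abs_tau hl hM0 fun r _ _ => ?_
      have := Tower.g3_abs_EE (lG s hs) ms bs gc (Nat.zero_le r) T.x0
      rw [Tower.E_zero_eq, Tower.E_zero_eq] at this
      simpa only [mul_comm] using this
    have a3 : M ^ 2 ≤ ∫ y, y.2.1 i * y.2.1 i ∂(T.PP (G s)) := by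
      have := Tower.sq_E_le (lG s hs) gc.abs 0 T.x0
      rw [Tower.E_zero_eq, Tower.E_zero_eq] at this
      simpa only [sq, abs_mul_abs_self] using this
    have a4 : M ^ 2 ≤ 1 + 2 * M := by linarith [(abs_le.1 a1).2, (abs_le.1 a2).1]
    nlinarith
  -- Lipschitz bound for the overlaps
  have lip : ∀ r, r ≤ X.n → ∀ s, |s| ≤ 1 → |q s r - q 0 r| ≤ 15 * |s| := by
    intro r hr s hs
    have gE := Tower.DerG.E isOpen_Ioo hD (Tower.DerG.const (U := Set.Ioo (-2 : ℝ) 2) gε) r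
    have g2 := gE.mul gE
    have hd : ∀ t ∈ Set.Icc (-1 : ℝ) 1, HasDerivWithinAt (fun t => q t r) _ (Set.Icc (-1) 1) t :=
      fun t ht => by
        have := Tower.DerG.hasDerivAt_integral isOpen_Ioo hD g2 (hU t (abs_le.2 ht))
        simp only [← sq] at this
        exact this.hasDerivWithinAt
    have := (convex_Icc (-1 : ℝ) 1).norm_image_sub_le_of_norm_hasDerivWithin_le (C := 15) hd ?_
      (x := 0) (y := s) ⟨by norm_num, by norm_num⟩ (abs_le.1 hs)
    · simpa only [Real.norm_eq_abs, sub_zero] using this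
    intro t ht
    have ht' := abs_le.2 ht
    have mE : Measurable (T.E (G t) r ε) := T.measurable_E _ r hm
    have bE : ∀ y, |T.E (G t) r ε y| ≤ 1 := fun y => Tower.abs_E_le _ b1 r y
    have r1 := Tower.g3_abs_resp (lG t ht') (φ := fun y => T.E (G t) r ε y ^ 2) (mE.pow_const 2)
      (fun y => by rw [abs_pow]; exact pow_le_one₀ (abs_nonneg _) (bE y)) lV.gr T.L_pos T.x0
    rw [Tower.E_zero_eq] at r1
    have r2 : ∀ y, |T.resp (G t) (fun x => x.2.1 i * ε x) ε r y| ≤
        2 * T.E (G t) r (fun y => |y.2.1 i * ε y|) y := fun y =>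
      Tower.g3_abs_resp (lG t ht') hm b1 lV.gr (by rw [hT, gT_L]; omega) y
    have r3 : |∫ y, ((T.E (G t) r (fun _ => 0) y + T.resp (G t) (fun x => x.2.1 i * ε x) ε r y) *
          T.E (G t) r ε y + T.E (G t) r ε y *
          (T.E (G t) r (fun _ => 0) y + T.resp (G t) (fun x => x.2.1 i * ε x) ε r y))
          ∂(T.PP (G t))| ≤ 4 * ∫ y, |y.2.1 i * ε y| ∂(T.PP (G t)) := by
      rw [← Tower.integral_E (lG t ht') r lV.gr.abs, ← integral_const_mul, ← Real.norm_eq_abs]
      refine norm_integral_le_of_norm_le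
        (((lV.gr.abs.E (lG t ht') r).const_mul 4).integrable_PP (lG t ht'))
        (Filter.Eventually.of_forall fun y => ?_)
      rw [Tower.E_const, zero_add, Real.norm_eq_abs]
      have e : T.resp (G t) (fun x => x.2.1 i * ε x) ε r y * T.E (G t) r ε y +
          T.E (G t) r ε y * T.resp (G t) (fun x => x.2.1 i * ε x) ε r y =
          2 * (T.E (G t) r ε y * T.resp (G t) (fun x => x.2.1 i * ε x) ε r y) := by ring
      rw [e, abs_mul, abs_mul, abs_two]
      have := mul_le_of_le_one_left (abs_nonneg (T.resp (G t) (fun x => x.2.1 i * ε x) ε r y))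
        (bE y)
      linarith [r2 y]
    rw [Real.norm_eq_abs]
    refine (abs_add_le _ _).trans ?_
    have := mom t ht'
    linarith
  have e0 : G 0 = H := by funext x; simp [hG]
  have main := g3_cubic (g := fun s => T.A (G s) - T.A H - s ^ 2 / 2 * (1 - X.tau (q 0) (lev i).val))
    (g' := fun s => s * (X.tau (q 0) (lev i).val - X.tau (q s) (lev i).val)) (K := 5)
    (by simp [e0]) ?_ ?_ hϑ
  · have e1 : q 0 = fun r => ∫ y, (T.E H r ε y) ^ 2 ∂(T.PP H) := by
      funext r; simp only [hq, e0]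
    rw [e1] at main
    refine main.trans ?_
    have : 0 ≤ |ϑ| ^ 3 := by positivity
    linarith
  · intro s hs
    have a1 := hD.hasDerivAt_A isOpen_Ioo (hU s hs)
    refine ((a1.sub_const (T.A H)).fun_sub
      (((hasDerivAt_pow 2 s).div_const 2).mul_const _)).congr_deriv ?_
    rw [d1 s hs]
    push_cast; ring
  · intro s hs
    rw [abs_mul, abs_sub_comm, ← X.g3_tau_sub]
    have := X.g3_abs_tau (Q := fun r => q s r - q 0 r) hl (by positivity : 0 ≤ 15 * |s|)
      (fun r _ hr => lip r hr s hs)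
    calc _ ≤ |s| * (15 * |s|) := mul_le_mul_of_nonneg_left this (abs_nonneg _)
      _ = 3 * 5 * s ^ 2 := by rw [← sq_abs]; ring

/-- Conditional variance bound.  `γ = Σ_j u_j g_{ι j}` (all `ι j` at level `c`), `φ = Σ_j u_j s_j`,
`∂H/∂g_{ι j} = θ s_j`.  By `ibp` at level `c`: `Cov_c(γ, φ) ≥ θ e_c Var_c φ`,
`Var_c γ = |u|² + θ e_c Cov_c(γ, φ)`, and `Cov_c(γ,φ) = Cov_c(γ, E_{c+1} φ) ≤
(Var_c γ · |u|² T)^{1/2}`, where `T = E_c Σ_j (E_{c+1} s_j - E_c s_j)²`.  Solving the quadratic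
inequality, `Cov ≤ |u|² (θ e_c T + √T)`. -/
theorem var_le {κ : Type} [Fintype κ] (ι : κ → I) (hι : Function.Injective ι) {c : ℕ}
    (hc : ∀ j, (lev (ι j)).val = c) {H : Ω × (I → ℝ) × A → ℝ} {s : κ → Ω × (I → ℝ) × A → ℝ}
    (hH : (gT X P lev A).LG H) (hm : ∀ j, Measurable (s j)) {B : ℝ} (hB : ∀ j x, |s j x| ≤ B)
    (is : ∀ j j', Inv (ι j) (s j')) {θ : ℝ} (hθ : 0 < θ)
    (pH : ∀ j, PD (ι j) H (fun x => θ * s j x)) (u : κ → ℝ) (x : Ω × (I → ℝ) × A) :
    (gT X P lev A).E H c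
        (fun y => (∑ j, u j * (s j y - (gT X P lev A).E H c (s j) x)) ^ 2) x ≤
      (∑ j, u j ^ 2) *
        (((gT X P lev A).E H c (fun y => ∑ j, ((gT X P lev A).E H (c + 1) (s j) y -
            (gT X P lev A).E H c (s j) x) ^ 2) x) +
          √((gT X P lev A).E H c (fun y => ∑ j, ((gT X P lev A).E H (c + 1) (s j) y -
            (gT X P lev A).E H c (s j) x) ^ 2) x) / θ) / X.m := by
  set T := gT X P lev A with hT
  rcases isEmpty_or_nonempty κ with hκ | ⟨⟨j0⟩⟩
  · simp [Tower.E_const]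
  have hcn : c ≤ X.n := hc j0 ▸ Nat.lt_succ_iff.1 (lev (ι j0)).2
  have gs : ∀ j, T.Gr (s j) := fun j => Tower.Gr.of_bdd (hm j) (hB j)
  set a := ∑ j, u j ^ 2 with ha
  set m : κ → ℝ := fun j => T.E H c (s j) x with hmdef
  set φ : Ω × (I → ℝ) × A → ℝ := fun y => ∑ j, u j * (s j y - m j) with hφ
  have gφ : T.Gr φ := Tower.Gr.sum _ fun j _ => ((gs j).sub (Tower.Gr.const _)).const_mul _
  have iφ : ∀ j, Inv (ι j) φ := fun j t y => by
    simp only [hφ]
    exact Finset.sum_congr rfl fun j' _ => by rw [is j j' t y]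
  have Eφ : ∀ r y, T.E H r φ y = ∑ j, u j * (T.E H r (s j) y - m j) := fun r y => by
    rw [hφ, Tower.E_sum _ hH fun j _ => ((gs j).sub (Tower.Gr.const _)).const_mul _]
    refine Finset.sum_congr rfl fun j _ => ?_
    rw [Tower.E_const_mul, Tower.E_sub hH (gs j) (Tower.Gr.const _), Tower.E_const]
  have Eφ0 : T.E H c φ x = 0 := by rw [Eφ]; simp [hmdef]
  set M := ∑ j, u j * m j with hMdef
  have hsum : ∀ y, ∑ j, u j * s j y = φ y + M := fun y => by
    simp only [hφ, hMdef, ← Finset.sum_add_distrib]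
    exact Finset.sum_congr rfl fun j _ => by ring
  set γ0 : Ω × (I → ℝ) × A → ℝ := fun y => ∑ j, u j * y.2.1 (ι j) with hγ0
  have gγ0 : T.Gr γ0 := Tower.Gr.sum _ fun j _ => (lg_coord (ι j)).gr.const_mul _
  -- integration by parts against `γ0`
  have key : ∀ (ψ : Ω × (I → ℝ) × A → ℝ) (d : κ → ℝ), T.Gr ψ → (∀ j, PD (ι j) ψ (fun _ => d j)) →
      T.E H c ψ x = 0 →
      T.E H c (fun y => γ0 y * ψ y) x = ∑ j, u j * d j + θ * (T.E H c (fun y => ψ y * φ y) x -
        X.tau (fun r => T.E H c (fun y => T.E H r ψ y * T.E H r φ y) x) c) := by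
    intro ψ d gψ pψ h0
    have e1 : (fun y => γ0 y * ψ y) = fun y => ∑ j, u j * (y.2.1 (ι j) * ψ y) := by
      funext y
      simp only [hγ0, Finset.sum_mul]
      exact Finset.sum_congr rfl fun j _ => by ring
    have e2 : ∀ j, T.E H c (fun y => u j * (y.2.1 (ι j) * ψ y)) x = u j * d j +
        θ * (T.E H c (fun y => ψ y * (u j * s j y)) x -
        X.tau (fun r => T.E H c (fun y => T.E H r ψ y * (u j * T.E H r (s j) y)) x) c) := by
      intro j
      have := ibp (ι j) hH ((gs j).const_mul θ) (pH j) gψ (Tower.Gr.const _) (pψ j) (hc j).ge x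
      rw [hc j, Tower.E_add hH (Tower.Gr.const _) (gψ.mul ((gs j).const_mul θ)),
        Tower.E_const] at this
      rw [Tower.E_const_mul, this]
      have f1 : (fun y => ψ y * (θ * s j y)) = fun y => θ * (ψ y * s j y) := by funext y; ring
      have f2 : (fun y => ψ y * (u j * s j y)) = fun y => u j * (ψ y * s j y) := by funext y; ring
      have f3 : (fun r => T.E H c (fun y => T.E H r ψ y * T.E H r (fun x => θ * s j x) y) x) =
          fun r => θ * T.E H c (fun y => T.E H r ψ y * T.E H r (s j) y) x := by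
        funext r
        rw [← Tower.E_const_mul]
        congr 1; funext y
        rw [Tower.E_const_mul]; ring
      have f4 : (fun r => T.E H c (fun y => T.E H r ψ y * (u j * T.E H r (s j) y)) x) =
          fun r => u j * T.E H c (fun y => T.E H r ψ y * T.E H r (s j) y) x := by
        funext r
        rw [← Tower.E_const_mul]
        congr 1; funext y; ring
      rw [f1, f2, f3, f4, Tower.E_const_mul, Tower.E_const_mul, X.g3_tau_mul, X.g3_tau_mul]
      ring
    rw [e1, Tower.E_sum _ hH fun j _ => ((lg_coord (ι j)).gr.mul gψ).const_mul _]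
    simp only [e2]
    rw [Finset.sum_add_distrib, ← Finset.mul_sum, Finset.sum_sub_distrib, ← X.g3_tau_sum,
      ← Tower.E_sum _ hH fun j _ => gψ.mul ((gs j).const_mul _)]
    have f5 : T.E H c (fun y => ∑ j, ψ y * (u j * s j y)) x = T.E H c (fun y => ψ y * φ y) x := by
      have : (fun y => ∑ j, ψ y * (u j * s j y)) = fun y => ψ y * φ y + M * ψ y := by
        funext y; rw [← Finset.mul_sum, hsum]; ring
      rw [this, Tower.E_add hH (gψ.mul gφ) (gψ.const_mul _), Tower.E_const_mul, h0]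
      ring
    have f6 : X.tau (fun r => ∑ j, T.E H c (fun y => T.E H r ψ y * (u j * T.E H r (s j) y)) x) c =
        X.tau (fun r => T.E H c (fun y => T.E H r ψ y * T.E H r φ y) x) c := by
      unfold Expo.tau
      refine Finset.sum_congr rfl fun r hr => ?_
      have hcr : c ≤ r := by have := (Finset.mem_Icc.1 hr).1; omega
      congr 1
      beta_reduce
      rw [← Tower.E_sum _ hH fun j _ => (gψ.E hH r).mul (((gs j).E hH r).const_mul _)]
      have : (fun y => ∑ j, T.E H r ψ y * (u j * T.E H r (s j) y)) =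
          fun y => T.E H r ψ y * T.E H r φ y + M * T.E H r ψ y := by
        funext y
        rw [← Finset.mul_sum, Eφ]
        simp only [mul_sub, Finset.sum_sub_distrib, ← hMdef]
        ring
      rw [this, Tower.E_add hH ((gψ.E hH r).mul (gφ.E hH r)) ((gψ.E hH r).const_mul _),
        Tower.E_const_mul, Tower.E_E hH hcr gψ, h0]
      ring
    rw [f5, f6]
  set V := T.E H c (fun y => φ y ^ 2) x with hV
  set Tt := T.E H c (fun y => ∑ j, (T.E H (c + 1) (s j) y - m j) ^ 2) x with hTt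
  have hV0 : 0 ≤ V := Tower.g3_E_nonneg _ (fun y => sq_nonneg _) _ _
  have hTt0 : 0 ≤ Tt := Tower.g3_E_nonneg _ (fun y => by positivity) _ _
  have ha0 : 0 ≤ a := by positivity
  set C := T.E H c (fun y => γ0 y * φ y) x with hC
  have he := X.e_pos c
  -- first identity
  have k1 : θ * X.e c * V ≤ C := by
    rw [hC, key φ (fun _ => 0) gφ (fun j => (iφ j).g3_pd) Eφ0]
    have := X.g3_tau_le (Q := fun r => T.E H c (fun y => T.E H r φ y * T.E H r φ y) x) (c := V) hcn
      (fun r hr _ => by simpa only [← sq] using Tower.g3_E_sq_E hH gφ hr.le x)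
    simp only [mul_zero, Finset.sum_const_zero, zero_add, ← sq, ← hV] at this ⊢
    rw [mul_assoc]
    exact mul_le_mul_of_nonneg_left (by linarith) hθ.le
  -- the centred field
  set μ := T.E H c γ0 x with hμ
  set γ : Ω × (I → ℝ) × A → ℝ := fun y => γ0 y - μ with hγ
  have gγ : T.Gr γ := gγ0.sub (Tower.Gr.const _)
  have Eγ0 : T.E H c γ x = 0 := by
    rw [hγ, Tower.E_sub hH gγ0 (Tower.Gr.const _), Tower.E_const, ← hμ, sub_self]
  have dγ : ∀ r, c < r → T.Dep r γ := fun r hr =>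
    (Tower.Dep.sum _ fun j _ => (dep_coord (ι j) (by rw [hc j]; exact hr)).comp
      (fun z => u j * z)).comp (fun z => z - μ)
  have pγ : ∀ j, PD (ι j) γ (fun _ => u j) := fun j => by
    refine ((PD.g3_sum Finset.univ (fun j' _ =>
      (g3_pd_coord (Ω := Ω) (A := A) (ι j) (ι j')).g3_const_mul (u j'))).g3_sub_const μ).g3_congr
      fun y => ?_
    rw [Finset.sum_eq_single j (fun j' _ hj' => by rw [if_neg (fun h => hj' (hι h)), mul_zero])
      (fun h => absurd (Finset.mem_univ j) h), if_pos rfl, mul_one]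
  have hCγ : T.E H c (fun y => γ y * φ y) x = C := by
    have : (fun y => γ y * φ y) = fun y => γ0 y * φ y - μ * φ y := by funext y; simp only [hγ]; ring
    rw [this, Tower.E_sub hH (gγ0.mul gφ) (gφ.const_mul _), Tower.E_const_mul, Eφ0]
    ring
  have k2 : T.E H c (fun y => γ y ^ 2) x = a + θ * X.e c * C := by
    have e1 : (fun y => γ y ^ 2) = fun y => γ0 y * γ y - μ * γ y := by
      funext y; simp only [hγ]; ring
    rw [e1, Tower.E_sub hH (gγ0.mul gγ) (gγ.const_mul _), Tower.E_const_mul, Eγ0,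
      key γ u gγ pγ Eγ0, hCγ, X.g3_tau_eq (c := C) hcn]
    · simp only [← sq, ← ha]; ring
    · intro r hr _
      have : (fun y => T.E H r γ y * T.E H r φ y) = fun y => γ y * T.E H r φ y := by
        funext y; rw [Tower.E_of_dep hH.ub gγ.1 (dγ r hr)]
      rw [this, Tower.E_mul_E hH hr.le gγ (dγ r hr) gφ, hCγ]
  have k3 : |C| ≤ √(a + θ * X.e c * C) * √(a * Tt) := by
    have e1 := Tower.g3_cs hH gγ (gφ.E hH (c + 1)) c x
    rw [Tower.E_mul_E hH (Nat.le_succ c) gγ (dγ _ (Nat.lt_succ_self c)) gφ, hCγ, k2] at e1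
    refine e1.trans (mul_le_mul_of_nonneg_left (Real.sqrt_le_sqrt ?_) (Real.sqrt_nonneg _))
    rw [hTt, ← Tower.E_const_mul]
    refine Tower.E_mono hH ((gφ.E hH _).pow 2) ((Tower.Gr.sum _ fun j _ =>
      (((gs j).E hH _).sub (Tower.Gr.const _)).pow 2).const_mul _) (fun y => ?_) c x
    rw [Eφ]
    exact Finset.sum_mul_sq_le_sq_mul_sq _ _ _
  set k := θ * X.e c with hk
  have hk0 : 0 < k := mul_pos hθ he
  have hC0 : 0 ≤ C := le_trans (by positivity) k1
  have k4 : C ^ 2 ≤ (a + k * C) * (a * Tt) := by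
    rw [← Real.sqrt_mul (by positivity)] at k3
    rw [← sq_abs C]
    exact (Real.le_sqrt (abs_nonneg _) (by positivity)).1 k3
  have k5 : C ≤ a * (k * Tt + √Tt) := by
    by_contra hcon
    push Not at hcon
    have s0 : 0 ≤ a * √Tt := by positivity
    have s1 : 0 ≤ a * (k * Tt) := by positivity
    have s2 := mul_lt_mul'' (show a * √Tt < C by linarith)
      (show a * √Tt < C - a * (k * Tt) by linarith) s0 s0
    have s3 : a * √Tt * (a * √Tt) = a ^ 2 * Tt := by
      rw [mul_mul_mul_comm, Real.mul_self_sqrt hTt0]; ring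
    nlinarith
  have hm0 := X.m_pos
  have hm1 : X.m ≤ 1 := (X.m_le 0).trans (X.le_one 0)
  have k6 : V ≤ a * (Tt + √Tt / k) := by
    refine le_of_mul_le_mul_left ?_ hk0
    calc k * V ≤ a * (k * Tt + √Tt) := k1.trans k5
      _ = _ := by field_simp
  show V ≤ a * (Tt + √Tt / θ) / X.m
  refine k6.trans ?_
  rw [mul_div_assoc, add_div]
  refine mul_le_mul_of_nonneg_left (add_le_add ?_ ?_) ha0
  · rw [le_div_iff₀ hm0]; nlinarith
  · rw [div_div]
    exact div_le_div_of_nonneg_left (Real.sqrt_nonneg _) (mul_pos hθ hm0)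
      (mul_le_mul_of_nonneg_left (X.m_le c) hθ.le)

/-- Second moment of a field: `z_j = Σ_{l} a_{l j} g_{ι l j}`, `∂H/∂g_{ι l j} = a_{l j} s_j`,
`Σ_j s_j² ≤ N`, `Σ_l a_{l j}² ≤ Θ`.  By `ibp_PP`,
`Z = ∫ Σ_j z_j² ≤ Θ (card κ + 2 √Z √N)` (each of the two groups of terms has total weight
`≤ 1` and is bounded by Cauchy–Schwarz and Jensen; for the sum over `l` use
`|Σ_l a_{lj}² c_{l}| ` with `c_l = ∫ z_j s_j - τ_l`, and bound
`|∫ E_r z_j E_r s_j| ≤ (∫ z_j²)^{1/2} (∫ s_j²)^{1/2}`). -/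
theorem field_moment {κ Λ : Type} [Fintype κ] [Fintype Λ] (ι : Λ × κ → I)
    (hι : Function.Injective ι) {H : Ω × (I → ℝ) × A → ℝ} {s : κ → Ω × (I → ℝ) × A → ℝ}
    (hH : (gT X P lev A).LG H) (hm : ∀ j, Measurable (s j)) {N Θ : ℝ}
    (hN : ∀ x, ∑ j, s j x ^ 2 ≤ N) (hκ : (Fintype.card κ : ℝ) ≤ N) (a : Λ → κ → ℝ)
    (ha : ∀ j, ∑ l, a l j ^ 2 ≤ Θ) (hΘ : 0 ≤ Θ)
    (pH : ∀ l j, PD (ι (l, j)) H (fun x => a l j * s j x)) :
    √(∫ x, ∑ j, (∑ l, a l j * x.2.1 (ι (l, j))) ^ 2 ∂((gT X P lev A).PP H)) ≤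
      (2 * Θ + √Θ) * √N := by
  set T := gT X P lev A with hT
  have hN0 : 0 ≤ N := (Nat.cast_nonneg _).trans hκ
  have bs : ∀ j x, |s j x| ≤ √N := fun j x => Real.abs_le_sqrt
    ((Finset.single_le_sum (f := fun j => s j x ^ 2) (fun j _ => sq_nonneg _)
      (Finset.mem_univ j)).trans (hN x))
  have gs : ∀ j, T.Gr (s j) := fun j => Tower.Gr.of_bdd (hm j) (bs j)
  set z : κ → Ω × (I → ℝ) × A → ℝ := fun j x => ∑ l, a l j * x.2.1 (ι (l, j)) with hz
  have gz : ∀ j, T.Gr (z j) := fun j =>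
    Tower.Gr.sum _ fun l _ => (lg_coord (ι (l, j))).gr.const_mul _
  have pz : ∀ l j, PD (ι (l, j)) (z j) (fun _ => a l j) := fun l j => by
    refine (PD.g3_sum Finset.univ (fun l' _ => (g3_pd_coord (Ω := Ω) (A := A) (ι (l, j))
      (ι (l', j))).g3_const_mul (a l' j))).g3_congr fun y => ?_
    rw [Finset.sum_eq_single l
      (fun l' _ hl' => by rw [if_neg (fun h => hl' (congrArg Prod.fst (hι h))), mul_zero])
      (fun h => absurd (Finset.mem_univ l) h), if_pos rfl, mul_one]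
  set Z : κ → ℝ := fun j => ∫ x, z j x ^ 2 ∂(T.PP H) with hZ
  set S : κ → ℝ := fun j => ∫ x, s j x ^ 2 ∂(T.PP H) with hS
  have hZ0 : ∀ j, 0 ≤ Z j := fun j => integral_nonneg fun x => sq_nonneg _
  have hS0 : ∀ j, 0 ≤ S j := fun j => integral_nonneg fun x => sq_nonneg _
  have k1 : ∀ j, Z j ≤ Θ * (1 + 2 * (√(Z j) * √(S j))) := by
    intro j
    set R := √(Z j) * √(S j) with hR
    have hR0 : 0 ≤ R := by positivity
    have e1 : (fun x => z j x ^ 2) = fun x => ∑ l, a l j * (x.2.1 (ι (l, j)) * z j x) := by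
      funext x
      rw [sq]
      conv_lhs => rw [show z j x * z j x = (∑ l, a l j * x.2.1 (ι (l, j))) * z j x from rfl]
      rw [Finset.sum_mul]
      exact Finset.sum_congr rfl fun l _ => by ring
    have e2 : ∀ l, ∫ x, a l j * (x.2.1 (ι (l, j)) * z j x) ∂(T.PP H) ≤ a l j ^ 2 * (1 + 2 * R) := by
      intro l
      have hl : (lev (ι (l, j))).val ≤ X.n := Nat.lt_succ_iff.1 (lev _).2
      rw [integral_const_mul, ibp_PP (ι (l, j)) hH ((gs j).const_mul _) (pH l j) (gz j)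
        (Tower.Gr.const _) (pz l j), integral_add (integrable_const _)
          (((gz j).mul ((gs j).const_mul _)).integrable_PP hH)]
      have f1 : (fun y => z j y * (a l j * s j y)) = fun y => a l j * (z j y * s j y) := by
        funext y; ring
      have f2 : (fun r => ∫ y, T.E H r (z j) y * T.E H r (fun x => a l j * s j x) y ∂(T.PP H)) =
          fun r => a l j * ∫ y, T.E H r (z j) y * T.E H r (s j) y ∂(T.PP H) := by
        funext r
        rw [← integral_const_mul]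
        congr 1; funext y
        rw [Tower.E_const_mul]; ring
      rw [f1, f2, integral_const_mul, X.g3_tau_mul]
      simp only [integral_const, probReal_univ, smul_eq_mul, one_mul]
      have b1 : |∫ y, z j y * s j y ∂(T.PP H)| ≤ R := Tower.g3_cs hH (gz j) (gs j) 0 T.x0
      have b2 : |X.tau (fun r => ∫ y, T.E H r (z j) y * T.E H r (s j) y ∂(T.PP H))
          (lev (ι (l, j))).val| ≤ R :=
        X.g3_abs_tau hl hR0 fun r _ _ => Tower.g3_cs_E hH (gz j) (gs j) (Nat.zero_le r) T.x0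
      have b3 := mul_le_mul_of_nonneg_left (show 1 + ∫ y, z j y * s j y ∂(T.PP H) -
        X.tau (fun r => ∫ y, T.E H r (z j) y * T.E H r (s j) y ∂(T.PP H)) (lev (ι (l, j))).val ≤
        1 + 2 * R by linarith [(abs_le.1 b1).2, (abs_le.1 b2).1]) (sq_nonneg (a l j))
      refine le_trans (le_of_eq ?_) b3
      ring
    calc Z j = ∑ l, ∫ x, a l j * (x.2.1 (ι (l, j)) * z j x) ∂(T.PP H) := by
          simp only [hZ]
          rw [e1, integral_finsetSum _ fun l _ =>
            (((lg_coord (ι (l, j))).gr.mul (gz j)).const_mul _).integrable_PP hH]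
      _ ≤ ∑ l, a l j ^ 2 * (1 + 2 * R) := Finset.sum_le_sum fun l _ => e2 l
      _ = (∑ l, a l j ^ 2) * (1 + 2 * R) := by rw [Finset.sum_mul]
      _ ≤ _ := mul_le_mul_of_nonneg_right (ha j) (by positivity)
  have eZ : ∫ x, ∑ j, z j x ^ 2 ∂(T.PP H) = ∑ j, Z j :=
    integral_finsetSum _ fun j _ => ((gz j).pow 2).integrable_PP hH
  have eS : ∑ j, S j ≤ N := by
    rw [← integral_finsetSum _ fun j _ => ((gs j).pow 2).integrable_PP hH]
    have := integral_mono ((Tower.Gr.sum Finset.univ fun j _ => (gs j).pow 2).integrable_PP hH)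
      (integrable_const N) hN
    simpa using this
  show √(∫ x, ∑ j, z j x ^ 2 ∂(T.PP H)) ≤ _
  rw [eZ]
  have hZs : 0 ≤ ∑ j, Z j := Finset.sum_nonneg fun j _ => hZ0 j
  set w := √(∑ j, Z j) with hw
  set v := √N with hv
  have k2 : w * w ≤ Θ * (v * v + 2 * (w * v)) := by
    rw [hw, hv, Real.mul_self_sqrt hZs, Real.mul_self_sqrt hN0]
    calc _ ≤ ∑ j, Θ * (1 + 2 * (√(Z j) * √(S j))) := Finset.sum_le_sum fun j _ => k1 j
      _ = Θ * (Fintype.card κ + 2 * ∑ j, √(Z j) * √(S j)) := by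
          rw [← Finset.mul_sum, Finset.sum_add_distrib, ← Finset.mul_sum]
          simp
      _ ≤ _ := by
          refine mul_le_mul_of_nonneg_left (add_le_add hκ ?_) hΘ
          refine mul_le_mul_of_nonneg_left ?_ zero_le_two
          exact (Real.sum_sqrt_mul_sqrt_le _ (fun j => hZ0 j) (fun j => hS0 j)).trans
            (mul_le_mul_of_nonneg_left (Real.sqrt_le_sqrt eS) (Real.sqrt_nonneg _))
  by_contra hcon
  push Not at hcon
  have hv0 : 0 ≤ v := Real.sqrt_nonneg _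
  have s0 : 0 ≤ √Θ * v := by positivity
  have s1 : 0 ≤ 2 * Θ * v := by positivity
  have s2 := mul_lt_mul'' (show √Θ * v < w by linarith)
    (show √Θ * v < w - 2 * Θ * v by linarith) s0 s0
  have s3 : √Θ * v * (√Θ * v) = Θ * (v * v) := by
    rw [mul_mul_mul_comm, Real.mul_self_sqrt hΘ]
  nlinarith

end Crest.Agent.R164
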