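import Crest.Agent.R164.TDefs

/-! # Gaussian towers (definitions)

State `(ω, g, σ)`: the disorder `ω` is resampled at level `0`, the Gaussian coordinate `g i` at
level `lev i ≤ n`, the spin configuration `σ` (uniform on a finite type) at level `n + 1`. -/

set_option autoImplicit false
set_option linter.unusedVariables false
set_option linter.unusedSectionVars false

open MeasureTheory ProbabilityTheory Real
open scoped ENNReal

namespace Crest.Agent.R164

/-- exponents `e 0 = e 1 = m ≤ e 2 ≤ … ≤ e n = 1` -/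
structure Expo where
  n : ℕ
  e : ℕ → ℝ
  n_pos : 1 ≤ n
  pos : 0 < e 0
  mono : Monotone e
  le_one : ∀ a, e a ≤ 1
  e01 : e 1 = e 0
  en : e n = 1

/-- the smallest exponent (fractional moment) -/
def Expo.m (X : Expo) : ℝ := X.e 0

def Expo.W (X : Expo) (r : ℕ) : ℝ := X.e r - X.e (r - 1)

/-- `D(l) = Σ_{c=l}^{n} e_c (Q(c+1) - Q(c))` -/
def Expo.D (X : Expo) (Q : ℕ → ℝ) (l : ℕ) : ℝ :=
  ∑ c ∈ Finset.Icc l X.n, X.e c * (Q (c + 1) - Q c)

/-- the weighted norm `z 1 + Σ_{l=2}^n W_l z_l` in which all errors are measured -/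
def Expo.wn (X : Expo) (z : ℕ → ℝ) : ℝ := z 1 + ∑ l ∈ Finset.Icc 2 X.n, X.W l * z l

/-- `τ_l = Σ_{r=l+1}^n W_r Q_r` -/
def Expo.tau (X : Expo) (Q : ℕ → ℝ) (l : ℕ) : ℝ := ∑ r ∈ Finset.Icc (l + 1) X.n, X.W r * Q r

/-- `Γ[z] = Σ_{l=1}^n (z_l - z_{l+1}) / e_l` -/
noncomputable def Expo.Gam (X : Expo) (z : ℕ → ℝ) : ℝ :=
  ∑ l ∈ Finset.Icc 1 X.n, (z l - z (l + 1)) / X.e l

/-- standard Gaussian measure on `I → ℝ` -/
noncomputable def gpi (I : Type) [Fintype I] : Measure (I → ℝ) :=
  Measure.pi fun _ => gaussianReal 0 1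

instance (I : Type) [Fintype I] : IsProbabilityMeasure (gpi I) := by unfold gpi; infer_instance

/-- uniform measure on a finite type -/
noncomputable def unif (A : Type) [MeasurableSpace A] : Measure A := uniformOn Set.univ

instance (A : Type) [MeasurableSpace A] [Fintype A] [Nonempty A] [MeasurableSingletonClass A] :
    IsProbabilityMeasure (unif A) := by unfold unif; infer_instance

theorem integrable_exp_norm_gpi (I : Type) [Fintype I] (C : ℝ) :
    Integrable (fun g : I → ℝ => exp (C * ‖g‖)) (gpi I) := by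
  have h1 : ∀ c : ℝ, Integrable (fun x : ℝ => exp (c * |x|)) (gaussianReal 0 1) := by
    intro c
    have ha := integrable_exp_mul_gaussianReal (μ := 0) (v := 1) c
    have hb := integrable_exp_mul_gaussianReal (μ := 0) (v := 1) (-c)
    refine (ha.add hb).mono' (by fun_prop) (Filter.Eventually.of_forall fun x => ?_)
    rw [Real.norm_eq_abs, abs_of_pos (exp_pos _)]
    have := exp_pos (c * x)
    have := exp_pos (-c * x)
    rcases abs_cases x with h | h
    · simp only [Pi.add_apply, h.1]; linarith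
    · simp only [Pi.add_apply, h.1]
      have : c * -x = -c * x := by ring
      rw [this]; linarith
  have h2 : Integrable (fun g : I → ℝ => ∏ i, exp (|C| * |g i|)) (gpi I) :=
    Integrable.fintype_prod (f := fun _ x => exp (|C| * |x|)) (fun _ => h1 _)
  refine h2.mono' (by fun_prop) (Filter.Eventually.of_forall fun g => ?_)
  rw [Real.norm_eq_abs, abs_of_pos (exp_pos _), ← exp_sum, ← Finset.mul_sum]
  apply exp_le_exp.2
  have hn : ‖g‖ ≤ ∑ i, |g i| := by
    refine (pi_norm_le_iff_of_nonneg (Finset.sum_nonneg fun i _ => abs_nonneg _)).2 fun i => ?_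
    exact Finset.single_le_sum (f := fun i => |g i|) (fun i _ => abs_nonneg _) (Finset.mem_univ i)
  calc C * ‖g‖ ≤ |C| * ‖g‖ := mul_le_mul_of_nonneg_right (le_abs_self C) (norm_nonneg _)
    _ ≤ _ := mul_le_mul_of_nonneg_left hn (abs_nonneg C)

section G

variable {Ω I A : Type} [MeasurableSpace Ω] [Fintype I] [MeasurableSpace A] [Fintype A]
  [Nonempty A] [MeasurableSingletonClass A] [Nonempty Ω]

/-- take the coordinates of level `a` from `g'`, the others from `g` -/
def mixg {n : ℕ} (lev : I → Fin (n + 1)) (a : ℕ) (g g' : I → ℝ) : I → ℝ :=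
  fun i => if (lev i).val = a then g' i else g i

def gmix {n : ℕ} (lev : I → Fin (n + 1)) (a : ℕ) (x y : Ω × (I → ℝ) × A) : Ω × (I → ℝ) × A :=
  (if a = 0 then y.1 else x.1, mixg lev a x.2.1 y.2.1, if a = n + 1 then y.2.2 else x.2.2)

def gagree {n : ℕ} (lev : I → Fin (n + 1)) (r : ℕ) (x y : Ω × (I → ℝ) × A) : Prop :=
  (0 < r → x.1 = y.1) ∧ (∀ i, (lev i).val < r → x.2.1 i = y.2.1 i) ∧ (n + 1 < r → x.2.2 = y.2.2)

/-- The Gaussian tower. -/
noncomputable def gT (X : Expo) (P : Measure Ω) [IsProbabilityMeasure P]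
    (lev : I → Fin (X.n + 1)) (A : Type) [MeasurableSpace A] [Fintype A]
    [Nonempty A] [MeasurableSingletonClass A] : Tower (Ω × (I → ℝ) × A) where
  L := X.n + 2
  e := X.e
  μ := P.prod ((gpi I).prod (unif A))
  mix := gmix lev
  agree := gagree lev
  ν := fun x => ‖x.2.1‖
  x0 := (Classical.arbitrary Ω, 0, Classical.arbitrary A)
  prob := inferInstance
  L_pos := by omega
  e_pos := X.pos
  e_mono := X.mono
  e_le := X.le_one
  e_last := le_antisymm (X.le_one _) (X.en ▸ X.mono (by omega))
  meas_mix := by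
    intro a
    unfold gmix mixg
    refine Measurable.prodMk ?_ (Measurable.prodMk ?_ ?_)
    · split_ifs <;> fun_prop
    · refine measurable_pi_lambda _ fun i => ?_
      split_ifs <;> fun_prop
    · split_ifs <;> fun_prop
  meas_ν := by fun_prop
  ν_nonneg := fun x => norm_nonneg _
  ν_mix := by
    intro a x y
    refine (pi_norm_le_iff_of_nonneg (by positivity)).2 fun i => ?_
    have h1 := norm_le_pi_norm x.2.1 i
    have h2 := norm_le_pi_norm y.2.1 i
    have := norm_nonneg x.2.1
    have := norm_nonneg y.2.1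
    simp only [gmix, mixg]
    split_ifs <;> linarith
  mom := by
    intro C
    have h := integrable_exp_norm_gpi I C
    have hm : MeasurePreserving (fun x : Ω × (I → ℝ) × A => x.2.1)
        (P.prod ((gpi I).prod (unif A))) (gpi I) :=
      (measurePreserving_fst (μ := gpi I) (ν := unif A)).comp
        (measurePreserving_snd (μ := P) (ν := (gpi I).prod (unif A)))
    exact hm.integrable_comp_of_integrable h
  agree_refl := fun r x => ⟨fun _ => rfl, fun _ _ => rfl, fun _ => rfl⟩
  agree_symm := fun r x y h => ⟨fun a => (h.1 a).symm, fun i a => (h.2.1 i a).symm,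
    fun a => (h.2.2 a).symm⟩
  agree_trans := fun r x y z h g => ⟨fun a => (h.1 a).trans (g.1 a),
    fun i a => (h.2.1 i a).trans (g.2.1 i a), fun a => (h.2.2 a).trans (g.2.2 a)⟩
  agree_mono := fun a b x y hab h => ⟨fun c => h.1 (by omega), fun i c => h.2.1 i (by omega),
    fun c => h.2.2 (by omega)⟩
  agree_zero := fun x y => ⟨fun c => absurd c (by omega), fun i c => absurd c (by omega),
    fun c => absurd c (by omega)⟩
  agree_top := fun x y h => Prod.ext (h.1 (by omega)) (Prod.ext
    (funext fun i => h.2.1 i (by have := (lev i).2; omega)) (h.2.2 (by omega)))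
  agree_mix := by
    intro r a x y hra
    refine ⟨fun c => ?_, fun i c => ?_, fun c => ?_⟩
    · simp only [gmix]; rw [if_neg (by omega)]
    · simp only [gmix, mixg]; rw [if_neg (by omega)]
    · simp only [gmix]; rw [if_neg (by omega)]
  mix_congr := by
    intro a x x' y h
    refine ⟨fun c => ?_, fun i c => ?_, fun c => ?_⟩
    · simp only [gmix]; split_ifs with h0
      · rfl
      · exact h.1 (by omega)
    · simp only [gmix, mixg]; split_ifs with h0
      · rfl
      · exact h.2.1 i (by omega)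
    · simp only [gmix]; split_ifs with h0
      · rfl
      · exact h.2.2 (by omega)

/-- translate the Gaussian coordinate `i` by `t` -/
def shift [DecidableEq I] (i : I) (t : ℝ) (x : Ω × (I → ℝ) × A) : Ω × (I → ℝ) × A :=
  (x.1, Function.update x.2.1 i (x.2.1 i + t), x.2.2)

/-- `dφ` is the partial derivative of `φ` in the Gaussian coordinate `i` -/
def PD [DecidableEq I] (i : I) (φ dφ : Ω × (I → ℝ) × A → ℝ) : Prop :=
  ∀ x, HasDerivAt (fun t => φ (shift i t x)) (dφ x) 0

/-- `φ` does not depend on the Gaussian coordinate `i` -/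
def Inv [DecidableEq I] (i : I) (φ : Ω × (I → ℝ) × A → ℝ) : Prop :=
  ∀ t x, φ (shift i t x) = φ x

end G

end Crest.Agent.R164
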