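import Crest.Agent.R164.MDefs

/-! # Haar measure on the orthogonal group, the partition function -/

set_option autoImplicit false
set_option linter.unusedVariables false
set_option linter.unusedSectionVars false

open MeasureTheory ProbabilityTheory Real Crest.ProbabilityR.InvariantGlass
open scoped ENNReal

namespace Crest.Agent.R164

variable {N : ℕ}

theorem measurable_entry (i j : Fin N) : Measurable (fun U : Orth N => U.1 i j) := by
  have h : Measurable (fun (U : Orth N) (i j : Fin N) => U.1 i j) := comap_measurable _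
  exact (measurable_pi_apply j).comp ((measurable_pi_apply i).comp h)

theorem measurable_orth {α : Type*} [MeasurableSpace α] {f : α → Orth N}
    (h : ∀ i j, Measurable (fun a => (f a).1 i j)) : Measurable f := by
  rw [measurable_comap_iff]
  exact measurable_pi_lambda _ fun i => measurable_pi_lambda _ fun j => h i j

theorem measurable_orth_mul : Measurable (fun p : Orth N × Orth N => p.1 * p.2) := by
  refine measurable_orth fun i j => ?_
  have : (fun p : Orth N × Orth N => (p.1 * p.2).1 i j) =
      fun p => ∑ k, p.1.1 i k * p.2.1 k j := by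
    funext p
    simp [Matrix.mul_apply]
  rw [this]
  exact Finset.measurable_sum _ fun k _ =>
    ((measurable_entry i k).comp measurable_fst).mul ((measurable_entry k j).comp measurable_snd)

theorem measurable_orth_mul_left (O : Orth N) : Measurable (fun U : Orth N => O * U) :=
  measurable_orth_mul.comp (measurable_const.prodMk measurable_id)
theorem measurable_orth_mul_right (O : Orth N) : Measurable (fun U : Orth N => U * O) :=
  measurable_orth_mul.comp (measurable_id.prodMk measurable_const)
theorem measurable_orth_inv : Measurable (fun U : Orth N => U⁻¹) := by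
  refine measurable_orth fun i j => ?_
  have : (fun U : Orth N => (U⁻¹).1 i j) = fun U => U.1 j i := by
    funext U
    rfl
  rw [this]
  exact measurable_entry j i

theorem orth_row (U : Orth N) (a b : Fin N) :
    ∑ i, U.1 a i * U.1 b i = if a = b then 1 else 0 := by
  have h := (Matrix.mem_orthogonalGroup_iff (Fin N) ℝ).1 U.2
  have := congrFun (congrFun h a) b
  simpa [Matrix.mul_apply, Matrix.one_apply] using this

theorem orth_col (U : Orth N) (a b : Fin N) :
    ∑ i, U.1 i a * U.1 i b = if a = b then 1 else 0 := by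
  have h := (Matrix.mem_orthogonalGroup_iff' (Fin N) ℝ).1 U.2
  have := congrFun (congrFun h a) b
  simpa [Matrix.mul_apply, Matrix.one_apply] using this

theorem orth_abs_entry_le (U : Orth N) (a i : Fin N) : |U.1 a i| ≤ 1 := by
  have h := orth_row U a a
  rw [if_pos rfl] at h
  have h2 : U.1 a i * U.1 a i ≤ ∑ j, U.1 a j * U.1 a j :=
    Finset.single_le_sum (f := fun j => U.1 a j * U.1 a j) (fun j _ => mul_self_nonneg _)
      (Finset.mem_univ i)
  rw [h] at h2
  exact abs_le_one_iff_mul_self_le_one.2 h2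

instance orth_compactSpace : CompactSpace (Orth N) := by
  have hc : IsClosed ((Matrix.orthogonalGroup (Fin N) ℝ : Set (Matrix (Fin N) (Fin N) ℝ))) := by
    have : ((Matrix.orthogonalGroup (Fin N) ℝ : Set (Matrix (Fin N) (Fin N) ℝ))) =
        {M | M * M.transpose = 1} := by
      ext M
      exact Matrix.mem_orthogonalGroup_iff (Fin N) ℝ
    rw [this]
    exact isClosed_eq (by fun_prop) continuous_const
  have hK : IsCompact (Set.pi Set.univ fun _ : Fin N => Set.pi Set.univ fun _ : Fin N =>
      Set.Icc (-1 : ℝ) 1) :=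
    isCompact_univ_pi fun _ => isCompact_univ_pi fun _ => isCompact_Icc
  have hsub : ((Matrix.orthogonalGroup (Fin N) ℝ : Set (Matrix (Fin N) (Fin N) ℝ))) ⊆
      (Set.pi Set.univ fun _ : Fin N => Set.pi Set.univ fun _ : Fin N => Set.Icc (-1 : ℝ) 1) := by
    intro M hM i _ j _
    exact abs_le.1 (orth_abs_entry_le ⟨M, hM⟩ i j)
  exact isCompact_iff_compactSpace.1 (hK.of_isClosed_subset hc hsub)

instance orth_borelSpace : BorelSpace (Orth N) := by
  refine ⟨?_⟩
  have h1 : (inferInstance : TopologicalSpace (Orth N)) =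
      TopologicalSpace.induced (fun (U : Orth N) (i j : Fin N) => U.1 i j) inferInstance := rfl
  have h2 : borel (Orth N) = (borel (Fin N → Fin N → ℝ)).comap
      (fun (U : Orth N) (i j : Fin N) => U.1 i j) := by
    rw [borel_comap]
    rfl
  rw [h2, ← BorelSpace.measurable_eq (α := Fin N → Fin N → ℝ)]
  rfl

theorem exists_isHaar (N : ℕ) : ∃ P : Measure (Orth N), IsHaar P := by
  let K : TopologicalSpace.PositiveCompacts (Orth N) := ⊤
  let μ : Measure (Orth N) := Measure.haarMeasure K
  have hμ : IsProbabilityMeasure μ := ⟨by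
    have := Measure.haarMeasure_self (K₀ := K)
    simpa [K] using this⟩
  refine ⟨μ.map (fun U => U⁻¹), Measure.isProbabilityMeasure_map measurable_orth_inv.aemeasurable,
    fun O => ?_⟩
  rw [Measure.map_map (measurable_orth_mul_right O) measurable_orth_inv]
  have h1 : ((fun U : Orth N => U * O) ∘ fun U => U⁻¹) =
      (fun U => U⁻¹) ∘ (fun U => O⁻¹ * U) := by
    funext U; simp
  rw [h1, ← Measure.map_map measurable_orth_inv (measurable_orth_mul_left O⁻¹)]
  congr 1
  exact map_mul_left_eq_self μ O⁻¹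

theorem isHaar_haar (N : ℕ) : IsHaar (haar N) := by
  unfold haar
  rw [dif_pos (exists_isHaar N)]
  exact (exists_isHaar N).choose_spec

theorem IsHaar.eq_map_inv {P P' : Measure (Orth N)} (h : IsHaar P) (h' : IsHaar P') :
    P = P'.map (fun U => U⁻¹) := by
  have := h.1
  have := h'.1
  set Q : Measure (Orth N) := P'.map (fun U => U⁻¹) with hQ
  have : IsProbabilityMeasure Q := Measure.isProbabilityMeasure_map measurable_orth_inv.aemeasurable
  have hQl : ∀ O : Orth N, Q.map (fun U => O * U) = Q := by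
    intro O
    rw [hQ, Measure.map_map (measurable_orth_mul_left O) measurable_orth_inv]
    have h1 : ((fun U : Orth N => O * U) ∘ fun U => U⁻¹) =
        (fun U => U⁻¹) ∘ (fun U => U * O⁻¹) := by
      funext U; simp
    rw [h1, ← Measure.map_map measurable_orth_inv (measurable_orth_mul_right O⁻¹), h'.2]
  ext s hs
  have hm : MeasurableSet ((fun p : Orth N × Orth N => p.1 * p.2) ⁻¹' s) := measurable_orth_mul hs
  have e1 : (P.prod Q) ((fun p : Orth N × Orth N => p.1 * p.2) ⁻¹' s) = Q s := by
    rw [Measure.prod_apply hm]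
    have : ∀ U : Orth N, Q (Prod.mk U ⁻¹' ((fun p : Orth N × Orth N => p.1 * p.2) ⁻¹' s)) = Q s := by
      intro U
      conv_rhs => rw [← hQl U]
      rw [Measure.map_apply (measurable_orth_mul_left U) hs]
      rfl
    simp only [this]
    simp
  have e2 : (P.prod Q) ((fun p : Orth N × Orth N => p.1 * p.2) ⁻¹' s) = P s := by
    rw [Measure.prod_apply_symm hm]
    have : ∀ V : Orth N,
        P ((fun U => (U, V)) ⁻¹' ((fun p : Orth N × Orth N => p.1 * p.2) ⁻¹' s)) = P s := by
      intro V
      conv_rhs => rw [← h.2 V]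
      rw [Measure.map_apply (measurable_orth_mul_right V) hs]
      rfl
    simp only [this]
    simp
  rw [← e1, e2]

theorem IsHaar.eq_haar {P : Measure (Orth N)} (h : IsHaar P) : P = haar N := by
  rw [h.eq_map_inv (isHaar_haar N), ← (isHaar_haar N).eq_map_inv (isHaar_haar N)]

theorem haar_map_mul_right (O : Orth N) : (haar N).map (fun U => U * O) = haar N :=
  (isHaar_haar N).2 O

theorem haar_map_mul_left (O : Orth N) : (haar N).map (fun U => O * U) = haar N := by
  apply IsHaar.eq_haar
  refine ⟨Measure.isProbabilityMeasure_map (measurable_orth_mul_left O).aemeasurable, fun V => ?_⟩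
  rw [Measure.map_map (measurable_orth_mul_right V) (measurable_orth_mul_left O)]
  have h1 : ((fun U : Orth N => U * V) ∘ fun U => O * U) =
      (fun U => O * U) ∘ (fun U => U * V) := by
    funext U; simp [mul_assoc]
  rw [h1, ← Measure.map_map (measurable_orth_mul_left O) (measurable_orth_mul_right V),
    haar_map_mul_right]

open Classical in
/-- retraction of all matrices onto the orthogonal group -/
noncomputable def orthRetr (M : Fin N → Fin N → ℝ) : Orth N :=
  if h : Matrix.of M ∈ Matrix.orthogonalGroup (Fin N) ℝ then ⟨Matrix.of M, h⟩ else 1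

theorem measurableSet_isOrth :
    MeasurableSet {M : Fin N → Fin N → ℝ | Matrix.of M ∈ Matrix.orthogonalGroup (Fin N) ℝ} := by
  have : {M : Fin N → Fin N → ℝ | Matrix.of M ∈ Matrix.orthogonalGroup (Fin N) ℝ} =
      ⋂ a, ⋂ b, {M | ∑ i, M a i * M b i = if a = b then 1 else 0} := by
    ext M
    simp only [Set.mem_ofPred_eq, Set.mem_iInter, Matrix.mem_orthogonalGroup_iff]
    constructor
    · intro h a b
      have := congrFun (congrFun h a) b
      simpa [Matrix.mul_apply, Matrix.one_apply] using this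
    · intro h
      ext a b
      simpa [Matrix.mul_apply, Matrix.one_apply] using h a b
  rw [this]
  refine MeasurableSet.iInter fun a => MeasurableSet.iInter fun b => ?_
  exact measurableSet_eq_fun (by fun_prop) measurable_const

theorem measurable_orthRetr : Measurable (orthRetr (N := N)) := by
  classical
  refine measurable_orth fun i j => ?_
  have : (fun M : Fin N → Fin N → ℝ => (orthRetr M).1 i j) = fun M =>
      if Matrix.of M ∈ Matrix.orthogonalGroup (Fin N) ℝ then M i j else
        (1 : Matrix (Fin N) (Fin N) ℝ) i j := by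
    funext M
    unfold orthRetr
    split_ifs with h
    · rfl
    · rfl
  rw [this]
  exact Measurable.ite measurableSet_isOrth (by fun_prop) measurable_const

theorem orthRetr_of {M : Fin N → Fin N → ℝ} (h : Matrix.of M ∈ Matrix.orthogonalGroup (Fin N) ℝ) :
    (orthRetr M).1 = Matrix.of M := by
  unfold orthRetr
  rw [dif_pos h]

/-- the random matrices of the statements are Haar distributed -/
theorem exists_haar_lift {Ω : Type} [MeasurableSpace Ω] (P : Measure Ω) [IsProbabilityMeasure P]
    (Us : Ω → (Fin N → Fin N → ℝ)) (hmeas : Measurable Us)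
    (horth : ∀ᵐ ω ∂P, Matrix.of (Us ω) ∈ Matrix.orthogonalGroup (Fin N) ℝ)
    (hHaar : ∀ O : Matrix (Fin N) (Fin N) ℝ, O ∈ Matrix.orthogonalGroup (Fin N) ℝ →
      P.map (fun ω => fun i j => (Matrix.of (Us ω) * O) i j) = P.map Us) :
    ∃ V : Ω → Orth N, Measurable V ∧ (∀ᵐ ω ∂P, (V ω).1 = Matrix.of (Us ω)) ∧
      P.map V = haar N := by
  have hV : Measurable (fun ω => orthRetr (Us ω)) := measurable_orthRetr.comp hmeas
  refine ⟨fun ω => orthRetr (Us ω), hV, horth.mono fun ω h => orthRetr_of h, ?_⟩
  apply IsHaar.eq_haar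
  refine ⟨Measure.isProbabilityMeasure_map hV.aemeasurable, fun O => ?_⟩
  rw [Measure.map_map (measurable_orth_mul_right O) hV]
  have hW : Measurable (fun ω => fun i j => (Matrix.of (Us ω) * O.1) i j) := by
    refine measurable_pi_lambda _ fun i => measurable_pi_lambda _ fun j => ?_
    simp only [Matrix.mul_apply, Matrix.of_apply]
    exact Finset.measurable_sum _ fun k _ =>
      (((measurable_pi_apply k).comp ((measurable_pi_apply i).comp hmeas))).mul_const _
  have h1 : ((fun U : Orth N => U * O) ∘ fun ω => orthRetr (Us ω)) =ᵐ[P]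
      orthRetr ∘ (fun ω => fun i j => (Matrix.of (Us ω) * O.1) i j) := by
    filter_upwards [horth] with ω h
    apply Subtype.ext
    have h2 : Matrix.of (fun i j => (Matrix.of (Us ω) * O.1) i j) ∈
        Matrix.orthogonalGroup (Fin N) ℝ := Submonoid.mul_mem _ h O.2
    simp only [Function.comp_apply]
    rw [orthRetr_of h2, Submonoid.coe_mul, orthRetr_of h]
    rfl
  rw [Measure.map_congr h1, ← Measure.map_map measurable_orthRetr hW, hHaar O.1 O.2,
    Measure.map_map measurable_orthRetr hmeas]
  rfl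

theorem orth_inner (U : Orth N) (u w : Fin N → ℝ) :
    ∑ i, U.1.mulVec u i * U.1.mulVec w i = ∑ i, u i * w i := by
  simp only [Matrix.mulVec, dotProduct, Finset.sum_mul_sum]
  rw [Finset.sum_comm]
  refine Finset.sum_congr rfl fun a _ => ?_
  rw [Finset.sum_comm]
  have : ∀ b, ∑ i, U.1 i a * u a * (U.1 i b * w b) = (if a = b then 1 else 0) * (u a * w b) := by
    intro b
    rw [← orth_col U a b, Finset.sum_mul]
    exact Finset.sum_congr rfl fun i _ => by ring
  simp only [this]
  simp

theorem spinVec_sq (σ : Fin N → Bool) (r : Fin N) : spinVec σ r ^ 2 = 1 := by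
  unfold spinVec
  split_ifs <;> norm_num
theorem abs_spinVec (σ : Fin N → Bool) (r : Fin N) : |spinVec σ r| = 1 := by
  unfold spinVec
  split_ifs <;> norm_num
theorem sum_sv_sq (U : Orth N) (σ : Fin N → Bool) : ∑ i, sv U σ i ^ 2 = N := by
  have h := orth_inner U (spinVec σ) (spinVec σ)
  simp only [← sq, spinVec_sq] at h
  simpa [sv] using h
theorem abs_sv_le (U : Orth N) (σ : Fin N → Bool) (i : Fin N) : |sv U σ i| ≤ √N := by
  apply abs_le_sqrt
  rw [← sum_sv_sq U σ]
  exact Finset.single_le_sum (f := fun j => sv U σ j ^ 2) (fun j _ => sq_nonneg _)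
    (Finset.mem_univ i)
theorem sv_mul (O U : Orth N) (σ : Fin N → Bool) : sv (O * U) σ = O.1.mulVec (sv U σ) := by
  simp [sv, Matrix.mulVec_mulVec]
theorem measurable_sv (σ : Fin N → Bool) (i : Fin N) : Measurable (fun U => sv U σ i) := by
  simp only [sv, Matrix.mulVec, dotProduct]
  exact Finset.measurable_sum _ fun k _ => (measurable_entry i k).mul_const _

/-- permutation matrices -/
theorem exists_permO (ς : Equiv.Perm (Fin N)) :
    ∃ O : Orth N, ∀ x : Fin N → ℝ, O.1.mulVec x = fun i => x (ς i) := by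
  refine ⟨⟨Matrix.of fun i j => if ς i = j then 1 else 0, ?_⟩, fun x => ?_⟩
  · rw [Matrix.mem_orthogonalGroup_iff]
    ext a b
    simp only [Matrix.mul_apply, Matrix.transpose_apply, Matrix.of_apply, Matrix.one_apply]
    rw [Finset.sum_eq_single (ς a)]
    · by_cases h : a = b
      · simp [h]
      · have : ς b ≠ ς a := fun e => h (ς.injective e).symm
        simp [h, this]
    · intro j _ hj
      simp [Ne.symm hj]
    · simp
  · funext i
    simp [Matrix.mulVec, dotProduct]

theorem measurable_logZ (lam : Fin N → ℝ) (f : (Fin N → Bool) → ℝ) : Measurable (logZ lam f) := by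
  unfold logZ
  refine Measurable.log (Measurable.const_mul (Finset.measurable_sum _ fun σ _ => ?_) _)
  refine Measurable.exp (Measurable.add_const (Measurable.const_mul ?_ _) _)
  exact Finset.measurable_sum _ fun i _ => ((measurable_sv σ i).pow_const 2).const_mul _

theorem Z_pos (lam : Fin N → ℝ) (f : (Fin N → Bool) → ℝ) (U : Orth N) :
    0 < (1 / 2 : ℝ) ^ N *
      ∑ σ : Fin N → Bool, exp ((1 / 2) * (∑ i, lam i * sv U σ i ^ 2) + f σ) :=
  mul_pos (by positivity) (Finset.sum_pos (fun σ _ => exp_pos _) Finset.univ_nonempty)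

theorem logZ_le {lam lam' : Fin N → ℝ} {f f' : (Fin N → Bool) → ℝ} {δ D : ℝ}
    (h1 : ∀ i, lam i ≤ lam' i + δ) (h2 : ∀ σ, f σ ≤ f' σ + D) (U : Orth N) :
    logZ lam f U ≤ logZ lam' f' U + δ * N / 2 + D := by
  unfold logZ
  rw [add_assoc, ← log_exp (δ * N / 2 + D), ← log_mul (Z_pos lam' f' U).ne' (exp_pos _).ne']
  refine log_le_log (Z_pos lam f U) ?_
  rw [mul_assoc, Finset.sum_mul]
  refine mul_le_mul_of_nonneg_left (Finset.sum_le_sum fun σ _ => ?_) (by positivity)
  rw [← exp_add]
  apply exp_le_exp.2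
  have h3 : ∑ i, lam i * sv U σ i ^ 2 ≤ ∑ i, lam' i * sv U σ i ^ 2 + δ * N := by
    rw [← sum_sv_sq U σ, Finset.mul_sum, ← Finset.sum_add_distrib]
    refine Finset.sum_le_sum fun i _ => ?_
    rw [← add_mul]
    exact mul_le_mul_of_nonneg_right (h1 i) (sq_nonneg _)
  linarith [h2 σ]

theorem logZ_zero (U : Orth N) : logZ (fun _ => 0) (fun _ => 0) U = 0 := by
  unfold logZ
  simp

theorem abs_logZ_le {lam : Fin N → ℝ} {f : (Fin N → Bool) → ℝ} {Λ D : ℝ} (h1 : ∀ i, |lam i| ≤ Λ)
    (h2 : ∀ σ, |f σ| ≤ D) (U : Orth N) : |logZ lam f U| ≤ Λ * N / 2 + D := by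
  have a := logZ_le (lam := lam) (lam' := fun _ => 0) (f := f) (f' := fun _ => 0) (δ := Λ) (D := D)
    (fun i => by linarith [(abs_le.1 (h1 i)).2]) (fun σ => by linarith [(abs_le.1 (h2 σ)).2]) U
  have b := logZ_le (lam' := lam) (lam := fun _ => 0) (f' := f) (f := fun _ => 0) (δ := Λ) (D := D)
    (fun i => by linarith [(abs_le.1 (h1 i)).1]) (fun σ => by linarith [(abs_le.1 (h2 σ)).1]) U
  rw [logZ_zero] at a b
  rw [abs_le]
  constructor <;> linarith

theorem logZ_ge {lam : Fin N → ℝ} (f : (Fin N → Bool) → ℝ) {Λ : ℝ} (h1 : ∀ i, |lam i| ≤ Λ)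
    (σ : Fin N → Bool) (U : Orth N) : f σ - Λ * N / 2 - N * log 2 ≤ logZ lam f U := by
  unfold logZ
  rw [le_log_iff_exp_le (Z_pos lam f U)]
  have h3 : -(Λ * N) ≤ ∑ i, lam i * sv U σ i ^ 2 := by
    rw [← sum_sv_sq U σ, Finset.mul_sum, ← Finset.sum_neg_distrib]
    refine Finset.sum_le_sum fun i _ => ?_
    rw [← neg_mul]
    exact mul_le_mul_of_nonneg_right (abs_le.1 (h1 i)).1 (sq_nonneg _)
  have h4 : exp (f σ - Λ * N / 2 - N * log 2) = (1 / 2) ^ N * exp (f σ - Λ * N / 2) := by
    rw [exp_sub, ← log_pow, exp_log (by positivity), one_div, inv_pow]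
    ring
  rw [h4]
  refine mul_le_mul_of_nonneg_left ?_ (by positivity)
  refine le_trans ?_ (Finset.single_le_sum
    (f := fun σ => exp ((1 / 2) * (∑ i, lam i * sv U σ i ^ 2) + f σ))
    (fun _ _ => (exp_pos _).le) (Finset.mem_univ σ))
  apply exp_le_exp.2
  linarith

theorem map_logZ_perm_row (ς : Equiv.Perm (Fin N)) (lam : Fin N → ℝ) (f : (Fin N → Bool) → ℝ) :
    (haar N).map (logZ (fun i => lam (ς i)) f) = (haar N).map (logZ lam f) := by
  obtain ⟨O, hO⟩ := exists_permO ς.symm
  have : logZ (fun i => lam (ς i)) f = logZ lam f ∘ fun U => O * U := by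
    funext U
    simp only [Function.comp_apply, logZ, sv_mul, hO]
    congr 2
    refine Finset.sum_congr rfl fun σ _ => ?_
    congr 3
    rw [← Equiv.sum_comp ς (fun i => lam i * sv U σ (ς.symm i) ^ 2)]
    simp
  rw [this, ← Measure.map_map (measurable_logZ lam f) (measurable_orth_mul_left O),
    haar_map_mul_left]

theorem map_logZ_perm_site (ς : Equiv.Perm (Fin N)) (lam : Fin N → ℝ) (f : (Fin N → Bool) → ℝ) :
    (haar N).map (logZ lam (fun σ => f (fun r => σ (ς r)))) = (haar N).map (logZ lam f) := by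
  obtain ⟨O, hO⟩ := exists_permO ς.symm
  have : logZ lam (fun σ => f (fun r => σ (ς r))) = logZ lam f ∘ fun U => U * O := by
    funext U
    simp only [Function.comp_apply, logZ]
    congr 2
    refine Finset.sum_equiv (Equiv.arrowCongr ς.symm (Equiv.refl Bool)) (by simp) fun σ _ => ?_
    have e : (Equiv.arrowCongr ς.symm (Equiv.refl Bool)) σ = fun r => σ (ς r) := by
      funext r; simp [Equiv.arrowCongr_apply]
    rw [e]
    have e2 : sv (U * O) (fun r => σ (ς r)) = sv U σ := by
      unfold sv
      rw [Submonoid.coe_mul, ← Matrix.mulVec_mulVec, hO]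
      congr 1
      funext i
      simp [spinVec]
    rw [e2]
  rw [this, ← Measure.map_map (measurable_logZ lam f) (measurable_orth_mul_right O),
    haar_map_mul_right]

theorem pressureFieldN_eq (eig c : Fin N → ℝ) (U : Orth N) :
    pressureFieldN eig U.1 c = logZ eig (fun σ => ∑ r, c r * spinVec σ r) U / N := by
  unfold pressureFieldN logZ sv
  ring

theorem exists_abs_logZ_le (lam : Fin N → ℝ) (f : (Fin N → Bool) → ℝ) :
    ∃ C : ℝ, ∀ U, |logZ lam f U| ≤ C :=
  ⟨_, abs_logZ_le (Λ := ∑ i, |lam i|) (D := ∑ σ, |f σ|)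
    (fun i => Finset.single_le_sum (f := fun i => |lam i|) (fun _ _ => abs_nonneg _)
      (Finset.mem_univ i))
    (fun σ => Finset.single_le_sum (f := fun σ => |f σ|) (fun _ _ => abs_nonneg _)
      (Finset.mem_univ σ))⟩

theorem integrable_exp_logZ (m : ℝ) (lam : Fin N → ℝ) (f : (Fin N → Bool) → ℝ) :
    Integrable (fun U => exp (m * logZ lam f U)) (haar N) := by
  obtain ⟨C, hC⟩ := exists_abs_logZ_le lam f
  refine Integrable.of_bound (C := exp (|m| * C))
    (((measurable_logZ lam f).const_mul m).exp.aestronglyMeasurable) (ae_of_all _ fun U => ?_)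
  rw [Real.norm_eq_abs, abs_of_pos (exp_pos _)]
  apply exp_le_exp.2
  calc m * logZ lam f U ≤ |m * logZ lam f U| := le_abs_self _
    _ = |m| * |logZ lam f U| := abs_mul _ _
    _ ≤ |m| * C := mul_le_mul_of_nonneg_left (hC U) (abs_nonneg _)

theorem integral_exp_logZ_pos (m : ℝ) (lam : Fin N → ℝ) (f : (Fin N → Bool) → ℝ) :
    0 < ∫ U, exp (m * logZ lam f U) ∂(haar N) :=
  integral_exp_pos (integrable_exp_logZ m lam f)

theorem exp_mul_fm {m : ℝ} (hm : 0 < m) (lam : Fin N → ℝ) (f : (Fin N → Bool) → ℝ) :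
    exp (m * fm m lam f) = ∫ U, exp (m * logZ lam f U) ∂(haar N) := by
  unfold fm
  rw [← mul_assoc, mul_inv_cancel₀ hm.ne', one_mul, exp_log (integral_exp_logZ_pos m lam f)]

theorem fm_le {m : ℝ} (hm : 0 < m) {lam lam' : Fin N → ℝ} {f f' : (Fin N → Bool) → ℝ} {δ D : ℝ}
    (h1 : ∀ i, lam i ≤ lam' i + δ) (h2 : ∀ σ, f σ ≤ f' σ + D) :
    fm m lam f ≤ fm m lam' f' + δ * N / 2 + D := by
  refine le_of_mul_le_mul_left ?_ hm
  rw [← exp_le_exp, add_assoc, mul_add, exp_add, exp_mul_fm hm, exp_mul_fm hm,
    ← integral_mul_const]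
  refine integral_mono (integrable_exp_logZ m lam f) ((integrable_exp_logZ m lam' f').mul_const _)
    fun U => ?_
  simp only
  rw [← exp_add, exp_le_exp, ← mul_add]
  refine mul_le_mul_of_nonneg_left ?_ hm.le
  linarith [logZ_le h1 h2 U]

theorem fm_le_of_le {m : ℝ} (hm : 0 < m) {lam : Fin N → ℝ} {f : (Fin N → Bool) → ℝ} {a : ℝ}
    (h : ∀ U, logZ lam f U ≤ a) : fm m lam f ≤ a := by
  refine le_of_mul_le_mul_left ?_ hm
  rw [← exp_le_exp, exp_mul_fm hm]
  calc ∫ U, exp (m * logZ lam f U) ∂(haar N) ≤ ∫ U, exp (m * a) ∂(haar N) :=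
        integral_mono (integrable_exp_logZ m lam f) (integrable_const _) fun U =>
          exp_le_exp.2 (mul_le_mul_of_nonneg_left (h U) hm.le)
    _ = exp (m * a) := by simp

theorem le_fm_of_le {m : ℝ} (hm : 0 < m) {lam : Fin N → ℝ} {f : (Fin N → Bool) → ℝ} {a : ℝ}
    (h : ∀ U, a ≤ logZ lam f U) : a ≤ fm m lam f := by
  refine le_of_mul_le_mul_left ?_ hm
  rw [← exp_le_exp, exp_mul_fm hm]
  calc exp (m * a) = ∫ U, exp (m * a) ∂(haar N) := by simp
    _ ≤ ∫ U, exp (m * logZ lam f U) ∂(haar N) :=
        integral_mono (integrable_const _) (integrable_exp_logZ m lam f) fun U =>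
          exp_le_exp.2 (mul_le_mul_of_nonneg_left (h U) hm.le)

/-- Markov's inequality -/
theorem tail_le_of_fm {m : ℝ} (hm : 0 < m) (lam : Fin N → ℝ) (f : (Fin N → Bool) → ℝ) (a : ℝ) :
    (haar N).real {U | a ≤ logZ lam f U} ≤ exp (m * (fm m lam f - a)) := by
  have h := mul_meas_ge_le_integral_of_nonneg (μ := haar N)
    (ae_of_all _ fun U => (exp_pos (m * logZ lam f U)).le) (integrable_exp_logZ m lam f)
    (exp (m * a))
  have e : {U | exp (m * a) ≤ exp (m * logZ lam f U)} = {U | a ≤ logZ lam f U} := by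
    ext U
    simp only [Set.mem_ofPred_eq, exp_le_exp]
    exact mul_le_mul_iff_right₀ hm
  rw [e, ← exp_mul_fm hm] at h
  rw [mul_sub, exp_sub, le_div_iff₀ (exp_pos _), mul_comm]
  exact h

/-- reverse Markov inequality for a bounded variable -/
theorem tail_ge_of_fm {m : ℝ} (hm : 0 < m) {lam : Fin N → ℝ} {f : (Fin N → Bool) → ℝ} {a C : ℝ}
    (hC : ∀ U, logZ lam f U ≤ C) :
    exp (m * fm m lam f) ≤ exp (m * a) + exp (m * C) * (haar N).real {U | a ≤ logZ lam f U} := by
  have hs : MeasurableSet {U | a ≤ logZ lam f U} :=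
    measurableSet_le measurable_const (measurable_logZ lam f)
  rw [exp_mul_fm hm]
  calc ∫ U, exp (m * logZ lam f U) ∂(haar N)
      ≤ ∫ U, (exp (m * a) + {U | a ≤ logZ lam f U}.indicator (fun _ => exp (m * C)) U)
          ∂(haar N) := by
        refine integral_mono (integrable_exp_logZ m lam f)
          ((integrable_const _).add ((integrable_const _).indicator hs)) fun U => ?_
        simp only
        by_cases hU : a ≤ logZ lam f U
        · rw [Set.indicator_of_mem (by exact hU)]
          have := exp_le_exp.2 (mul_le_mul_of_nonneg_left (hC U) hm.le)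
          linarith [exp_pos (m * a)]
        · rw [Set.indicator_of_notMem (by exact hU), add_zero]
          exact exp_le_exp.2 (mul_le_mul_of_nonneg_left (not_le.1 hU).le hm.le)
    _ = exp (m * a) + exp (m * C) * (haar N).real {U | a ≤ logZ lam f U} := by
        rw [integral_add (integrable_const _) ((integrable_const _).indicator hs),
          integral_indicator hs]
        simp [mul_comm]

end Crest.Agent.R164
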