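import Crest.Agent.R164.H1

/-! # Moments of a column of a Haar matrix

For `w i = U i c`: by left invariance (permutations, sign changes, the rotation by `45°` in two
coordinates) `E w_i² = 1/N`, `E w_i⁴ = 3 E w_i² w_j²`, and `Σ w_i² = 1` gives
`E w_i⁴ = 3/(N(N+2))`, `E w_i² w_j² = 1/(N(N+2))`.  So the variance below is
`2 j (N - j)/(N² (N+2))` with `j = |J|`. -/

set_option autoImplicit false
set_option linter.unusedVariables false
set_option linter.unusedSectionVars false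

open MeasureTheory ProbabilityTheory Real Crest.ProbabilityR.InvariantGlass
open scoped ENNReal

namespace Crest.Agent.R164

section aux
variable {N : ℕ}

/-- Householder reflections -/
theorem h2_house (u : Fin N → ℝ) {t : ℝ} (ht : t * (u ⬝ᵥ u) = 2) :
    ∃ O : Orth N, ∀ (x : Fin N → ℝ) (k : Fin N), O.1.mulVec x k = x k - t * (u ⬝ᵥ x) * u k := by
  refine ⟨⟨1 - t • Matrix.vecMulVec u u, ?_⟩, fun x k => ?_⟩
  · rw [Matrix.mem_orthogonalGroup_iff, Matrix.transpose_sub, Matrix.transpose_one,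
      Matrix.transpose_smul, Matrix.transpose_vecMulVec, sub_mul, one_mul, mul_sub, mul_one,
      smul_mul_smul_comm, Matrix.vecMulVec_mul_vecMulVec, Matrix.vecMulVec_smul, smul_smul,
      mul_assoc, ht, mul_two, add_smul]
    abel
  · simp only [Matrix.sub_mulVec, Matrix.one_mulVec, Matrix.smul_mulVec, Matrix.vecMulVec_mulVec,
      Pi.sub_apply, Pi.smul_apply, smul_eq_mul, MulOpposite.smul_eq_mul_unop, MulOpposite.unop_op]
    ring

/-- the reflection by `45°` in two coordinates -/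
theorem h2_rot {i j : Fin N} (hij : i ≠ j) : ∃ (O : Orth N) (s : ℝ), s ^ 2 = 1 / 2 ∧
    ∀ x : Fin N → ℝ, O.1.mulVec x i = s * (x i + x j) ∧ O.1.mulVec x j = s * (x i - x j) := by
  obtain ⟨s, hs0, hs⟩ : ∃ s : ℝ, 0 ≤ s ∧ s ^ 2 = 1 / 2 :=
    ⟨√(1 / 2), Real.sqrt_nonneg _, Real.sq_sqrt (by norm_num)⟩
  have hs1 : 1 - s ≠ 0 := by
    intro h
    have : s = 1 := by linarith
    rw [this] at hs
    norm_num at hs
  have hdot : ∀ x : Fin N → ℝ, (Pi.single i (1 - s) + Pi.single j (-s) : Fin N → ℝ) ⬝ᵥ x =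
      (1 - s) * x i - s * x j := fun x => by
    rw [add_dotProduct, single_dotProduct, single_dotProduct]
    ring
  have hi : (Pi.single i (1 - s) + Pi.single j (-s) : Fin N → ℝ) i = 1 - s := by
    simp [hij]
  have hj : (Pi.single i (1 - s) + Pi.single j (-s) : Fin N → ℝ) j = -s := by
    simp [hij.symm]
  obtain ⟨O, hO⟩ := h2_house (Pi.single i (1 - s) + Pi.single j (-s)) (t := (1 - s)⁻¹) (by
    rw [hdot, hi, hj]
    field_simp
    linear_combination 2 * hs)
  refine ⟨O, s, hs, fun x => ⟨?_, ?_⟩⟩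
  · rw [hO, hdot, hi]
    field_simp
    ring
  · rw [hO, hdot, hj]
    field_simp
    linear_combination (-2 * x j) * hs

theorem h2_meas (c : Fin N) : Measurable fun (U : Orth N) (i : Fin N) => U.1 i c :=
  measurable_pi_lambda _ fun i => measurable_entry i c

theorem h2_sum (U : Orth N) (c : Fin N) : ∑ i, U.1 i c ^ 2 = 1 := by
  have := orth_col U c c
  rw [if_pos rfl] at this
  rw [← this]
  exact Finset.sum_congr rfl fun i _ => sq _

theorem h2_int (c : Fin N) {g : (Fin N → ℝ) → ℝ} (hg : Continuous g) :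
    Integrable (fun U : Orth N => g fun i => U.1 i c) (haar N) := by
  obtain ⟨C, hC⟩ := (isCompact_closedBall (0 : Fin N → ℝ) 1).exists_bound_of_continuousOn
    hg.continuousOn
  refine Integrable.of_bound (hg.measurable.comp (h2_meas c)).aestronglyMeasurable C
    (.of_forall fun U => hC _ ?_)
  rw [mem_closedBall_zero_iff, pi_norm_le_iff_of_nonneg zero_le_one]
  intro i
  have h1 : U.1 i c ^ 2 ≤ 1 := by
    rw [← h2_sum U c]
    exact Finset.single_le_sum (f := fun i => U.1 i c ^ 2) (fun i _ => sq_nonneg _)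
      (Finset.mem_univ i)
  rw [Real.norm_eq_abs]
  exact (sq_le_one_iff_abs_le_one _).1 h1

theorem h2_inv (c : Fin N) (O : Orth N) {g : (Fin N → ℝ) → ℝ} (hg : Continuous g) :
    ∫ U, g (O.1.mulVec fun i => U.1 i c) ∂(haar N) = ∫ U, g (fun i => U.1 i c) ∂(haar N) := by
  have h := integral_map (μ := haar N) (measurable_orth_mul_left O).aemeasurable
    (f := fun U : Orth N => g fun i => U.1 i c)
    (hg.measurable.comp (h2_meas c)).aestronglyMeasurable
  rw [haar_map_mul_left O] at h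
  exact h.symm

theorem h2_swap (c i j : Fin N) (n : ℕ) :
    ∫ U, U.1 i c ^ n ∂(haar N) = ∫ U, U.1 j c ^ n ∂(haar N) := by
  obtain ⟨O, hO⟩ := exists_permO (Equiv.swap i j)
  have := h2_inv c O (g := fun x => x j ^ n) (by fun_prop)
  simpa only [hO, Equiv.swap_apply_right] using this

theorem h2_mixed (c i j : Fin N) : ∫ U, U.1 i c ^ 2 * U.1 j c ^ 2 ∂(haar N) =
    (∫ U, U.1 c c ^ 4 ∂(haar N)) / 3 +
      if i = j then 2 * (∫ U, U.1 c c ^ 4 ∂(haar N)) / 3 else 0 := by
  split_ifs with hij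
  · subst hij
    simp only [← pow_add]
    rw [h2_swap c i c]
    ring
  obtain ⟨O, s, hs, hO⟩ := h2_rot hij
  have h1 := h2_inv c O (g := fun x => x i ^ 4 + x j ^ 4) (by fun_prop)
  have i1 : Integrable (fun U : Orth N => U.1 i c ^ 4) (haar N) :=
    h2_int c (g := fun x => x i ^ 4) (by fun_prop)
  have i2 : Integrable (fun U : Orth N => U.1 j c ^ 4) (haar N) :=
    h2_int c (g := fun x => x j ^ 4) (by fun_prop)
  have i3 : Integrable (fun U : Orth N => U.1 i c ^ 2 * U.1 j c ^ 2) (haar N) :=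
    h2_int c (g := fun x => x i ^ 2 * x j ^ 2) (by fun_prop)
  have i4 : Integrable (fun U : Orth N => U.1 i c ^ 4 + U.1 j c ^ 4) (haar N) := i1.add i2
  have e : ∀ U : Orth N, (O.1.mulVec fun i => U.1 i c) i ^ 4 + (O.1.mulVec fun i => U.1 i c) j ^ 4 =
      1 / 2 * (U.1 i c ^ 4 + U.1 j c ^ 4) + 3 * (U.1 i c ^ 2 * U.1 j c ^ 2) := fun U => by
    rw [(hO _).1, (hO _).2, mul_pow, mul_pow, show s ^ 4 = (s ^ 2) ^ 2 by ring, hs]
    ring
  simp only [e] at h1
  rw [integral_add (i4.const_mul _) (i3.const_mul _), integral_const_mul,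
    integral_const_mul, integral_add i1 i2, h2_swap c i c, h2_swap c j c] at h1
  linarith

theorem h2_sq (c : Fin N) (J : Finset (Fin N)) : ∫ U, (∑ i ∈ J, U.1 i c ^ 2) ^ 2 ∂(haar N) =
    (J.card : ℝ) * (J.card + 2) * (∫ U, U.1 c c ^ 4 ∂(haar N)) / 3 := by
  have i3 : ∀ i j, Integrable (fun U : Orth N => U.1 i c ^ 2 * U.1 j c ^ 2) (haar N) := fun i j =>
    h2_int c (g := fun x => x i ^ 2 * x j ^ 2) (by fun_prop)
  simp only [sq (∑ i ∈ J, _), Finset.sum_mul_sum]
  rw [integral_finsetSum _ fun i _ => integrable_finsetSum _ fun j _ => i3 i j]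
  have : ∀ i ∈ J, ∫ U, ∑ j ∈ J, U.1 i c ^ 2 * U.1 j c ^ 2 ∂(haar N) =
      (J.card + 2) * (∫ U, U.1 c c ^ 4 ∂(haar N)) / 3 := fun i hi => by
    rw [integral_finsetSum _ fun j _ => i3 i j]
    simp only [h2_mixed, Finset.sum_add_distrib, Finset.sum_const, nsmul_eq_mul, Finset.sum_ite_eq,
      if_pos hi]
    ring
  rw [Finset.sum_congr rfl this, Finset.sum_const, nsmul_eq_mul]
  ring

theorem h2_lin (c : Fin N) (J : Finset (Fin N)) : ∫ U, ∑ i ∈ J, U.1 i c ^ 2 ∂(haar N) =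
    (J.card : ℝ) * ∫ U, U.1 c c ^ 2 ∂(haar N) := by
  rw [integral_finsetSum _ fun i _ => h2_int c (g := fun x => x i ^ 2) (by fun_prop),
    Finset.sum_congr rfl fun i _ => h2_swap c i c 2, Finset.sum_const, nsmul_eq_mul]

end aux

theorem haar_col_var {N : ℕ} (J : Finset (Fin N)) (c : Fin N) :
    ∫ U, (∑ i ∈ J, U.1 i c ^ 2 - (J.card : ℝ) / N) ^ 2 ∂(haar N) ≤ 2 / N := by
  have hN : (0 : ℝ) < N := by exact_mod_cast c.pos
  have h1 := h2_sq c Finset.univ
  have h2 := h2_lin c Finset.univ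
  simp only [h2_sum, one_pow, integral_const, probReal_univ, smul_eq_mul, mul_one,
    Finset.card_univ, Fintype.card_fin] at h1 h2
  have i1 : Integrable (fun U : Orth N => (∑ i ∈ J, U.1 i c ^ 2) ^ 2) (haar N) :=
    h2_int c (g := fun x => (∑ i ∈ J, x i ^ 2) ^ 2) (by fun_prop)
  have i2 : Integrable (fun U : Orth N => ∑ i ∈ J, U.1 i c ^ 2) (haar N) :=
    h2_int c (g := fun x => ∑ i ∈ J, x i ^ 2) (by fun_prop)
  have i3 : Integrable (fun U : Orth N => (∑ i ∈ J, U.1 i c ^ 2) ^ 2 -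
      2 * ((J.card : ℝ) / N) * (∑ i ∈ J, U.1 i c ^ 2)) (haar N) := i1.sub (i2.const_mul _)
  have e : ∀ U : Orth N, (∑ i ∈ J, U.1 i c ^ 2 - (J.card : ℝ) / N) ^ 2 =
      (∑ i ∈ J, U.1 i c ^ 2) ^ 2 - 2 * ((J.card : ℝ) / N) * (∑ i ∈ J, U.1 i c ^ 2) +
        ((J.card : ℝ) / N) ^ 2 := fun U => by ring
  simp only [e]
  rw [integral_add i3 (integrable_const _),
    integral_sub i1 (i2.const_mul _), integral_const_mul, h2_sq, h2_lin, integral_const,
    probReal_univ, smul_eq_mul, one_mul]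
  have h3 : ∫ U, U.1 c c ^ 4 ∂(haar N) = 3 / (N * (N + 2)) := by
    rw [eq_div_iff (by positivity)]
    linarith
  have h4 : ∫ U, U.1 c c ^ 2 ∂(haar N) = 1 / N := by
    rw [eq_div_iff hN.ne']
    linarith
  have hj0 : (0 : ℝ) ≤ J.card := Nat.cast_nonneg _
  have hjN : (J.card : ℝ) ≤ N := by exact_mod_cast card_finset_fin_le J
  rw [h3, h4]
  generalize (J.card : ℝ) = j at *
  have e2 : j * (j + 2) * (3 / (N * (N + 2))) / 3 - 2 * (j / N) * (j * (1 / N)) + (j / N) ^ 2 =
      2 / N * (j * (N - j) / (N * (N + 2))) := by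
    field_simp
    ring
  rw [e2]
  refine mul_le_of_le_one_right (by positivity) ((div_le_one (by positivity)).2 ?_)
  nlinarith

end Crest.Agent.R164
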