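import Crest.Agent.R164.H3
import Crest.Agent.R164.S1

/-! # Frames and the diagonalisation of the cavity quadratic form -/

set_option autoImplicit false
set_option linter.unusedVariables false
set_option linter.unusedSectionVars false

open MeasureTheory ProbabilityTheory Real Crest.ProbabilityR.InvariantGlass
open scoped ENNReal

namespace Crest.Agent.R164

theorem h4_onT_mul {M : ℕ} {T : Finset (Fin M)} {O O' : Orth M} (h : OnT T O) (h' : OnT T O') :
    OnT T (O * O') := fun i j hij => by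
  change (O.1 * O'.1) i j = _
  rw [Matrix.mul_apply]
  rcases hij with hi | hj
  · simp only [fun l => h i l (Or.inl hi), ite_mul, one_mul, zero_mul, Finset.sum_ite_eq,
      Finset.mem_univ, if_true, h' i j (Or.inl hi)]
  · simp only [fun l => h' l j (Or.inr hj), mul_ite, mul_one, mul_zero, Finset.sum_ite_eq',
      Finset.mem_univ, if_true, h i j (Or.inr hj)]

theorem h4_rot {M : ℕ} (O O' : Orth M) (y : Fin M → ℝ) (r : Fin M) :
    ∑ i, (y i - (O * O').1 r i) ^ 2 = ∑ i, (O'.1.mulVec y i - O.1 r i) ^ 2 := by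
  have h : O'.1.mulVec (y - (O * O').1 r) = O'.1.mulVec y - O.1 r := by
    rw [Matrix.mulVec_sub]
    congr 1
    change O'.1.mulVec (Matrix.vecMul (O.1 r) O'.1) = _
    rw [Matrix.mulVec_vecMul, (Matrix.mem_orthogonalGroup_iff _ _).1 O'.2, Matrix.one_mulVec]
  have := orth_inner O' (y - (O * O').1 r) (y - (O * O').1 r)
  rw [h] at this
  simpa only [sq, Pi.sub_apply] using this.symm

theorem h4_upd {M : ℕ} (x y : Fin M → ℝ) (r : Fin M) :
    ∑ i, Function.update x r 0 i * Function.update y r 0 i = ∑ i, x i * y i - x r * y r := by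
  rw [← Finset.add_sum_erase _ _ (Finset.mem_univ r), ← Finset.add_sum_erase _ (fun i => x i * y i)
    (Finset.mem_univ r), Function.update_self, zero_mul, zero_add, add_sub_cancel_left]
  exact Finset.sum_congr rfl fun i hi => by
    rw [Function.update_of_ne (Finset.ne_of_mem_erase hi),
      Function.update_of_ne (Finset.ne_of_mem_erase hi)]

theorem h4_frame (k : ℕ) : ∃ C : ℝ, 0 ≤ C ∧ ∀ (M : ℕ) (T : Finset (Fin M)) (sp : Fin k → Fin M),
    Function.Injective sp → (∀ a, sp a ∈ T) → ∀ Y : Fin k → Fin M → ℝ,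
    (∀ a i, i ∉ T → Y a i = 0) → ∃ O : Orth M, OnT T O ∧ ∑ a, ∑ i, (Y a i - O.1 (sp a) i) ^ 2 ≤
        C * ∑ a, ∑ b, (∑ i, Y a i * Y b i - if a = b then 1 else 0) ^ 2 := by
  have h1 : ∀ {M : ℕ} (T : Finset (Fin M)), OnT T 1 := fun T i j _ => Matrix.one_apply
  induction k with
  | zero => exact ⟨0, le_rfl, fun M T sp _ _ Y _ => ⟨1, h1 T, by simp⟩⟩
  | succ k ih =>
  obtain ⟨C, hC, ih⟩ := ih
  refine ⟨4 * C + 20 * k + 21, by positivity, fun M T sp hsp hT Y hY => ?_⟩
  set E := ∑ a, ∑ b, (∑ i, Y a i * Y b i - if a = b then 1 else 0) ^ 2 with hE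
  have hE0 : 0 ≤ E := by positivity
  rcases le_total (1 / 4) E with h | h
  · refine ⟨1, h1 T, ?_⟩
    have a1 : ∑ a, ∑ i, (Y a i - (1 : Orth M).1 (sp a) i) ^ 2 ≤
        ∑ a, (∑ b, (∑ i, Y a i * Y b i - if a = b then 1 else 0) ^ 2 + 5) := by
      refine Finset.sum_le_sum fun a _ => ?_
      have b1 := Finset.single_le_sum (f := fun b => (∑ i, Y a i * Y b i -
        if a = b then (1 : ℝ) else 0) ^ 2) (fun _ _ => sq_nonneg _) (Finset.mem_univ a)
      have b2 : ∑ i, (Y a i - (1 : Orth M).1 (sp a) i) ^ 2 ≤ ∑ i, (2 * (Y a i * Y a i) +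
          2 * ((1 : Orth M).1 (sp a) i * (1 : Orth M).1 (sp a) i)) :=
        Finset.sum_le_sum fun i _ => by nlinarith [sq_nonneg (Y a i + (1 : Orth M).1 (sp a) i)]
      rw [Finset.sum_add_distrib, ← Finset.mul_sum, ← Finset.mul_sum, orth_row] at b2
      simp only [if_true] at b1 b2
      nlinarith [sq_nonneg (∑ i, Y a i * Y a i - 2)]
    rw [Finset.sum_add_distrib, Finset.sum_const, Finset.card_univ, Fintype.card_fin, nsmul_eq_mul,
      Nat.cast_succ] at a1
    nlinarith [mul_nonneg hC hE0, mul_nonneg (Nat.cast_nonneg (α := ℝ) k) (sub_nonneg.2 h)]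
  obtain ⟨G0, G1, hG⟩ : ∃ G0 G1, (G0 = ∑ b : Fin k, (∑ i, Y 0 i * Y b.succ i) ^ 2 ∧
      G1 = ∑ a : Fin k, ∑ b : Fin k, (∑ i, Y a.succ i * Y b.succ i - if a = b then 1 else 0) ^ 2) :=
    ⟨_, _, rfl, rfl⟩
  have g0 : 0 ≤ G0 := by rw [hG.1]; positivity
  have g1 : 0 ≤ G1 := by rw [hG.2]; positivity
  have g2 : (∑ i, Y 0 i * Y 0 i - 1) ^ 2 + G0 + G1 ≤ E := by
    rw [hE, Fin.sum_univ_succ, Fin.sum_univ_succ, hG.1, hG.2]
    simp only [if_true, (Fin.succ_ne_zero _).symm, if_false, sub_zero]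
    refine add_le_add le_rfl (Finset.sum_le_sum fun a _ => ?_)
    rw [Fin.sum_univ_succ]
    simp only [Fin.succ_inj]
    exact le_add_of_nonneg_left (sq_nonneg _)
  have g3 : 1 / 2 ≤ ∑ i, Y 0 i * Y 0 i := by nlinarith
  obtain ⟨n, hn0, hn⟩ : ∃ n : ℝ, 0 < n ∧ n * n = ∑ i, Y 0 i * Y 0 i :=
    ⟨_, Real.sqrt_pos.2 (by linarith), Real.mul_self_sqrt (by linarith)⟩
  obtain ⟨O₁, o1, o2⟩ := exists_rowO T (hT 0) (fun i => Y 0 i / n) (by
    rw [Finset.sum_subset T.subset_univ fun i _ hi => by simp [hY 0 i hi]]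
    simp only [sq, div_mul_div_comm]
    rw [← Finset.sum_div, ← hn, div_self (by positivity)])
  have o3 : ∀ i, O₁.1 (sp 0) i = Y 0 i / n := fun i => by
    by_cases hi : i ∈ T
    · exact o2 i hi
    · rw [o1 _ _ (Or.inr hi), if_neg fun e : sp 0 = i => hi (e ▸ hT 0), hY 0 i hi, zero_div]
  have o4 : ∀ a, O₁.1.mulVec (Y a) (sp 0) = (∑ i, Y 0 i * Y a i) / n := fun a => by
    simp only [Matrix.mulVec, dotProduct, o3, div_mul_eq_mul_div, Finset.sum_div]
  obtain ⟨O₂, o5, o6⟩ := ih M (T.erase (sp 0)) (fun a => sp a.succ)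
    (hsp.comp (Fin.succ_injective k))
    (fun a => Finset.mem_erase.2 ⟨hsp.ne (Fin.succ_ne_zero a), hT _⟩)
    (fun a => Function.update (O₁.1.mulVec (Y a.succ)) (sp 0) 0) fun a i hi => by
      by_cases e : i = sp 0
      · rw [e, Function.update_self]
      · have hi' : i ∉ T := fun h => hi (Finset.mem_erase.2 ⟨e, h⟩)
        simp only [Function.update_of_ne e, Matrix.mulVec, dotProduct,
          fun l => o1 i l (Or.inl hi'), ite_mul, one_mul, zero_mul, Finset.sum_ite_eq,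
          Finset.mem_univ, if_true, hY _ i hi']
  have o7 : ∀ i, O₂.1 (sp 0) i = if sp 0 = i then 1 else 0 := fun i => o5 _ _ (Or.inl (by simp))
  have o8 : ∀ a : Fin k, O₂.1 (sp a.succ) (sp 0) = 0 := fun a => by
    rw [o5 _ _ (Or.inr (by simp)), if_neg (hsp.ne (Fin.succ_ne_zero a))]
  refine ⟨O₂ * O₁, h4_onT_mul (fun i j hij => o5 i j (hij.imp (fun h h' => h
    (Finset.mem_of_mem_erase h')) fun h h' => h (Finset.mem_of_mem_erase h'))) o1, ?_⟩
  obtain ⟨P, hP⟩ : ∃ P, P = ∑ a : Fin k, O₁.1.mulVec (Y a.succ) (sp 0) ^ 2 := ⟨_, rfl⟩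
  have p0 : 0 ≤ P := by rw [hP]; positivity
  have p1 : P ≤ 2 * G0 := by
    simp only [hP, o4, div_pow]
    rw [← Finset.sum_div, ← hG.1, div_le_iff₀ (by positivity)]
    nlinarith
  have r0 : ∑ i, (Y 0 i - (O₂ * O₁).1 (sp 0) i) ^ 2 = (n - 1) ^ 2 := by
    have : ∀ i, Y 0 i - (O₂ * O₁).1 (sp 0) i = (n - 1) / n * Y 0 i := fun i => by
      change _ - (O₂.1 * O₁.1) _ _ = _
      simp only [Matrix.mul_apply, o7, ite_mul, one_mul, zero_mul, Finset.sum_ite_eq,
        Finset.mem_univ, if_true, o3]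
      field_simp
    simp only [this, mul_pow]
    rw [← Finset.mul_sum]
    simp only [sq (Y 0 _), ← hn]
    field_simp
  have r1 : ∀ a : Fin k, ∑ i, (Y a.succ i - (O₂ * O₁).1 (sp a.succ) i) ^ 2 =
      O₁.1.mulVec (Y a.succ) (sp 0) ^ 2 +
      ∑ i, (Function.update (O₁.1.mulVec (Y a.succ)) (sp 0) 0 i - O₂.1 (sp a.succ) i) ^ 2 := fun a => by
    rw [h4_rot, ← Finset.add_sum_erase _ _ (Finset.mem_univ (sp 0)),
      ← Finset.add_sum_erase _ _ (Finset.mem_univ (sp 0)), Function.update_self, o8, sub_zero,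
      sub_zero, sq (0 : ℝ), mul_zero, zero_add]
    exact congrArg _ (Finset.sum_congr rfl fun i hi => by
      rw [Function.update_of_ne (Finset.ne_of_mem_erase hi)])
  have r2 : ∑ a : Fin k, ∑ b : Fin k, (∑ i, Function.update (O₁.1.mulVec (Y a.succ)) (sp 0) 0 i *
      Function.update (O₁.1.mulVec (Y b.succ)) (sp 0) 0 i - if a = b then 1 else 0) ^ 2 ≤
      2 * G1 + 2 * (P * P) := by
    rw [hG.2, hP, Finset.sum_mul_sum]
    simp only [Finset.mul_sum, ← Finset.sum_add_distrib]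
    refine Finset.sum_le_sum fun a _ => Finset.sum_le_sum fun b _ => ?_
    rw [h4_upd, orth_inner]
    nlinarith [sq_nonneg ((∑ i, Y a.succ i * Y b.succ i - if a = b then 1 else 0) +
      O₁.1.mulVec (Y a.succ) (sp 0) * O₁.1.mulVec (Y b.succ) (sp 0))]
  have r3 : (n - 1) ^ 2 ≤ (∑ i, Y 0 i * Y 0 i - 1) ^ 2 := by
    rw [← hn]
    nlinarith [mul_nonneg (sq_nonneg (n - 1)) (show 0 ≤ n * n + 2 * n by positivity)]
  have r4 : 2 * G1 + 2 * (P * P) ≤ 4 * E := by
    nlinarith [sq_nonneg (∑ i, Y 0 i * Y 0 i - 1), mul_le_mul_of_nonneg_left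
      (show P ≤ 1 / 2 by nlinarith [sq_nonneg (∑ i, Y 0 i * Y 0 i - 1)]) p0]
  rw [Fin.sum_univ_succ, r0]
  simp only [r1, Finset.sum_add_distrib, ← hP]
  nlinarith [mul_le_mul_of_nonneg_left (r2.trans r4) hC,
    mul_nonneg (Nat.cast_nonneg (α := ℝ) k) hE0, sq_nonneg (∑ i, Y 0 i * Y 0 i - 1)]

/-- An almost orthonormal family of `k` rows is close to `k` rows of an orthogonal matrix acting on
`T` (polar decomposition `Y = (Y Yᵀ)^{1/2} F`, `|√x - 1| ≤ |x - 1|`, extension of an orthonormal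
family to a basis; when the right side is `≥ 1/4` take `O = 1`; Gram–Schmidt also works). -/
theorem exists_frame (k : ℕ) : ∃ C : ℝ, 0 ≤ C ∧ ∀ (M : ℕ) (T : Finset (Fin M)) (sp : Fin k → Fin M),
    Function.Injective sp → (∀ a, sp a ∈ T) → ∀ Y : Fin k → Fin M → ℝ, ∃ O : Orth M, OnT T O ∧
      ∑ a, ∑ i ∈ T, (Y a i - O.1 (sp a) i) ^ 2 ≤
        C * ∑ a, ∑ b, (∑ i ∈ T, Y a i * Y b i - if a = b then 1 else 0) ^ 2 := by
  obtain ⟨C, hC, h⟩ := h4_frame k
  refine ⟨C, hC, fun M T sp hsp hT Y => ?_⟩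
  obtain ⟨O, h1, h2⟩ := h M T sp hsp hT (fun a i => if i ∈ T then Y a i else 0)
    fun a i hi => if_neg hi
  refine ⟨O, h1, le_trans (Finset.sum_le_sum fun a _ => ?_) (h2.trans (le_of_eq ?_))⟩
  · refine le_trans (le_of_eq (Finset.sum_congr rfl fun i hi => by rw [if_pos hi]))
      (Finset.sum_le_sum_of_subset_of_nonneg T.subset_univ fun _ _ _ => sq_nonneg _)
  · simp only [ite_mul, mul_ite, zero_mul, mul_zero, ← ite_and, and_self, Finset.sum_ite_mem,
      Finset.univ_inter]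

theorem h4_diag {k : ℕ} (κ w : Fin (k + 1) → ℝ) (hw : ∑ b, w b ^ 2 = 1) (j : Fin (k + 1)) :
    ∃ (O : Orth (k + 1)) (κ' : Fin k → ℝ), (∀ b, O.1 b j = w b) ∧ ∀ a a',
      ∑ b, κ b * (O.1 b (j.succAbove a) * O.1 b (j.succAbove a')) = if a = a' then κ' a else 0 := by
  obtain ⟨O₀, -, h0⟩ := exists_rowO Finset.univ (Finset.mem_univ j) w hw
  set B : Matrix (Fin (k + 1)) (Fin k) ℝ := Matrix.of fun b a => O₀.1 (j.succAbove a) b with hB
  have hA : (B.conjTranspose * Matrix.diagonal κ * B).IsHermitian :=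
    Matrix.isHermitian_conjTranspose_mul_mul _ (Matrix.isHermitian_diagonal κ)
  obtain ⟨E, e1, e2⟩ := exists_embO j.succAbove Fin.succAbove_right_injective hA.eigenvectorUnitary
  have e3 : ∀ b i, (O₀⁻¹ * E).1 b i = O₀.1 j b * (Pi.single i 1 : Fin (k + 1) → ℝ) j +
      ∑ a, B b a * ∑ a', hA.eigenvectorUnitary.1 a a' *
        (Pi.single i 1 : Fin (k + 1) → ℝ) (j.succAbove a') := fun b i => by
    change (star O₀.1 * E.1) b i = _
    rw [Matrix.mul_apply, Fin.sum_univ_succAbove _ j, ← e2 (Pi.single i 1) j fun a => Fin.succAbove_ne j a]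
    simp only [← e1, Matrix.mulVec_single_one, Matrix.star_apply, star_trivial, Matrix.col_apply,
      hB, Matrix.of_apply]
  refine ⟨O₀⁻¹ * E, hA.eigenvalues, fun b => ?_, fun a a' => ?_⟩
  · simp [e3, h0, Fin.succAbove_ne]
  have e4 : ∀ b a, (O₀⁻¹ * E).1 b (j.succAbove a) = (B * hA.eigenvectorUnitary.1) b a :=
    fun b a => by simp [e3, Pi.single_apply, Matrix.mul_apply, Fin.ne_succAbove]
  have e5 := congrFun (congrFun hA.conjStarAlgAut_star_eigenvectorUnitary a) a'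
  have e6 : ∀ U : Matrix (Fin k) (Fin k) ℝ, star U * (B.conjTranspose * Matrix.diagonal κ * B) * U =
      (B * U).conjTranspose * (Matrix.diagonal κ * (B * U)) := fun U => by
    simp only [Matrix.star_eq_conjTranspose, Matrix.conjTranspose_mul, Matrix.mul_assoc]
  rw [Unitary.conjStarAlgAut_star_apply, Matrix.diagonal_apply, e6, Matrix.mul_apply] at e5
  simp only [Matrix.diagonal_mul, Matrix.conjTranspose_apply, star_trivial, ← e4] at e5
  exact (Finset.sum_congr rfl fun b _ => by ring).trans e5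

theorem h4_schur {k : ℕ} (O : Orth (k + 1)) (j : Fin (k + 1)) {d : Fin (k + 1) → ℝ} {d' : Fin k → ℝ}
    (hd : ∀ b, d b ≠ 0) (hd' : ∀ a, d' a ≠ 0) (h : ∀ a a',
      ∑ b, d b * (O.1 b (j.succAbove a) * O.1 b (j.succAbove a')) = if a = a' then d' a else 0) :
    ∏ a, d' a = (∏ b, d b) * ∑ b, O.1 b j ^ 2 / d b ∧
    (∑ b, O.1 b j ^ 2 / d b) * (∑ b, d b * O.1 b j ^ 2 -
      ∑ a, (∑ b, d b * (O.1 b (j.succAbove a) * O.1 b j)) ^ 2 / d' a) = 1 := by
  have o1 := (Matrix.mem_orthogonalGroup_iff _ _).1 O.2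
  have o2 := (Matrix.mem_orthogonalGroup_iff' _ _).1 O.2
  set M := O.1.transpose * Matrix.diagonal d * O.1 with hM
  set ξ := O.1.transpose.mulVec fun b => O.1 b j / d b with hξ
  have m1 : ∀ i i', M i i' = ∑ b, d b * (O.1 b i * O.1 b i') := fun i i' => by
    rw [hM, Matrix.mul_apply]
    exact Finset.sum_congr rfl fun b _ => by
      rw [Matrix.mul_diagonal, Matrix.transpose_apply]
      ring
  have m2 : M.mulVec ξ = Pi.single j 1 := by
    rw [hM, hξ, Matrix.mulVec_mulVec, Matrix.mul_assoc, o1, Matrix.mul_one, ← Matrix.mulVec_mulVec,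
      ← Matrix.one_mulVec (Pi.single j 1), ← o2, ← Matrix.mulVec_mulVec]
    congr 1
    funext b
    rw [Matrix.mulVec_diagonal, mul_div_cancel₀ _ (hd b), Matrix.mulVec_single_one,
      Matrix.col_apply]
  have m3 : ξ j = ∑ b, O.1 b j ^ 2 / d b := by
    simp only [hξ, Matrix.mulVec, dotProduct, Matrix.transpose_apply, sq, mul_div_assoc]
  rw [← m3]
  constructor
  · have a1 := congrFun (congrArg M.adjugate.mulVec m2) j
    rw [Matrix.mulVec_mulVec, Matrix.adjugate_mul, Matrix.smul_mulVec, Matrix.one_mulVec,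
      Matrix.mulVec_single_one, Matrix.col_apply, Matrix.adjugate_fin_succ_eq_det_submatrix,
      Even.neg_one_pow ⟨_, rfl⟩, one_mul, show M.submatrix j.succAbove j.succAbove =
        Matrix.diagonal d' from Matrix.ext fun a a' => by
          rw [Matrix.submatrix_apply, m1, h, Matrix.diagonal_apply],
      Matrix.det_diagonal, hM, Matrix.det_mul, Matrix.det_mul, mul_right_comm, ← Matrix.det_mul, o2,
      Matrix.det_one, one_mul, Matrix.det_diagonal] at a1
    exact a1.symm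
  have a2 : ∀ i, M i j * ξ j + ∑ a, M i (j.succAbove a) * ξ (j.succAbove a) =
      (Pi.single j 1 : Fin (k + 1) → ℝ) i := fun i =>
    (Fin.sum_univ_succAbove (fun l => M i l * ξ l) j).symm.trans (congrFun m2 i)
  have a3 : ∀ a, ξ (j.succAbove a) = -(M (j.succAbove a) j * ξ j) / d' a := fun a => by
    have := a2 (j.succAbove a)
    simp only [m1 (j.succAbove a) (j.succAbove _), h, ite_mul, zero_mul, Finset.sum_ite_eq,
      Finset.mem_univ, if_true, Pi.single_eq_of_ne (Fin.succAbove_ne j a)] at this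
    rw [eq_div_iff (hd' a)]
    linarith
  have a4 := a2 j
  rw [Pi.single_eq_same] at a4
  rw [← a4, mul_sub, mul_comm, Finset.mul_sum, sub_eq_add_neg, ← Finset.sum_neg_distrib, m1]
  simp only [sq (O.1 _ j)]
  refine congrArg _ (Finset.sum_congr rfl fun a _ => ?_)
  rw [a3, m1, m1]
  simp only [mul_comm (O.1 _ j)]
  ring

/-- Complete the constant unit vector `w` (column `j`) to an orthogonal matrix whose other columns
diagonalise the compression of `diag κ` to `w^⊥` (spectral theorem).  With `K~ = Oᵀ diag κ O` an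
arrow matrix with entries `κ', c, k0 = av κ`, the Schur complement formulas for `1 + β K~` give
`av (1/(1+κβ)) = 1/(1 + β k0 - β² Σ c²/(1+κ'β))` and
`Π (1+κ'β) = Π (1+κβ) · av (1/(1+κβ))`. -/
theorem exists_diag (S : Spec) (j : Fin (S.k + 1)) :
    ∃ (O : Orth (S.k + 1)) (κ' c : Fin S.k → ℝ), (∀ b, O.1 b j = √(((S.k : ℝ) + 1)⁻¹)) ∧
      (∀ a, 0 ≤ κ' a ∧ κ' a ≤ 2 * S.Λ) ∧
      (∀ (y : Fin S.k → ℝ) (ε : Bool),
        ∑ b, S.κ b * (∑ a, O.1 b (j.succAbove a) * y a + O.1 b j * sg ε) ^ 2 =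
          ∑ a, κ' a * y a ^ 2 + 2 * sg ε * ∑ a, c a * y a + (S.lam S.top - S.Rh 0)) ∧
      (∀ β, 0 ≤ β → ∑ a, c a ^ 2 * β / (1 + κ' a * β) = S.Rh β - S.Rh 0) ∧
      (∀ β, 0 ≤ β → ∑ a, log (1 + κ' a * β) =
        ∑ b, log (1 + S.κ b * β) + log (S.av fun b => 1 / (1 + S.κ b * β))) := by
  have hn := S.s1_n_pos
  have hw : √(((S.k : ℝ) + 1)⁻¹) ^ 2 = ((S.k : ℝ) + 1)⁻¹ := Real.sq_sqrt (by positivity)
  obtain ⟨O, κ', h1, h2⟩ := h4_diag S.κ (fun _ => √(((S.k : ℝ) + 1)⁻¹)) (by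
    rw [hw, Finset.sum_const, Finset.card_univ, Fintype.card_fin, nsmul_eq_mul, Nat.cast_succ,
      mul_inv_cancel₀ hn.ne']) j
  have h3 : ∀ a, 0 ≤ κ' a ∧ κ' a ≤ 2 * S.Λ := fun a => by
    have a1 := h2 a a
    have a2 := orth_col O (j.succAbove a) (j.succAbove a)
    rw [if_pos rfl] at a1 a2
    rw [← a1, ← mul_one (2 * S.Λ), ← a2, Finset.mul_sum]
    exact ⟨Finset.sum_nonneg fun b _ => mul_nonneg (S.κ_nonneg b) (mul_self_nonneg _),
      Finset.sum_le_sum fun b _ => mul_le_mul_of_nonneg_right (S.κ_le b) (mul_self_nonneg _)⟩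
  have h4 : ∀ f : Fin (S.k + 1) → ℝ, ∑ b, f b * O.1 b j ^ 2 = S.av f := fun f => by
    simp only [h1, hw, Spec.av, div_eq_mul_inv, Finset.sum_mul]
  have h5 : S.lam S.top - S.Rh 0 = S.av S.κ := by
    simp only [Spec.Rh, mul_zero, add_zero, div_one, S.s1_av_const, sub_sub_cancel]
  have h6 := fun (β : ℝ) (hβ : 0 ≤ β) => h4_schur O j (d := fun b => 1 + S.κ b * β)
    (d' := fun a => 1 + κ' a * β) (fun b => (S.s1_den hβ b).ne')
    (fun a => (add_pos_of_pos_of_nonneg one_pos (mul_nonneg (h3 a).1 hβ)).ne') fun a a' => by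
      simp only [add_mul, one_mul, mul_right_comm _ β, Finset.sum_add_distrib, ← Finset.sum_mul,
        orth_col, h2, Fin.succAbove_right_inj]
      split_ifs <;> simp
  simp only [div_eq_inv_mul (O.1 _ j ^ 2), h4, ← one_div] at h6
  refine ⟨O, κ', fun a => ∑ b, S.κ b * (O.1 b (j.succAbove a) * O.1 b j), h1, h3,
    fun y ε => ?_, fun β hβ => ?_, fun β hβ => ?_⟩
  · have a1 : sg ε ^ 2 = 1 := by cases ε <;> simp [sg]
    have a2 : ∑ b, S.κ b * (∑ a, O.1 b (j.succAbove a) * y a) ^ 2 = ∑ a, κ' a * y a ^ 2 := by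
      have : ∀ a a', ∑ b, S.κ b * (O.1 b (j.succAbove a) * y a * (O.1 b (j.succAbove a') * y a')) =
          if a = a' then κ' a * y a ^ 2 else 0 := fun a a' => by
        rw [show ∑ b, S.κ b * (O.1 b (j.succAbove a) * y a * (O.1 b (j.succAbove a') * y a')) =
          (∑ b, S.κ b * (O.1 b (j.succAbove a) * O.1 b (j.succAbove a'))) * (y a * y a') by
            rw [Finset.sum_mul]
            exact Finset.sum_congr rfl fun b _ => by ring, h2]
        split_ifs with h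
        · rw [← h, sq]
        · rw [zero_mul]
      simp only [sq (∑ _, _), Finset.sum_mul_sum]
      simp only [Finset.mul_sum]
      rw [Finset.sum_comm]
      refine Finset.sum_congr rfl fun a _ => ?_
      rw [Finset.sum_comm]
      simp only [this, Finset.sum_ite_eq, Finset.mem_univ, if_true]
    have a3 : ∑ a, (∑ b, S.κ b * (O.1 b (j.succAbove a) * O.1 b j)) * y a =
        ∑ b, S.κ b * O.1 b j * ∑ a, O.1 b (j.succAbove a) * y a := by
      simp only [Finset.sum_mul, Finset.mul_sum]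
      rw [Finset.sum_comm]
      exact Finset.sum_congr rfl fun b _ => Finset.sum_congr rfl fun a _ => by ring
    rw [h5, ← h4, ← a2, a3, Finset.mul_sum, ← Finset.sum_add_distrib, ← Finset.sum_add_distrib]
    exact Finset.sum_congr rfl fun b _ => by linear_combination S.κ b * O.1 b j ^ 2 * a1
  · rcases hβ.eq_or_lt with rfl | hβ'
    · simp
    have a1 := (h6 β hβ).2
    have a2 : ∀ a, ∑ b, (1 + S.κ b * β) * (O.1 b (j.succAbove a) * O.1 b j) =
        (∑ b, S.κ b * (O.1 b (j.succAbove a) * O.1 b j)) * β := fun a => by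
      simp only [add_mul, one_mul, mul_right_comm _ β, Finset.sum_add_distrib, ← Finset.sum_mul,
        orth_col, if_neg (Fin.succAbove_ne j a), zero_add]
    have a3 := S.s1_av_lin 1 β (fun _ => 1) S.κ
    have a4 := S.s1_A_eq hβ 0
    have a5 := S.s1_A_pos 1 hβ
    simp only [one_mul, mul_comm β, S.s1_av_const] at a3
    simp only [zero_add, pow_one, pow_zero, div_one, S.s1_av_const] at a4 a5
    simp only [a2, a3] at a1
    have a6 : ∑ a, ((∑ b, S.κ b * (O.1 b (j.succAbove a) * O.1 b j)) * β) ^ 2 / (1 + κ' a * β) =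
        β * ∑ a, (∑ b, S.κ b * (O.1 b (j.succAbove a) * O.1 b j)) ^ 2 * β / (1 + κ' a * β) := by
      rw [Finset.mul_sum]
      exact Finset.sum_congr rfl fun a _ => by ring
    rw [a6] at a1
    rw [show S.Rh 0 = S.lam S.top - S.av S.κ by linarith, Spec.Rh]
    refine mul_left_cancel₀ (mul_pos hβ' a5).ne' ?_
    linear_combination a4 - a1 + β * mul_div_cancel₀ (S.av fun b => S.κ b / (1 + S.κ b * β)) a5.ne'
  · have a5 := S.s1_A_pos 1 hβ
    simp only [pow_one] at a5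
    rw [← log_prod fun a _ => (add_pos_of_pos_of_nonneg one_pos (mul_nonneg (h3 a).1 hβ)).ne',
      (h6 β hβ).1, log_mul (Finset.prod_ne_zero_iff.2 fun b _ => (S.s1_den hβ b).ne') a5.ne',
      log_prod fun b _ => (S.s1_den hβ b).ne']

end Crest.Agent.R164
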