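import Crest.Agent.R164.S5

/-! # Transport distance and labellings -/

set_option autoImplicit false
set_option linter.unusedVariables false
set_option linter.unusedSectionVars false

open MeasureTheory ProbabilityTheory Real Crest.ProbabilityR.InvariantGlass
open scoped ENNReal

namespace Crest.Agent.R164

theorem j1_mono {N : ℕ} {a b : Fin N → ℝ} (ha : Monotone a) (hb : Monotone b) : ∃ φ : ℝ → ℝ,
    (∀ x y, |φ x - φ y| ≤ |x - y|) ∧ φ 0 = 0 ∧ ∀ i, |a i - b i| = φ (a i) - φ (b i) := by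
  classical
  let s : ℝ → ℝ := fun t => if t ∈ ⋃ i, Set.Ioc (b i) (a i) then 1 else -1
  have hs : ∀ t, ‖s t‖ ≤ 1 := fun t => by simp only [s]; split_ifs <;> simp
  have hm : Measurable s :=
    Measurable.ite (MeasurableSet.iUnion fun i => measurableSet_Ioc) measurable_const measurable_const
  have hi : ∀ x y, IntervalIntegrable s volume x y := fun x y =>
    (intervalIntegrable_const (c := (1 : ℝ))).mono_fun' hm.aestronglyMeasurable
      (Filter.Eventually.of_forall hs)
  refine ⟨fun x => ∫ t in (0 : ℝ)..x, s t, fun x y => ?_, by simp, fun i => ?_⟩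
  · rw [intervalIntegral.integral_interval_sub_left (hi _ _) (hi _ _)]
    simpa using intervalIntegral.norm_integral_le_of_norm_le_const (a := y) (b := x)
      fun t _ => hs t
  rw [intervalIntegral.integral_interval_sub_left (hi _ _) (hi _ _)]
  rcases le_total (b i) (a i) with h | h
  · rw [intervalIntegral.integral_congr_ae (g := fun _ => 1) (Filter.Eventually.of_forall
      fun t ht => if_pos (Set.mem_iUnion.2 ⟨i, by rwa [Set.uIoc_of_le h] at ht⟩)),
      abs_of_nonneg (sub_nonneg.2 h)]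
    simp
  · rw [intervalIntegral.integral_congr_ae (g := fun _ => -1) (Filter.Eventually.of_forall
      fun t ht => if_neg ?_), abs_of_nonpos (sub_nonpos.2 h)]
    · simp
    · rw [Set.uIoc_of_ge h] at ht
      rintro ⟨_, ⟨j, rfl⟩, h1, h2⟩
      rcases le_total i j with hij | hij
      · linarith [hb hij, ht.2]
      · linarith [ha hij, ht.1]

theorem j1_perm {N : ℕ} (a b : Fin N → ℝ) : ∃ (ς : Equiv.Perm (Fin N)) (φ : ℝ → ℝ),
    (∀ x y, |φ x - φ y| ≤ |x - y|) ∧ φ 0 = 0 ∧
      ∑ i, |a i - b (ς i)| = ∑ i, φ (a i) - ∑ i, φ (b i) := by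
  obtain ⟨φ, h1, h2, h3⟩ := j1_mono (Tuple.monotone_sort a) (Tuple.monotone_sort b)
  refine ⟨(Tuple.sort a).symm.trans (Tuple.sort b), φ, h1, h2, ?_⟩
  rw [← Equiv.sum_comp (Tuple.sort a), ← Equiv.sum_comp (Tuple.sort a) fun i => φ (a i),
    ← Equiv.sum_comp (Tuple.sort b) fun i => φ (b i), ← Finset.sum_sub_distrib]
  exact Finset.sum_congr rfl fun i _ => by simpa using h3 i

/-- sort both vectors; `φ x = ∫_0^x sign (#{a > t} - #{b > t}) dt`, or an induction on `N` -/
theorem exists_perm_lip {N : ℕ} (a b : Fin N → ℝ) : ∃ (ς : Equiv.Perm (Fin N)) (φ : ℝ → ℝ),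
    (∀ x y, |φ x - φ y| ≤ |x - y|) ∧ ∑ i, |a i - b (ς i)| = ∑ i, φ (a i) - ∑ i, φ (b i) := by
  obtain ⟨ς, φ, h1, -, h2⟩ := j1_perm a b
  exact ⟨ς, φ, h1, h2⟩

theorem lip_le_transportCost {μ ν : Measure ℝ} [IsProbabilityMeasure μ] [IsProbabilityMeasure ν]
    (h1 : Integrable (fun x : ℝ => x) μ) (h2 : Integrable (fun x : ℝ => x) ν) {φ : ℝ → ℝ}
    (hφ : ∀ x y, |φ x - φ y| ≤ |x - y|) :
    ENNReal.ofReal |∫ x, φ x ∂μ - ∫ x, φ x ∂ν| ≤ transportCost μ ν := by
  have hc : Continuous φ := (LipschitzWith.of_dist_le_mul (K := 1) fun x y => by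
    simpa [Real.dist_eq] using hφ x y).continuous
  have hi : ∀ {μ : Measure ℝ} [IsProbabilityMeasure μ], Integrable (fun x : ℝ => x) μ →
      Integrable φ μ := fun h =>
    (h.norm.add (integrable_const |φ 0|)).mono' hc.aestronglyMeasurable
      (Filter.Eventually.of_forall fun x => by
        have := hφ x 0
        rw [sub_zero] at this
        exact (abs_sub_abs_le_abs_sub _ _ |>.trans this |> sub_le_iff_le_add.1))
  refine le_iInf₂ ?_
  rintro π' ⟨rfl, rfl⟩
  rw [integral_map measurable_fst.aemeasurable hc.aestronglyMeasurable,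
    integral_map measurable_snd.aemeasurable hc.aestronglyMeasurable,
    ← integral_sub (f := fun z : ℝ × ℝ => φ z.1) (g := fun z : ℝ × ℝ => φ z.2)
      ((hi h1).comp_measurable measurable_fst) ((hi h2).comp_measurable measurable_snd),
    ← Real.enorm_eq_ofReal_abs]
  refine (enorm_integral_le_lintegral_enorm _).trans (lintegral_mono fun z => ?_)
  simp only [Real.enorm_eq_ofReal_abs]
  exact ENNReal.ofReal_le_ofReal (hφ _ _)

theorem j1_lab {N J : ℕ} (n : Fin J → ℕ) (h : ∑ j, n j = N) :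
    ∃ lab : Fin N → Fin J, ∀ j, (Finset.univ.filter fun r => lab r = j).card = n j := by
  let e : (Σ j, Fin (n j)) ≃ Fin N := Fintype.equivFinOfCardEq (by simp [h])
  refine ⟨fun r => (e.symm r).1, fun j => ?_⟩
  rw [Finset.card_equiv e.symm (t := Finset.univ.filter fun q => q.1 = j) (by simp),
    Finset.card_filter, Fintype.sum_sigma]
  simp [apply_ite, Finset.sum_ite_eq']

/-- integer class sizes within `1` of `γ_j N` -/
theorem exists_lab {J : ℕ} (γ : Fin J → ℝ) (h0 : ∀ j, 0 ≤ γ j) (h1 : ∑ j, γ j = 1) (N : ℕ) :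
    ∃ lab : Fin N → Fin J, ∀ j,
      |((Finset.univ.filter fun r => lab r = j).card : ℝ) - γ j * N| ≤ 1 := by
  let g : ℕ → ℝ := fun i => if h : i < J then γ ⟨i, h⟩ * N else 0
  have hg : ∀ i, 0 ≤ g i := fun i => by
    simp only [g]
    split_ifs
    exacts [mul_nonneg (h0 _) (Nat.cast_nonneg _), le_rfl]
  let T : ℕ → ℝ := fun m => ∑ i ∈ Finset.range m, g i
  have hT0 : ∀ m, 0 ≤ T m := fun m => Finset.sum_nonneg fun i _ => hg i
  have hT : Monotone fun m => ⌊T m⌋₊ := fun a b h => Nat.floor_mono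
    (Finset.sum_le_sum_of_subset_of_nonneg (Finset.range_mono h) fun i _ _ => hg i)
  have hJ : T J = N := by
    simp only [T, g, Finset.sum_range, Fin.is_lt, dite_true, Fin.eta, ← Finset.sum_mul, h1, one_mul]
  obtain ⟨lab, hl⟩ := j1_lab (N := N) (fun j : Fin J => ⌊T (j + 1)⌋₊ - ⌊T j⌋₊) (by
    rw [← Finset.sum_range fun j => ⌊T (j + 1)⌋₊ - ⌊T j⌋₊, Finset.sum_range_tsub hT, hJ]
    simp [T])
  refine ⟨lab, fun j => ?_⟩
  have e : T (j + 1) = T j + γ j * N := by simp only [T, g, Finset.sum_range_succ, j.2, dite_true]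
  rw [hl, Nat.cast_sub (hT (Nat.le_succ _)), abs_le]
  constructor <;> linarith [Nat.floor_le (hT0 j), Nat.floor_le (hT0 (j + 1)),
    Nat.lt_floor_add_one (T j), Nat.lt_floor_add_one (T (j + 1))]

theorem j1_fib {N J : ℕ} {M : Type*} [AddCommMonoid M] (lab : Fin N → Fin J) (F : Fin J → M) :
    ∑ r, F (lab r) = ∑ j, (Finset.univ.filter fun r => lab r = j).card • F j := by
  rw [← Finset.sum_fiberwise' Finset.univ lab]
  simp

theorem j1_dirac {J : ℕ} (x w : Fin J → ℝ) (h0 : ∀ j, 0 ≤ w j) (h1 : ∑ j, w j = 1) :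
    IsProbabilityMeasure (∑ j, ENNReal.ofReal (w j) • Measure.dirac (x j) : Measure ℝ) ∧
    ∀ f : ℝ → ℝ, Integrable f (∑ j, ENNReal.ofReal (w j) • Measure.dirac (x j)) ∧
      ∫ y, f y ∂(∑ j, ENNReal.ofReal (w j) • Measure.dirac (x j)) = ∑ j, w j * f (x j) := by
  refine ⟨⟨?_⟩, fun f => ?_⟩
  · simp [← ENNReal.ofReal_sum_of_nonneg fun j _ => h0 j, h1]
  · have hi : ∀ j ∈ Finset.univ, Integrable f (ENNReal.ofReal (w j) • Measure.dirac (x j)) :=
      fun j _ => (integrable_dirac (by simp)).smul_measure ENNReal.ofReal_ne_top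
    refine ⟨integrable_finset_sum_measure.2 hi, ?_⟩
    rw [integral_finset_sum_measure hi]
    simp [h0]

theorem j1_emp {N : ℕ} (hN : 0 < N) (c : Fin N → ℝ) :
    empiricalLaw c = ∑ r, ENNReal.ofReal (N : ℝ)⁻¹ • Measure.dirac (c r) := by
  rw [empiricalLaw, Finset.smul_sum, ENNReal.ofReal_inv_of_pos (by exact_mod_cast hN),
    ENNReal.ofReal_natCast]

/-- take `lab0` from `exists_lab`, match `c N` with `cv ∘ lab0` by `exists_perm_lip`, and bound
the cost through `ν` with `lip_le_transportCost` (normalise `φ 0 = 0` for the rounding error) -/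
theorem exists_labels {ν : Measure ℝ} [IsProbabilityMeasure ν] (hν : Integrable (fun x : ℝ => x) ν)
    {c : (N : ℕ) → Fin N → ℝ}
    (hW : Filter.Tendsto (fun N : ℕ => transportCost (empiricalLaw (c N)) ν) Filter.atTop (nhds 0))
    {J : ℕ} (cv : Fin J → ℝ) (γ : Fin J → ℚ) (h0 : ∀ j, 0 < γ j) (h1 : ∑ j, γ j = 1) {d : ℝ}
    (hd : transportCost (∑ j : Fin J, ENNReal.ofReal ((γ j : ℚ) : ℝ) • Measure.dirac (cv j)) ν <
      ENNReal.ofReal d) :
    ∃ lab : (N : ℕ) → Fin N → Fin J, (∀ j, Filter.Tendsto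
      (fun N : ℕ => ((Finset.univ.filter fun r : Fin N => lab N r = j).card : ℝ) / (N : ℝ))
      Filter.atTop (nhds ((γ j : ℚ) : ℝ))) ∧
      ∀ᶠ N : ℕ in Filter.atTop, ∑ r, |c N r - cv (lab N r)| ≤ d * N := by
  have g0 : ∀ j, (0 : ℝ) ≤ γ j := fun j => by exact_mod_cast (h0 j).le
  have g1 : ∑ j, (γ j : ℝ) = 1 := by exact_mod_cast h1
  choose lab hlab using exists_lab (fun j => (γ j : ℝ)) g0 g1
  choose ς φ hφ hφ0 hς using fun N => j1_perm (c N) fun r => cv (lab N r)
  refine ⟨fun N r => lab N (ς N r), fun j => ?_, ?_⟩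
  · refine tendsto_iff_norm_sub_tendsto_zero.2 (squeeze_zero' (.of_forall fun _ => norm_nonneg _)
      ?_ tendsto_one_div_atTop_nhds_zero_nat)
    filter_upwards [Filter.eventually_gt_atTop 0] with N hN
    have hN' : (0 : ℝ) < N := by exact_mod_cast hN
    rw [Finset.card_equiv (ς N) (t := Finset.univ.filter fun r => lab N r = j) (by simp),
      div_sub' hN'.ne', norm_div, Real.norm_natCast, mul_comm]
    exact div_le_div_of_nonneg_right (hlab N j) hN'.le
  obtain ⟨d', hd0, hd1, hd2⟩ := ENNReal.lt_iff_exists_real_btwn.1 hd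
  have hd3 : 0 < (d - d') / 2 := half_pos (sub_pos.2 (ENNReal.ofReal_lt_ofReal_iff'.1 hd2).1)
  obtain ⟨p1, p2⟩ := j1_dirac cv _ g0 g1
  filter_upwards [Filter.eventually_gt_atTop 0,
    hW.eventually_le_const (ENNReal.ofReal_pos.2 hd3),
    tendsto_natCast_atTop_atTop.eventually_ge_atTop ((∑ j, |cv j|) / ((d - d') / 2))]
    with N hN a1 a2
  have hN' : (0 : ℝ) < N := by exact_mod_cast hN
  obtain ⟨q1, q2⟩ := j1_dirac (c N) (fun _ => (N : ℝ)⁻¹) (fun _ => by positivity)
    (by simp [hN'.ne'])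
  rw [j1_emp hN] at a1
  have b1 := (ENNReal.ofReal_le_ofReal_iff hd3.le).1
    ((lip_le_transportCost (q2 _).1 hν (hφ N)).trans a1)
  have b2 := (ENNReal.ofReal_le_ofReal_iff hd0).1
    ((lip_le_transportCost (p2 _).1 hν (hφ N)).trans hd1.le)
  rw [(q2 _).2, ← Finset.mul_sum] at b1
  rw [(p2 _).2] at b2
  rw [div_le_iff₀ hd3] at a2
  have b3 : N * ∑ j, γ j * φ N (cv j) - ∑ r, φ N (cv (lab N r)) ≤ ∑ j, |cv j| := by
    rw [j1_fib (lab N) fun j => φ N (cv j), Finset.mul_sum, ← Finset.sum_sub_distrib]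
    refine Finset.sum_le_sum fun j _ => ?_
    rw [nsmul_eq_mul, ← mul_assoc, ← sub_mul]
    refine (le_abs_self _).trans ?_
    rw [abs_mul, abs_sub_comm, mul_comm (N : ℝ)]
    exact (mul_le_of_le_one_left (abs_nonneg _) (hlab N j)).trans
      (by simpa [hφ0] using hφ N (cv j) 0)
  have b4 := mul_le_mul_of_nonneg_left (abs_le.1 b1).2 hN'.le
  have b5 := mul_le_mul_of_nonneg_left (abs_le.1 b2).1 hN'.le
  rw [mul_sub, mul_inv_cancel_left₀ hN'.ne'] at b4
  rw [hς]
  linarith

/-- the empirical law of `c N` (`N ≥ 1` large) is a finite alphabet -/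
theorem exists_alphabet {ν : Measure ℝ} {c : (N : ℕ) → Fin N → ℝ}
    (hW : Filter.Tendsto (fun N : ℕ => transportCost (empiricalLaw (c N)) ν) Filter.atTop (nhds 0))
    {d : ℝ} (hd : 0 < d) : ∃ (J : ℕ) (cv : Fin J → ℝ) (γ : Fin J → ℚ), Function.Injective cv ∧
      (∀ j, 0 < γ j) ∧ ∑ j, γ j = 1 ∧
      transportCost (∑ j : Fin J, ENNReal.ofReal ((γ j : ℚ) : ℝ) • Measure.dirac (cv j)) ν <
        ENNReal.ofReal d := by
  classical
  obtain ⟨N, hN, h⟩ := ((Filter.eventually_gt_atTop 0).and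
    (hW.eventually_lt_const (ENNReal.ofReal_pos.2 hd))).exists
  let s := Finset.univ.image (c N)
  let lab : Fin N → Fin s.card := fun r => s.equivFin ⟨c N r, by simp [s]⟩
  have hN' : (0 : ℚ) < N := by exact_mod_cast hN
  refine ⟨s.card, fun j => s.equivFin.symm j,
    fun j => (Finset.univ.filter fun r => lab r = j).card / N,
    Subtype.val_injective.comp s.equivFin.symm.injective, fun j => div_pos ?_ hN', ?_, ?_⟩
  · obtain ⟨r, -, hr⟩ := Finset.mem_image.1 (s.equivFin.symm j).2
    exact Nat.cast_pos.2 (Finset.card_pos.2 ⟨r, by simp [lab, hr]⟩)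
  · rw [← Finset.sum_div, div_eq_one_iff_eq hN'.ne']
    simpa using (j1_fib lab fun _ => (1 : ℚ)).symm
  · convert h using 2
    have := j1_fib lab fun j => Measure.dirac (s.equivFin.symm j : ℝ)
    simp only [lab, Equiv.symm_apply_apply] at this
    rw [empiricalLaw, this, Finset.smul_sum]
    refine Finset.sum_congr rfl fun j _ => ?_
    push_cast
    rw [ENNReal.ofReal_div_of_pos (by exact_mod_cast hN), ENNReal.ofReal_natCast,
      ENNReal.ofReal_natCast, ← Nat.cast_smul_eq_nsmul ℝ≥0∞, smul_smul, ENNReal.div_eq_inv_mul]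

/-- the pressure is `1`-Lipschitz in the field (for every matrix) -/
theorem abs_pressureFieldN_sub_le {N : ℕ} (eig c c' : Fin N → ℝ) (U : Matrix (Fin N) (Fin N) ℝ) :
    |pressureFieldN eig U c - pressureFieldN eig U c'| ≤ (∑ r, |c r - c' r|) / N := by
  have key : ∀ c c' : Fin N → ℝ,
      pressureFieldN eig U c - pressureFieldN eig U c' ≤ (∑ r, |c r - c' r|) / N := by
    intro c c'
    rw [pressureFieldN, pressureFieldN, ← mul_sub, mul_comm, mul_one_div]
    refine div_le_div_of_nonneg_right ?_ (Nat.cast_nonneg _)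
    have hp : ∀ c : Fin N → ℝ, 0 < (1 / 2 : ℝ) ^ N * ∑ σ : Fin N → Bool,
        exp ((1 / 2) * (∑ i : Fin N, eig i * (U.mulVec (spinVec σ) i) ^ 2) +
          ∑ r : Fin N, c r * spinVec σ r) := fun c =>
      mul_pos (by positivity) (Finset.sum_pos (fun _ _ => exp_pos _) Finset.univ_nonempty)
    rw [sub_le_iff_le_add', log_le_iff_le_exp (hp c), exp_add, exp_log (hp c'), mul_assoc,
      Finset.sum_mul]
    refine mul_le_mul_of_nonneg_left (Finset.sum_le_sum fun σ _ => ?_) (by positivity)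
    rw [← exp_add, exp_le_exp, add_assoc, ← Finset.sum_add_distrib]
    refine add_le_add le_rfl (Finset.sum_le_sum fun r _ => ?_)
    unfold spinVec
    split_ifs
    · linarith [le_abs_self (c r - c' r)]
    · linarith [neg_abs_le (c r - c' r)]
  rw [abs_sub_le_iff]
  exact ⟨key c c', by simpa only [abs_sub_comm] using key c' c⟩

/-- two labellings with close class sizes agree up to a permutation on most sites -/
theorem exists_perm_lab {N J : ℕ} (lab lab' : Fin N → Fin J) {D : ℝ}
    (h : ∀ j, |((Finset.univ.filter fun r => lab r = j).card : ℝ) -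
      ((Finset.univ.filter fun r => lab' r = j).card : ℝ)| ≤ D) :
    ∃ ς : Equiv.Perm (Fin N),
      ((Finset.univ.filter fun r => lab (ς r) ≠ lab' r).card : ℝ) ≤ J * D := by
  choose A hA hA' using fun j => Finset.exists_subset_card_eq (min_le_left
    (Finset.univ.filter fun r => lab r = j).card (Finset.univ.filter fun r => lab' r = j).card)
  choose B hB hB' using fun j => Finset.exists_subset_card_eq (min_le_right
    (Finset.univ.filter fun r => lab r = j).card (Finset.univ.filter fun r => lab' r = j).card)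
  have key : ∀ (l : Fin N → Fin J) (A : Fin J → Finset (Fin N)),
      (∀ j, A j ⊆ Finset.univ.filter fun r => l r = j) → ∃ F : Fin N → Option (Fin J),
      (∀ r j, F r = some j → l r = j) ∧
      (∀ j, (Finset.univ.filter fun r => F r = some j).card = (A j).card) ∧
      (Finset.univ.filter fun r => F r = none).card + ∑ j, (A j).card = N := by
    intro l A hA
    have h1 : ∀ j, (Finset.univ.filter fun r => (if r ∈ A (l r) then some (l r) else none) = some j)
        = A j := fun j => by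
      ext r
      simp only [Finset.mem_filter, Finset.mem_univ, true_and, Option.ite_none_right_eq_some,
        Option.some.injEq]
      refine ⟨fun h => h.2 ▸ h.1, fun h => ?_⟩
      have := (Finset.mem_filter.1 (hA j h)).2
      exact ⟨this ▸ h, this⟩
    refine ⟨fun r => if r ∈ A (l r) then some (l r) else none, fun r j h => ?_,
      fun j => by rw [h1], ?_⟩
    · exact Option.some.inj (Option.ite_none_right_eq_some.1 h).2
    · have := Finset.card_eq_sum_card_fiberwise (s := Finset.univ) (t := Finset.univ)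
        (f := fun r => if r ∈ A (l r) then some (l r) else none) fun _ _ => Finset.mem_univ _
      simpa only [Fintype.sum_option, h1, Finset.card_univ, Fintype.card_fin] using this.symm
  obtain ⟨F, f1, f2, f3⟩ := key lab A hA
  obtain ⟨G, g1, g2, g3⟩ := key lab' B hB
  simp only [hA'] at f2 f3
  simp only [hB'] at g2 g3
  let e : ∀ o, {r // G r = o} ≃ {r // F r = o} := fun o => Fintype.equivOfCardEq (by
    rw [Fintype.card_subtype, Fintype.card_subtype]
    cases o with
    | none => omega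
    | some j => rw [f2, g2])
  refine ⟨Equiv.ofFiberEquiv e, le_trans (Nat.cast_le.2 (Finset.card_le_card
    (t := Finset.univ.filter fun r => G r = none) fun r hr => ?_)) ?_⟩
  · simp only [Finset.mem_filter, Finset.mem_univ, true_and] at hr ⊢
    rcases h' : G r with _ | j
    · rfl
    · exact absurd ((f1 _ j ((Equiv.ofFiberEquiv_map e r).trans h')).trans (g1 r j h').symm) hr
  · have h1 := j1_fib lab' fun _ => (1 : ℝ)
    have h2 := congrArg (Nat.cast : ℕ → ℝ) g3
    have h3 := Finset.sum_le_card_nsmul Finset.univ (fun j =>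
      ((Finset.univ.filter fun r => lab' r = j).card : ℝ) -
        min ((Finset.univ.filter fun r => lab r = j).card : ℝ)
          (Finset.univ.filter fun r => lab' r = j).card) D fun j _ => by
      have := abs_le.1 (h j)
      rw [sub_le_comm, le_min_iff]
      constructor <;> linarith
    simp only [Finset.sum_const, Finset.card_univ, Fintype.card_fin, nsmul_eq_mul, mul_one,
      Finset.sum_sub_distrib] at h1 h3
    push_cast at h2
    linarith

/-- a periodic pattern with prescribed rational proportions -/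
theorem exists_pattern {J : ℕ} (γ : Fin J → ℚ) (h0 : ∀ j, 0 < γ j) (h1 : ∑ j, γ j = 1) :
    ∃ q : ℕ, 0 < q ∧ ∀ k : ℕ, q ∣ k + 1 → ∃ pat : Fin (k + 1) → Fin J, ∀ j,
      ((Finset.univ.filter fun b => pat b = j).card : ℝ) = (γ j : ℝ) * ((k : ℝ) + 1) := by
  refine ⟨∏ j, (γ j).den, Finset.prod_pos fun j _ => (γ j).den_pos, fun k hk => ?_⟩
  have : ∀ j, ∃ n : ℕ, (n : ℚ) = γ j * (k + 1 : ℕ) := fun j => by
    obtain ⟨u, hu⟩ := (Finset.dvd_prod_of_mem (fun j => (γ j).den) (Finset.mem_univ j)).trans hk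
    obtain ⟨n, hn⟩ := Int.eq_ofNat_of_zero_le (Rat.num_nonneg.2 (h0 j).le)
    refine ⟨n * u, ?_⟩
    rw [hu, Nat.cast_mul, Nat.cast_mul, ← mul_assoc, Rat.mul_den_eq_num, hn, Int.cast_natCast]
  choose n hn using this
  obtain ⟨pat, hp⟩ := j1_lab (N := k + 1) n (Nat.cast_injective (R := ℚ) (by
    rw [Nat.cast_sum]
    simp only [hn, ← Finset.sum_mul, h1, one_mul]))
  refine ⟨pat, fun j => ?_⟩
  rw [hp]
  exact_mod_cast hn j

end Crest.Agent.R164
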