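import Crest.Agent.R164.S4

/-! # The finite-alphabet value as a real number -/

set_option autoImplicit false
set_option linter.unusedVariables false
set_option linter.unusedSectionVars false

open MeasureTheory ProbabilityTheory Real Crest.ProbabilityR.InvariantGlass
open scoped ENNReal

namespace Crest.Agent.R164

theorem j2_add_le (a b : ℝ) (x : EReal) :
    (a : EReal) + x ≤ (b : EReal) ↔ x ≤ ((b - a : ℝ) : EReal) := by
  induction x using EReal.rec with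
  | bot => simp
  | coe x =>
    rw [← EReal.coe_add, EReal.coe_le_coe_iff, EReal.coe_le_coe_iff]
    constructor <;> intro h <;> linarith
  | top =>
    rw [EReal.coe_add_top, top_le_iff, top_le_iff]
    exact iff_of_false (EReal.coe_ne_top _) (EReal.coe_ne_top _)

theorem j2_abs_le {J : ℕ} {m : Fin J → ℚ} (hm : ∀ j, -1 < m j ∧ m j < 1) (j : Fin J) :
    |((m j : ℚ) : ℝ)| ≤ 1 := by
  have h1 : ((-1 : ℚ) : ℝ) < (m j : ℝ) := by exact_mod_cast (hm j).1
  have h2 : (m j : ℝ) < ((1 : ℚ) : ℝ) := by exact_mod_cast (hm j).2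
  push_cast at h1 h2
  exact abs_le.2 ⟨h1.le, h2.le⟩

theorem j2_inf_le (μ : Measure ℝ) (hi : ℝ) {J : ℕ} {γ m : Fin J → ℚ} (hγ : ∀ j, 0 ≤ γ j)
    (hm : ∀ j, -1 < m j ∧ m j < 1) {p : ℝ → ℝ} {y : ℝ} (hp : IsTrialPath p)
    (hy : SLe (fun j => (γ j : ℝ)) (fun j => (m j : ℝ)) p y) :
    (⨅ (p : ℝ → ℝ) (_ : IsTrialPath p),
      constrainedEntropyPart γ m p + ((spectralPart μ hi p : ℝ) : EReal)) ≤
      ((y + spectralPart μ hi p : ℝ) : EReal) := by
  refine (iInf₂_le p hp).trans ?_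
  rw [EReal.coe_add]
  exact add_le_add_left ((constrainedEntropyPart_le_iff γ m hγ hm p y).2 hy) _

theorem j2_of_lt (μ : Measure ℝ) (hi : ℝ) {J : ℕ} {γ m : Fin J → ℚ} (hγ : ∀ j, 0 ≤ γ j)
    (hm : ∀ j, -1 < m j ∧ m j < 1) {z : ℝ}
    (h : (⨅ (p : ℝ → ℝ) (_ : IsTrialPath p),
      constrainedEntropyPart γ m p + ((spectralPart μ hi p : ℝ) : EReal)) < (z : EReal)) :
    ∃ (p : ℝ → ℝ) (y : ℝ), IsTrialPath p ∧ SLe (fun j => (γ j : ℝ)) (fun j => (m j : ℝ)) p y ∧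
      y + spectralPart μ hi p ≤ z := by
  simp only [iInf_lt_iff] at h
  obtain ⟨p, hp, h⟩ := h
  refine ⟨p, z - spectralPart μ hi p, hp, (constrainedEntropyPart_le_iff γ m hγ hm p _).1 ?_,
    by linarith⟩
  rw [← j2_add_le, add_comm]
  exact h.le

/-- Finite: below by `m = 0`, `SLe.ge`, `abs_spectralPart_le`; above by `p = 0`, `sle_zero`.
Use `constrainedEntropyPart_le_iff`. -/
theorem mag_char {μ : Measure ℝ} [IsProbabilityMeasure μ] {lo hi : ℝ} (hle : lo ≤ hi)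
    (hs : μ (Set.Icc lo hi) = 1) {J : ℕ} (c : Fin J → ℝ) (γ : Fin J → ℚ) (h0 : ∀ j, 0 < γ j)
    (h1 : ∑ j, γ j = 1) : ∃ F : ℝ, magneticValue μ hi c γ = (F : EReal) ∧
      (∀ m : Fin J → ℚ, (∀ j, -1 < m j ∧ m j < 1) → ∀ ε > 0, ∃ (p : ℝ → ℝ) (y : ℝ),
        IsTrialPath p ∧ SLe (fun j => (γ j : ℝ)) (fun j => (m j : ℝ)) p y ∧
        ∑ j, (γ j : ℝ) * c j * (m j : ℝ) + y + spectralPart μ hi p ≤ F + ε) ∧
      (∀ ε > 0, ∃ m : Fin J → ℚ, (∀ j, -1 < m j ∧ m j < 1) ∧ ∀ (p : ℝ → ℝ) (y : ℝ),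
        IsTrialPath p → SLe (fun j => (γ j : ℝ)) (fun j => (m j : ℝ)) p y →
        F - ε ≤ ∑ j, (γ j : ℝ) * c j * (m j : ℝ) + y + spectralPart μ hi p) := by
  have hγ : ∀ j, 0 ≤ γ j := fun j => (h0 j).le
  have hγ' : ∀ j, (0 : ℝ) ≤ γ j := fun j => by exact_mod_cast hγ j
  have h1' : ∑ j, (γ j : ℝ) = 1 := by exact_mod_cast h1
  have hz : IsTrialPath fun _ => 0 :=
    ⟨measurable_const, monotoneOn_const, fun _ _ => ⟨le_rfl, zero_le_one⟩⟩
  have hle' : ∀ m : Fin J → ℚ, (∀ j, -1 < m j ∧ m j < 1) →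
      ((∑ j, (γ j : ℝ) * c j * (m j : ℝ) : ℝ) : EReal) + (⨅ (p : ℝ → ℝ) (_ : IsTrialPath p),
        constrainedEntropyPart γ m p + ((spectralPart μ hi p : ℝ) : EReal)) ≤
        magneticValue μ hi c γ := fun m hm =>
    le_iSup₂_of_le (f := fun (m : Fin J → ℚ) (_ : ∀ j, (-1 : ℚ) < m j ∧ m j < 1) =>
      ((∑ j, (γ j : ℝ) * c j * (m j : ℝ) : ℝ) : EReal) + (⨅ (p : ℝ → ℝ) (_ : IsTrialPath p),
        constrainedEntropyPart γ m p + ((spectralPart μ hi p : ℝ) : EReal))) m hm le_rfl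
  have htop : magneticValue μ hi c γ ≠ ⊤ := by
    refine ne_top_of_le_ne_top
      (EReal.coe_ne_top (∑ j, (γ j : ℝ) * |c j| + spectralPart μ hi fun _ => 0)) ?_
    refine iSup₂_le fun m hm => ?_
    rw [j2_add_le]
    refine (j2_inf_le μ hi hγ hm hz (sle_zero hγ' (j2_abs_le hm))).trans
      (EReal.coe_le_coe_iff.2 ?_)
    have : ∑ j, (γ j : ℝ) * c j * (m j : ℝ) ≤ ∑ j, (γ j : ℝ) * |c j| := by
      refine Finset.sum_le_sum fun j _ => ?_
      rw [mul_assoc]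
      refine mul_le_mul_of_nonneg_left ((le_abs_self _).trans ?_) (hγ' j)
      rw [abs_mul]
      exact mul_le_of_le_one_right (abs_nonneg _) (j2_abs_le hm j)
    linarith
  have hbot : magneticValue μ hi c γ ≠ ⊥ := by
    have hm : ∀ j, (-1 : ℚ) < (fun _ : Fin J => (0 : ℚ)) j ∧ (fun _ : Fin J => (0 : ℚ)) j < 1 :=
      fun _ => ⟨by norm_num, by norm_num⟩
    have h2 : ((-log 2 - (|lo| + |hi|) / 2 - 1 : ℝ) : EReal) ≤ ⨅ (p : ℝ → ℝ) (_ : IsTrialPath p),
        constrainedEntropyPart γ (fun _ => 0) p + ((spectralPart μ hi p : ℝ) : EReal) := by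
      by_contra h
      obtain ⟨p, y, hp, hy, h3⟩ := j2_of_lt μ hi hγ hm (not_le.1 h)
      have h4 := hy.ge hγ' h1' (j2_abs_le hm)
      have h5 := (abs_le.1 (abs_spectralPart_le hle hs hp)).1
      linarith
    refine ne_bot_of_le_ne_bot ?_ ((add_le_add_right h2 _).trans (hle' _ hm))
    rw [← EReal.coe_add]
    exact EReal.coe_ne_bot _
  obtain ⟨F, hF⟩ : ∃ F : ℝ, magneticValue μ hi c γ = F := ⟨_, (EReal.coe_toReal htop hbot).symm⟩
  refine ⟨F, hF, fun m hm ε hε => ?_, fun ε hε => ?_⟩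
  · have h2 := hle' m hm
    rw [hF, j2_add_le] at h2
    obtain ⟨p, y, hp, hy, h3⟩ := j2_of_lt μ hi hγ hm
      (z := F - ∑ j, (γ j : ℝ) * c j * (m j : ℝ) + ε)
      (h2.trans_lt (EReal.coe_lt_coe_iff.2 (by linarith)))
    exact ⟨p, y, hp, hy, by linarith⟩
  · have h2 : ((F - ε : ℝ) : EReal) < magneticValue μ hi c γ := by
      rw [hF]
      exact EReal.coe_lt_coe_iff.2 (by linarith)
    simp only [magneticValue, lt_iSup_iff] at h2
    obtain ⟨m, hm, h2⟩ := h2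
    refine ⟨m, hm, fun p y hp hy => ?_⟩
    have h3 := h2.le.trans (add_le_add_right (j2_inf_le μ hi hγ hm hp hy) _)
    rw [← EReal.coe_add, EReal.coe_le_coe_iff] at h3
    linarith

/-- one group, zero field: `ℓ^[m] ≤ ℓ_0 = ℓ^[0]` (`cfv_le`, `cfv_zero`) -/
theorem magneticValue_zero (μ : Measure ℝ) (hi : ℝ) :
    magneticValue μ hi (fun _ : Fin 1 => (0 : ℝ)) (fun _ => (1 : ℚ)) = variationalValue μ hi := by
  have e : ∀ m : Fin 1 → ℚ, (∀ j, -1 < m j ∧ m j < 1) → ∀ (k : ℕ) (w hv : Fin k → ℝ),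
      IsStepField w hv → groupFieldValue (fun _ => (1 : ℚ)) m w hv = (cfv (m 0) w hv : ℝ) := by
    intro m hm k w hv hS
    rw [groupFieldValue, Fin.sum_univ_one, constrainedFieldValue_eq hS (j2_abs_le hm 0),
      ← EReal.coe_mul, Rat.cast_one, one_mul]
  unfold magneticValue variationalValue
  simp only [mul_zero, zero_mul, Finset.sum_const_zero, EReal.coe_zero, zero_add]
  refine le_antisymm (iSup₂_le fun m hm => iInf₂_mono fun p _ => add_le_add_left ?_ _) ?_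
  · refine iSup_mono fun k => iSup_mono fun w => iSup_mono fun hv => iSup_mono fun hS => ?_
    rw [e m hm k w hv hS, ← EReal.coe_add, EReal.coe_le_coe_iff, fieldValue_eq]
    have := cfv_le hS (j2_abs_le hm 0) 0
    linarith
  · have hm : ∀ j, (-1 : ℚ) < (fun _ : Fin 1 => (0 : ℚ)) j ∧ (fun _ : Fin 1 => (0 : ℚ)) j < 1 :=
      fun _ => ⟨by norm_num, by norm_num⟩
    refine le_iSup₂_of_le (fun _ => 0) hm (iInf₂_mono fun p _ => add_le_add_left ?_ _)
    refine iSup_mono fun k => iSup_mono fun w => iSup_mono fun hv => iSup_mono fun hS => ?_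
    rw [e _ hm k w hv hS, ← EReal.coe_add, EReal.coe_le_coe_iff, fieldValue_eq, Rat.cast_zero,
      cfv_zero hS]

theorem sle_pattern {J k : ℕ} {γ mag : Fin J → ℝ} (pat : Fin (k + 1) → Fin J)
    (h : ∀ j, ((Finset.univ.filter fun b => pat b = j).card : ℝ) = γ j * ((k : ℝ) + 1))
    {p : ℝ → ℝ} {y : ℝ} (hy : SLe (fun _ => ((k : ℝ) + 1)⁻¹) (fun b => mag (pat b)) p y) :
    SLe γ mag p y := by
  intro n w hv hS
  refine le_trans (le_of_eq ?_) (hy n w hv hS)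
  congr 1
  rw [← Finset.sum_fiberwise' Finset.univ pat fun j => ((k : ℝ) + 1)⁻¹ * cfv (mag j) w hv]
  refine Finset.sum_congr rfl fun j _ => ?_
  rw [Finset.sum_const, nsmul_eq_mul, h j]
  field_simp

/-- from exponential tails to both modes of convergence (Borel–Cantelli, bounded convergence) -/
theorem conv_of_tails {Ω : Type} [MeasurableSpace Ω] (P : Measure Ω) [IsProbabilityMeasure P]
    (Y : ℕ → Ω → ℝ) (hY : ∀ N, AEStronglyMeasurable (Y N) P) {F C : ℝ}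
    (hC : ∀ᶠ N : ℕ in Filter.atTop, ∀ᵐ ω ∂P, |Y N ω| ≤ C)
    (h : ∀ ε > 0, ∃ c > 0, ∀ᶠ N : ℕ in Filter.atTop,
      P.real {ω | ε ≤ |Y N ω - F|} ≤ exp (-(c * N))) :
    Filter.Tendsto (fun N => ∫ ω, Y N ω ∂P) Filter.atTop (nhds F) ∧
      ∀ᵐ ω ∂P, Filter.Tendsto (fun N => Y N ω) Filter.atTop (nhds F) := by
  have h1 : ∀ ε > 0, ∀ᵐ ω ∂P, ∀ᶠ N : ℕ in Filter.atTop, ω ∉ {ω | ε ≤ |Y N ω - F|} := by
    intro ε hε
    obtain ⟨c, hc, h⟩ := h ε hε
    have hs : Summable fun N : ℕ => exp (-(c * N)) := by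
      have := Real.summable_exp_nat_mul_iff.2 (neg_lt_zero.2 hc)
      exact this.congr fun N => by rw [mul_neg, mul_comm]
    have hs2 : Summable fun N : ℕ => P.real {ω | ε ≤ |Y N ω - F|} :=
      Summable.of_norm_bounded_eventually_nat hs (h.mono fun N hN => by
        rwa [Real.norm_of_nonneg measureReal_nonneg])
    refine ae_eventually_notMem ?_
    have := hs2.tsum_ofReal_ne_top
    simpa only [ofReal_measureReal (measure_ne_top P _)] using this
  have h2 : ∀ᵐ ω ∂P, Filter.Tendsto (fun N => Y N ω) Filter.atTop (nhds F) := by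
    have h3 := ae_all_iff.2 fun n : ℕ => h1 (1 / ((n : ℝ) + 1)) Nat.one_div_pos_of_nat
    filter_upwards [h3] with ω hω
    refine Metric.tendsto_nhds.2 fun ε hε => ?_
    obtain ⟨n, hn⟩ := exists_nat_one_div_lt hε
    filter_upwards [hω n] with N hN
    rw [Real.dist_eq]
    exact (not_le.1 hN).trans hn
  refine ⟨?_, h2⟩
  have := tendsto_integral_filter_of_dominated_convergence (fun _ => C)
    (Filter.Eventually.of_forall hY) hC (integrable_const C) h2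
  simpa using this

end Crest.Agent.R164
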