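import Crest.Agent.R164.S4
import Crest.Agent.R164.S5

/-! # Sandwiching the spectrum between periodic finite spectra

Let `Q` be the quantile function, `P = k + 1` a large multiple of `q`, `ε'` small.
Lower spectrum: `lam b = Q ((b-1)/P) - ε'` for `b ≥ 2`, `lo - ε'` for `b ≤ 1` (monotone, `top` = last).
With the coupling `Y = Q u`, `Y' = lam ⌊P u⌋`: `E (Y - Y')_+ ≤ ε' + 2 (hi - lo)/P` (telescoping),
`lam top ≥ hi - ε` for large `P` because `μ [hi - ε/2, hi] > 0`; apply
`rTransform_le_of_coupling`, `spectralPart_le`.  Counting: at most `(P - b)(N/P + 1)` indices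
have residue `≥ b`, while `μ [Q u, ∞) ≥ 1 - u` gives at least `N ((P - b + 1)/P - o(1))` eigenvalues
above `lam b` (for ties use the smallest `b` with the given value; for `b ≤ 1` use `hext`).
The upper spectrum is symmetric: `lam b = Q ((b+2)/P) + ε'` for `b + 2 < P`, `hi + ε'` else. -/

set_option autoImplicit false
set_option linter.unusedVariables false
set_option linter.unusedSectionVars false

open MeasureTheory ProbabilityTheory Real Crest.ProbabilityR.InvariantGlass
open scoped ENNReal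

namespace Crest.Agent.R164

theorem s6_quantile (μ : Measure ℝ) [IsProbabilityMeasure μ] {lo hi : ℝ} (hle : lo ≤ hi)
    (hs : μ (Set.Icc lo hi) = 1) : ∃ Q : ℝ → ℝ, Monotone Q ∧ (∀ u, Q u ∈ Set.Icc lo hi) ∧
      (volume.restrict (Set.Ioo (0 : ℝ) 1)).map Q = μ ∧ (∀ v, v ≤ 0 → Q v = lo) ∧
      ∀ v, 1 ≤ v → Q v = hi := by
  obtain ⟨Q, h1, h2, h3⟩ := exists_quantile μ hle hs
  refine ⟨fun v => if v ≤ 0 then lo else if 1 ≤ v then hi else Q v, ?_, ?_, ?_, ?_, ?_⟩
  · intro a b hab
    dsimp only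
    split_ifs <;>
      first | exact le_rfl | exact hle | exact (h2 _).1 | exact (h2 _).2 | exact h1 hab | linarith
  · intro u
    dsimp only
    split_ifs
    exacts [⟨le_rfl, hle⟩, ⟨hle, le_rfl⟩, h2 u]
  · rw [← h3]
    refine Measure.map_congr ?_
    filter_upwards [ae_restrict_mem measurableSet_Ioo] with u hu
    rw [if_neg (not_le.2 hu.1), if_neg (not_le.2 hu.2)]
  · intro v hv
    exact if_pos hv
  · intro v hv
    dsimp only
    rw [if_neg (by linarith), if_pos hv]

theorem s6_prob : IsProbabilityMeasure (volume.restrict (Set.Ioo (0 : ℝ) 1)) := ⟨by simp⟩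

theorem s6_couple {Q : ℝ → ℝ} (hQ : Monotone Q) {lo hi : ℝ} (hb : ∀ u, Q u ∈ Set.Icc lo hi)
    (a : ℝ) {h e : ℝ} (hh : 0 ≤ h) (he : 0 ≤ e) {F : ℝ → ℝ}
    (hF : ∀ u ∈ Set.Ioo (0 : ℝ) 1, F u ≤ e + (Q (u + (a + h)) - Q (u + a))) :
    ∫ u in Set.Ioo (0 : ℝ) 1, max (F u) 0 ≤ e + h * (hi - lo) := by
  have hi1 : ∀ c : ℝ, IntervalIntegrable (fun u => Q (u + c)) volume 0 1 := fun c =>
    (hQ.comp (monotone_id.add_const c)).intervalIntegrable
  have hi2 : IntervalIntegrable (fun u => e + (Q (u + (a + h)) - Q (u + a))) volume 0 1 :=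
    intervalIntegrable_const.add ((hi1 _).sub (hi1 _))
  have h1 : ∫ u in Set.Ioo (0 : ℝ) 1, max (F u) 0 ≤
      ∫ u in Set.Ioo (0 : ℝ) 1, (e + (Q (u + (a + h)) - Q (u + a))) := by
    refine integral_mono_of_nonneg (Filter.Eventually.of_forall fun u => le_max_right _ _)
      ((intervalIntegrable_iff_integrableOn_Ioo_of_le zero_le_one).1 hi2) ?_
    filter_upwards [ae_restrict_mem measurableSet_Ioo] with u hu
    refine max_le (hF u hu) (add_nonneg he (sub_nonneg.2 (hQ (by linarith))))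
  refine h1.trans ?_
  rw [← integral_Ioc_eq_integral_Ioo, ← intervalIntegral.integral_of_le zero_le_one,
    intervalIntegral.integral_add intervalIntegrable_const ((hi1 _).sub (hi1 _)),
    intervalIntegral.integral_sub (hi1 _) (hi1 _), intervalIntegral.integral_comp_add_right,
    intervalIntegral.integral_comp_add_right]
  have e1 := intervalIntegral.integral_add_adjacent_intervals (μ := volume)
    (hQ.intervalIntegrable (a := 0 + a) (b := 0 + (a + h)))
    (hQ.intervalIntegrable (a := 0 + (a + h)) (b := 1 + (a + h)))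
  have e2 := intervalIntegral.integral_add_adjacent_intervals (μ := volume)
    (hQ.intervalIntegrable (a := 0 + a) (b := 1 + a))
    (hQ.intervalIntegrable (a := 1 + a) (b := 1 + (a + h)))
  have e3 : ∫ _u in (0 + a)..(0 + (a + h)), lo ≤ ∫ u in (0 + a)..(0 + (a + h)), Q u :=
    intervalIntegral.integral_mono_on (by linarith) intervalIntegrable_const hQ.intervalIntegrable
      fun u _ => (hb u).1
  have e4 : ∫ u in (1 + a)..(1 + (a + h)), Q u ≤ ∫ _u in (1 + a)..(1 + (a + h)), hi :=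
    intervalIntegral.integral_mono_on (by linarith) hQ.intervalIntegrable intervalIntegrable_const
      fun u _ => (hb u).2
  simp only [intervalIntegral.integral_const, smul_eq_mul] at e3 e4 ⊢
  nlinarith

/-- the index `⌊(k+1) u⌋` -/
noncomputable def s6_fl (k : ℕ) (u : ℝ) : Fin (k + 1) :=
  ⟨min ⌊((k : ℝ) + 1) * u⌋₊ k, Nat.lt_succ_of_le (min_le_right _ _)⟩

theorem s6_fl_mono (k : ℕ) : Monotone (s6_fl k) := fun a b hab =>
  min_le_min_right k (Nat.floor_mono (mul_le_mul_of_nonneg_left hab (by positivity)))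

theorem s6_fl_le (k : ℕ) {u : ℝ} (hu : 0 ≤ u) : ((s6_fl k u : ℕ) : ℝ) ≤ ((k : ℝ) + 1) * u := by
  have h1 : ((s6_fl k u : ℕ) : ℝ) ≤ (⌊((k : ℝ) + 1) * u⌋₊ : ℝ) := Nat.cast_le.2 (min_le_left _ _)
  exact h1.trans (Nat.floor_le (by positivity))

theorem s6_le_fl (k : ℕ) {u : ℝ} (hu : u ≤ 1) :
    ((k : ℝ) + 1) * u - 1 ≤ ((s6_fl k u : ℕ) : ℝ) := by
  have h1 : ((s6_fl k u : ℕ) : ℝ) = min (⌊((k : ℝ) + 1) * u⌋₊ : ℝ) k := Nat.cast_min _ _
  rw [h1]
  refine le_min (by linarith [Nat.lt_floor_add_one (((k : ℝ) + 1) * u)]) ?_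
  have : (0 : ℝ) ≤ k := Nat.cast_nonneg k
  nlinarith

theorem s6_match {eig : (N : ℕ) → Fin N → ℝ} {k : ℕ} (lam : Fin (k + 1) → ℝ)
    (h : ∀ b, (∀ᶠ N : ℕ in Filter.atTop, ∀ j, lam b ≤ eig N j) ∨
      ∀ᶠ N : ℕ in Filter.atTop,
        (((Finset.univ.filter fun c => lam b ≤ lam c).card : ℝ) + 1 / 2) / ((k : ℝ) + 1) * N ≤
          ((Finset.univ.filter fun j => lam b ≤ eig N j).card : ℝ)) :
    ∀ᶠ N : ℕ in Filter.atTop, ∃ ς : Equiv.Perm (Fin N), ∀ i, lam (per k N i) ≤ eig N (ς i) := by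
  have key : ∀ b, ∀ᶠ N : ℕ in Filter.atTop,
      (Finset.univ.filter fun j : Fin N => lam b ≤ lam (per k N j)).card ≤
        (Finset.univ.filter fun j => lam b ≤ eig N j).card := by
    intro b
    rcases h b with h | h
    · filter_upwards [h] with N hN
      exact Finset.card_le_card fun j _ => Finset.mem_filter.2 ⟨Finset.mem_univ _, hN j⟩
    · filter_upwards [h, Filter.eventually_ge_atTop (2 * (k + 1) ^ 2)] with N hN hN'
      set B := Finset.univ.filter fun c => lam b ≤ lam c with hB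
      have h1 : (Finset.univ.filter fun j : Fin N => lam b ≤ lam (per k N j)).card =
          ∑ c ∈ B, (Finset.univ.filter fun j : Fin N => per k N j = c).card := by
        rw [Finset.card_eq_sum_card_fiberwise (f := per k N) (t := B)
          (fun j hj => Finset.mem_coe.2 (Finset.mem_filter.2
            ⟨Finset.mem_univ _, (Finset.mem_filter.1 (Finset.mem_coe.1 hj)).2⟩))]
        refine Finset.sum_congr rfl fun c hc => ?_
        congr 1
        ext j
        simp only [Finset.mem_filter, Finset.mem_univ, true_and, and_iff_right_iff_imp]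
        rintro rfl
        exact (Finset.mem_filter.1 hc).2
      have h2 : ((∑ c ∈ B, (Finset.univ.filter fun j : Fin N => per k N j = c).card : ℕ) : ℝ) ≤
          B.card * ((N : ℝ) / (k + 1) + 1) := by
        rw [Nat.cast_sum, ← nsmul_eq_mul]
        refine Finset.sum_le_card_nsmul _ _ _ fun c _ => ?_
        linarith [(abs_le.1 (card_per k N c)).2]
      have h3 : (B.card : ℝ) ≤ k + 1 := by
        have := Finset.card_le_univ B
        rw [Fintype.card_fin] at this
        exact_mod_cast this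
      have h4 : 2 * ((k : ℝ) + 1) ^ 2 ≤ N := by exact_mod_cast hN'
      have hk : (0 : ℝ) < k + 1 := by positivity
      have h5 : 2 * ((k : ℝ) + 1) ≤ N / (k + 1) := by
        rw [le_div_iff₀ hk]
        nlinarith
      have h6 : ((B.card : ℝ) + 1 / 2) / ((k : ℝ) + 1) * N = (B.card + 1 / 2) * (N / (k + 1)) := by
        ring
      rw [h1, ← Nat.cast_le (α := ℝ)]
      nlinarith
  filter_upwards [Filter.eventually_all.2 key] with N hN
  exact exists_perm_le _ _ fun i => hN _

theorem s6_big (q : ℕ) (hq : 0 < q) (T : ℝ) : ∃ k : ℕ, q ∣ k + 1 ∧ T ≤ (k : ℝ) + 1 := by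
  have h1 : 1 ≤ q * (⌈T⌉₊ + 1) := Nat.mul_pos hq (Nat.succ_pos _)
  refine ⟨q * (⌈T⌉₊ + 1) - 1, ?_, ?_⟩
  · rw [Nat.sub_add_cancel h1]
    exact dvd_mul_right _ _
  · rw [Nat.cast_sub h1]
    push_cast
    have h2 : (1 : ℝ) ≤ q := by exact_mod_cast hq
    have h3 := Nat.le_ceil T
    have h4 : (0 : ℝ) ≤ ⌈T⌉₊ := Nat.cast_nonneg _
    nlinarith

theorem s6_map_Icc {Y : ℝ → ℝ} (hY : Measurable Y) {a b : ℝ} (h : ∀ u, Y u ∈ Set.Icc a b) :
    (volume.restrict (Set.Ioo (0 : ℝ) 1)).map Y (Set.Icc a b) = 1 := by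
  rw [Measure.map_apply hY measurableSet_Icc, Set.eq_univ_of_forall (s := Y ⁻¹' Set.Icc a b) h]
  simp

theorem s6_real_ge {Q : ℝ → ℝ} (hQ : Measurable Q) {s : Set ℝ} (hs : MeasurableSet s) {a b : ℝ}
    (ha : 0 ≤ a) (hb : b ≤ 1) (h : ∀ u ∈ Set.Ioo a b, Q u ∈ s) :
    b - a ≤ ((volume.restrict (Set.Ioo (0 : ℝ) 1)).map Q).real s := by
  rw [map_measureReal_apply hQ hs, measureReal_restrict_apply (hQ hs)]
  refine le_trans ?_ (measureReal_mono (s₁ := Set.Ioo a b)
    (fun u hu => ⟨h u hu, lt_of_le_of_lt ha hu.1, lt_of_lt_of_le hu.2 hb⟩)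
    ((measure_mono Set.inter_subset_right).trans_lt (by simp)).ne)
  rw [Real.volume_real_Ioo]
  exact le_max_left _ _

theorem exists_spec_lower {μ : Measure ℝ} [IsProbabilityMeasure μ] {lo hi : ℝ} (hle : lo ≤ hi)
    (hsupp : μ (Set.Icc lo hi) = 1)
    (hedge : ∀ ε : ℝ, 0 < ε →
      0 < μ (Set.Icc lo (lo + ε)) ∧ 0 < μ (Set.Icc (hi - ε) hi))
    {eig : (N : ℕ) → Fin N → ℝ}
    (hweak : ∀ φ : ℝ → ℝ, Continuous φ → (∃ C : ℝ, ∀ x, |φ x| ≤ C) →
      Filter.Tendsto (fun N : ℕ => (1 / (N : ℝ)) * ∑ i : Fin N, φ (eig N i)) Filter.atTop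
        (nhds (∫ x, φ x ∂μ)))
    (hext : ∀ ε : ℝ, 0 < ε → ∀ᶠ N : ℕ in Filter.atTop, ∀ i : Fin N,
      lo - ε ≤ eig N i ∧ eig N i ≤ hi + ε)
    {ε : ℝ} (hε : 0 < ε) {q : ℕ} (hq : 0 < q) :
    ∃ S : Spec, q ∣ S.k + 1 ∧ (∀ p, IsTrialPath p → spectralPart μ hi p ≤ S.G p + ε) ∧
      ∀ᶠ N : ℕ in Filter.atTop, ∃ ς : Equiv.Perm (Fin N),
        ∀ i, S.lam (per S.k N i) ≤ eig N (ς i) := by
  obtain ⟨Q, hQ, hb, hμ, h0, h1⟩ := s6_quantile μ hle hsupp
  have := s6_prob
  set C := |lo| + |hi| + 1 with hC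
  have hlo := neg_abs_le lo
  have hhi := le_abs_self hi
  have hlo' := abs_nonneg lo
  have hhi' := abs_nonneg hi
  obtain ⟨δ, hδ, hcpl⟩ := rTransform_le_of_coupling (C := C) (by positivity) hε
  obtain ⟨v, hv, hv1⟩ : ∃ v, hi - ε / 2 ≤ Q v ∧ v < 1 := by
    have h2 := (hedge (ε / 2) (half_pos hε)).2
    rw [← hμ, Measure.map_apply hQ.measurable measurableSet_Icc,
      Measure.restrict_apply (hQ.measurable measurableSet_Icc)] at h2
    obtain ⟨v, hv, hv'⟩ := nonempty_of_measure_ne_zero h2.ne'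
    exact ⟨v, hv.1, hv'.2⟩
  obtain ⟨k, hk, hT⟩ := s6_big q hq (max (2 / (1 - v)) (4 * (hi - lo) / δ))
  have hP : (0 : ℝ) < k + 1 := by positivity
  set e := min (min (ε / 2) (δ / 2)) 1 with he
  have he0 : 0 < e := by positivity
  have he1 : e ≤ ε / 2 := (min_le_left _ _).trans (min_le_left _ _)
  have he2 : e ≤ δ / 2 := (min_le_left _ _).trans (min_le_right _ _)
  have he3 : e ≤ 1 := min_le_right _ _
  set lam : Fin (k + 1) → ℝ := fun b => Q ((((b : ℕ) : ℝ) - 1) / (k + 1)) - e with hlam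
  have hmono : Monotone lam := fun a b hab => sub_le_sub_right (hQ (by
    have : ((a : ℕ) : ℝ) ≤ (b : ℕ) := by exact_mod_cast hab
    gcongr)) e
  refine ⟨⟨k, lam, Fin.last k, fun b => hmono (Fin.le_last b)⟩, hk, fun p hp => ?_, ?_⟩
  · have hm : Measurable fun u => lam (s6_fl k u) := (hmono.comp (s6_fl_mono k)).measurable
    have hin : ∀ u, lam (s6_fl k u) ∈ Set.Icc (-C) (lam (Fin.last k)) := fun u =>
      ⟨by have := (hb ((((s6_fl k u : ℕ) : ℝ) - 1) / (k + 1))).1; simp only [hlam]; linarith,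
        hmono (Fin.le_last _)⟩
    have htop : hi ≤ lam (Fin.last k) + ε := by
      have h2 : v ≤ (((Fin.last k : ℕ) : ℝ) - 1) / (k + 1) := by
        have h3 := (le_max_left _ _).trans hT
        rw [div_le_iff₀ (by linarith)] at h3
        rw [le_div_iff₀ hP, Fin.val_last]
        linarith
      have := hQ h2
      simp only [hlam]
      linarith
    have hint : ∫ u in Set.Ioo (0 : ℝ) 1, max (Q u - lam (s6_fl k u)) 0 ≤ δ := by
      refine (s6_couple hQ hb (-(2 / (k + 1))) (h := 2 / (k + 1)) (by positivity) he0.le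
        fun u hu => ?_).trans ?_
      · have h2 : u + -(2 / (k + 1)) ≤ (((s6_fl k u : ℕ) : ℝ) - 1) / (k + 1) := by
          have h3 := s6_le_fl k hu.2.le
          rw [le_div_iff₀ hP, add_mul, neg_mul, div_mul_cancel₀ _ hP.ne']
          linarith
        have := hQ h2
        simp only [hlam, neg_add_cancel, add_zero]
        linarith
      · have h3 := (le_max_right _ _).trans hT
        rw [div_le_iff₀ hδ] at h3
        have h4 : 2 / ((k : ℝ) + 1) * (hi - lo) ≤ δ / 2 := by
          rw [div_mul_eq_mul_div, div_le_iff₀ hP]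
          linarith
        linarith
    have h2 := hcpl ℝ (volume.restrict (Set.Ioo (0 : ℝ) 1)) Q (fun u => lam (s6_fl k u)) hi
      (lam (Fin.last k)) hQ.measurable hm
      (Filter.Eventually.of_forall fun u => ⟨by linarith [(hb u).1], (hb u).2⟩)
      (Filter.Eventually.of_forall hin) (by linarith)
      (by have := (hb ((((Fin.last k : ℕ) : ℝ) - 1) / (k + 1))).2; simp only [hlam]; linarith)
      htop hint
    have hemp : (volume.restrict (Set.Ioo (0 : ℝ) 1)).map (fun u => lam (s6_fl k u)) =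
        empiricalLaw lam := map_floor_eq_empiricalLaw lam
    have h3 := s6_map_Icc hm hin
    have h4 : IsProbabilityMeasure ((volume.restrict (Set.Ioo (0 : ℝ) 1)).map
        fun u => lam (s6_fl k u)) := Measure.isProbabilityMeasure_map hm.aemeasurable
    rw [hemp] at h2 h3 h4
    rw [hμ] at h2
    have h5 := spectralPart_le hle hsupp ((hin 0).1.trans (hin 0).2) h3 (fun x hx => h2 x hx.1) hp
    rw [mul_div_cancel_left₀ _ two_ne_zero] at h5
    exact h5
  · refine s6_match lam fun b => ?_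
    set B := Finset.univ.filter fun c => lam b ≤ lam c with hB
    have hne : B.Nonempty := ⟨b, Finset.mem_filter.2 ⟨Finset.mem_univ _, le_rfl⟩⟩
    have h2 : lam b ≤ lam (B.min' hne) := (Finset.mem_filter.1 (B.min'_mem hne)).2
    have h3 : B.card ≤ k + 1 - (B.min' hne : ℕ) := by
      rw [← Fin.card_Ici]
      exact Finset.card_le_card fun c hc => Finset.mem_Ici.2 (B.min'_le c hc)
    generalize B.min' hne = c at h2 h3
    have h4 : (B.card : ℝ) ≤ k + 1 - (c : ℕ) := by
      rw [← Nat.cast_le (α := ℝ), Nat.cast_sub c.2.le] at h3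
      exact_mod_cast h3
    rcases Nat.eq_zero_or_pos c with hc | hc
    · left
      filter_upwards [hext e he0] with N hN j
      refine h2.trans (le_trans (le_of_eq ?_) (hN j).1)
      simp only [hlam]
      rw [h0 _ (by rw [hc]; exact div_nonpos_of_nonpos_of_nonneg (by simp) hP.le)]
    · right
      have hc' : (1 : ℝ) ≤ (c : ℕ) := by exact_mod_cast hc
      have h5 : 1 - (((c : ℕ) : ℝ) - 1) / (k + 1) ≤ μ.real (Set.Ici (lam b + e)) := by
        rw [← hμ]
        refine s6_real_ge hQ.measurable measurableSet_Ici (div_nonneg (by linarith) hP.le) le_rfl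
          fun u hu => ?_
        have := hQ hu.1.le
        simp only [hlam] at h2
        simp only [hlam, Set.mem_Ici]
        linarith
      filter_upwards [(eventually_count_ge hweak (lam b + e) he0
        (δ := 1 / 2 / (k + 1)) (by positivity)).1] with N hN
      rw [add_sub_cancel_right] at hN
      refine le_trans (mul_le_mul_of_nonneg_right ?_ (Nat.cast_nonneg N)) hN
      refine le_trans ?_ (sub_le_sub_right h5 _)
      rw [div_le_iff₀ hP, sub_mul, sub_mul, div_mul_cancel₀ _ hP.ne', div_mul_cancel₀ _ hP.ne']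
      linarith

theorem exists_spec_upper {μ : Measure ℝ} [IsProbabilityMeasure μ] {lo hi : ℝ} (hle : lo ≤ hi)
    (hsupp : μ (Set.Icc lo hi) = 1)
    (hedge : ∀ ε : ℝ, 0 < ε →
      0 < μ (Set.Icc lo (lo + ε)) ∧ 0 < μ (Set.Icc (hi - ε) hi))
    {eig : (N : ℕ) → Fin N → ℝ}
    (hweak : ∀ φ : ℝ → ℝ, Continuous φ → (∃ C : ℝ, ∀ x, |φ x| ≤ C) →
      Filter.Tendsto (fun N : ℕ => (1 / (N : ℝ)) * ∑ i : Fin N, φ (eig N i)) Filter.atTop
        (nhds (∫ x, φ x ∂μ)))
    (hext : ∀ ε : ℝ, 0 < ε → ∀ᶠ N : ℕ in Filter.atTop, ∀ i : Fin N,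
      lo - ε ≤ eig N i ∧ eig N i ≤ hi + ε)
    {ε : ℝ} (hε : 0 < ε) :
    ∃ S : Spec, (∀ p, IsTrialPath p → S.G p ≤ spectralPart μ hi p + ε) ∧
      ∀ᶠ N : ℕ in Filter.atTop, ∃ ς : Equiv.Perm (Fin N),
        ∀ i, eig N (ς i) ≤ S.lam (per S.k N i) := by
  obtain ⟨Q, hQ, hb, hμ, h0, h1⟩ := s6_quantile μ hle hsupp
  have := s6_prob
  set C := |lo| + |hi| + 1 with hC
  have hlo := neg_abs_le lo
  have hhi := le_abs_self hi
  have hlo' := abs_nonneg lo
  have hhi' := abs_nonneg hi
  obtain ⟨δ, hδ, hcpl⟩ := rTransform_le_of_coupling (C := C) (by positivity) hε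
  obtain ⟨k, -, hT⟩ := s6_big 1 one_pos (4 * (hi - lo) / δ)
  have hP : (0 : ℝ) < k + 1 := by positivity
  set e := min (min (ε / 2) (δ / 2)) 1 with he
  have he0 : 0 < e := by positivity
  have he1 : e ≤ ε / 2 := (min_le_left _ _).trans (min_le_left _ _)
  have he2 : e ≤ δ / 2 := (min_le_left _ _).trans (min_le_right _ _)
  have he3 : e ≤ 1 := min_le_right _ _
  set lam : Fin (k + 1) → ℝ := fun b => Q ((((b : ℕ) : ℝ) + 2) / (k + 1)) + e with hlam
  have hmono : Monotone lam := fun a b hab => add_le_add_left (hQ (by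
    have : ((a : ℕ) : ℝ) ≤ (b : ℕ) := by exact_mod_cast hab
    gcongr)) e
  refine ⟨⟨k, lam, Fin.last k, fun b => hmono (Fin.le_last b)⟩, fun p hp => ?_, ?_⟩
  · have hm : Measurable fun u => lam (s6_fl k u) := (hmono.comp (s6_fl_mono k)).measurable
    have hin : ∀ u, lam (s6_fl k u) ∈ Set.Icc (-C) (lam (Fin.last k)) := fun u =>
      ⟨by have := (hb ((((s6_fl k u : ℕ) : ℝ) + 2) / (k + 1))).1; simp only [hlam]; linarith,
        hmono (Fin.le_last _)⟩
    have htop : lam (Fin.last k) ≤ hi + e := by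
      have := (hb ((((Fin.last k : ℕ) : ℝ) + 2) / (k + 1))).2
      simp only [hlam]
      linarith
    have hint : ∫ u in Set.Ioo (0 : ℝ) 1, max (lam (s6_fl k u) - Q u) 0 ≤ δ := by
      refine (s6_couple hQ hb 0 (h := 2 / (k + 1)) (by positivity) he0.le
        fun u hu => ?_).trans ?_
      · have h2 : (((s6_fl k u : ℕ) : ℝ) + 2) / (k + 1) ≤ u + 2 / (k + 1) := by
          have h3 := s6_fl_le k hu.1.le
          rw [div_le_iff₀ hP, add_mul, div_mul_cancel₀ _ hP.ne']
          linarith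
        have := hQ h2
        simp only [hlam, zero_add, add_zero]
        linarith
      · have h3 := hT
        rw [div_le_iff₀ hδ] at h3
        have h4 : 2 / ((k : ℝ) + 1) * (hi - lo) ≤ δ / 2 := by
          rw [div_mul_eq_mul_div, div_le_iff₀ hP]
          linarith
        linarith
    have h2 := hcpl ℝ (volume.restrict (Set.Ioo (0 : ℝ) 1)) (fun u => lam (s6_fl k u)) Q
      (lam (Fin.last k)) hi hm hQ.measurable (Filter.Eventually.of_forall hin)
      (Filter.Eventually.of_forall fun u => ⟨by linarith [(hb u).1], (hb u).2⟩)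
      (by linarith) (by linarith) (by linarith) hint
    have hemp : (volume.restrict (Set.Ioo (0 : ℝ) 1)).map (fun u => lam (s6_fl k u)) =
        empiricalLaw lam := map_floor_eq_empiricalLaw lam
    have h3 := s6_map_Icc hm hin
    have h4 : IsProbabilityMeasure ((volume.restrict (Set.Ioo (0 : ℝ) 1)).map
        fun u => lam (s6_fl k u)) := Measure.isProbabilityMeasure_map hm.aemeasurable
    rw [hemp] at h2 h3 h4
    rw [hμ] at h2
    have h5 := spectralPart_le ((hin 0).1.trans (hin 0).2) h3 hle hsupp (fun x hx => h2 x hx.1) hp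
    rw [mul_div_cancel_left₀ _ two_ne_zero] at h5
    exact h5
  · have key := s6_match (eig := fun N j => -eig N j) (fun b => -lam b) fun b => ?_
    · simpa only [neg_le_neg_iff] using key
    simp only [neg_le_neg_iff]
    set B := Finset.univ.filter fun c => lam c ≤ lam b with hB
    have hne : B.Nonempty := ⟨b, Finset.mem_filter.2 ⟨Finset.mem_univ _, le_rfl⟩⟩
    have h2 : lam (B.max' hne) ≤ lam b := (Finset.mem_filter.1 (B.max'_mem hne)).2
    have h3 : B.card ≤ (B.max' hne : ℕ) + 1 := by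
      rw [← Fin.card_Iic]
      exact Finset.card_le_card fun c hc => Finset.mem_Iic.2 (B.le_max' c hc)
    generalize B.max' hne = c at h2 h3
    have h4 : (B.card : ℝ) ≤ (c : ℕ) + 1 := by exact_mod_cast h3
    rcases le_total 1 ((((c : ℕ) : ℝ) + 2) / (k + 1)) with hc | hc
    · left
      filter_upwards [hext e he0] with N hN j
      refine le_trans ((hN j).2.trans (le_of_eq ?_)) h2
      simp only [hlam]
      rw [h1 _ hc]
    · right
      have h5 : (((c : ℕ) : ℝ) + 2) / (k + 1) - 0 ≤ μ.real (Set.Iic (lam b - e)) := by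
        rw [← hμ]
        refine s6_real_ge hQ.measurable measurableSet_Iic le_rfl hc fun u hu => ?_
        have := hQ hu.2.le
        simp only [hlam] at h2
        simp only [hlam, Set.mem_Iic]
        linarith
      filter_upwards [(eventually_count_ge hweak (lam b - e) he0
        (δ := 1 / 2 / (k + 1)) (by positivity)).2] with N hN
      rw [sub_add_cancel] at hN
      refine le_trans (mul_le_mul_of_nonneg_right ?_ (Nat.cast_nonneg N)) hN
      refine le_trans ?_ (sub_le_sub_right h5 _)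
      rw [div_le_iff₀ hP, sub_mul, sub_zero, div_mul_cancel₀ _ hP.ne', div_mul_cancel₀ _ hP.ne']
      linarith

end Crest.Agent.R164
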