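import Crest.Agent.R164.U1
import Crest.Agent.R164.S6
import Crest.Agent.R164.J1

/-! # The upper tail

Fix `q` large.  For `w : Fin J → ℤ` with `|w j| < q` let `m_j = w_j/q` and let `T_w` be the set of
`σ` such that for all `j`, with `n_j = |fib j|`, `s_j = Σ_{lab r = j} σ_r`: `|s_j - n_j m_j| ≤ n_j/q`,
`m_j > 0 → s_j ≥ n_j m_j`, `m_j < 0 → s_j ≤ n_j m_j` (round `s_j/n_j` towards zero, at most to
`± (q-1)/q`); the windows cover everything.  Let `f_w = 0` on `T_w` and `-2 Λb N` (with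
`Λb ≥ 0`) outside.  Then `Z(c) ≤ Σ_w exp (Σ_j c_j n_j m_j + N max|c|/q) Z(f_w)`, so the event is
contained in a finite union of events for `logZ · f_w`.  Replace the spectrum by the upper
periodic one (`exists_spec_upper`, `logZ_le`, `map_logZ_perm_row`), and use the hypothesis `hF`,
`upper`, `tail_le_of_fm`. -/

set_option autoImplicit false
set_option linter.unusedVariables false
set_option linter.unusedSectionVars false

open MeasureTheory ProbabilityTheory Real Crest.ProbabilityR.InvariantGlass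
open scoped ENNReal

namespace Crest.Agent.R164

/-- rounding towards zero -/
theorem j3_net {η : ℝ} (hη : 0 < η) : ∃ T : Finset ℚ, (∀ m ∈ T, -1 < m ∧ m < 1) ∧
    ∀ x : ℝ, |x| ≤ 1 → ∃ m ∈ T, |x - m| ≤ η ∧ 0 ≤ (m : ℝ) * (x - m) := by
  obtain ⟨q, hq⟩ := exists_nat_ge (1 / η)
  have hq0 : (0 : ℝ) < q := lt_of_lt_of_le (by positivity) hq
  have hq1 : (0 : ℚ) < q := by exact_mod_cast hq0
  have hqη : 1 ≤ η * q := by rwa [div_le_iff₀' hη] at hq
  refine ⟨(Finset.Ioo (-q : ℤ) q).image fun z : ℤ => (z : ℚ) / q, fun m hm => ?_, fun x hx => ?_⟩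
  · obtain ⟨z, hz, rfl⟩ := Finset.mem_image.1 hm
    obtain ⟨a, b⟩ := Finset.mem_Ioo.1 hz
    rw [lt_div_iff₀ hq1, div_lt_iff₀ hq1]
    constructor
    · have : ((-q : ℤ) : ℚ) < z := by exact_mod_cast a
      simpa using this
    · have : (z : ℚ) < ((q : ℤ) : ℚ) := by exact_mod_cast b
      simpa using this
  have key : ∀ z : ℤ, (-q : ℝ) < z → (z : ℝ) < q → |q * x - z| ≤ 1 → 0 ≤ (z : ℝ) * (q * x - z) →
      ∃ m ∈ (Finset.Ioo (-q : ℤ) q).image fun z : ℤ => (z : ℚ) / q,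
        |x - m| ≤ η ∧ 0 ≤ (m : ℝ) * (x - m) := by
    intro z a b c d
    refine ⟨_, Finset.mem_image.2 ⟨z, Finset.mem_Ioo.2 ⟨by exact_mod_cast a, by exact_mod_cast b⟩,
      rfl⟩, ?_, ?_⟩
    · have e : x - (((z : ℚ) / q : ℚ) : ℝ) = (q * x - z) / q := by push_cast; field_simp
      rw [e, abs_div, abs_of_pos hq0, div_le_iff₀ hq0]
      linarith
    · have e : (((z : ℚ) / q : ℚ) : ℝ) * (x - (((z : ℚ) / q : ℚ) : ℝ)) =
          z * (q * x - z) / q ^ 2 := by push_cast; field_simp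
      rw [e]
      positivity
  obtain ⟨h1, h2⟩ := abs_le.1 hx
  have h3 := mul_le_mul_of_nonneg_left h1 hq0.le
  have h4 := mul_le_mul_of_nonneg_left h2 hq0.le
  rcases lt_trichotomy x 0 with h | h | h
  · have a := Int.floor_le (q * x)
    have b := Int.lt_floor_add_one (q * x)
    have c : (⌊q * x⌋ : ℝ) + 1 ≤ 0 := by
      have : ⌊q * x⌋ < 0 := Int.floor_lt.2 (by simpa using mul_neg_of_pos_of_neg hq0 h)
      exact_mod_cast this
    refine key (⌊q * x⌋ + 1) ?_ ?_ ?_ ?_ <;> push_cast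
    · linarith
    · linarith
    · rw [abs_le]; constructor <;> linarith
    · exact mul_nonneg_of_nonpos_of_nonpos c (by linarith)
  · subst h
    exact key 0 (by simpa using hq0) (by simpa using hq0) (by simp) (by simp)
  · have a := Int.le_ceil (q * x)
    have b := Int.ceil_lt_add_one (q * x)
    have c : 0 ≤ (⌈q * x⌉ : ℝ) - 1 := by
      have : 0 < ⌈q * x⌉ := Int.ceil_pos.2 (mul_pos hq0 h)
      have : (1 : ℝ) ≤ ⌈q * x⌉ := by exact_mod_cast this
      linarith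
    refine key (⌈q * x⌉ - 1) ?_ ?_ ?_ ?_ <;> push_cast
    · linarith
    · linarith
    · rw [abs_le]; constructor <;> linarith
    · exact mul_nonneg c (by linarith)

/-- a finite covering of the configurations -/
theorem j3_cover {N : ℕ} {W : Type} [Fintype W] [Nonempty W] (lam : Fin N → ℝ)
    (f : (Fin N → Bool) → ℝ) (g : W → (Fin N → Bool) → ℝ) (a : W → ℝ)
    (h : ∀ σ, ∃ w, f σ ≤ g w σ + a w) (U : Orth N) :
    ∃ w, logZ lam f U ≤ logZ lam (g w) U + a w + log (Fintype.card W) := by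
  obtain ⟨w, hw⟩ := Finite.exists_max fun w => logZ lam (g w) U + a w
  have hc : (0 : ℝ) < Fintype.card W := Nat.cast_pos.2 Fintype.card_pos
  refine ⟨w, ?_⟩
  have h1 : exp (logZ lam f U) ≤ ∑ w', exp (logZ lam (g w') U + a w') := by
    have e : ∀ (f : (Fin N → Bool) → ℝ) (a : ℝ), exp (logZ lam f U + a) = (1 / 2 : ℝ) ^ N *
        ∑ σ : Fin N → Bool, exp ((1 / 2) * (∑ i, lam i * sv U σ i ^ 2) + f σ + a) := fun f a => by
      rw [exp_add, logZ, exp_log (Z_pos lam f U), mul_assoc, Finset.sum_mul]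
      simp only [← exp_add]
    rw [← add_zero (logZ lam f U), e]
    simp only [e, ← Finset.mul_sum]
    refine mul_le_mul_of_nonneg_left ?_ (by positivity)
    rw [Finset.sum_comm]
    refine Finset.sum_le_sum fun σ _ => ?_
    obtain ⟨w', hw'⟩ := h σ
    refine le_trans ?_ (Finset.single_le_sum (fun _ _ => (exp_pos _).le) (Finset.mem_univ w'))
    exact exp_le_exp.2 (by linarith)
  have h2 : ∑ w', exp (logZ lam (g w') U + a w') ≤ ∑ w' : W, exp (logZ lam (g w) U + a w) :=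
    Finset.sum_le_sum fun w' _ => exp_le_exp.2 (hw w')
  rw [Finset.sum_const, Finset.card_univ, nsmul_eq_mul] at h2
  rw [← exp_le_exp, exp_add, exp_log hc, mul_comm]
  exact h1.trans h2

theorem j3_group {N J : ℕ} (lab : Fin N → Fin J) (mag b : Fin J → ℝ) (σ : Fin N → Bool) :
    ∑ r, b (lab r) * (spinVec σ r - mag (lab r)) = ∑ j, b j * yv lab mag j σ := by
  rw [← Finset.sum_fiberwise Finset.univ lab]
  refine Finset.sum_congr rfl fun j _ => ?_
  rw [yv, Finset.mul_sum]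
  refine Finset.sum_congr rfl fun r hr => ?_
  rw [(Finset.mem_filter.1 hr).2]

/-- the window around the magnetisations `mag` -/
def j3Win {N J : ℕ} (lab : Fin N → Fin J) (mag : Fin J → ℝ) (η : ℝ) (σ : Fin N → Bool) : Prop :=
  ∀ j, |yv lab mag j σ| ≤ η * N ∧ 0 ≤ mag j * yv lab mag j σ

theorem j3_win {N J : ℕ} (lab : Fin N → Fin J) {η : ℝ} (hη : 0 ≤ η) {T : Finset ℚ}
    (hT : ∀ x : ℝ, |x| ≤ 1 → ∃ m ∈ T, |x - m| ≤ η ∧ 0 ≤ (m : ℝ) * (x - m)) (σ : Fin N → Bool) :
    ∃ w : Fin J → T, j3Win lab (fun j => ((w j : ℚ) : ℝ)) η σ := by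
  have key : ∀ j, ∃ m : T, |∑ r ∈ fib lab j, (spinVec σ r - ((m : ℚ) : ℝ))| ≤ η * N ∧
      0 ≤ ((m : ℚ) : ℝ) * ∑ r ∈ fib lab j, (spinVec σ r - ((m : ℚ) : ℝ)) := by
    intro j
    rcases (fib lab j).eq_empty_or_nonempty with h | h
    · obtain ⟨m, hm, -⟩ := hT 0 (by simp)
      refine ⟨⟨m, hm⟩, ?_⟩
      rw [h]
      simp only [Finset.sum_empty, abs_zero, mul_zero, le_refl, and_true]
      positivity
    have hc : (0 : ℝ) < (fib lab j).card := Nat.cast_pos.2 h.card_pos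
    have hN : ((fib lab j).card : ℝ) ≤ N := by
      exact_mod_cast (Finset.card_le_univ _).trans_eq (Fintype.card_fin N)
    obtain ⟨m, hm, a, b⟩ := hT ((∑ r ∈ fib lab j, spinVec σ r) / (fib lab j).card) (by
      rw [abs_div, abs_of_pos hc, div_le_one hc]
      refine (Finset.abs_sum_le_sum_abs _ _).trans (le_of_eq ?_)
      simp [abs_spinVec])
    have e : ∑ r ∈ fib lab j, (spinVec σ r - (m : ℝ)) =
        ((∑ r ∈ fib lab j, spinVec σ r) / (fib lab j).card - m) * (fib lab j).card := by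
      rw [Finset.sum_sub_distrib, Finset.sum_const, nsmul_eq_mul]
      field_simp
    refine ⟨⟨m, hm⟩, ?_, ?_⟩
    · simp only
      rw [e, abs_mul, abs_of_pos hc]
      exact mul_le_mul a hN hc.le hη
    · simp only
      rw [e, ← mul_assoc]
      exact mul_nonneg b hc.le
  choose w hw using key
  exact ⟨w, hw⟩

open Classical in
/-- the soft indicator of a window -/
noncomputable def j3f {N J : ℕ} (lab : Fin N → Fin J) (mag : Fin J → ℝ) (η Λb : ℝ)
    (σ : Fin N → Bool) : ℝ := if j3Win lab mag η σ then 0 else -(2 * |Λb| * N)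

theorem j3f_nonpos {N J : ℕ} (lab : Fin N → Fin J) (mag : Fin J → ℝ) (η Λb : ℝ)
    (σ : Fin N → Bool) : j3f lab mag η Λb σ ≤ 0 := by
  unfold j3f
  split_ifs
  · exact le_rfl
  · exact neg_nonpos.2 (by positivity)

theorem j3f_le {N J : ℕ} (lab : Fin N → Fin J) {mag : Fin J → ℝ} (hm : ∀ j, |mag j| ≤ 1)
    (η Λb : ℝ) (b : Fin J → ℝ) (hb : BOK mag Λb b) (σ : Fin N → Bool) :
    j3f lab mag η Λb σ ≤ ∑ r, b (lab r) * (spinVec σ r - mag (lab r)) := by
  unfold j3f
  split_ifs with h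
  · rw [j3_group]
    refine Finset.sum_nonneg fun j _ => ?_
    by_cases h0 : mag j = 0
    · rw [(hb j).2.2 h0, zero_mul]
    · have h1 := mul_nonneg (hb j).2.1 (h j).2
      have h2 : 0 < mag j ^ 2 := by positivity
      refine nonneg_of_mul_nonneg_left (a := b j * yv lab mag j σ) (b := mag j ^ 2) ?_ h2
      linarith
  · have : ∑ r : Fin N, -(2 * |Λb|) ≤ ∑ r, b (lab r) * (spinVec σ r - mag (lab r)) := by
      refine Finset.sum_le_sum fun r _ => (abs_le.1 ?_).1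
      rw [abs_mul, mul_comm]
      refine mul_le_mul ((abs_sub _ _).trans ?_) ((hb _).1.trans (le_abs_self _)) (abs_nonneg _)
        zero_le_two
      rw [abs_spinVec]
      linarith [hm (lab r)]
    simp only [Finset.sum_const, Finset.card_univ, Fintype.card_fin, nsmul_eq_mul] at this
    linarith

theorem j3_field {N J : ℕ} (lab : Fin N → Fin J) {mag γ : Fin J → ℝ} (hm : ∀ j, |mag j| ≤ 1)
    (c : Fin J → ℝ) {η : ℝ} (Λb : ℝ) (hlab : ∀ j, |((fib lab j).card : ℝ) - γ j * N| ≤ η * N)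
    {σ : Fin N → Bool} (h : j3Win lab mag η σ) : ∑ r, c (lab r) * spinVec σ r ≤
      j3f lab mag η Λb σ + N * (∑ j, γ j * c j * mag j + 2 * η * ∑ j, |c j|) := by
  have e1 : ∑ r, c (lab r) * spinVec σ r =
      ∑ j, (c j * yv lab mag j σ + (fib lab j).card * (c j * mag j)) := by
    rw [Finset.sum_add_distrib, ← j3_group]
    simp only [mul_sub, Finset.sum_sub_distrib]
    rw [← Finset.sum_fiberwise Finset.univ lab fun r => c (lab r) * mag (lab r)]
    have : ∀ j, ∑ r ∈ Finset.univ.filter fun r => lab r = j, c (lab r) * mag (lab r) =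
        (fib lab j).card * (c j * mag j) := fun j => by
      rw [← nsmul_eq_mul, ← Finset.sum_const]
      exact Finset.sum_congr rfl fun r hr => by rw [(Finset.mem_filter.1 hr).2]
    simp only [this]
    ring
  rw [j3f, if_pos h, zero_add, e1, Finset.mul_sum, ← Finset.sum_add_distrib, Finset.mul_sum]
  refine Finset.sum_le_sum fun j _ => ?_
  have a1 : c j * yv lab mag j σ ≤ |c j| * (η * N) :=
    (le_abs_self _).trans (by rw [abs_mul]; exact mul_le_mul_of_nonneg_left (h j).1 (abs_nonneg _))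
  have a2 : (((fib lab j).card : ℝ) - γ j * N) * (c j * mag j) ≤ η * N * |c j| := by
    refine (le_abs_self _).trans ?_
    rw [abs_mul, abs_mul]
    exact mul_le_mul (hlab j) (mul_le_of_le_one_right (abs_nonneg _) (hm j)) (by positivity)
      ((abs_nonneg _).trans (hlab j))
  linarith

theorem tail_upper {μ : Measure ℝ} [IsProbabilityMeasure μ] {lo hi : ℝ} (hle : lo ≤ hi)
    (hsupp : μ (Set.Icc lo hi) = 1)
    (hedge : ∀ ε : ℝ, 0 < ε →
      0 < μ (Set.Icc lo (lo + ε)) ∧ 0 < μ (Set.Icc (hi - ε) hi))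
    {eig : (N : ℕ) → Fin N → ℝ}
    (hweak : ∀ φ : ℝ → ℝ, Continuous φ → (∃ C : ℝ, ∀ x, |φ x| ≤ C) →
      Filter.Tendsto (fun N : ℕ => (1 / (N : ℝ)) * ∑ i : Fin N, φ (eig N i)) Filter.atTop
        (nhds (∫ x, φ x ∂μ)))
    (hext : ∀ ε : ℝ, 0 < ε → ∀ᶠ N : ℕ in Filter.atTop, ∀ i : Fin N,
      lo - ε ≤ eig N i ∧ eig N i ≤ hi + ε)
    {J : ℕ} (cval : Fin J → ℝ) (γ : Fin J → ℚ) (hγpos : ∀ j, 0 < γ j) (hγsum : ∑ j, γ j = 1)
    (lab : (N : ℕ) → Fin N → Fin J)
    (hprop : ∀ j : Fin J, Filter.Tendsto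
      (fun N : ℕ => ((Finset.univ.filter fun r : Fin N => lab N r = j).card : ℝ) / (N : ℝ))
      Filter.atTop (nhds ((γ j : ℚ) : ℝ))) {F : ℝ}
    (hF : ∀ m : Fin J → ℚ, (∀ j, -1 < m j ∧ m j < 1) → ∀ ε > 0, ∃ (p : ℝ → ℝ) (y : ℝ),
        IsTrialPath p ∧ SLe (fun j => (γ j : ℝ)) (fun j => (m j : ℝ)) p y ∧
        ∑ j, (γ j : ℝ) * cval j * (m j : ℝ) + y + spectralPart μ hi p ≤ F + ε)
    {ε : ℝ} (hε : 0 < ε) : ∃ c > 0, ∀ᶠ N : ℕ in Filter.atTop,
      (haar N).real {U | (F + ε) * N ≤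
        logZ (eig N) (fun σ => ∑ r, cval (lab N r) * spinVec σ r) U} ≤ exp (-(c * N)) := by
  obtain ⟨S, hS, hperm⟩ := exists_spec_upper hle hsupp hedge hweak hext (ε := ε / 8) (by positivity)
  obtain ⟨η, hη, hηC⟩ : ∃ η : ℝ, 0 < η ∧ 2 * η * ∑ j, |cval j| ≤ ε / 8 := by
    have hC : 0 ≤ ∑ j, |cval j| := Finset.sum_nonneg fun _ _ => abs_nonneg _
    refine ⟨ε / 16 / (∑ j, |cval j| + 1), by positivity, ?_⟩
    rw [mul_assoc, div_mul_eq_mul_div, ← mul_div_assoc, div_le_iff₀ (by positivity)]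
    nlinarith
  obtain ⟨T, hT1, hT⟩ := j3_net hη
  have hne : Nonempty (Fin J → T) := by
    obtain ⟨m, hm, -⟩ := hT 0 (by simp)
    exact ⟨fun _ => ⟨m, hm⟩⟩
  have hm : ∀ (w : Fin J → T) j, |((w j : ℚ) : ℝ)| < 1 := fun w j => by
    obtain ⟨a, b⟩ := hT1 _ (w j).2
    rw [abs_lt]
    exact ⟨by exact_mod_cast a, by exact_mod_cast b⟩
  choose p y hp hy hFp using fun w : Fin J → T =>
    hF (fun j => w j) (fun j => hT1 _ (w j).2) (ε / 8) (by positivity)
  choose m Λb hm0 hup using fun w : Fin J → T =>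
    upper S (γ := fun j => (γ j : ℝ)) (fun j => by exact_mod_cast (hγpos j).le)
      (by exact_mod_cast hγsum) (hm w) (hp w) (hy w) (ε := ε / 8) (by positivity)
  obtain ⟨w0, hw0⟩ := Finite.exists_min m
  have hm00 := hm0 w0
  refine ⟨m w0 * (ε / 4), by positivity, ?_⟩
  have hlab' : ∀ᶠ N : ℕ in Filter.atTop, ∀ j, |((fib (lab N) j).card : ℝ) / N - γ j| < η :=
    Filter.eventually_all.2 fun j => (Metric.tendsto_nhds.1 (hprop j) η hη).mono fun N h => by
      rwa [Real.dist_eq] at h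
  obtain ⟨L, hL⟩ : ∃ L : ℝ, L = log (Fintype.card (Fin J → T)) := ⟨_, rfl⟩
  filter_upwards [hperm, hlab', Filter.eventually_all.2 fun w => hup w lab hprop,
    Filter.eventually_gt_atTop 0,
    (tendsto_natCast_atTop_atTop (R := ℝ)).eventually_ge_atTop (L / (ε / 8)),
    (tendsto_natCast_atTop_atTop (R := ℝ)).eventually_ge_atTop (L / (m w0 * (ε / 8)))]
    with N ⟨ς, hς⟩ n1 n2 n3 n4 n5
  have hN : (0 : ℝ) < N := Nat.cast_pos.2 n3
  rw [div_le_iff₀ (by positivity)] at n4 n5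
  have n1' : ∀ j, |((fib (lab N) j).card : ℝ) - γ j * N| ≤ η * N := fun j => by
    have := (n1 j).le
    rwa [div_sub' hN.ne', abs_div, abs_of_pos hN, div_le_iff₀ hN, mul_comm (N : ℝ)] at this
  obtain ⟨f, hf⟩ : ∃ f : (Fin N → Bool) → ℝ, f = fun σ => ∑ r, cval (lab N r) * spinVec σ r :=
    ⟨_, rfl⟩
  rw [← hf]
  have e1 : (haar N).real {U | (F + ε) * N ≤ logZ (eig N) f U} =
      (haar N).real {U | (F + ε) * N ≤ logZ (fun i => eig N (ς i)) f U} := by
    have h1 := congrArg (fun ν : Measure ℝ => ν.real (Set.Ici ((F + ε) * N)))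
      (map_logZ_perm_row ς (eig N) f)
    simp only [map_measureReal_apply (measurable_logZ _ _) measurableSet_Ici] at h1
    exact h1.symm
  obtain ⟨a, ha⟩ : ∃ a : (Fin J → T) → ℝ, a = fun w =>
    N * (∑ j, (γ j : ℝ) * cval j * ((w j : ℚ) : ℝ) + 2 * η * ∑ j, |cval j|) := ⟨_, rfl⟩
  have hsub : {U | (F + ε) * N ≤ logZ (fun i => eig N (ς i)) f U} ⊆ ⋃ w : Fin J → T,
      {U | (F + ε) * N - a w - L ≤ logZ (fun i => S.lam (per S.k N i))
        (j3f (lab N) (fun j => ((w j : ℚ) : ℝ)) η (Λb w)) U} := by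
    intro U hU
    have h1 := logZ_le (lam := fun i => eig N (ς i)) (lam' := fun i => S.lam (per S.k N i))
      (f := f) (f' := f) (δ := 0) (D := 0) (fun i => by simpa using hς i) (fun σ => by simp) U
    obtain ⟨w, hw⟩ := j3_cover (fun i => S.lam (per S.k N i)) f
      (fun w : Fin J → T => j3f (lab N) (fun j => ((w j : ℚ) : ℝ)) η (Λb w)) a (fun σ => by
        obtain ⟨w, hw⟩ := j3_win (lab N) hη.le hT σ
        refine ⟨w, ?_⟩
        rw [hf, ha]
        exact j3_field (lab N) (fun j => (hm w j).le) cval (Λb w) n1' hw) U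
    refine Set.mem_iUnion.2 ⟨w, ?_⟩
    simp only [Set.mem_ofPred_eq] at hU ⊢
    rw [← hL] at hw
    linarith
  rw [e1]
  refine (measureReal_mono hsub).trans ((measureReal_iUnion_fintype_le _).trans ?_)
  have hb : ∀ w : Fin J → T, (haar N).real {U | (F + ε) * N - a w - L ≤
      logZ (fun i => S.lam (per S.k N i))
        (j3f (lab N) (fun j => ((w j : ℚ) : ℝ)) η (Λb w)) U} ≤
      exp (-(m w0 * (3 * ε / 8 * N))) := fun w => by
    refine (tail_le_of_fm (hm0 w) _ _ _).trans (exp_le_exp.2 ?_)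
    have h1 := n2 w _ (j3f_nonpos (lab N) (fun j => ((w j : ℚ) : ℝ)) η (Λb w))
      (j3f_le (lab N) (fun j => (hm w j).le) η (Λb w))
    have h2 : y w + S.G (p w) + ε / 8 + (∑ j, (γ j : ℝ) * cval j * ((w j : ℚ) : ℝ) +
        2 * η * ∑ j, |cval j|) ≤ F + ε / 2 := by linarith [hFp w, hS _ (hp w)]
    have h3 := mul_le_mul_of_nonneg_left h2 hN.le
    have h4 : fm (m w) (fun i => S.lam (per S.k N i))
        (j3f (lab N) (fun j => ((w j : ℚ) : ℝ)) η (Λb w)) - ((F + ε) * N - a w - L) ≤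
        -(3 * ε / 8 * N) := by
      rw [ha]
      simp only
      linarith
    refine (mul_le_mul_of_nonneg_left h4 (hm0 w).le).trans ?_
    rw [mul_neg]
    exact neg_le_neg (mul_le_mul_of_nonneg_right (hw0 w) (by positivity))
  refine (Finset.sum_le_sum fun w _ => hb w).trans ?_
  have hc : (0 : ℝ) < Fintype.card (Fin J → T) := Nat.cast_pos.2 Fintype.card_pos
  rw [Finset.sum_const, Finset.card_univ, nsmul_eq_mul, ← exp_log hc, ← exp_add, ← hL]
  exact exp_le_exp.2 (by linarith)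

end Crest.Agent.R164
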