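import Crest.Agent.R164.L5
import Crest.Agent.R164.C2
import Crest.Agent.R164.S6
import Crest.Agent.R164.J1
import Crest.Agent.R164.J2

/-! # The lower tail

Take `m` from `hF`, `q` from `exists_pattern`, `S` from `exists_spec_lower`, the pattern `pat`,
`x = F - 2ε' - Σ γ c m` (`sle_pattern`).  By `lower`, `fm s ≥ N (F - 3ε')` for every small `s`; since
`logZ ≤ C N`, `tail_ge_of_fm` gives `haar {logZ ≥ N (F - 4ε')} ≥ ½ exp (-2 s C' N)`; `logZ_conc`
and `s ≪ c ε'²` give an exponentially small probability for `{logZ ≤ N (F - 5ε')}` in the periodic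
model.  Transfer by `logZ_le`, `map_logZ_perm_row`, `map_logZ_perm_site`, `exists_perm_lab`
(`card_per`; the fields differ on `o(N)` sites). -/

set_option autoImplicit false
set_option linter.unusedVariables false
set_option linter.unusedSectionVars false

open MeasureTheory ProbabilityTheory Real Crest.ProbabilityR.InvariantGlass
open scoped ENNReal

namespace Crest.Agent.R164

theorem j4_sum_fib {ι κ : Type} [Fintype ι] [Fintype κ] [DecidableEq κ] (g : ι → κ) (f : κ → ℝ) :
    ∑ i, f (g i) = ∑ j, ((Finset.univ.filter fun i => g i = j).card : ℝ) * f j := by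
  rw [← Finset.sum_fiberwise Finset.univ g fun i => f (g i)]
  refine Finset.sum_congr rfl fun j _ => ?_
  rw [Finset.sum_congr rfl fun i hi => congrArg f (Finset.mem_filter.1 hi).2, Finset.sum_const,
    nsmul_eq_mul]

theorem j4_card {J k : ℕ} (N : ℕ) (pat : Fin (k + 1) → Fin J) (j : Fin J) {g : ℝ}
    (h : ((Finset.univ.filter fun b => pat b = j).card : ℝ) = g * ((k : ℝ) + 1)) :
    |((Finset.univ.filter fun r : Fin N => pat (per k N r) = j).card : ℝ) - g * N| ≤ k + 1 := by
  have hk : (0 : ℝ) < (k : ℝ) + 1 := by positivity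
  have e1 : ((Finset.univ.filter fun r : Fin N => pat (per k N r) = j).card : ℝ) =
      ∑ b ∈ Finset.univ.filter fun b => pat b = j,
        ((Finset.univ.filter fun r : Fin N => per k N r = b).card : ℝ) := by
    rw [Finset.card_filter, Nat.cast_sum, Finset.sum_filter]
    have := j4_sum_fib (per k N) fun b => if pat b = j then (1 : ℝ) else 0
    simpa using this
  have e2 : g * N = ∑ b ∈ Finset.univ.filter fun b => pat b = j, (N : ℝ) / (k + 1) := by
    rw [Finset.sum_const, nsmul_eq_mul, h]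
    field_simp
  rw [e1, e2, ← Finset.sum_sub_distrib]
  refine (Finset.abs_sum_le_sum_abs _ _).trans
    ((Finset.sum_le_card_nsmul _ _ 1 fun b _ => card_per k N b).trans ?_)
  rw [nsmul_eq_mul, mul_one]
  have := Finset.card_le_univ (Finset.univ.filter fun b => pat b = j)
  rw [Fintype.card_fin] at this
  exact_mod_cast this

theorem j4_real_map {N : ℕ} {lam lam' : Fin N → ℝ} {f f' : (Fin N → Bool) → ℝ}
    (h : (haar N).map (logZ lam f) = (haar N).map (logZ lam' f')) (t : ℝ) :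
    (haar N).real {U | logZ lam f U ≤ t} = (haar N).real {U | logZ lam' f' U ≤ t} := by
  have e : ∀ (lam : Fin N → ℝ) (f : (Fin N → Bool) → ℝ),
      (haar N).real {U | logZ lam f U ≤ t} = ((haar N).map (logZ lam f)).real (Set.Iic t) :=
    fun lam f => (map_measureReal_apply (measurable_logZ lam f) measurableSet_Iic).symm
  rw [e, e, h]

theorem j4_field {N J : ℕ} (cval : Fin J → ℝ) (l l' : Fin N → Fin J) (σ : Fin N → Bool) :
    ∑ r, cval (l' r) * spinVec σ r ≤ ∑ r, cval (l r) * spinVec σ r +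
      ((Finset.univ.filter fun r => l r ≠ l' r).card : ℝ) * (2 * ∑ j, |cval j|) := by
  have hc : ∀ j, |cval j| ≤ ∑ j, |cval j| := fun j =>
    Finset.single_le_sum (f := fun j => |cval j|) (fun _ _ => abs_nonneg _) (Finset.mem_univ j)
  rw [← nsmul_eq_mul, ← Finset.sum_const, Finset.sum_filter, ← Finset.sum_add_distrib]
  refine Finset.sum_le_sum fun r _ => ?_
  split_ifs with h
  · have h1 := le_abs_self (cval (l' r) * spinVec σ r)
    have h2 := neg_abs_le (cval (l r) * spinVec σ r)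
    rw [abs_mul, abs_spinVec, mul_one] at h1 h2
    linarith [hc (l r), hc (l' r)]
  · rw [not_not.1 h, add_zero]

theorem j4_exp {a b : ℝ} (ha : 0 < a) : ∀ᶠ N : ℕ in Filter.atTop, b ≤ exp (a * N) :=
  (tendsto_exp_atTop.comp
    (tendsto_natCast_atTop_atTop.const_mul_atTop ha)).eventually_ge_atTop b

theorem tail_lower {μ : Measure ℝ} [IsProbabilityMeasure μ] {lo hi : ℝ} (hle : lo ≤ hi)
    (hsupp : μ (Set.Icc lo hi) = 1)
    (hedge : ∀ ε : ℝ, 0 < ε →
      0 < μ (Set.Icc lo (lo + ε)) ∧ 0 < μ (Set.Icc (hi - ε) hi))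
    {eig : (N : ℕ) → Fin N → ℝ}
    (hweak : ∀ φ : ℝ → ℝ, Continuous φ → (∃ C : ℝ, ∀ x, |φ x| ≤ C) →
      Filter.Tendsto (fun N : ℕ => (1 / (N : ℝ)) * ∑ i : Fin N, φ (eig N i)) Filter.atTop
        (nhds (∫ x, φ x ∂μ)))
    (hext : ∀ ε : ℝ, 0 < ε → ∀ᶠ N : ℕ in Filter.atTop, ∀ i : Fin N,
      lo - ε ≤ eig N i ∧ eig N i ≤ hi + ε)
    {J : ℕ} (cval : Fin J → ℝ) (γ : Fin J → ℚ) (hγpos : ∀ j, 0 < γ j) (hγsum : ∑ j, γ j = 1)
    (lab : (N : ℕ) → Fin N → Fin J)
    (hprop : ∀ j : Fin J, Filter.Tendsto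
      (fun N : ℕ => ((Finset.univ.filter fun r : Fin N => lab N r = j).card : ℝ) / (N : ℝ))
      Filter.atTop (nhds ((γ j : ℚ) : ℝ))) {F : ℝ}
    (hF : ∀ ε > 0, ∃ m : Fin J → ℚ, (∀ j, -1 < m j ∧ m j < 1) ∧ ∀ (p : ℝ → ℝ) (y : ℝ),
        IsTrialPath p → SLe (fun j => (γ j : ℝ)) (fun j => (m j : ℝ)) p y →
        F - ε ≤ ∑ j, (γ j : ℝ) * cval j * (m j : ℝ) + y + spectralPart μ hi p)
    {ε : ℝ} (hε : 0 < ε) : ∃ c > 0, ∀ᶠ N : ℕ in Filter.atTop,
      (haar N).real {U | logZ (eig N) (fun σ => ∑ r, cval (lab N r) * spinVec σ r) U ≤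
        (F - ε) * N} ≤ exp (-(c * N)) := by
  obtain ⟨e, he, rfl⟩ : ∃ e : ℝ, 0 < e ∧ ε = 6 * e := ⟨ε / 6, by positivity, by ring⟩
  obtain ⟨m, hm, hFm⟩ := hF e he
  obtain ⟨q, hq0, hq⟩ := exists_pattern γ hγpos hγsum
  obtain ⟨S, hS, hSG, hSe⟩ := exists_spec_lower hle hsupp hedge hweak hext he hq0
  obtain ⟨pat, hpat⟩ := hq S.k hS
  obtain ⟨c, hc, hconc⟩ := logZ_conc S
  have hk : (0 : ℝ) < (S.k : ℝ) + 1 := by positivity
  set Cc := ∑ j, |cval j| with hCc
  have hCc0 : 0 ≤ Cc := Finset.sum_nonneg fun _ _ => abs_nonneg _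
  have hcj : ∀ j, |cval j| ≤ Cc := fun j =>
    Finset.single_le_sum (f := fun j => |cval j|) (fun _ _ => abs_nonneg _) (Finset.mem_univ j)
  have hΛ := S.Λ_nonneg
  set K := S.Λ / 2 + Cc + |F| + 4 * e with hK
  have hK0 : 0 < K := by positivity
  set s := min (1 / 2) (c * e ^ 2 / (2 * K)) with hs
  have hs0 : 0 < s := by positivity
  have hs1 : s < 1 := (min_le_left _ _).trans_lt (by norm_num)
  have hs2 : s * K ≤ c * e ^ 2 / 2 := by
    have := min_le_right (1 / 2) (c * e ^ 2 / (2 * K))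
    rw [← hs, le_div_iff₀ (by positivity)] at this
    linarith
  have hav : S.av (fun b => cval (pat b) * (m (pat b) : ℝ)) =
      ∑ j, (γ j : ℝ) * cval j * (m j : ℝ) := by
    rw [Spec.av, j4_sum_fib pat fun j => cval j * (m j : ℝ), div_eq_iff hk.ne', Finset.sum_mul]
    exact Finset.sum_congr rfl fun j _ => by rw [hpat]; ring
  have hlow := lower S (mag := fun b => (m (pat b) : ℝ))
    (fun b => abs_lt.2 ⟨by exact_mod_cast (hm _).1, by exact_mod_cast (hm _).2⟩)
    (fun b => cval (pat b)) (x := F - 2 * e - ∑ j, (γ j : ℝ) * cval j * (m j : ℝ))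
    (fun p hp y hy => by
      have h1 := hFm p y hp (sle_pattern pat hpat hy)
      have h2 := hSG p hp
      linarith) hs0 hs1 he
  rw [hav] at hlow
  set δ := e / (4 * (Cc + 1) * (J + 1)) with hδ
  have hδ0 : 0 < δ := by positivity
  have hlab : ∀ᶠ N : ℕ in Filter.atTop, ∀ j,
      |((Finset.univ.filter fun r : Fin N => lab N r = j).card : ℝ) / N - (γ j : ℝ)| < δ :=
    Filter.eventually_all.2 fun j => by
      simpa only [Real.dist_eq] using Metric.tendsto_nhds.1 (hprop j) δ hδ0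
  have hkN : ∀ᶠ N : ℕ in Filter.atTop, (S.k : ℝ) + 1 ≤ δ * N :=
    (tendsto_natCast_atTop_atTop.const_mul_atTop hδ0).eventually_ge_atTop _
  refine ⟨c * e ^ 2 / 4, by positivity, ?_⟩
  filter_upwards [hSe, hconc, hlow, hlab, hkN, j4_exp (b := 2) (mul_pos hs0 he),
    j4_exp (a := c * e ^ 2 / 4) (b := 4) (by positivity), Filter.eventually_gt_atTop 0]
    with N ⟨ς, hς⟩ h1 h2 h3 h4 h5 h6 hN
  have hN' : (0 : ℝ) < N := Nat.cast_pos.2 hN
  obtain ⟨ς', hς'⟩ := exists_perm_lab (lab N) (fun r => pat (per S.k N r)) (D := 2 * δ * N)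
    fun j => by
      have a1 := j4_card N pat j (hpat j)
      have a2 := mul_le_mul_of_nonneg_right (h3 j).le hN'.le
      rw [← abs_of_pos hN', ← abs_mul, abs_of_pos hN', sub_mul, div_mul_cancel₀ _ hN'.ne'] at a2
      rw [abs_le] at a1 a2 ⊢
      constructor <;> linarith [a1.1, a1.2, a2.1, a2.2]
  set lamP : Fin N → ℝ := fun i => S.lam (per S.k N i) with hlamP
  set fP : (Fin N → Bool) → ℝ := fun σ => ∑ r, cval (pat (per S.k N r)) * spinVec σ r with hfP
  -- transfer
  have t1 : (haar N).real {U | logZ (eig N) (fun σ => ∑ r, cval (lab N r) * spinVec σ r) U ≤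
      (F - 6 * e) * N} ≤ (haar N).real {U | logZ lamP fP U ≤ (F - 4 * e) * N - e * N} := by
    rw [← j4_real_map (map_logZ_perm_row ς _ _), ← j4_real_map (map_logZ_perm_site ς'.symm _ _)]
    refine measureReal_mono fun U hU => ?_
    have a1 := logZ_le (lam := lamP) (lam' := fun i => eig N (ς i)) (f := fP)
      (f' := fun σ => ∑ r, cval (lab N r) * spinVec (fun r => σ (ς'.symm r)) r) (δ := 0)
      (D := e * N) (fun i => by simpa using hς i) (fun σ => by
        have b1 := j4_field cval (fun r => lab N (ς' r)) (fun r => pat (per S.k N r)) σ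
        have b2 : ∑ r, cval (lab N r) * spinVec (fun r => σ (ς'.symm r)) r =
            ∑ r, cval (lab N (ς' r)) * spinVec σ r := by
          rw [← Equiv.sum_comp ς']
          simp [spinVec]
        have b3 := mul_le_mul_of_nonneg_right hς' (by positivity : 0 ≤ 2 * Cc)
        have b4 : δ * (4 * (Cc + 1) * (J + 1)) = e := by
          rw [hδ]
          field_simp
        have b5 : (J : ℝ) * Cc ≤ (Cc + 1) * (J + 1) := by
          have : (0 : ℝ) ≤ J := Nat.cast_nonneg J
          nlinarith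
        have b6 := mul_le_mul_of_nonneg_left b5 (by positivity : 0 ≤ 4 * δ * N)
        have b7 : (J : ℝ) * (2 * δ * N) * (2 * Cc) ≤ e * N := by
          rw [← b4]
          linarith
        rw [b2]
        exact b1.trans (by linarith)) U
    have a2 : logZ (fun i => eig N (ς i))
      (fun σ => ∑ r, cval (lab N r) * spinVec (fun r => σ (ς'.symm r)) r) U ≤ (F - 6 * e) * N := hU
    change logZ lamP fP U ≤ _
    linarith
  refine t1.trans ?_
  have t2 := h1 fP ((F - 4 * e) * N) e he.le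
  have t3 := tail_ge_of_fm hs0 (lam := lamP) (f := fP) (a := (F - 4 * e) * N)
    (C := S.Λ * N / 2 + Cc * N) fun U => (le_abs_self _).trans
      (abs_logZ_le (fun i => S.abs_lam_le _) (fun σ => by
        refine (Finset.abs_sum_le_sum_abs _ _).trans
          ((Finset.sum_le_card_nsmul _ _ Cc fun r _ => ?_).trans_eq ?_)
        · rw [abs_mul, abs_spinVec, mul_one]
          exact hcj _
        · rw [Finset.card_univ, Fintype.card_fin, nsmul_eq_mul, mul_comm]) U)
  have t0 : 0 ≤ (haar N).real {U | logZ lamP fP U ≤ (F - 4 * e) * N - e * N} := measureReal_nonneg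
  have t0' : 0 ≤ (haar N).real {U | (F - 4 * e) * N ≤ logZ lamP fP U} := measureReal_nonneg
  generalize (haar N).real {U | logZ lamP fP U ≤ (F - 4 * e) * N - e * N} = P at t0 t2 ⊢
  generalize (haar N).real {U | (F - 4 * e) * N ≤ logZ lamP fP U} = Q at t0' t2 t3
  have u1 : exp (s * ((F - 4 * e) * N)) * exp (s * e * N) ≤ exp (s * fm s lamP fP) := by
    rw [← exp_add, exp_le_exp]
    have := mul_le_mul_of_nonneg_left h2 hs0.le
    linarith
  have u2 : exp (s * ((F - 4 * e) * N)) ≤ exp (s * (S.Λ * N / 2 + Cc * N)) * Q := by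
    have := mul_le_mul_of_nonneg_left h5 (exp_pos (s * ((F - 4 * e) * N))).le
    linarith
  have u3 : exp (s * (S.Λ * N / 2 + Cc * N)) * exp (-(c * e ^ 2 * N)) * exp (c * e ^ 2 / 4 * N) ≤
      exp (s * ((F - 4 * e) * N)) * exp (-(c * e ^ 2 / 4 * N)) := by
    rw [← exp_add, ← exp_add, ← exp_add, exp_le_exp]
    have a1 := mul_le_mul_of_nonneg_right hs2 hN'.le
    have a2 := mul_le_mul_of_nonneg_left (neg_abs_le F) (by positivity : 0 ≤ s * N)
    rw [hK] at a1
    linarith
  refine le_of_mul_le_mul_left ?_ (exp_pos (s * ((F - 4 * e) * N)))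
  have u4 := mul_le_mul_of_nonneg_right u2 t0
  have u5 := mul_le_mul_of_nonneg_left t2 (exp_pos (s * (S.Λ * N / 2 + Cc * N))).le
  have u6 := mul_le_mul_of_nonneg_left h6
    (by positivity : 0 ≤ exp (s * (S.Λ * N / 2 + Cc * N)) * exp (-(c * e ^ 2 * N)))
  linarith

end Crest.Agent.R164
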