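import Crest.Agent.R164.O6Aux4

/-! # One-site recursion: the second variation along a line of variances

Notation: levels `a = 1..n` (entries of `L`), `E_a` the tilted expectation of level `a`,
`f_a, M_a, A_a = M_a'` at the list starting at `a`, `w_a` the slope of the variance,
`φ_1 = 0`, `φ_{a+1} = φ_a + w_a`, `e_{n+1} = 1`, `W_c = e_c - e_{c-1} ≥ 0`, dot = `∂_t`,
`𝓛_a ψ = ½ ψ'' + e_a M_a ψ'`, `Ψ_a = ½ (A_a + e_a M_a²)`; tilde versions `𝓛~_c, Ψ~_c` use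
`e_{c-1}` instead of `e_c`.  `c_a[ψ] = ψ'' - ψ' A_a'/A_a`.
`U^j_a = Σ_{r>a} W_r φ_r^j D_{a,r}` (`D_{a,r} = DL` after `r - a` levels),
`Û^j_c = U^j_c + W_c φ_c^j M_c²`, so `U^j_a = E_a Û^j_{a+1}`, `U^j_{n+1} = 0`.

* `Ψ_a = E_a Ψ~_{a+1}` (`cov_id_eq` for `M`), hence `Ψ_a = ½ - ½ U^0_a`, `Ψ~_c = ½ - ½ Û^0_c`.
* `ḟ_a = E_a ḟ_{a+1} + w_a Ψ_a` (`Path.gaussOp`, `tm_ibp`), hence
  `ḟ_a + φ_a Ψ_a = ½ φ_{n+1} - ½ U^1_a =: D_a` and `ḟ_c + φ_c Ψ~_c = ½ φ_{n+1} - ½ Û^1_c =: D~_c`,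
  `D_a = E_a D~_{a+1}`; `Ṁ_a = ḟ_a'` (`Path.integral`, `cov_id_eq`, and
  `½ Cov(ψ, u²) = 𝓛_a E_a ψ` from `hasDerivAt_tm`, `hasDerivAt_cov_tm`, `tm_mean`).
* `N_a = Ḋ_a + φ_a 𝓛_a D_a`, `N~_c = (D~_c)˙ + φ_c 𝓛~_c D~_c` satisfy
  `N_a = E_a N~_{a+1} + e_a Var_a (D~_{a+1})` (`Path.integral`, `cov_sq_eq`) and
  `N_c - N~_c = ½ W_c φ_c² A_c² + W_c φ_c M_c (D_c' + D~_c')`, while
  `D_c'² - D~_c'² = W_c φ_c M_c A_c (D_c' + D~_c')`.  So `Z = N - D'²/A` satisfies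
  `Z_c = Z~_c + ½ W_c φ_c² A_c²`, `Z_a = E_a Z~_{a+1} + 𝔅_a(D~, D~)`, `Z_{n+1} = 0`
  (`BF`; note `(E ψ)' = Cov(ψ,y)/v`, `A_a = Cov(M,y)/v`).
* `𝔅_a(ψ, Ψ~_{a+1}) = ½ c_a[E_a ψ] - ½ E_a c_{a+1}[ψ]` (`BF_psi`), `c[M²] = 2 A²`.
* `𝔅(Û^2, Û^0) - 𝔅(Û^1, Û^1) = ½ Σ_{r,r'} W_r W_{r'} (φ_r - φ_{r'})² 𝔅(D_r, D_{r'}) ≥ 0`
  (`BF_family`, `pot_fL`, `BF_affine`).
* By induction `Z_a ≤ - ¼ c_a[U^2_a] ≤ 0`:
  `Z~_c ≤ -¼ c[Û^2_c]`, `Z_a = E Z~ + ¼ 𝔅(Û^1,Û^1) ≤ -¼ E c[Û^2] + ¼ 𝔅(Û^2,Û^0) = -¼ c_a[U^2_a]`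
  (as `Û^0 = 1 - 2 Ψ~`), and `c_a[D] ≥ 0` because `D'/A` is monotone.
* Along `x(t) = b + β (t - t0)`: `F' = D_1 + β M_1` at `(t, x(t))` and
  `F''(t0) = Ḋ_1 + 2 β D_1' + β² A_1 = Z_1` for `β = - D_1'/A_1` (use `Path` with the moving
  base point; for `L = []` take `β = 0`).
All bounds are uniform for `t` in a small interval `U` around `t0` (variances `≥ vm`); carry
`∀ t ∈ U, ∀ x`, the `t`-derivatives of `f, M, D` and a uniform bound for them through the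
induction (generalise over the incoming `φ` and the previous exponent). -/

set_option autoImplicit false
set_option linter.unusedVariables false
set_option linter.unusedSectionVars false

open MeasureTheory ProbabilityTheory Real Crest.ProbabilityR.InvariantGlass
open scoped ENNReal

namespace Crest.Agent.R164

theorem second_var (L : List (ℝ × ℝ × ℝ)) (hs : LSort (Lt L 0)) {t0 : ℝ}
    (hv : ∀ q ∈ L, 0 < q.2.1 + t0 * q.2.2) (b : ℝ) :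
    ∃ (β c : ℝ) (F' : ℝ → ℝ), c ≤ 0 ∧
      (∀ᶠ t in nhds t0, HasDerivAt (fun t => fL (Lt L t) (b + β * (t - t0))) (F' t) t) ∧
      HasDerivAt F' c t0 := by
  obtain ⟨vm, hvm, hev⟩ := o6_nhds L hv
  obtain ⟨δ, hδ, hball⟩ := Metric.eventually_nhds_iff_ball.1 hev
  have hvU : ∀ q ∈ L, ∀ t ∈ Metric.ball t0 δ, vm ≤ q.2.1 + t * q.2.2 :=
    fun q hq t ht => hball t ht q hq
  have ht0 : t0 ∈ Metric.ball t0 δ := Metric.mem_ball_self hδ
  obtain ⟨κ, ud, h⟩ := o6_main Metric.isOpen_ball (convex_ball t0 δ) (R := |t0| + δ)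
    (fun s hs => by
      rw [Metric.mem_ball, Real.dist_eq] at hs
      linarith [abs_sub_abs_le_abs_sub s t0]) hvm L hs hvU (o6hd L) 0
  obtain ⟨B, hD⟩ := o6_reg hvm L hs hvU
  obtain ⟨hP, hD⟩ := hD t0 ht0
  have hA := hP.pA b
  set β := deriv (o6U 1 (o6hd L) 0 L t0) b / (2 * deriv (ML (Lt L t0)) b) with hβ
  refine ⟨β, _, fun t => (κ - o6U 1 (o6hd L) 0 L t (b + β * (t - t0))) / 2 +
    β * ML (Lt L t) (b + β * (t - t0)), ?_, ?_,
    (((h.du t0 ht0 b β).const_sub κ).div_const 2).add ((h.dM t0 ht0 b β).const_mul β)⟩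
  · have h1 := h.ineq t0 ht0 b
    have h2 : 0 ≤ deriv (deriv (o6U 2 (o6hd L) 0 L t0)) b -
        deriv (o6U 2 (o6hd L) 0 L t0) b * deriv (deriv (ML (Lt L t0))) b /
          deriv (ML (Lt L t0)) b := by
      have d := o6_sum (Finset.range (L.length + 1)) hD
        fun k => o6W (o6hd L) L k * o6p 0 L k ^ 2
      unfold o6U
      rw [d.2.1, d.1]
      simp only
      rw [Finset.sum_mul, Finset.sum_div, ← Finset.sum_sub_distrib]
      refine Finset.sum_nonneg fun k _ => ?_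
      have h3 := mul_nonneg (mul_nonneg (o6W_nonneg L _ hs le_rfl k) (sq_nonneg (o6p 0 L k)))
        (o6_c_nonneg hP (hD k) b)
      refine h3.trans_eq ?_
      ring
    have h3 := h2.trans h1
    rw [hβ]
    generalize deriv (o6U 1 (o6hd L) 0 L t0) b = a at *
    generalize deriv (ML (Lt L t0)) b = A at *
    have h4 : -(ud t0 b + a / (2 * A) * a) / 2 + a / (2 * A) * (-a / 2 - 0 *
        (deriv (deriv (ML (Lt L t0))) b / 2 + o6hd L * ML (Lt L t0) b * A) + a / (2 * A) * A) =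
        -(2 * ud t0 b + a ^ 2 / A) / 4 := by
      field_simp
      ring
    rw [h4]
    linarith
  · filter_upwards [Metric.isOpen_ball.mem_nhds ht0] with t ht
    have h1 := h.dg t ht (b + β * (t - t0)) β
    have h2 : (fun s => fL (Lt L s) (b + β * (t - t0) + β * (s - t))) =
        fun s => fL (Lt L s) (b + β * (s - t0)) := by
      funext s
      congr 1
      ring
    rw [h2] at h1
    refine h1.congr_deriv ?_
    ring

end Crest.Agent.R164
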