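import Crest.Agent.R164.O5

/-! # One-site recursion: the overlap path, the gradient, continuity -/

set_option autoImplicit false
set_option linter.unusedVariables false
set_option linter.unusedSectionVars false

open MeasureTheory ProbabilityTheory Real Crest.ProbabilityR.InvariantGlass
open scoped ENNReal

namespace Crest.Agent.R164

theorem O7_ok_tail {q : ℝ × ℝ} {L : List (ℝ × ℝ)} (h : LOK (q :: L)) : LOK L :=
  fun p hp => h p (List.mem_cons_of_mem _ hp)

theorem O7_continuous_tanh : Continuous tanh := by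
  have : tanh = fun x => sinh x / cosh x := funext fun x => tanh_eq_sinh_div_cosh x
  rw [this]
  exact continuous_sinh.div continuous_cosh fun x => (cosh_pos x).ne'

theorem O7_hasDerivAt_tanh (x : ℝ) : HasDerivAt tanh (1 - tanh x ^ 2) x := by
  have : tanh = fun x => sinh x / cosh x := funext fun x => tanh_eq_sinh_div_cosh x
  have h := (hasDerivAt_sinh x).div (hasDerivAt_cosh x) (cosh_pos x).ne'
  rw [tanh_eq_sinh_div_cosh x, this]
  refine h.congr_deriv ?_
  have := (cosh_pos x).ne'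
  field_simp

theorem O7_lip {L : List (ℝ × ℝ)} (h : ∀ q ∈ L, 0 ≤ q.1) : Lip1 (fL L) := by
  induction L with
  | nil => exact fL_lip (L := []) (fun q hq => by simp at hq)
  | cons q L ih =>
    exact (ih fun p hp => h p (List.mem_cons_of_mem _ hp)).gaussOp (h q List.mem_cons_self) _

theorem O7_abs_int_le {ν : Measure ℝ} [IsProbabilityMeasure ν] {φ : ℝ → ℝ} (h : ∀ y, |φ y| ≤ 1) :
    |∫ y, φ y ∂ν| ≤ 1 := by
  have := norm_integral_le_of_norm_le_const (μ := ν) (f := φ) (C := 1)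
    (Filter.Eventually.of_forall h)
  simpa using this

theorem O7_abs_ML {L : List (ℝ × ℝ)} (h : ∀ q ∈ L, 0 ≤ q.1) (x : ℝ) : |ML L x| ≤ 1 := by
  induction L generalizing x with
  | nil => exact (abs_ML_lt (L := []) (fun q hq => by simp at hq) x).le
  | cons q L ih =>
    have h' : ∀ p ∈ L, 0 ≤ p.1 := fun p hp => h p (List.mem_cons_of_mem _ hp)
    have := (O7_lip h').prob q.1 q.2 x
    exact O7_abs_int_le (ih h')

theorem O7_abs_sq {a : ℝ} (h : |a| ≤ 1) : |a ^ 2| ≤ 1 := by
  rw [abs_pow]; exact pow_le_one₀ (abs_nonneg _) h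

theorem O7_abs_PL {L : List (ℝ × ℝ)} (h : ∀ q ∈ L, 0 ≤ q.1) (s x : ℝ) : |PL L s x| ≤ 1 := by
  induction L generalizing x with
  | nil => exact O7_abs_sq (O7_abs_ML (L := []) h x)
  | cons q L ih =>
    have h' : ∀ p ∈ L, 0 ≤ p.1 := fun p hp => h p (List.mem_cons_of_mem _ hp)
    have := (O7_lip h').prob q.1 q.2 x
    simp only [PL]
    split_ifs
    · exact O7_abs_int_le (ih h')
    · exact O7_abs_sq (O7_abs_ML h x)

theorem O7_int_bdd {α : Type} [MeasurableSpace α] {ν : Measure α} [IsFiniteMeasure ν] {φ : α → ℝ}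
    (hm : Measurable φ) {B : ℝ} (h : ∀ y, |φ y| ≤ B) : Integrable φ ν :=
  Integrable.of_bound hm.aestronglyMeasurable B (Filter.Eventually.of_forall h)

theorem O7_meas_tm {α : Type} [MeasurableSpace α] {g : ℝ → ℝ} (h : Lip1 g) {φ : α → ℝ → ℝ}
    (hφ : Measurable fun p : α × ℝ => φ p.1 p.2) {x : α → ℝ} (hx : Measurable x) (e v : ℝ) :
    Measurable fun a => ∫ y, φ a y ∂(tm e v g (x a)) := by
  have hg := h.continuous.measurable
  have h1 : (fun a => ∫ y, φ a y ∂(tm e v g (x a))) = fun a =>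
      (∫ z, φ a (x a + √v * z) * exp (e * g (x a + √v * z)) ∂(gaussianReal 0 1)) /
        ∫ z, exp (e * g (x a + √v * z)) ∂(gaussianReal 0 1) :=
    funext fun a => integral_tm h (hφ.comp (measurable_const.prodMk measurable_id)) e v (x a)
  rw [h1]
  have hy : Measurable fun p : α × ℝ => x p.1 + √v * p.2 := by fun_prop
  have hE : Measurable fun p : α × ℝ => exp (e * g (x p.1 + √v * p.2)) :=
    measurable_exp.comp ((hg.comp hy).const_mul e)
  refine Measurable.div ?_ ?_
  · exact (StronglyMeasurable.integral_prod_right' (ν := gaussianReal 0 1)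
      (((hφ.comp (measurable_fst.prodMk hy)).mul hE).stronglyMeasurable)).measurable
  · exact (StronglyMeasurable.integral_prod_right' (ν := gaussianReal 0 1)
      hE.stronglyMeasurable).measurable

theorem measurable_PL {L : List (ℝ × ℝ)} (h : LOK L) :
    Measurable (fun p : ℝ × ℝ => PL L p.1 p.2) := by
  induction L with
  | nil => exact (O7_continuous_tanh.measurable.comp measurable_snd).pow_const 2
  | cons q L ih =>
    have h' := O7_ok_tail h
    simp only [PL]
    refine Measurable.ite (measurableSet_lt measurable_const measurable_fst) ?_ ?_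
    · exact O7_meas_tm (fL_lip h') (φ := fun (p : ℝ × ℝ) y => PL L p.1 y)
        ((ih h').comp (measurable_fst.fst.prodMk measurable_snd)) measurable_snd _ _
    · exact ((measurable_ML h).comp measurable_snd).pow_const 2

theorem O7_meas_PL {L : List (ℝ × ℝ)} (h : LOK L) (s : ℝ) : Measurable (PL L s) :=
  (measurable_PL h).comp (measurable_const.prodMk measurable_id)

theorem O7_meas_PL' {L : List (ℝ × ℝ)} (h : LOK L) (x : ℝ) : Measurable (fun s => PL L s x) :=
  (measurable_PL h).comp (measurable_id.prodMk measurable_const)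

theorem O7_memLp {ν : Measure ℝ} [IsFiniteMeasure ν] {φ : ℝ → ℝ}
    (hm : Measurable φ) {B : ℝ} (h : ∀ y, |φ y| ≤ B) : MemLp φ 2 ν :=
  MemLp.of_bound hm.aestronglyMeasurable B (Filter.Eventually.of_forall h)

theorem O7_cov_self {ν : Measure ℝ} [IsProbabilityMeasure ν] {φ : ℝ → ℝ}
    (hm : Measurable φ) {B : ℝ} (h : ∀ y, |φ y| ≤ B) :
    cov[φ, φ; ν] = ∫ y, φ y ^ 2 ∂ν - (∫ y, φ y ∂ν) ^ 2 := by
  rw [covariance_self hm.aemeasurable, variance_eq_sub (O7_memLp hm h)]
  rfl

theorem ML_sq_le_PL {L : List (ℝ × ℝ)} (h : LOK L) (s x : ℝ) : ML L x ^ 2 ≤ PL L s x := by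
  induction L generalizing x with
  | nil => exact le_rfl
  | cons q L ih =>
    have h' := O7_ok_tail h
    have h0 : ∀ p ∈ L, 0 ≤ p.1 := fun p hp => (h' p hp).1
    have := (fL_lip h').prob q.1 q.2 x
    simp only [PL]
    split_ifs
    · have h1 := O7_cov_self (ν := tm q.1 q.2 (fL L) x) (measurable_ML h') (O7_abs_ML h0)
      have h2 : 0 ≤ cov[ML L, ML L; tm q.1 q.2 (fL L) x] := by
        rw [covariance_self (measurable_ML h').aemeasurable]; exact variance_nonneg _ _
      have h3 : ∫ y, ML L y ^ 2 ∂(tm q.1 q.2 (fL L) x) ≤ ∫ y, PL L s y ∂(tm q.1 q.2 (fL L) x) :=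
        integral_mono (O7_int_bdd ((measurable_ML h').pow_const 2)
          (fun y => O7_abs_sq (O7_abs_ML h0 y))) (O7_int_bdd (O7_meas_PL h' s) (O7_abs_PL h0 s))
          (ih h')
      simp only [ML]
      linarith
    · exact le_rfl

theorem PL_le_one {L : List (ℝ × ℝ)} (h : LOK L) (s x : ℝ) : PL L s x ≤ 1 :=
  (le_abs_self _).trans (O7_abs_PL (fun p hp => (h p hp).1) s x)

theorem PL_mono {L : List (ℝ × ℝ)} (h : LOK L) (x : ℝ) : Monotone (fun s => PL L s x) := by
  induction L generalizing x with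
  | nil => exact fun s s' _ => le_rfl
  | cons q L ih =>
    intro s s' hss
    have h' := O7_ok_tail h
    have h0 : ∀ p ∈ L, 0 ≤ p.1 := fun p hp => (h' p hp).1
    have := (fL_lip h').prob q.1 q.2 x
    by_cases h1 : q.1 < s
    · have h2 : q.1 < s' := h1.trans_le hss
      simp only [PL, if_pos h1, if_pos h2]
      exact integral_mono (O7_int_bdd (O7_meas_PL h' s) (O7_abs_PL h0 s))
        (O7_int_bdd (O7_meas_PL h' s') (O7_abs_PL h0 s')) fun y => ih h' y hss
    · have := ML_sq_le_PL h s' x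
      simpa only [PL, if_neg h1] using this

theorem PL_of_le {L : List (ℝ × ℝ)} {s : ℝ} (hs : ∀ q ∈ L, s ≤ q.1) (x : ℝ) :
    PL L s x = ML L x ^ 2 := by
  cases L with
  | nil => rfl
  | cons q L => simp only [PL, if_neg (not_lt.2 (hs q List.mem_cons_self))]

/-- levels of zero variance can be dropped -/
theorem fL_filter (L : List (ℝ × ℝ)) (r : ℝ × ℝ → Bool) (hr : ∀ q ∈ L, r q = false → q.2 = 0) :
    fL (L.filter r) = fL L := by
  induction L with
  | nil => rfl
  | cons q L ih =>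
    have ih' := ih fun p hp => hr p (List.mem_cons_of_mem _ hp)
    cases hq : r q with
    | true => rw [List.filter_cons_of_pos hq]; simp only [fL, ih']
    | false =>
      rw [List.filter_cons_of_neg (by simp [hq]), ih']
      simp only [fL, hr q List.mem_cons_self hq, gaussOp_zero]

theorem ML_filter (L : List (ℝ × ℝ)) (r : ℝ × ℝ → Bool) (hr : ∀ q ∈ L, r q = false → q.2 = 0) :
    ML (L.filter r) = ML L := by
  induction L with
  | nil => rfl
  | cons q L ih =>
    have hr' : ∀ p ∈ L, r p = false → p.2 = 0 := fun p hp => hr p (List.mem_cons_of_mem _ hp)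
    have ih' := ih hr'
    cases hq : r q with
    | true => rw [List.filter_cons_of_pos hq]; simp only [ML, ih', fL_filter L r hr']
    | false =>
      rw [List.filter_cons_of_neg (by simp [hq]), ih']
      funext x
      simp only [ML, hr q List.mem_cons_self hq, tm_zero, integral_dirac]

theorem PL_filter {L : List (ℝ × ℝ)} (hs : L.Pairwise (fun p q => p.1 ≤ q.1)) (r : ℝ × ℝ → Bool)
    (hr : ∀ q ∈ L, r q = false → q.2 = 0) (s : ℝ) : PL (L.filter r) s = PL L s := by
  induction L with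
  | nil => rfl
  | cons q L ih =>
    have hr' : ∀ p ∈ L, r p = false → p.2 = 0 := fun p hp => hr p (List.mem_cons_of_mem _ hp)
    have ih' := ih (List.pairwise_cons.1 hs).2 hr'
    cases hq : r q with
    | true =>
      rw [List.filter_cons_of_pos hq]
      simp only [PL, ML, ih', fL_filter L r hr', ML_filter L r hr']
    | false =>
      rw [List.filter_cons_of_neg (by simp [hq]), ih']
      funext x
      simp only [PL, ML, hr q List.mem_cons_self hq, tm_zero, integral_dirac]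
      split_ifs with h1
      · rfl
      · exact PL_of_le (fun p hp => (not_lt.1 h1).trans ((List.pairwise_cons.1 hs).1 p hp)) x

theorem O7_tl_fubini {L : List (ℝ × ℝ)} (h : LOK L) (ν : Measure ℝ) [IsProbabilityMeasure ν]
    (ζ : ℝ) : ∫ y, tl (fun s => PL L s y) ζ ∂ν = tl (fun s => ∫ y, PL L s y ∂ν) ζ := by
  unfold tl
  have : IsFiniteMeasure (volume.restrict (Set.Ioo ζ 1)) :=
    isFiniteMeasure_restrict.2 (by simp)
  refine integral_integral_swap (f := fun y s => PL L s y) ?_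
  exact O7_int_bdd ((measurable_PL h).comp measurable_swap) (B := 1)
    fun p => O7_abs_PL (fun p hp => (h p hp).1) _ _

theorem O7_tl_cons (q : ℝ × ℝ) (L : List (ℝ × ℝ)) (x : ℝ) {ζ : ℝ} (hζ : q.1 ≤ ζ) :
    tl (fun s => PL (q :: L) s x) ζ = tl (fun s => ∫ y, PL L s y ∂(tm q.1 q.2 (fL L) x)) ζ := by
  unfold tl
  refine setIntegral_congr_fun measurableSet_Ioo fun s hs => ?_
  simp only [PL, if_pos (hζ.trans_lt hs.1)]

theorem O7_abs_tl {L : List (ℝ × ℝ)} (h : ∀ q ∈ L, 0 ≤ q.1) (x : ℝ) {ζ : ℝ} (h0 : 0 ≤ ζ) :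
    |tl (fun s => PL L s x) ζ| ≤ 1 := by
  unfold tl
  have := norm_setIntegral_le_of_norm_le_const (μ := volume) (s := Set.Ioo ζ 1)
    (f := fun s => PL L s x) (C := 1) (by simp) (fun s _ => O7_abs_PL h s x)
  refine this.trans ?_
  rw [one_mul, Real.volume_real_Ioo]
  exact max_le (by linarith) zero_le_one

theorem O7_meas_tl {L : List (ℝ × ℝ)} (h : LOK L) (ζ : ℝ) :
    Measurable fun x => tl (fun s => PL L s x) ζ :=
  (StronglyMeasurable.integral_prod_left' (μ := volume.restrict (Set.Ioo ζ 1))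
    (measurable_PL h).stronglyMeasurable).measurable

theorem O7_tl_split {q : ℝ × ℝ} {L : List (ℝ × ℝ)} (h : LOK (q :: L)) (x : ℝ) {e : ℝ}
    (he : e ≤ q.1) : tl (fun s => PL (q :: L) s x) e =
      (q.1 - e) * ML (q :: L) x ^ 2 + tl (fun s => PL (q :: L) s x) q.1 := by
  have h1 : q.1 ≤ 1 := (h q List.mem_cons_self).2.1
  have hi : ∀ a b : ℝ, IntervalIntegrable (fun s => PL (q :: L) s x) volume a b :=
    fun a b => (PL_mono h x).intervalIntegrable
  unfold tl
  rw [← integral_Ioc_eq_integral_Ioo, ← integral_Ioc_eq_integral_Ioo,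
    ← intervalIntegral.integral_of_le h1, ← intervalIntegral.integral_of_le (he.trans h1),
    ← intervalIntegral.integral_add_adjacent_intervals (hi e q.1) (hi q.1 1)]
  congr 1
  rw [intervalIntegral.integral_of_le he, setIntegral_congr_fun measurableSet_Ioc
    (g := fun _ => ML (q :: L) x ^ 2) fun s hs => by simp only [PL, if_neg (not_lt.2 hs.2)]]
  rw [← intervalIntegral.integral_of_le he]
  simp

theorem O7_sort_tail {q : ℝ × ℝ} {L : List (ℝ × ℝ)} (h : LSort (q :: L)) : LSort L :=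
  ⟨fun p hp => h.1 p (List.mem_cons_of_mem _ hp), (List.pairwise_cons.1 h.2).2⟩

theorem O7_ok_of_sort {L : List (ℝ × ℝ)} (hs : LSort L) (hv : ∀ q ∈ L, 0 < q.2) : LOK L :=
  fun q hq => ⟨(hs.1 q hq).1.le, (hs.1 q hq).2, (hv q hq).le⟩

theorem O7_exists_vm {L : List (ℝ × ℝ)} (hv : ∀ q ∈ L, 0 < q.2) :
    ∃ vm : ℝ, 0 < vm ∧ ∀ q ∈ L, vm ≤ q.2 := by
  induction L with
  | nil => exact ⟨1, one_pos, fun q hq => by simp at hq⟩
  | cons q L ih =>
    obtain ⟨vm, h0, h1⟩ := ih fun p hp => hv p (List.mem_cons_of_mem _ hp)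
    refine ⟨min vm q.2, lt_min h0 (hv q List.mem_cons_self), fun p hp => ?_⟩
    rcases List.mem_cons.1 hp with rfl | hp
    · exact min_le_right _ _
    · exact (min_le_left _ _).trans (h1 p hp)

theorem O7_pot {L : List (ℝ × ℝ)} (hs : LSort L) (hv : ∀ q ∈ L, 0 < q.2) :
    ∃ B : ℝ, 1 ≤ B ∧ (∀ x, HasDerivAt (ML L) (deriv (ML L) x) x) ∧ ∀ x, |deriv (ML L) x| ≤ B := by
  obtain ⟨vm, h0, h1⟩ := O7_exists_vm hv
  obtain ⟨B, hB, H⟩ := pot_fL h0
  have hP := (H L fun q hq => ⟨(hs.1 q hq).1, (hs.1 q hq).2, h1 q hq⟩).1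
  exact ⟨B, by linarith, hP.d2, fun x => by rw [abs_of_pos (hP.pA x)]; exact hP.bA x⟩

/-- `A + e M² = 1 - ∫_e^1 P` when `e` is below all exponents (induction: `A_a = E A + e_a Var M`
by `cov_id_eq`, Fubini in `s`, and `PL_of_le` on `(e, e_a]`) -/
theorem deriv_ML_eq {L : List (ℝ × ℝ)} (hs : LSort L) (hv : ∀ q ∈ L, 0 < q.2) {e : ℝ}
    (he0 : 0 ≤ e) (he1 : e ≤ 1) (he : ∀ q ∈ L, e ≤ q.1) (x : ℝ) :
    deriv (ML L) x + e * ML L x ^ 2 = 1 - tl (fun s => PL L s x) e := by
  induction L generalizing e x with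
  | nil =>
    simp only [ML, PL, tl, (O7_hasDerivAt_tanh x).deriv, setIntegral_const, smul_eq_mul,
      Real.volume_real_Ioo, max_eq_left (sub_nonneg.2 he1)]
    ring
  | cons q L ih =>
    have hs' := O7_sort_tail hs
    have hv' : ∀ p ∈ L, 0 < p.2 := fun p hp => hv p (List.mem_cons_of_mem _ hp)
    have ok := O7_ok_of_sort hs hv
    have ok' := O7_ok_tail ok
    have h0 : ∀ p ∈ L, 0 ≤ p.1 := fun p hp => (ok' p hp).1
    have hq := hs.1 q List.mem_cons_self
    have hqv := hv q List.mem_cons_self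
    obtain ⟨B, hB, hd, hb⟩ := O7_pot hs' hv'
    have := (fL_lip ok').prob q.1 q.2 x
    have h1 : deriv (ML (q :: L)) x = cov[ML L, id; tm q.1 q.2 (fL L) x] / q.2 :=
      (hasDerivAt_tm (fL_lip ok') (measurable_ML ok') (B := 1)
        (fun y => (O7_abs_ML h0 y).trans (by nlinarith [sq_nonneg y])) hq.1 hq.2 hqv x).deriv
    have h2 := cov_id_eq (fL_lip ok') (fL_hasDerivAt ok') hd
      (fun y => (O7_abs_ML h0 y).trans hB) hb q.1 hqv x
    have h3 := O7_cov_self (ν := tm q.1 q.2 (fL L) x) (measurable_ML ok') (O7_abs_ML h0)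
    have h4 : ∫ y, (deriv (ML L) y + q.1 * ML L y ^ 2) ∂(tm q.1 q.2 (fL L) x) =
        1 - tl (fun s => PL (q :: L) s x) q.1 := by
      rw [integral_congr_ae (Filter.Eventually.of_forall fun y =>
        ih hs' hv' hq.1.le hq.2 (List.pairwise_cons.1 hs.2).1 y),
        integral_sub (integrable_const _) (O7_int_bdd (O7_meas_tl ok' _)
          fun y => O7_abs_tl h0 y hq.1.le), O7_tl_fubini ok', O7_tl_cons q L x le_rfl]
      simp
    rw [integral_add (O7_int_bdd (measurable_deriv _) hb)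
      ((O7_int_bdd ((measurable_ML ok').pow_const 2)
        (fun y => O7_abs_sq (O7_abs_ML h0 y))).const_mul _), integral_const_mul] at h4
    rw [h1, h2, h3, O7_tl_split ok x (he q List.mem_cons_self)]
    simp only [ML]
    linarith

/-- the derivative of `fL` along a line of variances -/
noncomputable def grad (L : List (ℝ × ℝ × ℝ)) (t x : ℝ) : ℝ :=
  (L.map fun q => q.2.2 * (1 - tl (fun s => PL (Lt L t) s x) q.1)).sum / 2

theorem O7_sort_iff (L : List (ℝ × ℝ × ℝ)) (t : ℝ) : LSort (Lt L t) ↔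
    (∀ q ∈ L, 0 < q.1 ∧ q.1 ≤ 1) ∧ L.Pairwise (fun p q => p.1 ≤ q.1) := by
  unfold LSort Lt
  rw [List.pairwise_map, List.forall_mem_map]

theorem O7_Lt_nonneg {L : List (ℝ × ℝ × ℝ)} (h : ∀ q ∈ L, 0 < q.1) (t : ℝ) :
    ∀ q ∈ Lt L t, 0 ≤ q.1 := by
  unfold Lt
  rw [List.forall_mem_map]
  exact fun q hq => (h q hq).le

theorem O7_lip_abs : Lip1 (fun y => |y|) := fun x y => abs_abs_sub_abs_le_abs_sub x y

theorem O7_cont_num {T : Type} [TopologicalSpace T] [FirstCountableTopology T] {g φ : T → ℝ → ℝ}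
    {x v : T → ℝ} (hg : Continuous fun p : T × ℝ => g p.1 p.2) (hl : ∀ t, Lip1 (g t))
    (hφ : Continuous fun p : T × ℝ => φ p.1 p.2) (hb : ∀ t y, |φ t y| ≤ 1) (hx : Continuous x)
    (hv : Continuous v) (e : ℝ) :
    Continuous fun t => ∫ z, φ t (x t + √(v t) * z) * exp (e * g t (x t + √(v t) * z))
      ∂(gaussianReal 0 1) := by
  refine continuous_iff_continuousAt.2 fun t0 => ?_
  have hK : Continuous fun t => |g t 0| + |x t| + √(v t) :=
    (((hg.comp (continuous_id.prodMk continuous_const)).abs).add hx.abs).add hv.sqrt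
  set C := |g t0 0| + |x t0| + √(v t0) + 1 with hC
  have hev : ∀ᶠ t in nhds t0, |g t 0| + |x t| + √(v t) < C :=
    hK.continuousAt.eventually (gt_mem_nhds (by rw [hC]; exact lt_add_one _))
  have hy : Continuous fun p : T × ℝ => x p.1 + √(v p.1) * p.2 := by fun_prop
  have hF : Continuous fun p : T × ℝ => φ p.1 (x p.1 + √(v p.1) * p.2) *
      exp (e * g p.1 (x p.1 + √(v p.1) * p.2)) :=
    (hφ.comp (continuous_fst.prodMk hy)).mul
      (continuous_exp.comp (continuous_const.mul (hg.comp (continuous_fst.prodMk hy))))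
  refine continuousAt_of_dominated
    (bound := fun z => exp (|e| * C) * exp (|e| * C * |(0 : ℝ) + √1 * z|)) ?_ ?_ ?_ ?_
  · exact Filter.Eventually.of_forall fun t =>
      (hF.comp (continuous_const.prodMk continuous_id)).aestronglyMeasurable
  · filter_upwards [hev] with t ht
    refine Filter.Eventually.of_forall fun z => ?_
    rw [norm_mul, Real.norm_eq_abs, Real.norm_eq_abs, abs_exp, ← exp_add, sqrt_one, one_mul,
      zero_add]
    have h1 := hl t (x t + √(v t) * z) 0
    have h2 : |g t (x t + √(v t) * z)| ≤ C + C * |z| := by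
      have h3 := abs_sub_abs_le_abs_sub (g t (x t + √(v t) * z)) (g t 0)
      have h4 : |x t + √(v t) * z - 0| ≤ |x t| + √(v t) * |z| := by
        rw [sub_zero]
        refine (abs_add_le _ _).trans ?_
        rw [abs_mul, abs_of_nonneg (sqrt_nonneg _)]
      have h5 : √(v t) * |z| ≤ C * |z| :=
        mul_le_mul_of_nonneg_right
          (by linarith [abs_nonneg (g t 0), abs_nonneg (x t)]) (abs_nonneg z)
      linarith [sqrt_nonneg (v t)]
    have h6 : e * g t (x t + √(v t) * z) ≤ |e| * C + |e| * C * |z| := by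
      refine (le_abs_self _).trans ?_
      rw [abs_mul]
      nlinarith [mul_le_mul_of_nonneg_left h2 (abs_nonneg e)]
    calc _ ≤ 1 * exp (e * g t (x t + √(v t) * z)) :=
          mul_le_mul_of_nonneg_right (hb _ _) (exp_pos _).le
      _ ≤ _ := by rw [one_mul]; exact exp_le_exp.2 h6
  · exact (O7_lip_abs.integrable_exp (|e| * C) 1 0).const_mul _
  · exact Filter.Eventually.of_forall fun z =>
      (hF.comp (continuous_id.prodMk continuous_const)).continuousAt

theorem O7_den_pos {g : ℝ → ℝ} (h : Lip1 g) (e v x : ℝ) :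
    0 < ∫ z, exp (e * g (x + √v * z)) ∂(gaussianReal 0 1) :=
  integral_exp_pos (h.integrable_exp e v x)

theorem O7_cont_den {T : Type} [TopologicalSpace T] [FirstCountableTopology T] {g : T → ℝ → ℝ}
    {x v : T → ℝ} (hg : Continuous fun p : T × ℝ => g p.1 p.2) (hl : ∀ t, Lip1 (g t))
    (hx : Continuous x) (hv : Continuous v) (e : ℝ) :
    Continuous fun t => ∫ z, exp (e * g t (x t + √(v t) * z)) ∂(gaussianReal 0 1) := by
  have := O7_cont_num (φ := fun _ _ => 1) hg hl continuous_const (fun _ _ => by simp) hx hv e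
  simpa using this

theorem O7_cont_tm {T : Type} [TopologicalSpace T] [FirstCountableTopology T] {g φ : T → ℝ → ℝ}
    {x v : T → ℝ} (hg : Continuous fun p : T × ℝ => g p.1 p.2) (hl : ∀ t, Lip1 (g t))
    (hφ : Continuous fun p : T × ℝ => φ p.1 p.2) (hb : ∀ t y, |φ t y| ≤ 1) (hx : Continuous x)
    (hv : Continuous v) (e : ℝ) : Continuous fun t => ∫ y, φ t y ∂(tm e (v t) (g t) (x t)) := by
  have h1 : (fun t => ∫ y, φ t y ∂(tm e (v t) (g t) (x t))) = fun t =>
      (∫ z, φ t (x t + √(v t) * z) * exp (e * g t (x t + √(v t) * z)) ∂(gaussianReal 0 1)) /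
        ∫ z, exp (e * g t (x t + √(v t) * z)) ∂(gaussianReal 0 1) :=
    funext fun t => integral_tm (hl t)
      (hφ.comp (continuous_const.prodMk continuous_id)).measurable e (v t) (x t)
  rw [h1]
  exact (O7_cont_num hg hl hφ hb hx hv e).div (O7_cont_den hg hl hx hv e)
    fun t => (O7_den_pos (hl t) e _ _).ne'

theorem O7_cont_fL {L : List (ℝ × ℝ × ℝ)} (h : ∀ q ∈ L, 0 < q.1) :
    Continuous (fun p : ℝ × ℝ => fL (Lt L p.1) p.2) := by
  induction L with
  | nil =>
    exact (continuous_cosh.comp continuous_snd).log fun p => (cosh_pos _).ne'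
  | cons q L ih =>
    have h' : ∀ p ∈ L, 0 < p.1 := fun p hp => h p (List.mem_cons_of_mem _ hp)
    have hq := h q List.mem_cons_self
    have hl : ∀ p : ℝ × ℝ, Lip1 (fL (Lt L p.1)) := fun p => O7_lip (O7_Lt_nonneg h' _)
    have h1 := O7_cont_den (T := ℝ × ℝ) (g := fun p => fL (Lt L p.1)) (x := fun p => p.2)
      (v := fun p => q.2.1 + p.1 * q.2.2)
      ((ih h').comp (continuous_fst.fst.prodMk continuous_snd)) hl continuous_snd
      (by fun_prop) q.1
    have h2 : (fun p : ℝ × ℝ => fL (Lt (q :: L) p.1) p.2) = fun p : ℝ × ℝ => q.1⁻¹ *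
        log (∫ z, exp (q.1 * fL (Lt L p.1) (p.2 + √(q.2.1 + p.1 * q.2.2) * z))
          ∂(gaussianReal 0 1)) := by
      funext p
      show gaussOp q.1 (q.2.1 + p.1 * q.2.2) (fL (Lt L p.1)) p.2 = _
      rw [gaussOp, if_neg hq.ne']
    rw [h2]
    exact continuous_const.mul (h1.log fun p => (O7_den_pos (hl p) _ _ _).ne')

theorem O7_cont_ML {L : List (ℝ × ℝ × ℝ)} (h : ∀ q ∈ L, 0 < q.1) :
    Continuous (fun p : ℝ × ℝ => ML (Lt L p.1) p.2) := by
  induction L with
  | nil => exact O7_continuous_tanh.comp continuous_snd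
  | cons q L ih =>
    have h' : ∀ p ∈ L, 0 < p.1 := fun p hp => h p (List.mem_cons_of_mem _ hp)
    exact O7_cont_tm (T := ℝ × ℝ) (g := fun p => fL (Lt L p.1)) (φ := fun p => ML (Lt L p.1))
      (x := fun p => p.2) (v := fun p => q.2.1 + p.1 * q.2.2)
      ((O7_cont_fL h').comp (continuous_fst.fst.prodMk continuous_snd))
      (fun p => O7_lip (O7_Lt_nonneg h' _))
      ((ih h').comp (continuous_fst.fst.prodMk continuous_snd))
      (fun p => O7_abs_ML (O7_Lt_nonneg h' _)) continuous_snd (by fun_prop) q.1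

theorem O7_cont_PL {L : List (ℝ × ℝ × ℝ)} (h : ∀ q ∈ L, 0 < q.1) (s : ℝ) :
    Continuous (fun p : ℝ × ℝ => PL (Lt L p.1) s p.2) := by
  induction L with
  | nil => exact (O7_continuous_tanh.comp continuous_snd).pow 2
  | cons q L ih =>
    have h' : ∀ p ∈ L, 0 < p.1 := fun p hp => h p (List.mem_cons_of_mem _ hp)
    by_cases hq : q.1 < s
    · have h2 : (fun p : ℝ × ℝ => PL (Lt (q :: L) p.1) s p.2) = fun p : ℝ × ℝ =>
          ∫ y, PL (Lt L p.1) s y ∂(tm q.1 (q.2.1 + p.1 * q.2.2) (fL (Lt L p.1)) p.2) := by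
        funext p
        show PL ((q.1, q.2.1 + p.1 * q.2.2) :: Lt L p.1) s p.2 = _
        simp only [PL, if_pos hq]
      rw [h2]
      exact O7_cont_tm (T := ℝ × ℝ) (g := fun p => fL (Lt L p.1)) (φ := fun p => PL (Lt L p.1) s)
        (x := fun p => p.2) (v := fun p => q.2.1 + p.1 * q.2.2)
        ((O7_cont_fL h').comp (continuous_fst.fst.prodMk continuous_snd))
        (fun p => O7_lip (O7_Lt_nonneg h' _))
        ((ih h').comp (continuous_fst.fst.prodMk continuous_snd))
        (fun p => O7_abs_PL (O7_Lt_nonneg h' _) s) continuous_snd (by fun_prop) q.1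
    · have h2 : (fun p : ℝ × ℝ => PL (Lt (q :: L) p.1) s p.2) = fun p : ℝ × ℝ =>
          ML (Lt (q :: L) p.1) p.2 ^ 2 := by
        funext p
        show PL ((q.1, q.2.1 + p.1 * q.2.2) :: Lt L p.1) s p.2 = _
        simp only [PL, if_neg hq]
        rfl
      rw [h2]
      exact (O7_cont_ML h).pow 2

theorem O7_sum_meas {L : List (ℝ × ℝ)} (h : LOK L) (M : List (ℝ × ℝ × ℝ)) :
    Measurable fun x => (M.map fun q => q.2.2 * (1 - tl (fun s => PL L s x) q.1)).sum := by
  induction M with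
  | nil => simp
  | cons q M ih =>
    simp only [List.map_cons, List.sum_cons]
    exact ((measurable_const.sub (O7_meas_tl h _)).const_mul _).add ih

theorem O7_term_abs {L : List (ℝ × ℝ)} (h : ∀ q ∈ L, 0 ≤ q.1) (x w : ℝ) {ζ : ℝ} (h0 : 0 ≤ ζ) :
    |w * (1 - tl (fun s => PL L s x) ζ)| ≤ |w| * 2 := by
  rw [abs_mul]
  refine mul_le_mul_of_nonneg_left ?_ (abs_nonneg _)
  have := abs_le.1 (O7_abs_tl h x h0)
  exact abs_le.2 ⟨by linarith, by linarith⟩

theorem O7_sum_abs {L : List (ℝ × ℝ)} (h : ∀ q ∈ L, 0 ≤ q.1) {M : List (ℝ × ℝ × ℝ)}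
    (hM : ∀ q ∈ M, 0 ≤ q.1) (x : ℝ) :
    |(M.map fun q => q.2.2 * (1 - tl (fun s => PL L s x) q.1)).sum| ≤
      (M.map fun q => |q.2.2| * 2).sum := by
  induction M with
  | nil => simp
  | cons q M ih =>
    simp only [List.map_cons, List.sum_cons]
    exact (abs_add_le _ _).trans (add_le_add (O7_term_abs h x _ (hM q List.mem_cons_self))
      (ih fun p hp => hM p (List.mem_cons_of_mem _ hp)))

theorem O7_int_term {q : ℝ × ℝ} {L : List (ℝ × ℝ)} (h : LOK (q :: L)) (x : ℝ) {ζ : ℝ}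
    (hζ : q.1 ≤ ζ) : ∫ y, (1 - tl (fun s => PL L s y) ζ) ∂(tm q.1 q.2 (fL L) x) =
      1 - tl (fun s => PL (q :: L) s x) ζ := by
  have ok' := O7_ok_tail h
  have := (fL_lip ok').prob q.1 q.2 x
  rw [integral_sub (integrable_const _) (O7_int_bdd (O7_meas_tl ok' _)
    fun y => O7_abs_tl (fun p hp => (ok' p hp).1) y ((h q List.mem_cons_self).1.trans hζ)),
    O7_tl_fubini ok', O7_tl_cons q L x hζ]
  simp

theorem O7_int_sum {q : ℝ × ℝ} {L : List (ℝ × ℝ)} (h : LOK (q :: L)) (x : ℝ)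
    {M : List (ℝ × ℝ × ℝ)} (hM : ∀ p ∈ M, q.1 ≤ p.1) :
    ∫ y, (M.map fun p => p.2.2 * (1 - tl (fun s => PL L s y) p.1)).sum ∂(tm q.1 q.2 (fL L) x) =
      (M.map fun p => p.2.2 * (1 - tl (fun s => PL (q :: L) s x) p.1)).sum := by
  have ok' := O7_ok_tail h
  have h0 : ∀ p ∈ L, 0 ≤ p.1 := fun p hp => (ok' p hp).1
  have hq0 := (h q List.mem_cons_self).1
  have := (fL_lip ok').prob q.1 q.2 x
  induction M with
  | nil => simp
  | cons p M ih =>
    have hM' : ∀ r ∈ M, q.1 ≤ r.1 := fun r hr => hM r (List.mem_cons_of_mem _ hr)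
    simp only [List.map_cons, List.sum_cons]
    have i1 : Integrable (fun y => p.2.2 * (1 - tl (fun s => PL L s y) p.1))
        (tm q.1 q.2 (fL L) x) :=
      O7_int_bdd ((measurable_const.sub (O7_meas_tl ok' _)).const_mul _)
        fun y => O7_term_abs h0 y _ (hq0.trans (hM p List.mem_cons_self))
    rw [integral_add i1
      (O7_int_bdd (O7_sum_meas ok' M) (O7_sum_abs h0 fun r hr => hq0.trans (hM' r hr))),
      ih hM', integral_const_mul, O7_int_term h x (hM p List.mem_cons_self)]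

theorem O7_int_poly {g φ : ℝ → ℝ} (h : Lip1 g) (hφ : Measurable φ) {B : ℝ}
    (hb : ∀ y, |φ y| ≤ B * (1 + y ^ 2)) (e v x : ℝ) : Integrable φ (tm e v g x) := by
  have hB : 0 ≤ B := by have := hb 0; simpa using (abs_nonneg _).trans this
  refine h.integrable_tm hφ (C := 2 * B + 2) (fun y => (hb y).trans ?_) e v x
  have h1 : 1 + y ^ 2 ≤ exp (2 * |y|) := by
    have h2 := add_one_le_exp |y|
    have h3 : exp (2 * |y|) = exp |y| ^ 2 := by rw [← exp_nat_mul]; norm_num
    rw [h3, ← sq_abs y]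
    nlinarith [abs_nonneg y]
  have h4 : exp (2 * |y|) ≤ exp ((2 * B + 2) * |y|) :=
    exp_le_exp.2 (by nlinarith [abs_nonneg y])
  have h5 := exp_pos ((2 * B + 2) * |y|)
  nlinarith [sq_nonneg y]

theorem O7_u_bound {v : ℝ} (hv : 0 < v) (x y : ℝ) :
    |(y - x) / v| ≤ (1 + |x|) / v * (1 + y ^ 2) := by
  rw [abs_div, abs_of_pos hv, div_mul_eq_mul_div]
  refine div_le_div_of_nonneg_right ?_ hv.le
  have h1 := abs_sub y x
  have h2 : |y| ≤ 1 + y ^ 2 := by rw [← sq_abs y]; nlinarith [abs_nonneg y]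
  nlinarith [abs_nonneg x, sq_nonneg y]

theorem O7_usq_bound {v : ℝ} (hv : 0 < v) (x y : ℝ) :
    |((y - x) / v) ^ 2| ≤ (2 + 2 * x ^ 2) / v ^ 2 * (1 + y ^ 2) := by
  rw [abs_of_nonneg (sq_nonneg _), div_pow, div_mul_eq_mul_div]
  refine div_le_div_of_nonneg_right ?_ (sq_nonneg _)
  nlinarith [sq_nonneg (x + y), sq_nonneg (x * y)]

/-- `E (u² - 1/v) = e E (A + e M²)` -/
theorem O7_psi {g M A : ℝ → ℝ} (h : Lip1 g) (hg : ∀ y, HasDerivAt g (M y) y)
    (hM : ∀ y, HasDerivAt M (A y) y) (mM : Measurable M) (bM : ∀ y, |M y| ≤ 1) {B : ℝ} (hB : 1 ≤ B)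
    (bA : ∀ y, |A y| ≤ B) (e : ℝ) {v : ℝ} (hv : 0 < v) (x : ℝ) :
    ∫ y, (((y - x) / v) ^ 2 - v⁻¹) ∂(tm e v g x) =
      e * ∫ y, (A y + e * M y ^ 2) ∂(tm e v g x) := by
  have := h.prob e v x
  have h1 := tm_ibp (φ := fun y => (y - x) / v) (φ' := fun _ => v⁻¹) h hg
    (fun y => by simpa [div_eq_mul_inv] using ((hasDerivAt_id y).sub_const x).div_const v)
    (B := (1 + |x|) / v) (O7_u_bound hv x) (fun y => by
      rw [abs_of_pos (inv_pos.2 hv), div_eq_mul_inv]
      nlinarith [inv_pos.2 hv, abs_nonneg x, sq_nonneg y,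
        mul_nonneg (mul_nonneg (abs_nonneg x) (inv_pos.2 hv).le) (sq_nonneg y),
        mul_nonneg (abs_nonneg x) (inv_pos.2 hv).le, mul_nonneg (inv_pos.2 hv).le (sq_nonneg y)])
    e hv x
  have h2 := tm_ibp h hg hM (B := B) (fun y => (bM y).trans (by nlinarith [sq_nonneg y]))
    (fun y => (bA y).trans (by nlinarith [sq_nonneg y])) e hv x
  have i1 : Integrable (fun y => ((y - x) / v) ^ 2) (tm e v g x) :=
    O7_int_poly h (by fun_prop) (O7_usq_bound hv x) e v x
  have i2 : Integrable (fun y => (y - x) / v * M y) (tm e v g x) :=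
    O7_int_poly h (by fun_prop) (B := (1 + |x|) / v) (fun y => by
      rw [abs_mul]
      exact (mul_le_of_le_one_right (abs_nonneg _) (bM y)).trans (O7_u_bound hv x y)) e v x
  have h3 : ∫ y, (v⁻¹ + e * M y * ((y - x) / v)) ∂(tm e v g x) =
      v⁻¹ + e * ∫ y, (y - x) / v * M y ∂(tm e v g x) := by
    rw [← integral_const_mul, integral_congr_ae (g := fun y => v⁻¹ + e * ((y - x) / v * M y))
      (Filter.Eventually.of_forall fun y => by ring),
      integral_add (integrable_const _) (i2.const_mul e)]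
    simp
  rw [integral_sub i1 (integrable_const _)]
  simp only [pow_two]
  rw [h1, h3, h2]
  simp only [mul_assoc]
  simp

theorem O7_Lt_pos {L : List (ℝ × ℝ × ℝ)} {t : ℝ} (hv : ∀ q ∈ L, 0 < q.2.1 + t * q.2.2) :
    ∀ q ∈ Lt L t, 0 < q.2 := by
  unfold Lt
  rw [List.forall_mem_map]
  exact hv

theorem O7_ev_pos (L : List (ℝ × ℝ × ℝ)) {t0 : ℝ} (hv : ∀ q ∈ L, 0 < q.2.1 + t0 * q.2.2) :
    ∀ᶠ t in nhds t0, ∀ q ∈ L, 0 < q.2.1 + t * q.2.2 := by
  induction L with
  | nil => simp
  | cons q L ih =>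
    have h1 : ∀ᶠ t in nhds t0, 0 < q.2.1 + t * q.2.2 :=
      (by fun_prop : Continuous fun t : ℝ => q.2.1 + t * q.2.2).continuousAt.eventually
        (lt_mem_nhds (hv q List.mem_cons_self))
    filter_upwards [h1, ih fun p hp => hv p (List.mem_cons_of_mem _ hp)] with t h1 h2 p hp
    rcases List.mem_cons.1 hp with rfl | hp
    · exact h1
    · exact h2 p hp

/-- induction on `L` (for all `t` near `t0` and all `x`): `ḟ_a = E_a ḟ_{a+1} + w_a Ψ_a`
(`Path.gaussOp`, `tm_ibp` twice), `Ψ_a = ½ E_a (A + e_a M²)`, `deriv_ML_eq`, Fubini in `s`. -/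
theorem line_deriv (L : List (ℝ × ℝ × ℝ)) (hs : LSort (Lt L 0)) {t0 : ℝ}
    (hv : ∀ q ∈ L, 0 < q.2.1 + t0 * q.2.2) (b : ℝ) :
    HasDerivAt (fun t => fL (Lt L t) b) (grad L t0 b) t0 := by
  induction L generalizing t0 b with
  | nil =>
    have : grad [] t0 b = 0 := by simp [grad]
    rw [this]
    exact hasDerivAt_const t0 (log (cosh b))
  | cons q L ih =>
    have hS := (O7_sort_iff _ 0).1 hs
    have hs' : LSort (Lt L 0) := O7_sort_tail hs
    have hS' := (O7_sort_iff _ 0).1 hs'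
    have hpos : ∀ p ∈ L, 0 < p.1 := fun p hp => (hS'.1 p hp).1
    have hq := hS.1 q List.mem_cons_self
    have hqv := hv q List.mem_cons_self
    have hv' : ∀ p ∈ L, 0 < p.2.1 + t0 * p.2.2 := fun p hp => hv p (List.mem_cons_of_mem _ hp)
    set G : ℝ := (L.map fun q => |q.2.2| * 2).sum with hG
    have hG0 : 0 ≤ G := List.sum_nonneg (by
      rw [List.forall_mem_map]; intro p _; positivity)
    set v0 := q.2.1 + t0 * q.2.2 with hv0
    set B : ℝ := |b| + |q.2.2| + (v0 + 1) + 2 / v0 + (|fL (Lt L t0) 0| + 1) + G with hB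
    have e1 : 0 < 2 / v0 := by positivity
    have e2 := abs_nonneg b
    have e3 := abs_nonneg q.2.2
    have e4 := abs_nonneg (fL (Lt L t0) 0)
    have hBpos : 0 < B := by linarith
    have c1 : Continuous fun t : ℝ => q.2.1 + t * q.2.2 := by fun_prop
    have c2 : Continuous fun t : ℝ => |fL (Lt L t) 0| :=
      ((O7_cont_fL hpos).comp (continuous_id.prodMk continuous_const)).abs
    have hev : ∀ᶠ t in nhds t0, (∀ p ∈ L, 0 < p.2.1 + t * p.2.2) ∧ q.2.1 + t * q.2.2 < v0 + 1 ∧
        v0 / 2 < q.2.1 + t * q.2.2 ∧ |fL (Lt L t) 0| < |fL (Lt L t0) 0| + 1 :=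
      (O7_ev_pos L hv').and ((c1.continuousAt.eventually (gt_mem_nhds (lt_add_one _))).and
        ((c1.continuousAt.eventually (lt_mem_nhds (half_lt_self hqv))).and
          (c2.continuousAt.eventually (gt_mem_nhds (lt_add_one _)))))
    obtain ⟨U, hU, hUo, hU0⟩ := eventually_nhds_iff.1 hev
    have okU : ∀ t ∈ U, LOK (Lt L t) := fun t ht =>
      O7_ok_of_sort ((O7_sort_iff L t).2 hS') (O7_Lt_pos (hU t ht).1)
    have hP : Path U (fun _ => b) (fun _ => 0) (fun t => q.2.1 + t * q.2.2) (fun _ => q.2.2)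
        (fun t => fL (Lt L t)) (fun t => grad L t) B := by
      refine ⟨fun t _ => hasDerivAt_const _ _, fun t _ => ?_, fun t ht => ⟨by linarith, ?_,
        by linarith, by linarith [(hU t ht).2.1], ?_⟩, hBpos, fun t ht => fL_lip (okU t ht),
        fun t ht => by linarith [(hU t ht).2.2.2], fun t ht => ?_,
        fun t ht y => ih hs' (hU t ht).1 y, fun t ht y => ?_⟩
      · simpa using ((hasDerivAt_id t).mul_const q.2.2).const_add q.2.1
      · simpa using hBpos.le
      · refine le_trans ?_ (hU t ht).2.2.1.le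
        rw [← inv_div 2 v0]
        exact inv_anti₀ e1 (by linarith)
      · exact (O7_sum_meas (okU t ht) L).div_const 2
      · have := O7_sum_abs (O7_Lt_nonneg hpos t) (fun p hp => (hpos p hp).le) y
        show |grad L t y| ≤ B
        rw [grad, abs_div, abs_two]
        linarith
    have hD := hP.gaussOp hUo hq.1 hq.2 hU0
    refine HasDerivAt.congr_deriv hD ?_
    have ok0 := okU t0 hU0
    have okq : LOK ((q.1, v0) :: Lt L t0) :=
      O7_ok_of_sort ((O7_sort_iff (q :: L) t0).2 hS) (O7_Lt_pos hv)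
    have hs0 := (O7_sort_iff L t0).2 hS'
    obtain ⟨B', hB', hd, hb⟩ := O7_pot hs0 (O7_Lt_pos hv')
    have hle : ∀ p ∈ L, q.1 ≤ p.1 := (List.pairwise_cons.1 hS.2).1
    have hle' : ∀ p ∈ Lt L t0, q.1 ≤ p.1 := by
      unfold Lt
      rw [List.forall_mem_map]
      exact hle
    have := (fL_lip ok0).prob q.1 v0 b
    have h1 := O7_psi (fL_lip ok0) (fL_hasDerivAt ok0) hd (measurable_ML ok0)
      (O7_abs_ML (O7_Lt_nonneg hpos t0)) hB' hb q.1 hqv b
    rw [integral_congr_ae (Filter.Eventually.of_forall fun y =>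
      deriv_ML_eq hs0 (O7_Lt_pos hv') hq.1.le hq.2 hle' y)] at h1
    have h2 := O7_int_term okq b le_rfl
    have h3 := O7_int_sum okq b (M := L) hle
    have i1 : Integrable (fun y => ((y - b) / v0) ^ 2 - v0⁻¹) (tm q.1 v0 (fL (Lt L t0)) b) :=
      (O7_int_poly (fL_lip ok0) (by fun_prop) (O7_usq_bound hqv b) _ _ _).sub (integrable_const _)
    rw [integral_add (O7_int_bdd (hP.mg t0 hU0) (hP.bg t0 hU0))
      (((i1.const_mul (q.2.2 / 2)).const_mul q.1⁻¹).congr
        (Filter.Eventually.of_forall fun y => by simp only [zero_mul, zero_add]; rfl))]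
    simp only [zero_mul, zero_add, integral_const_mul, grad, integral_div]
    simp only at h2 h3
    rw [h1, h2, h3]
    show _ = (q.2.2 * (1 - tl (fun s => PL ((q.1, v0) :: Lt L t0) s b) q.1) +
      (L.map fun p => p.2.2 * (1 - tl (fun s => PL ((q.1, v0) :: Lt L t0) s b) p.1)).sum) / 2
    have := hq.1.ne'
    field_simp
    ring

/-- joint continuity, also at zero variance (dominated convergence in the representation
`integral_tm`; `√` is continuous on `ℝ`) -/
theorem continuous_fL_Lt (L : List (ℝ × ℝ × ℝ)) (hs : LSort (Lt L 0)) :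
    Continuous (fun p : ℝ × ℝ => fL (Lt L p.1) p.2) :=
  O7_cont_fL fun p hp => (((O7_sort_iff L 0).1 hs).1 p hp).1

theorem continuous_PL_Lt (L : List (ℝ × ℝ × ℝ)) (hs : LSort (Lt L 0)) (s : ℝ) :
    Continuous (fun p : ℝ × ℝ => PL (Lt L p.1) s p.2) :=
  O7_cont_PL (fun p hp => (((O7_sort_iff L 0).1 hs).1 p hp).1) s

theorem continuousOn_grad (L : List (ℝ × ℝ × ℝ)) (hs : LSort (Lt L 0))
    (hv : ∀ q ∈ L, 0 ≤ q.2.1 ∧ 0 ≤ q.2.1 + q.2.2) (b : ℝ) :
    ContinuousOn (fun t => grad L t b) (Set.Icc 0 1) := by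
  have hS := (O7_sort_iff L 0).1 hs
  have hpos : ∀ p ∈ L, 0 < p.1 := fun p hp => (hS.1 p hp).1
  have ok : ∀ t ∈ Set.Icc (0 : ℝ) 1, LOK (Lt L t) := by
    intro t ht
    unfold LOK Lt
    rw [List.forall_mem_map]
    intro p hp
    refine ⟨(hpos p hp).le, (hS.1 p hp).2, ?_⟩
    have h1 := mul_nonneg (sub_nonneg.2 ht.2) (hv p hp).1
    have h2 := mul_nonneg ht.1 (hv p hp).2
    show 0 ≤ p.2.1 + t * p.2.2
    nlinarith
  have htl : ∀ ζ : ℝ, ContinuousOn (fun t => tl (fun s => PL (Lt L t) s b) ζ) (Set.Icc 0 1) := by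
    intro ζ
    have : IsFiniteMeasure (volume.restrict (Set.Ioo ζ 1)) :=
      isFiniteMeasure_restrict.2 (by simp)
    refine continuousOn_of_dominated (bound := fun _ => 1)
      (fun t ht => (O7_meas_PL' (ok t ht) b).aestronglyMeasurable)
      (fun t ht => Filter.Eventually.of_forall fun s => O7_abs_PL (O7_Lt_nonneg hpos t) s b)
      (integrable_const _) (Filter.Eventually.of_forall fun s => ?_)
    exact ((O7_cont_PL hpos s).comp (continuous_id.prodMk continuous_const)).continuousOn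
  unfold grad
  refine ContinuousOn.div_const ?_ 2
  exact continuousOn_list_sum L fun q _ => continuousOn_const.mul (continuousOn_const.sub (htl _))

end Crest.Agent.R164
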