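import Crest.Agent.R164.O2
import Crest.Agent.R164.O6
import Crest.Agent.R164.O7

/-! # One-site recursion: concavity of the constrained value and the tangent inequality -/

set_option autoImplicit false
set_option linter.unusedVariables false
set_option linter.unusedSectionVars false

open MeasureTheory ProbabilityTheory Real Crest.ProbabilityR.InvariantGlass
open scoped ENNReal

namespace Crest.Agent.R164

theorem o8_second {K K' : ℝ → ℝ} {t0 κ : ℝ} (hK : ∀ᶠ t in nhds t0, HasDerivAt K (K' t) t)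
    (hK' : HasDerivAt K' κ t0) (hmin : IsLocalMin K t0) : 0 ≤ κ := by
  by_contra hκ
  have e1 : deriv K =ᶠ[nhds t0] K' := hK.mono fun t ht => ht.deriv
  have e2 : deriv (deriv K) t0 = κ := by rw [e1.deriv_eq, hK'.deriv]
  have hmax := isLocalMax_of_deriv_deriv_neg (f := K) (x₀ := t0) (by rw [e2]; exact not_le.1 hκ)
    hmin.deriv_eq_zero hK.self_of_nhds.continuousAt
  have e3 : K =ᶠ[nhds t0] fun _ => K t0 := by
    filter_upwards [hmin, hmax] with t h1 h2 using le_antisymm h2 h1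
  have e4 : deriv K =ᶠ[nhds t0] fun _ => 0 := by
    refine e3.deriv.trans (Filter.Eventually.of_forall fun t => ?_)
    simp
  rw [e4.deriv_eq, deriv_const] at e2
  exact hκ e2.le

/-- Schwarz's lemma: a continuous function touched from above at every interior point by a
function with nonpositive second derivative is concave (maximum principle for
`chord - G - ε t (1 - t)`-type perturbations on a subinterval). -/
theorem concaveOn_of_touch {G : ℝ → ℝ} (hc : ContinuousOn G (Set.Icc 0 1))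
    (h : ∀ t0 ∈ Set.Ioo (0 : ℝ) 1, ∃ (F F' : ℝ → ℝ) (c : ℝ), c ≤ 0 ∧ F t0 = G t0 ∧
      (∀ᶠ t in nhds t0, G t ≤ F t ∧ HasDerivAt F (F' t) t) ∧ HasDerivAt F' c t0) :
    ConcaveOn ℝ (Set.Icc 0 1) G := by
  refine LinearOrder.concaveOn_of_lt (convex_Icc 0 1) fun x hx y hy hxy a b ha hb hab => ?_
  simp only [smul_eq_mul]
  by_contra hcon
  obtain ⟨δ, hδ⟩ : ∃ δ, δ = a * G x + b * G y - G (a * x + b * y) := ⟨_, rfl⟩
  have hδ0 : 0 < δ := by rw [hδ]; linarith [not_le.1 hcon]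
  obtain ⟨σ, hσ⟩ : ∃ σ, σ = (G y - G x) / (y - x) := ⟨_, rfl⟩
  have hσ' : σ * (y - x) = G y - G x := by rw [hσ, div_mul_cancel₀ _ (sub_pos.2 hxy).ne']
  set q : ℝ → ℝ := fun t => G x + σ * (t - x) + δ / 2 * ((t - x) * (t - y)) with hq
  have hqc : Continuous q := by fun_prop
  have hsub : Set.Icc x y ⊆ Set.Icc 0 1 := Set.Icc_subset_Icc hx.1 hy.2
  obtain ⟨t0, ht0, hmin⟩ := (isCompact_Icc (a := x) (b := y)).exists_isMinOn
    (Set.nonempty_Icc.2 hxy.le) ((hc.mono hsub).sub hqc.continuousOn)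
  have hb' : a = 1 - b := by linarith
  have h1 : a * x + b * y ∈ Set.Icc x y := by
    rw [hb']; constructor <;> nlinarith
  have h2 : G t0 - q t0 < 0 := by
    refine lt_of_le_of_lt (hmin h1) ?_
    simp only [hq, Pi.sub_apply]
    have e1 : a * x + b * y - x = b * (y - x) := by rw [hb']; ring
    have e2 : a * x + b * y - y = -(a * (y - x)) := by rw [hb']; ring
    have h3 : y - x ≤ 1 := by linarith [hx.1, hy.2]
    have h4 : b * (y - x) * (a * (y - x)) ≤ 1 :=
      mul_le_one₀ (mul_le_one₀ (by linarith) (by linarith) h3) (mul_nonneg ha.le (by linarith))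
        (mul_le_one₀ (by linarith) (by linarith) h3)
    have e3 : σ * (b * (y - x)) = b * (G y - G x) := by rw [← hσ']; ring
    rw [e1, e2, e3]
    have h5 : δ / 2 * (b * (y - x) * (a * (y - x))) ≤ δ / 2 := mul_le_of_le_one_right (by linarith) h4
    have e4 : a * G x = G x - b * G x := by rw [hb']; ring
    linarith
  have hx0 : x < t0 := by
    refine lt_of_le_of_ne ht0.1 fun h => ?_
    rw [← h] at h2; simp [hq] at h2
  have hy0 : t0 < y := by
    refine lt_of_le_of_ne ht0.2 fun h => ?_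
    rw [h] at h2; simp only [hq, sub_self, mul_zero, add_zero] at h2; linarith
  obtain ⟨F, F', c, hc0, hF0, hF, hF'⟩ := h t0 ⟨hx.1.trans_lt hx0, hy0.trans_le hy.2⟩
  have hq' : ∀ t, HasDerivAt q (σ + δ / 2 * (2 * t - x - y)) t := by
    intro t
    have a1 := (hasDerivAt_id' t).sub_const x
    have a2 := (hasDerivAt_id' t).sub_const y
    have a3 := ((a1.const_mul σ).const_add (G x)).add ((a1.mul a2).const_mul (δ / 2))
    exact a3.congr_deriv (by ring)
  have hq'' : HasDerivAt (fun t => σ + δ / 2 * (2 * t - x - y)) δ t0 := by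
    have a1 := (((((hasDerivAt_id' t0).const_mul 2).sub_const x).sub_const y).const_mul (δ / 2)).const_add σ
    exact a1.congr_deriv (by ring)
  have h3 := o8_second (K := fun t => F t - q t) (K' := fun t => F' t - (σ + δ / 2 * (2 * t - x - y)))
    (hF.mono fun t ht => ht.2.sub (hq' t)) (hF'.sub hq'') (by
      filter_upwards [hF, Icc_mem_nhds hx0 hy0] with t ht ht'
      have h4 : G t0 - q t0 ≤ G t - q t := hmin ht'
      linarith [ht.1])
  linarith

theorem o8_mem_Lt {L : List (ℝ × ℝ × ℝ)} {q : ℝ × ℝ × ℝ} (hq : q ∈ L) (t : ℝ) :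
    (q.1, q.2.1 + t * q.2.2) ∈ Lt L t := List.mem_map.2 ⟨q, hq, rfl⟩

theorem o8_ok {L : List (ℝ × ℝ × ℝ)} (hs : LSort (Lt L 0))
    (hv : ∀ q ∈ L, 0 ≤ q.2.1 ∧ 0 ≤ q.2.1 + q.2.2 ∧ 0 < q.2.1 + (q.2.1 + q.2.2)) {t : ℝ}
    (ht : t ∈ Set.Icc (0 : ℝ) 1) : LOK (Lt L t) := by
  intro p hp
  obtain ⟨q, hq, rfl⟩ := List.mem_map.1 hp
  obtain ⟨h1, h2⟩ := hs.1 _ (o8_mem_Lt hq 0)
  obtain ⟨h3, h4, -⟩ := hv q hq
  refine ⟨h1.le, h2, ?_⟩
  have := mul_nonneg (sub_nonneg.2 ht.2) h3
  have := mul_nonneg ht.1 h4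
  simp only
  linarith

theorem o8_pos {L : List (ℝ × ℝ × ℝ)}
    (hv : ∀ q ∈ L, 0 ≤ q.2.1 ∧ 0 ≤ q.2.1 + q.2.2 ∧ 0 < q.2.1 + (q.2.1 + q.2.2)) {t : ℝ}
    (ht : t ∈ Set.Ioo (0 : ℝ) 1) : ∀ q ∈ L, 0 < q.2.1 + t * q.2.2 := by
  intro q hq
  obtain ⟨h3, h4, h5⟩ := hv q hq
  have h6 := mul_nonneg (sub_pos.2 ht.2).le h3
  have h7 := mul_nonneg ht.1.le h4
  rcases h3.eq_or_lt with h | h
  · have := mul_pos ht.1 (show 0 < q.2.1 + q.2.2 by linarith)
    linarith
  · have := mul_pos (sub_pos.2 ht.2) h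
    linarith

theorem o8_lower {L : List (ℝ × ℝ)} (h : LOK L) (s b : ℝ) :
    |b| * (1 - |s|) - log 2 ≤ fL L b - b * s := by
  have h1 := fL_ge h b
  have h2 : 0 ≤ (L.map fun q => q.1 * q.2).sum := List.sum_nonneg fun x hx => by
    obtain ⟨q, hq, rfl⟩ := List.mem_map.1 hx
    exact mul_nonneg (h q hq).1 (h q hq).2.2
  have h3 : b * s ≤ |b| * |s| := by rw [← abs_mul]; exact le_abs_self _
  linarith

theorem o8_bdd {L : List (ℝ × ℝ)} (h : LOK L) {s : ℝ} (hs : |s| ≤ 1) :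
    BddBelow (Set.range fun b : ℝ => fL L b - b * s) := by
  refine ⟨-log 2, ?_⟩
  rintro _ ⟨b, rfl⟩
  have h1 := o8_lower h s b
  have h2 := mul_nonneg (abs_nonneg b) (sub_nonneg.2 hs)
  simp only
  linarith

theorem o8_min {L : List (ℝ × ℝ × ℝ)} (hs : LSort (Lt L 0))
    (hv : ∀ q ∈ L, 0 ≤ q.2.1 ∧ 0 ≤ q.2.1 + q.2.2 ∧ 0 < q.2.1 + (q.2.1 + q.2.2)) {s : ℝ}
    (h1 : |s| < 1) : ∃ B : ℝ, ∀ t ∈ Set.Icc (0 : ℝ) 1, ∃ b0 ∈ Set.Icc (-B) B, ∀ b,
      fL (Lt L t) b0 - b0 * s ≤ fL (Lt L t) b - b * s := by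
  obtain ⟨V, hV⟩ : ∃ V, V = (L.map fun q => q.2.1 + (q.2.1 + q.2.2)).sum := ⟨_, rfl⟩
  have hV0 : 0 ≤ V := hV ▸ List.sum_nonneg fun x hx => by
    obtain ⟨q, hq, rfl⟩ := List.mem_map.1 hx
    exact (hv q hq).2.2.le
  have hl : 0 < log 2 := log_pos one_lt_two
  have hs1 : 0 < 1 - |s| := sub_pos.2 h1
  refine ⟨(V + log 2) / (1 - |s|), fun t ht => ?_⟩
  have hok := o8_ok hs hv ht
  have hB : 0 ≤ (V + log 2) / (1 - |s|) := by positivity
  have hc : Continuous fun b : ℝ => fL (Lt L t) b - b * s :=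
    (fL_lip hok).continuous.sub (continuous_id.mul continuous_const)
  obtain ⟨b0, hb0, hmin⟩ := (isCompact_Icc (a := -((V + log 2) / (1 - |s|)))
    (b := (V + log 2) / (1 - |s|))).exists_isMinOn (Set.nonempty_Icc.2 (by linarith)) hc.continuousOn
  refine ⟨b0, hb0, fun b => ?_⟩
  by_cases hb : |b| ≤ (V + log 2) / (1 - |s|)
  · exact hmin (abs_le.1 hb)
  · have h2 : fL (Lt L t) b0 - b0 * s ≤ fL (Lt L t) 0 - 0 * s :=
      hmin (show (0 : ℝ) ∈ Set.Icc _ _ from ⟨by linarith, hB⟩)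
    have h3 := fL_le hok 0
    have h4 : ((Lt L t).map fun q => q.2).sum ≤ V := by
      rw [hV, Lt, List.map_map]
      refine List.sum_le_sum fun q hq => ?_
      obtain ⟨a1, a2, -⟩ := hv q hq
      have := mul_nonneg (sub_nonneg.2 ht.2) a2
      have := mul_nonneg ht.1 a1
      simp only [Function.comp]
      linarith
    have h5 := o8_lower hok s b
    rw [not_le, div_lt_iff₀ hs1] at hb
    rw [cosh_zero, log_one] at h3
    linarith

/-- `G t = inf_b (fL (Lt L t) b - b s)` is an infimum over a fixed compact interval of `b`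
(`fL_ge`, `fL_le`), so it is continuous and attained; `second_var` at the minimiser. -/
theorem concaveOn_inf (L : List (ℝ × ℝ × ℝ)) (hs : LSort (Lt L 0))
    (hv : ∀ q ∈ L, 0 ≤ q.2.1 ∧ 0 ≤ q.2.1 + q.2.2 ∧ 0 < q.2.1 + (q.2.1 + q.2.2)) {s : ℝ}
    (h1 : |s| < 1) :
    ConcaveOn ℝ (Set.Icc 0 1) (fun t => ⨅ b : ℝ, (fL (Lt L t) b - b * s)) := by
  obtain ⟨B, hB⟩ := o8_min hs hv h1
  have hinf : ∀ t b0, (∀ b, fL (Lt L t) b0 - b0 * s ≤ fL (Lt L t) b - b * s) →
      ⨅ b : ℝ, (fL (Lt L t) b - b * s) = fL (Lt L t) b0 - b0 * s := fun t b0 h =>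
    le_antisymm (ciInf_le (show BddBelow (Set.range fun b : ℝ => fL (Lt L t) b - b * s) from
      ⟨fL (Lt L t) b0 - b0 * s, by rintro _ ⟨b, rfl⟩; exact h b⟩) b0) (le_ciInf h)
  refine concaveOn_of_touch ?_ fun t0 ht0 => ?_
  · have hc : Continuous ↿(fun t b : ℝ => fL (Lt L t) b - b * s) :=
      (continuous_fL_Lt L hs).sub (continuous_snd.mul continuous_const)
    refine ((isCompact_Icc (a := -B) (b := B)).continuous_sInf hc).continuousOn.congr fun t ht => ?_
    obtain ⟨b0, hb0, hmin⟩ := hB t ht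
    simp only
    rw [hinf t b0 hmin]
    refine (IsLeast.csInf_eq (s := (fun b : ℝ => fL (Lt L t) b - b * s) '' Set.Icc (-B) B)
      ⟨⟨b0, hb0, rfl⟩, ?_⟩).symm
    rintro _ ⟨b, -, rfl⟩
    exact hmin b
  · obtain ⟨b0, -, hmin⟩ := hB t0 (Set.Ioo_subset_Icc_self ht0)
    obtain ⟨β, c, F', hc, hF, hF'⟩ := second_var L hs (o8_pos hv ht0) b0
    refine ⟨fun t => fL (Lt L t) (b0 + β * (t - t0)) - (b0 + β * (t - t0)) * s,
      fun t => F' t - β * s, c, hc, ?_, ?_, hF'.sub_const _⟩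
    · simp only [sub_self, mul_zero, add_zero]
      exact (hinf t0 b0 hmin).symm
    · filter_upwards [hF, Icc_mem_nhds ht0.1 ht0.2] with t ht ht'
      refine ⟨ciInf_le (o8_bdd (o8_ok hs hv ht') h1.le) _, ht.sub ?_⟩
      simpa using (((((hasDerivAt_id' t).sub_const t0).const_mul β).const_add b0).mul_const s)

theorem o8_tangent {L : List (ℝ × ℝ)} (h : LOK L) (b b' : ℝ) :
    fL L b - b * ML L b ≤ fL L b' - b' * ML L b := by
  rcases lt_trichotomy b b' with hb | rfl | hb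
  · have h1 := (fL_convex h).le_slope_of_hasDerivAt (Set.mem_univ b) (Set.mem_univ b') hb
      (fL_hasDerivAt h b)
    rw [slope_def_field, le_div_iff₀ (sub_pos.2 hb)] at h1
    linarith
  · exact le_rfl
  · have h1 := (fL_convex h).slope_le_of_hasDerivAt (Set.mem_univ b') (Set.mem_univ b) hb
      (fL_hasDerivAt h b)
    rw [slope_def_field, div_le_iff₀ (sub_pos.2 hb)] at h1
    linarith

/-- `G 1 - G 0 ≤ (G t - G 0)/t ≤ (f t b - f 0 b)/t = grad ξ b → grad 0 b` (`b` minimises at `t = 0`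
by convexity; mean value theorem with `line_deriv`; `continuousOn_grad`). -/
theorem tangent_line (L : List (ℝ × ℝ × ℝ)) (hs : LSort (Lt L 0))
    (hv : ∀ q ∈ L, 0 ≤ q.2.1 ∧ 0 ≤ q.2.1 + q.2.2 ∧ 0 < q.2.1 + (q.2.1 + q.2.2)) (b : ℝ) :
    ⨅ b' : ℝ, (fL (Lt L 1) b' - b' * ML (Lt L 0) b) ≤
      fL (Lt L 0) b - b * ML (Lt L 0) b + grad L 0 b := by
  have h0 : (0 : ℝ) ∈ Set.Icc (0 : ℝ) 1 := ⟨le_rfl, zero_le_one⟩
  have h1 : (1 : ℝ) ∈ Set.Icc (0 : ℝ) 1 := ⟨zero_le_one, le_rfl⟩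
  have hok := o8_ok hs hv h0
  have hs1 := abs_ML_lt hok b
  have hG0 : fL (Lt L 0) b - b * ML (Lt L 0) b ≤ ⨅ b' : ℝ, (fL (Lt L 0) b' - b' * ML (Lt L 0) b) :=
    le_ciInf (o8_tangent hok b)
  have hcv := concaveOn_inf L hs hv hs1
  generalize ML (Lt L 0) b = s at *
  by_contra hcon
  have hlt : grad L 0 b < (⨅ b' : ℝ, (fL (Lt L 1) b' - b' * s)) - (fL (Lt L 0) b - b * s) := by
    linarith [not_le.1 hcon]
  have hcg := (continuousOn_grad L hs (fun q hq => ⟨(hv q hq).1, (hv q hq).2.1⟩) b) 0 h0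
  have hev := hcg.eventually (gt_mem_nhds hlt)
  obtain ⟨ε, hε, hball⟩ := Metric.mem_nhdsWithin_iff.1 hev
  obtain ⟨t, ht0, ht1, htε⟩ : ∃ t : ℝ, 0 < t ∧ t < 1 ∧ t < ε :=
    ⟨min (1 / 2) (ε / 2), lt_min (by norm_num) (by linarith), (min_le_left _ _).trans_lt (by norm_num),
      (min_le_right _ _).trans_lt (by linarith)⟩
  have hcf : Continuous fun t : ℝ => fL (Lt L t) b :=
    (continuous_fL_Lt L hs).comp (continuous_id.prodMk continuous_const)
  obtain ⟨ξ, hξ, hξ'⟩ := exists_hasDerivAt_eq_slope (fun t => fL (Lt L t) b) (fun t => grad L t b) ht0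
    hcf.continuousOn fun x hx => line_deriv L hs (o8_pos hv ⟨hx.1, hx.2.trans ht1⟩) b
  have h2 : grad L ξ b < (⨅ b' : ℝ, (fL (Lt L 1) b' - b' * s)) - (fL (Lt L 0) b - b * s) := by
    refine hball ⟨?_, hξ.1.le, (hξ.2.trans ht1).le⟩
    rw [Metric.mem_ball, Real.dist_eq, sub_zero, abs_of_pos hξ.1]
    exact hξ.2.trans htε
  have h3 := hcv.2 h0 h1 (show (0 : ℝ) ≤ 1 - t by linarith) ht0.le (by ring)
  simp only [smul_eq_mul, mul_zero, mul_one, zero_add] at h3
  have h4 : ⨅ b' : ℝ, (fL (Lt L t) b' - b' * s) ≤ fL (Lt L t) b - b * s :=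
    ciInf_le (o8_bdd (o8_ok hs hv ⟨ht0.le, ht1.le⟩) hs1.le) b
  rw [hξ', sub_zero, div_lt_iff₀ ht0] at h2
  have h5 := mul_le_mul_of_nonneg_left hG0 (sub_pos.2 ht1).le
  linarith

theorem o8_sub_left {α : Type} (le : α → α → Bool) :
    ∀ xs ys : List α, xs.Sublist (List.merge xs ys le)
  | [], _ => List.nil_sublist _
  | xs, [] => by simp
  | x :: xs, y :: ys => by
    rw [List.cons_merge_cons]
    split
    · exact (o8_sub_left le xs (y :: ys)).cons_cons x
    · exact (o8_sub_left le (x :: xs) ys).cons y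

theorem o8_sub_right {α : Type} (le : α → α → Bool) :
    ∀ xs ys : List α, ys.Sublist (List.merge xs ys le)
  | [], _ => by simp
  | _, [] => List.nil_sublist _
  | x :: xs, y :: ys => by
    rw [List.cons_merge_cons]
    split
    · exact (o8_sub_right le xs (y :: ys)).cons x
    · exact (o8_sub_right le (x :: xs) ys).cons_cons y

theorem o8_filter {α : Type} {A B L : List α} (hA : A.Sublist L) (hp : L.Perm (A ++ B)) (r : α → Bool)
    (h1 : ∀ x ∈ A, r x = true) (h2 : ∀ x ∈ B, r x = false) : L.filter r = A := by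
  have e1 : A.filter r = A := List.filter_eq_self.2 h1
  have e2 : B.filter r = [] := List.filter_eq_nil_iff.2 fun x hx => by simp [h2 x hx]
  have h3 := hA.filter r
  have h4 := (hp.filter r).length_eq
  rw [List.filter_append, e1, e2, List.append_nil] at h4
  rw [e1] at h3
  exact (h3.eq_of_length h4.symm).symm

theorem o8_sum_filter {α : Type} (r : α → Bool) (F : α → ℝ) (L : List α)
    (h : ∀ x ∈ L, r x = false → F x = 0) : ((L.filter r).map F).sum = (L.map F).sum := by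
  induction L with
  | nil => rfl
  | cons a L ih =>
    have ih' := ih fun x hx => h x (List.mem_cons_of_mem _ hx)
    cases hr : r a
    · rw [List.filter_cons_of_neg (by simp [hr]), ih', List.map_cons, List.sum_cons,
        h a List.mem_cons_self hr, zero_add]
    · rw [List.filter_cons_of_pos hr, List.map_cons, List.sum_cons, ih', List.map_cons, List.sum_cons]

/-- The tangent inequality between two sorted lists with positive variances. -/
theorem o8_two {L0 L1 : List (ℝ × ℝ)} (h0 : LSort L0) (h1 : LSort L1) (p0 : ∀ q ∈ L0, 0 < q.2)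
    (p1 : ∀ q ∈ L1, 0 < q.2) (b : ℝ) :
    ⨅ b' : ℝ, (fL L1 b' - b' * ML L0 b) ≤ fL L0 b - b * ML L0 b +
      ((L1.map fun q => q.2 * (1 - tl (fun s => PL L0 s b) q.1)).sum -
        (L0.map fun q => q.2 * (1 - tl (fun s => PL L0 s b) q.1)).sum) / 2 := by
  classical
  obtain ⟨A, hA⟩ : ∃ A : List (ℝ × ℝ × ℝ), A = L0.map fun q => (q.1, q.2, -q.2) := ⟨_, rfl⟩
  obtain ⟨B, hB⟩ : ∃ B : List (ℝ × ℝ × ℝ), B = L1.map fun q => (q.1, 0, q.2) := ⟨_, rfl⟩
  obtain ⟨L, hL⟩ : ∃ L, L = List.merge A B (fun p q => decide (p.1 ≤ q.1)) := ⟨_, rfl⟩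
  have hp : L.Perm (A ++ B) := hL ▸ List.merge_perm_append _
  have hsA : A.Sublist L := hL ▸ o8_sub_left _ A B
  have hsB : B.Sublist L := hL ▸ o8_sub_right _ A B
  have hmA : ∀ x ∈ A, ∃ q ∈ L0, x = (q.1, q.2, -q.2) := fun x hx => by
    rw [hA] at hx; obtain ⟨q, hq, rfl⟩ := List.mem_map.1 hx; exact ⟨q, hq, rfl⟩
  have hmB : ∀ x ∈ B, ∃ q ∈ L1, x = (q.1, 0, q.2) := fun x hx => by
    rw [hB] at hx; obtain ⟨q, hq, rfl⟩ := List.mem_map.1 hx; exact ⟨q, hq, rfl⟩
  have hsort : L.Pairwise (fun p q => p.1 ≤ q.1) := by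
    have := List.pairwise_merge (le := fun p q : ℝ × ℝ × ℝ => decide (p.1 ≤ q.1))
      (fun a b c h h' => decide_eq_true ((of_decide_eq_true h).trans (of_decide_eq_true h')))
      (fun a b => by rcases le_total a.1 b.1 with h | h <;> simp [h]) A B
      (by rw [hA, List.pairwise_map]; exact h0.2.imp fun h => decide_eq_true h)
      (by rw [hB, List.pairwise_map]; exact h1.2.imp fun h => decide_eq_true h)
    rw [hL]
    exact this.imp fun h => of_decide_eq_true h
  have hsort' : ∀ t, (Lt L t).Pairwise (fun p q => p.1 ≤ q.1) := fun t => by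
    rw [Lt, List.pairwise_map]; exact hsort
  have hs : LSort (Lt L 0) := by
    refine ⟨fun x hx => ?_, hsort' 0⟩
    obtain ⟨y, hy, rfl⟩ := List.mem_map.1 hx
    rcases List.mem_append.1 (hp.subset hy) with h | h
    · obtain ⟨q, hq, rfl⟩ := hmA y h; exact h0.1 q hq
    · obtain ⟨q, hq, rfl⟩ := hmB y h; exact h1.1 q hq
  have hv : ∀ q ∈ L, 0 ≤ q.2.1 ∧ 0 ≤ q.2.1 + q.2.2 ∧ 0 < q.2.1 + (q.2.1 + q.2.2) := by
    intro y hy
    rcases List.mem_append.1 (hp.subset hy) with h | h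
    · obtain ⟨q, hq, rfl⟩ := hmA y h
      have := p0 q hq
      exact ⟨this.le, by simp, by simpa using this⟩
    · obtain ⟨q, hq, rfl⟩ := hmB y h
      have := p1 q hq
      exact ⟨le_rfl, by simpa using this.le, by simpa using this⟩
  set r : ℝ × ℝ → Bool := fun q => decide (q.2 ≠ 0) with hr
  have hr0 : ∀ (M : List (ℝ × ℝ)), ∀ q ∈ M, r q = false → q.2 = 0 := fun M q _ h => by
    simpa [hr] using h
  have e0 : (Lt L 0).filter r = L0 := by
    rw [Lt, List.filter_map, o8_filter hsA hp, hA, List.map_map]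
    · conv_rhs => rw [← List.map_id L0]
      congr 1; funext q; simp
    · intro x hx; obtain ⟨q, hq, rfl⟩ := hmA x hx; simpa [hr] using (p0 q hq).ne'
    · intro x hx; obtain ⟨q, hq, rfl⟩ := hmB x hx; simp [hr]
  have e1 : (Lt L 1).filter r = L1 := by
    rw [Lt, List.filter_map, o8_filter hsB (hp.trans List.perm_append_comm), hB, List.map_map]
    · conv_rhs => rw [← List.map_id L1]
      congr 1; funext q; simp
    · intro x hx; obtain ⟨q, hq, rfl⟩ := hmB x hx; simpa [hr] using (p1 q hq).ne'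
    · intro x hx; obtain ⟨q, hq, rfl⟩ := hmA x hx; simp [hr]
  have f0 : fL (Lt L 0) = fL L0 := by rw [← fL_filter _ r (hr0 _), e0]
  have f1 : fL (Lt L 1) = fL L1 := by rw [← fL_filter _ r (hr0 _), e1]
  have m0 : ML (Lt L 0) = ML L0 := by rw [← ML_filter _ r (hr0 _), e0]
  have q0 : ∀ s, PL (Lt L 0) s = PL L0 s := fun s => by rw [← PL_filter (hsort' 0) r (hr0 _), e0]
  have h2 := tangent_line L hs hv b
  rw [f0, f1, m0] at h2
  refine h2.trans (le_of_eq ?_)
  congr 1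
  unfold grad
  simp only [q0]
  rw [(hp.map _).sum_eq, List.map_append, List.sum_append, hA, hB, List.map_map, List.map_map]
  have e2 : (L0.map ((fun q : ℝ × ℝ × ℝ => q.2.2 * (1 - tl (fun s => PL L0 s b) q.1)) ∘
      fun q => (q.1, q.2, -q.2))).sum =
      -(L0.map fun q => q.2 * (1 - tl (fun s => PL L0 s b) q.1)).sum := by
    rw [List.sum_neg, List.map_map]
    congr 2; funext q; simp
  rw [e2, neg_add_eq_sub]
  rfl

theorem o8_tl {P : ℝ → ℝ} {m ζ : ℝ} :
    tl (fun s => if m < s then P s else 0) ζ = tl P (max ζ m) := by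
  unfold tl
  rw [setIntegral_eq_of_subset_of_forall_sdiff_eq_zero measurableSet_Ioo
    (Set.Ioo_subset_Ioo_left (le_max_left ζ m))]
  · refine setIntegral_congr_fun measurableSet_Ioo fun s hs => ?_
    exact if_pos ((le_max_right _ _).trans_lt hs.1)
  · intro s hs
    refine if_neg fun h => hs.2 ⟨max_lt hs.1.1 h, hs.1.2⟩

theorem o8_mem_lst (X : Expo) {v : ℕ → ℝ} {q : ℝ × ℝ} (hq : q ∈ X.lst v 1) :
    ∃ l, 1 ≤ l ∧ l ≤ X.n ∧ q = (X.e l, v l) := by
  obtain ⟨l, hl, rfl⟩ := List.mem_map.1 hq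
  rw [List.mem_range'_1] at hl
  exact ⟨l, hl.1, by omega, rfl⟩

/-- The tangent inequality.  `p s = if m < s then PL (X.lst v 1) s b else 0`.  For a competitor
step field raise its exponents to `max ζ m` (`fL_mono`; `tl p` is unchanged since `p = 0` on
`(0, m]`), drop its zero increments, and merge (`List.merge`, sorted by exponent) the triples
`(e_l, v_l, - v_l)` and `(max ζ m, 0, increment)`; the filter lemmas identify the two ends of
the line; apply `tangent_line`.  The derivative statement is `line_deriv` for the triples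
`(e_c, v_c, if c = l then 1 else 0)`. -/
theorem tangent_ineq (X : Expo) {v : ℕ → ℝ} (hv : ∀ l, 1 ≤ l → l ≤ X.n → 0 < v l) (b : ℝ) :
    ∃ p : ℝ → ℝ, IsTrialPath p ∧ (∀ s, s ≤ X.m → p s = 0) ∧
      (∀ l, 1 ≤ l → l ≤ X.n → HasDerivAt (fun δ => X.Phi (Function.update v l (v l + δ)) b)
        ((1 - tl p (X.e l)) / 2) 0) ∧
      ∀ (k : ℕ) (w hv : Fin k → ℝ), IsStepField w hv →
        cfv (ML (X.lst v 1) b) w hv + (1 / 2) * ∫ s in Set.Ioo (0 : ℝ) 1, p s * stepFn w hv s ≤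
          X.Phi v b - b * ML (X.lst v 1) b -
            (∑ l ∈ Finset.Icc 1 X.n, v l * (1 - tl p (X.e l))) / 2 := by
  classical
  have hok : LOK (X.lst v 1) := X.lst_ok fun l h1 h2 => (hv l h1 h2).le
  have hP0 : ∀ s, 0 ≤ PL (X.lst v 1) s b := fun s => (sq_nonneg _).trans (ML_sq_le_PL hok s b)
  have hm0 : 0 < X.m := X.pos
  have hm1 : X.m ≤ 1 := X.le_one 0
  have hme : ∀ l, max (X.e l) X.m = X.e l := fun l => max_eq_left (X.mono (Nat.zero_le l))
  have htp : IsTrialPath (fun s => if X.m < s then PL (X.lst v 1) s b else 0) := by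
    refine ⟨Measurable.ite measurableSet_Ioi ?_ measurable_const, fun s _ s' _ hss => ?_, fun s _ => ?_⟩
    · have h1 : Measurable fun s : ℝ => ((s, b) : ℝ × ℝ) := measurable_id.prodMk measurable_const
      simpa only [Function.comp_def] using (measurable_PL hok).comp h1
    · simp only
      split_ifs with h1 h2 h2
      · exact PL_mono hok b hss
      · exact absurd (h1.trans_le hss) h2
      · exact hP0 _
      · exact le_rfl
    · simp only
      split_ifs
      · exact ⟨hP0 _, PL_le_one hok s b⟩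
      · exact ⟨le_rfl, zero_le_one⟩
  refine ⟨fun s => if X.m < s then PL (X.lst v 1) s b else 0, htp,
    fun s hs => if_neg (not_lt.2 hs), fun l hl1 hl2 => ?_, fun k w hw hst => ?_⟩
  · obtain ⟨T, hT⟩ : ∃ T : List (ℝ × ℝ × ℝ), T = (List.range' 1 (X.n + 1 - 1)).map
      fun c => (X.e c, v c, if c = l then 1 else 0) := ⟨_, rfl⟩
    have e1 : ∀ δ, Lt T δ = X.lst (Function.update v l (v l + δ)) 1 := by
      intro δ
      rw [hT, Lt, List.map_map, Expo.lst]
      congr 1; funext c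
      by_cases hc : c = l
      · subst hc; simp
      · simp [hc]
    have e0 : Lt T 0 = X.lst v 1 := by rw [e1, add_zero, Function.update_eq_self]
    have h1 := line_deriv T (e0 ▸ X.lst_sort v 1) (t0 := 0) (fun q hq => by
      have h2 := o8_mem_Lt hq 0
      rw [e0] at h2
      obtain ⟨c, h3, h4, h5⟩ := o8_mem_lst X h2
      have h6 : q.2.1 + 0 * q.2.2 = v c := congrArg Prod.snd h5
      rw [h6]
      exact hv c h3 h4) b
    simp only [e1] at h1
    refine HasDerivAt.congr_deriv (f' := grad T 0 b) h1 (Eq.symm ?_)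
    unfold grad
    rw [e0, o8_tl, hme, hT, List.map_map, ← List.sum_toFinset _ List.nodup_range']
    congr 1
    rw [Finset.sum_eq_single l]
    · simp
    · intro c _ hc; simp [hc]
    · intro h; exact absurd (List.mem_toFinset.2 (List.mem_range'_1.2 ⟨hl1, by omega⟩)) h
  · have sok := stepL_ok hst
    set SL := stepL w hw with hSL
    set S1 := SL.map fun q => (max q.1 X.m, q.2) with hS1
    set r : ℝ × ℝ → Bool := fun q => decide (q.2 ≠ 0) with hr
    have hr0 : ∀ q ∈ S1, r q = false → q.2 = 0 := fun q _ h => by simpa [hr] using h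
    have ok1 : ∀ q ∈ S1, (0 < q.1 ∧ q.1 ≤ 1) ∧ 0 ≤ q.2 := by
      intro x hx
      obtain ⟨q, hq, rfl⟩ := List.mem_map.1 hx
      exact ⟨⟨hm0.trans_le (le_max_right _ _), max_le (sok q hq).2.1 hm1⟩, (sok q hq).2.2⟩
    have so1 : S1.Pairwise (fun p q => p.1 ≤ q.1) := by
      rw [hS1, List.pairwise_map]
      exact (stepL_sorted hst).imp fun h => max_le_max_right _ h
    have h1 := o8_two (L0 := X.lst v 1) (L1 := S1.filter r) (X.lst_sort v 1)
      ⟨fun q hq => (ok1 q (List.mem_filter.1 hq).1).1, so1.filter r⟩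
      (fun q hq => by
        obtain ⟨c, h3, h4, rfl⟩ := o8_mem_lst X hq
        exact hv c h3 h4)
      (fun q hq => lt_of_le_of_ne (ok1 q (List.mem_filter.1 hq).1).2
        (of_decide_eq_true (List.mem_filter.1 hq).2).symm) b
    rw [fL_filter S1 r hr0, o8_sum_filter r _ S1 (fun q hq h => by rw [hr0 q hq h, zero_mul]),
      X.lst_sum] at h1
    have h2 : cfv (ML (X.lst v 1) b) w hw + (SL.map fun q => q.2).sum / 2 ≤
        ⨅ b' : ℝ, (fL S1 b' - b' * ML (X.lst v 1) b) := by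
      refine le_ciInf fun b' => ?_
      have h3 := cfv_le hst (abs_ML_lt hok b).le b'
      rw [fieldValueAt_eq b' hst] at h3
      have h4 : fL SL b' ≤ fL S1 b' := by
        refine fL_mono sok (fun q hq => ⟨(ok1 q hq).1.1.le, (ok1 q hq).1.2, (ok1 q hq).2⟩) ?_ b'
        rw [hS1, List.forall₂_map_right_iff, List.forall₂_same]
        exact fun q _ => ⟨le_max_left _ _, le_rfl⟩
      linarith
    rw [integral_stepFn hst (IsTrialPath.integrableOn htp)]
    simp only [o8_tl, hme]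
    have e3 : (S1.map fun q => q.2 * (1 - tl (fun s => PL (X.lst v 1) s b) q.1)).sum =
        (SL.map fun q => q.2).sum -
          (SL.map fun q => q.2 * tl (fun s => PL (X.lst v 1) s b) (max q.1 X.m)).sum := by
      rw [hS1, List.map_map, eq_sub_iff_add_eq, ← List.sum_map_add]
      congr 2; funext q; simp only [Function.comp]; ring
    rw [e3] at h1
    unfold Expo.Phi
    linarith

end Crest.Agent.R164
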