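import Crest.Agent.R164.X10
import Crest.Agent.R164.O8
import Crest.Agent.R164.S5

/-! # Lower bound: magnetisation, self-consistency, the one-site inequality -/

set_option autoImplicit false
set_option linter.unusedVariables false
set_option linter.unusedSectionVars false

open MeasureTheory ProbabilityTheory Real Crest.ProbabilityR.InvariantGlass
open scoped ENNReal

namespace Crest.Agent.R164

theorem exists_spin_near {N J : ℕ} (lab : Fin N → Fin J) {mag : Fin J → ℝ} (hm : ∀ j, |mag j| ≤ 1) :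
    ∃ σ : Fin N → Bool, ∀ j, |yv lab mag j σ| ≤ 2 := by
  classical
  have key : ∀ T : Finset (Fin N), ∃ σ : Fin N → Bool,
      ∀ j, |∑ r ∈ T.filter (fun i => lab i = j), (spinVec σ r - mag j)| ≤ 2 := by
    intro T
    induction T using Finset.induction_on with
    | empty => exact ⟨fun _ => true, fun j => by simp⟩
    | insert a T ha ih =>
      obtain ⟨σ, hσ⟩ := ih
      have hsame : ∀ (c : Bool) (j : Fin J),
          ∑ r ∈ T.filter (fun i => lab i = j), (spinVec (Function.update σ a c) r - mag j) =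
          ∑ r ∈ T.filter (fun i => lab i = j), (spinVec σ r - mag j) := by
        intro c j
        refine Finset.sum_congr rfl fun r hr => ?_
        have : r ≠ a := fun e => ha (e ▸ (Finset.mem_filter.1 hr).1)
        simp only [spinVec, Function.update_of_ne this]
      refine ⟨Function.update σ a (decide (∑ r ∈ T.filter (fun i => lab i = lab a),
        (spinVec σ r - mag (lab a)) < 0)), fun j => ?_⟩
      rw [Finset.filter_insert]
      split_ifs with hj
      · rw [Finset.sum_insert (fun h => ha (Finset.mem_filter.1 h).1), hsame]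
        subst hj
        have h1 := abs_le.1 (hσ (lab a))
        have h2 := abs_le.1 (hm (lab a))
        generalize ∑ r ∈ T.filter (fun i => lab i = lab a), (spinVec σ r - mag (lab a)) = y at h1 ⊢
        simp only [spinVec, Function.update_self, decide_eq_true_eq]
        rw [abs_le]
        split_ifs with h3
        · constructor <;> linarith [h1.1, h1.2, h2.1, h2.2]
        · constructor <;> linarith [h1.1, h1.2, h2.1, h2.2]
      · rw [hsame]; exact hσ j
  exact key Finset.univ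

/-- `E_le_X_sub` between `Kp` and `0`; `A_noField`, `fm_le_of_le`, `le_fm_of_le`, `logZ_ge` -/
theorem y_sq_bound (S : Spec) (X : Expo) {N J : ℕ} (θ : ℕ → ℝ) (blk : Fin N → Fin (S.k + 1))
    (lab : Fin N → Fin J) {mag : Fin J → ℝ} (hm : ∀ j, |mag j| ≤ 1) {Kp : ℝ} (hK : 0 ≤ Kp)
    (hKN : 4 * J * Kp ≤ N) (hθ : ∑ a ∈ Finset.Icc 1 X.n, θ a ^ 2 ≤ 1) {π' : PI X.n S.k J → ℝ}
    (hπ : Small π' 1) :
    Kp * ∫ x, ∑ j, yv lab mag j x.2.2 ^ 2
      ∂((sys S 1 θ blk lab mag Kp (fun _ => 0) (fun _ _ => 0) π').PP X) ≤ (S.Λ + 8) * N := by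
  set p := sys S 1 θ blk lab mag Kp (fun _ => 0) (fun _ _ => 0) π' with hp
  set p0 := sys S 1 θ blk lab mag 0 (fun _ => 0) (fun _ _ => 0) π' with hp0
  have hV : (mT X N).LG (fun x => Kp * ∑ j, yv lab mag j x.2.2 ^ 2) :=
    lg_spin (fun σ => Kp * ∑ j, yv lab mag j σ ^ 2)
  have h1 := Tower.E_le_X_sub (lg_Ham p) hV 0 (mT X N).x0
  have e1 : (fun y : MS X.n N => Ham p y + Kp * ∑ j, yv lab mag j y.2.2 ^ 2) = Ham p0 := by
    funext y
    simp only [hp, hp0, Ham, sys, Finset.sum_sub_distrib, Finset.mul_sum, zero_mul,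
      Finset.sum_const_zero]
    ring
  rw [e1, Tower.E_zero_eq, integral_const_mul] at h1
  change _ ≤ p0.A X - p.A X at h1
  have hvt : ∀ i, ∑ a ∈ Finset.Icc 1 X.n, vtOf π' a (blk i) ^ 2 ≤ 1 := fun i => hπ.v _
  have hth : ∑ a ∈ Finset.Icc 1 X.n, (θ a ^ 2 + (0 : ℝ) ^ 2) ≤ 1 := by simpa using hθ
  have hlam : ∀ i, |1 * S.lam (blk i) + π' (Sum.inl (blk i))| ≤ S.Λ + 1 := fun i => by
    rw [one_mul]
    exact (abs_add_le _ _).trans (add_le_add (S.abs_lam_le _) (hπ.a _))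
  have hh : ∀ σ, |∑ j, π' (Sum.inr (Sum.inr j)) * yv lab mag j σ| ≤ 2 * N := fun σ => by
    refine (Finset.abs_sum_le_sum_abs _ _).trans (le_trans (Finset.sum_le_sum fun j _ => ?_)
      (sum_abs_yv_le lab mag hm σ))
    rw [abs_mul]
    exact mul_le_of_le_one_left (abs_nonneg _) (hπ.h j)
  have h2 := (A_noField (X := X) p0 (Θ := 1) hvt (fun _ => hth)).2
  have h3 := (A_noField (X := X) p (Θ := 1) hvt (fun _ => hth)).1
  have h4 : fm X.m p0.lam p0.f ≤ (S.Λ + 1) * N / 2 + 2 * N := by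
    refine fm_le_of_le X.m_pos fun U => le_trans (le_abs_self _) (abs_logZ_le hlam (fun σ => ?_) U)
    simpa [hp0, sys] using hh σ
  obtain ⟨σ, hσ⟩ := exists_spin_near lab hm
  have h5 : p.f σ - (S.Λ + 1) * N / 2 - N * log 2 ≤ fm X.m p.lam p.f :=
    le_fm_of_le X.m_pos fun U => logZ_ge p.f hlam σ U
  have h6 : -(2 * N) - N ≤ p.f σ := by
    have e : p.f σ = ∑ j, π' (Sum.inr (Sum.inr j)) * yv lab mag j σ -
        Kp * ∑ j, yv lab mag j σ ^ 2 := by
      simp only [hp, sys, Finset.sum_sub_distrib, Finset.mul_sum, zero_add]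
    have a1 := (abs_le.1 (hh σ)).1
    have a2 : ∑ j, yv lab mag j σ ^ 2 ≤ ∑ _j : Fin J, (4 : ℝ) := Finset.sum_le_sum fun j _ => by
      have := abs_le.1 (hσ j)
      nlinarith [this.1, this.2]
    simp only [Finset.sum_const, Finset.card_univ, Fintype.card_fin, nsmul_eq_mul] at a2
    have a3 := mul_le_mul_of_nonneg_left a2 hK
    rw [e]
    nlinarith
  have h7 : log 2 ≤ 1 := by have := log_two_lt_d9; linarith
  have h8 : (N : ℝ) * log 2 ≤ N := mul_le_of_le_one_right (Nat.cast_nonneg _) h7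
  change Kp * ∫ x, ∑ j, yv lab mag j x.2.2 ^ 2 ∂(p.PP X) ≤ _ at h1
  nlinarith

/-- Self-consistency at the last site: `A_add_bdd` and `Phi_taylor_b` for the constant field,
`taylor2` (coordinate `(2, l - 1, last)`) and `Phi_taylor` for the extra Gaussian field
`ϑ = Pi.single l δT`. -/
theorem self_cons (S : Spec) (X : Expo) {M J : ℕ} (θ : ℕ → ℝ) (blk' : Fin (M + 1) → Fin (S.k + 1))
    (lab' : Fin (M + 1) → Fin J) (mag : Fin J → ℝ) (Kp : ℝ) (π' : PI X.n S.k J → ℝ) {v0 : ℕ → ℝ}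
    (hv : ∀ l, 1 ≤ l → l ≤ X.n → 0 ≤ v0 l) {c0 b0 ε δT : ℝ} (hT : 0 < δT) (hT1 : δT ≤ 1)
    (h : ∀ (ϑ : ℕ → ℝ) (δ : ℝ), ∑ a ∈ Finset.Icc 1 X.n, ϑ a ^ 2 ≤ 1 → |δ| ≤ 1 →
      |(sys S 1 θ blk' lab' mag Kp (fun σ => δ * spinVec σ (Fin.last M)) (lastOnly ϑ) π').A X -
        (c0 + X.Phi (fun l => θ l ^ 2 + ϑ l ^ 2 + v0 l) (b0 + δ))| ≤ ε) :
    |∫ x, σO (Fin.last M) x ∂((sys S 1 θ blk' lab' mag Kp (fun _ => 0) (fun _ _ => 0) π').PP X) -
      ML (X.lst (fun l => θ l ^ 2 + v0 l) 1) b0| ≤ 2 * δT + 2 * ε / δT ∧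
    ∀ l d, 1 ≤ l → l ≤ X.n →
      HasDerivAt (fun δ => X.Phi (Function.update (fun l => θ l ^ 2 + v0 l) l
        (θ l ^ 2 + v0 l + δ)) b0) d 0 →
      |(1 - X.tau ((sys S 1 θ blk' lab' mag Kp (fun _ => 0) (fun _ _ => 0) π').ovσ X
        {Fin.last M}) l) / 2 - d| ≤ 20 * δT + 2 * ε / δT ^ 2 := by
  classical
  set p := sys S 1 θ blk' lab' mag Kp (fun _ => 0) (fun _ _ => 0) π' with hp
  set v : ℕ → ℝ := fun l => θ l ^ 2 + v0 l with hvdef
  have hv' : ∀ l, 1 ≤ l → l ≤ X.n → 0 ≤ v l := fun l h1 h2 =>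
    add_nonneg (sq_nonneg _) (hv l h1 h2)
  have habs : |δT| ≤ 1 := by rwa [abs_of_pos hT]
  have ev : (fun l => θ l ^ 2 + (fun _ : ℕ => (0 : ℝ)) l ^ 2 + v0 l) = v := by
    funext l; simp [hvdef]
  have eH : ∀ δ : ℝ, Ham (n := X.n) (sys S 1 θ blk' lab' mag Kp
      (fun σ => δ * spinVec σ (Fin.last M)) (lastOnly fun _ => 0) π') =
      fun x => Ham p x + δ * σO (Fin.last M) x := by
    intro δ
    funext x
    simp only [hp, Ham, sys, lastOnly, ite_self, σO]
    ring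
  have h0 : |p.A X - (c0 + X.Phi v b0)| ≤ ε := by
    have := h (fun _ => 0) 0 (by simp) (by simp)
    rw [ev, Par.A, eH] at this
    simpa [Par.A] using this
  have a0 := abs_le.1 h0
  constructor
  · have h1 := h (fun _ => 0) δT (by simp) habs
    rw [ev, Par.A, eH] at h1
    have h2 := Tower.A_add_bdd (lg_Ham (X := X) p) (measurable_σO (Fin.last M))
      (abs_σO (Fin.last M)) habs
    have h3 := abs_le.1 (Phi_taylor_b X hv' b0 habs)
    have a1 := abs_le.1 h1
    change 0 ≤ _ - p.A X - δT * ∫ y, σO (Fin.last M) y ∂(p.PP X) ∧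
      _ - p.A X - δT * ∫ y, σO (Fin.last M) y ∂(p.PP X) ≤ _ at h2
    have h4 : |δT * (∫ y, σO (Fin.last M) y ∂(p.PP X) - ML (X.lst v 1) b0)| ≤
        δT * (2 * δT + 2 * ε / δT) := by
      have e : δT * (2 * δT + 2 * ε / δT) = 2 * δT ^ 2 + 2 * ε := by field_simp
      have := sq_nonneg δT
      rw [e, abs_le, mul_sub]
      constructor <;> linarith [h2.1, h2.2, h3.1, h3.2, a1.1, a1.2, a0.1, a0.2]
    rw [abs_mul, abs_of_pos hT] at h4
    exact le_of_mul_le_mul_left h4 hT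
  · intro l d h1 h2 hd
    obtain ⟨j0, rfl⟩ : ∃ j0 : Fin X.n, l = j0.val + 1 := ⟨⟨l - 1, by omega⟩, by simp only; omega⟩
    have hs : ∑ a ∈ Finset.Icc 1 X.n, (if a = j0.val + 1 then δT else 0) ^ 2 ≤ 1 := by
      rw [Finset.sum_eq_single (j0.val + 1) (fun a _ ha => by simp [ha])
        (fun hn => absurd (Finset.mem_Icc.2 ⟨h1, h2⟩) hn), if_pos rfl]
      nlinarith
    have h3 := h (fun a => if a = j0.val + 1 then δT else 0) 0 hs (by simp)
    have ev2 : (fun l => θ l ^ 2 + (fun a : ℕ => if a = j0.val + 1 then δT else 0) l ^ 2 + v0 l) =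
        Function.update v (j0.val + 1) (v (j0.val + 1) + δT ^ 2) := by
      funext l
      by_cases hl : l = j0.val + 1
      · subst hl; simp only [hvdef, if_true, Function.update_self]; ring
      · simp [hl, hvdef]
    have eH2 : Ham (n := X.n) (sys S 1 θ blk' lab' mag Kp
        (fun σ => 0 * spinVec σ (Fin.last M))
        (lastOnly fun a => if a = j0.val + 1 then δT else 0) π') =
        fun x => Ham p x + δT * (x.2.1 (2, j0, Fin.last M) * σO (Fin.last M) x) := by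
      funext x
      have : ∑ l : Fin X.n, ∑ r : Fin (M + 1),
          lastOnly (fun a => if a = j0.val + 1 then δT else 0) (l.val + 1) r *
            (x.2.1 (2, l, r) * σO r x) =
          δT * (x.2.1 (2, j0, Fin.last M) * σO (Fin.last M) x) := by
        rw [Finset.sum_eq_single j0 (fun l _ hl => Finset.sum_eq_zero fun r _ => by
          have : l.val + 1 ≠ j0.val + 1 := fun e => hl (Fin.ext (by omega))
          simp only [lastOnly, if_neg this, ite_self, zero_mul]) (by simp),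
          Finset.sum_eq_single (Fin.last M) (fun r _ hr => by
            simp only [lastOnly, if_neg hr, zero_mul]) (by simp)]
        simp only [lastOnly, if_true]
      simp only [hp, Ham, sys, this, zero_mul, Finset.sum_const_zero]
      ring
    rw [ev2, Par.A, eH2, add_zero] at h3
    have h4 := taylor2 (X := X) (P := haar (M + 1)) (lev := mlev) (A := Fin (M + 1) → Bool)
      ((2, j0, Fin.last M) : MI X.n (M + 1)) (lg_Ham (X := X) p) (measurable_σO (Fin.last M))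
      (σO_sq (Fin.last M)) (fun t x => by
        simp [hp, Ham, sys, shift, sO, σO, Function.update_of_ne]) (fun t x => rfl) habs
    have h5 := Phi_taylor X hv' b0 h1 h2 hd habs
    have e3 : p.ovσ X {Fin.last M} = fun r => ∫ y, ((mT X (M + 1)).E (Ham p) r
        (σO (Fin.last M)) y) ^ 2 ∂((mT X (M + 1)).PP (Ham p)) := by
      funext r
      simp only [Par.ovσ, Tower.ov, Finset.sum_singleton]
    rw [abs_of_pos hT] at h4 h5
    change |(mT X (M + 1)).A _ - p.A X - δT ^ 2 / 2 * (1 - X.tau (fun r => ∫ y,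
      ((mT X (M + 1)).E (Ham p) r (σO (Fin.last M)) y) ^ 2 ∂((mT X (M + 1)).PP (Ham p)))
        (j0.val + 1))| ≤ _ at h4
    rw [← e3] at h4
    have a3 := abs_le.1 h3
    have a4 := abs_le.1 h4
    have a5 := abs_le.1 h5
    have hT2 : 0 < δT ^ 2 := by positivity
    have h6 : |δT ^ 2 * ((1 - X.tau (p.ovσ X {Fin.last M}) (j0.val + 1)) / 2 - d)| ≤
        δT ^ 2 * (20 * δT + 2 * ε / δT ^ 2) := by
      have e : δT ^ 2 * (20 * δT + 2 * ε / δT ^ 2) = 20 * δT ^ 3 + 2 * ε := by field_simp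
      have e' : δT ^ 2 * ((1 - X.tau (p.ovσ X {Fin.last M}) (j0.val + 1)) / 2 - d) =
          δT ^ 2 / 2 * (1 - X.tau (p.ovσ X {Fin.last M}) (j0.val + 1)) - δT ^ 2 * d := by ring
      rw [e, e', abs_le]
      constructor <;> linarith [a3.1, a3.2, a4.1, a4.2, a5.1, a5.2, a0.1, a0.2]
    rw [abs_mul, abs_of_pos hT2] at h6
    exact le_of_mul_le_mul_left h6 hT2

/-- Average the tangent inequalities of the classes (`isTrialPath_avg`), then `SLe.perturb`.
With `s = ML b`: `Φ - b s ≤ Φ - b mag + B δs`, because either `b (s - mag) ≥ 0`, or (by `ML_sign`)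
`|s| ≤ |mag| ≤ m0` and then `|b| ≤ B` by `abs_le_of_ML`. -/
theorem onesite (S : Spec) (X : Expo) {v : ℕ → ℝ} (hv : ∀ l, 1 ≤ l → l ≤ X.n → 0 < v l)
    (b mag : Fin (S.k + 1) → ℝ) {H m0 κ δs : ℝ} (hH : ∑ l ∈ Finset.Icc 1 X.n, v l ≤ H)
    (hm : ∀ j, |mag j| ≤ m0) (hm0 : m0 < 1) (hκ : 0 ≤ κ) (hκ1 : κ ≤ 1) (hδ0 : 0 ≤ δs)
    (hδ : δs ≤ κ / 2 * (1 - m0)) :
    ∃ (p : ℝ → ℝ) (d : Fin (S.k + 1) → ℕ → ℝ), IsTrialPath p ∧ (∀ s, s ≤ X.m → p s = 0) ∧
      (∀ j l, 1 ≤ l → l ≤ X.n →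
        HasDerivAt (fun δ => X.Phi (Function.update v l (v l + δ)) (b j)) (d j l) 0) ∧
      (∀ l, 1 ≤ l → l ≤ X.n → S.av (fun j => d j l) = (1 - tl p (X.e l)) / 2) ∧
      ((∀ j, |ML (X.lst v 1) (b j) - mag j| ≤ δs) →
        SLe (fun _ => ((S.k : ℝ) + 1)⁻¹) mag (fun s => (1 - κ) * p s)
          (S.av (fun j => X.Phi v (b j) - b j * mag j) -
            (∑ l ∈ Finset.Icc 1 X.n, v l * (1 - tl p (X.e l))) / 2 + 4 * κ +
            (log 2 + H / 2) / (1 - m0) * δs)) := by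
  choose P hP h0 hd hI using fun j => tangent_ineq X hv (b j)
  set γ : ℝ := ((S.k : ℝ) + 1)⁻¹ with hγ
  have hk : (0 : ℝ) < (S.k : ℝ) + 1 := by positivity
  have hγ0 : 0 ≤ γ := by positivity
  have hγ1 : ∑ _j : Fin (S.k + 1), γ = 1 := by
    simp only [Finset.sum_const, Finset.card_univ, Fintype.card_fin, nsmul_eq_mul, hγ]
    push_cast
    field_simp
  have hav : ∀ f : Fin (S.k + 1) → ℝ, S.av f = ∑ j, γ * f j := fun f => by
    rw [Spec.av, ← Finset.mul_sum, hγ]; field_simp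
  have hp : IsTrialPath (fun s => ∑ j, γ * P j s) :=
    isTrialPath_avg (γ := fun _ => γ) hP (fun _ => hγ0) hγ1
  have htl : ∀ l, tl (fun s => ∑ j, γ * P j s) (X.e l) = ∑ j, γ * tl (P j) (X.e l) := fun l => by
    simp only [tl]
    rw [integral_finsetSum _ fun j _ => ((IsTrialPath.integrableOn (hP j)).mono_set
      (Set.Ioo_subset_Ioo_left (X.e_pos l).le)).const_mul γ]
    simp only [integral_const_mul]
  have hone : ∀ l, 1 - tl (fun s => ∑ j, γ * P j s) (X.e l) =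
      ∑ j, γ * (1 - tl (P j) (X.e l)) := fun l => by
    rw [htl]
    simp only [mul_sub, mul_one, Finset.sum_sub_distrib, hγ1]
  refine ⟨fun s => ∑ j, γ * P j s, fun j l => (1 - tl (P j) (X.e l)) / 2, hp,
    fun s hs => by simp [h0 _ s hs], fun j l h1 h2 => hd j l h1 h2, fun l h1 h2 => ?_,
    fun hs => ?_⟩
  · rw [hav, hone, Finset.sum_div]
    exact Finset.sum_congr rfl fun j _ => by ring
  have hL : LOK (X.lst v 1) := X.lst_ok fun l h1 h2 => (hv l h1 h2).le
  have base : SLe (fun _ => γ) (fun j => ML (X.lst v 1) (b j)) (fun s => ∑ j, γ * P j s)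
      (∑ j, γ * (X.Phi v (b j) - b j * ML (X.lst v 1) (b j)) -
        (∑ l ∈ Finset.Icc 1 X.n, v l * (1 - tl (fun s => ∑ j, γ * P j s) (X.e l))) / 2) := by
    intro k w hw hsf
    have e1 : ∫ s in Set.Ioo (0 : ℝ) 1, (∑ j, γ * P j s) * stepFn w hw s =
        ∑ j, γ * ∫ s in Set.Ioo (0 : ℝ) 1, P j s * stepFn w hw s := by
      simp only [Finset.sum_mul, mul_assoc]
      rw [integral_finsetSum _ fun j _ => (integrableOn_mul_stepFn w hw
        (IsTrialPath.integrableOn (hP j))).const_mul γ]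
      simp only [integral_const_mul]
    have e2 : ∑ l ∈ Finset.Icc 1 X.n, v l * (1 - tl (fun s => ∑ j, γ * P j s) (X.e l)) =
        ∑ j, γ * ∑ l ∈ Finset.Icc 1 X.n, v l * (1 - tl (P j) (X.e l)) := by
      simp only [hone, Finset.mul_sum]
      rw [Finset.sum_comm]
      exact Finset.sum_congr rfl fun j _ => Finset.sum_congr rfl fun l _ => by ring
    rw [e1, e2, Finset.mul_sum, Finset.sum_div, ← Finset.sum_add_distrib,
      ← Finset.sum_sub_distrib]
    refine Finset.sum_le_sum fun j _ => ?_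
    have := mul_le_mul_of_nonneg_left (hI j k w hw hsf) hγ0
    linarith
  have hm1 : 0 < 1 - m0 := by linarith
  have pert := base.perturb (mag := mag) hp (fun _ => hγ0) hγ1 (fun j => (abs_ML_lt hL _).le)
    (fun j => (hm j).trans_lt hm0) hκ hκ1 (fun j => by
      have a1 := abs_sub_abs_le_abs_sub (ML (X.lst v 1) (b j)) (mag j)
      have a2 : κ / 2 * (1 - m0) ≤ κ / 2 * (1 - |mag j|) :=
        mul_le_mul_of_nonneg_left (by linarith [hm j]) (by positivity)
      linarith [hs j])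
  have hsum : 0 ≤ ∑ l ∈ Finset.Icc 1 X.n, v l := Finset.sum_nonneg fun l hl =>
    (hv l (Finset.mem_Icc.1 hl).1 (Finset.mem_Icc.1 hl).2).le
  have hl2 : 0 < log 2 := log_pos (by norm_num)
  have hB : 0 ≤ (log 2 + H / 2) / (1 - m0) := div_nonneg (by linarith) hm1.le
  have key : ∀ j, X.Phi v (b j) - b j * ML (X.lst v 1) (b j) ≤
      X.Phi v (b j) - b j * mag j + (log 2 + H / 2) / (1 - m0) * δs := by
    intro j
    have hBδ := mul_nonneg hB hδ0
    by_cases hc : b j * mag j ≤ b j * ML (X.lst v 1) (b j)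
    · linarith
    rw [not_le] at hc
    have s1 := ML_sign hL (b j)
    have s2 := abs_le_of_ML hL (b j)
    rw [X.lst_sum v 1 (fun q => q.2)] at s2
    have s3 : |b j| * |ML (X.lst v 1) (b j)| ≤ |b j| * m0 := by
      rw [← abs_mul, abs_of_nonneg s1]
      calc _ ≤ |b j * mag j| := hc.le.trans (le_abs_self _)
        _ = |b j| * |mag j| := abs_mul _ _
        _ ≤ _ := mul_le_mul_of_nonneg_left (hm j) (abs_nonneg _)
    have s4 : |b j| ≤ (log 2 + H / 2) / (1 - m0) := by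
      rw [le_div_iff₀ hm1]
      simp only at s2
      nlinarith
    have s5 : b j * mag j - b j * ML (X.lst v 1) (b j) ≤ (log 2 + H / 2) / (1 - m0) * δs := by
      calc _ = b j * (mag j - ML (X.lst v 1) (b j)) := by ring
        _ ≤ |b j * (mag j - ML (X.lst v 1) (b j))| := le_abs_self _
        _ = |b j| * |ML (X.lst v 1) (b j) - mag j| := by rw [abs_mul, abs_sub_comm]
        _ ≤ _ := mul_le_mul s4 (hs j) (abs_nonneg _) hB
    linarith
  intro k w hw hsf
  refine (pert k w hw hsf).trans ?_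
  have k2 : ∑ j, γ * (X.Phi v (b j) - b j * ML (X.lst v 1) (b j)) ≤
      ∑ j, γ * (X.Phi v (b j) - b j * mag j + (log 2 + H / 2) / (1 - m0) * δs) :=
    Finset.sum_le_sum fun j _ => mul_le_mul_of_nonneg_left (key j) hγ0
  simp only [mul_add γ, Finset.sum_add_distrib] at k2
  rw [← Finset.sum_mul, hγ1, one_mul] at k2
  rw [hav]
  linarith

theorem vst_nonneg (S : Spec) (X : Expo) {Q : ℕ → ℝ} {ρ : ℝ} (hQ : X.Seq Q ρ) {l : ℕ} (h1 : 1 ≤ l) :
    0 ≤ vst S X Q l := by
  have a1 := (hQ.D_nonneg h1).1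
  have a2 := (hQ.D_nonneg (l := l + 1) (by omega)).1
  exact div_nonneg (sub_nonneg.2 (S.Rh_mono a2 a1 (hQ.D_anti h1))) (X.e_pos l).le

theorem sum_vst_le (S : Spec) (X : Expo) {Q : ℕ → ℝ} {ρ : ℝ} (hQ : X.Seq Q ρ) :
    ∑ l ∈ Finset.Icc 1 X.n, vst S X Q l ≤ 2 * S.Λ / X.m := by
  have tel : ∀ (f : ℕ → ℝ) (n : ℕ), ∑ l ∈ Finset.Icc 1 n, (f l - f (l + 1)) = f 1 - f (n + 1) := by
    intro f n
    induction n with
    | zero => simp
    | succ n ih => rw [Finset.sum_Icc_succ_top (by omega), ih]; ring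
  have h1 : ∑ l ∈ Finset.Icc 1 X.n, vst S X Q l ≤
      ∑ l ∈ Finset.Icc 1 X.n, (S.Rh (X.D Q l) - S.Rh (X.D Q (l + 1))) / X.m := by
    refine Finset.sum_le_sum fun l hl => ?_
    have hl1 := (Finset.mem_Icc.1 hl).1
    have a1 := (hQ.D_nonneg hl1).1
    have a2 := (hQ.D_nonneg (l := l + 1) (by omega)).1
    exact div_le_div_of_nonneg_left (sub_nonneg.2 (S.Rh_mono a2 a1 (hQ.D_anti hl1))) X.m_pos
      (X.m_le l)
  rw [← Finset.sum_div, tel (fun l => S.Rh (X.D Q l))] at h1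
  refine h1.trans (div_le_div_of_nonneg_right ?_ X.m_pos.le)
  have b1 := abs_le.1 (S.abs_Rh_le (hQ.D_nonneg (l := 1) le_rfl).1)
  have b2 := abs_le.1 (S.abs_Rh_le (hQ.D_nonneg (l := X.n + 1) (by omega)).1)
  linarith [b1.2, b2.1]

end Crest.Agent.R164
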