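import Crest.Agent.R164.X10
import Crest.Agent.R164.S5

/-! # Lower bound: periodic systems, closeness, the hypotheses of the cavity theorems -/

set_option autoImplicit false
set_option linter.unusedVariables false
set_option linter.unusedSectionVars false

open MeasureTheory ProbabilityTheory Real Crest.ProbabilityR.InvariantGlass
open scoped ENNReal

namespace Crest.Agent.R164

/-- the block of the row number `M` -/
def jOf (k M : ℕ) : Fin (k + 1) := ⟨M % (k + 1), Nat.mod_lt _ (Nat.succ_pos k)⟩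

/-- the special rows of the periodic system -/
def spOf {k M : ℕ} (h : k + 1 ≤ M) (a : Fin k) : Fin M :=
  ⟨((jOf k M).succAbove a).val, lt_of_lt_of_le ((jOf k M).succAbove a).2 h⟩

theorem cav_per {k M : ℕ} (h : k + 1 ≤ M) : Cav (per k M) (jOf k M) (spOf h) := by
  refine ⟨fun a b hab => ?_, fun a => ?_⟩
  · have h1 : ((jOf k M).succAbove a).val = ((jOf k M).succAbove b).val :=
      congrArg (fun i : Fin M => i.val) hab
    exact Fin.succAbove_right_injective (Fin.ext h1)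
  · exact Fin.ext (Nat.mod_eq_of_lt ((jOf k M).succAbove a).2)
theorem snoc_per (k M : ℕ) :
    (Fin.snoc (per k M) (jOf k M) : Fin (M + 1) → Fin (k + 1)) = per k (M + 1) := by
  funext i
  refine Fin.lastCases ?_ (fun i => ?_) i
  · rw [Fin.snoc_last]; rfl
  · rw [Fin.snoc_castSucc]; rfl
theorem per_castSucc (k M : ℕ) : (fun r : Fin M => per k (M + 1) r.castSucc) = per k M := by rfl
theorem per_last (k M : ℕ) : per k (M + 1) (Fin.last M) = jOf k M := by rfl
theorem lastOnly_zero (M : ℕ) : lastOnly (M := M) (fun _ => 0) = fun _ _ => 0 := by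
  funext a r
  simp [lastOnly]
theorem card_ref {k M : ℕ} (h : k + 1 ≤ M) (top : Fin (k + 1)) :
    |((fib (blkR (per k M) (spOf h) top) top).card : ℝ) - (M : ℝ) / (k + 1)| ≤ k + 1 := by
  have h0 := abs_le.1 (card_per k M top)
  have h1 : (Finset.univ.filter fun i : Fin M => per k M i = top) ⊆
      fib (blkR (per k M) (spOf h) top) top := by
    intro i hi
    simp only [fib, blkR, Finset.mem_filter, Finset.mem_univ, true_and] at hi ⊢
    split_ifs
    · rfl
    · exact hi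
  have h2 : fib (blkR (per k M) (spOf h) top) top ⊆
      (Finset.univ.filter fun i : Fin M => per k M i = top) ∪ Finset.univ.image (spOf h) := by
    intro i hi
    simp only [fib, blkR, Finset.mem_filter, Finset.mem_univ, true_and, Finset.mem_union,
      Finset.mem_image] at hi ⊢
    split_ifs at hi with h3
    · exact Or.inr h3
    · exact Or.inl hi
  have h3 := Finset.card_le_card h1
  have h4 := (Finset.card_le_card h2).trans (Finset.card_union_le _ _)
  have h5 : (Finset.univ.image (spOf h)).card ≤ k := Finset.card_image_le.trans (by simp)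
  have h6 : ((Finset.univ.filter fun i : Fin M => per k M i = top).card : ℝ) ≤
      (fib (blkR (per k M) (spOf h) top) top).card := by exact_mod_cast h3
  have h7 : ((fib (blkR (per k M) (spOf h) top) top).card : ℝ) ≤
      (Finset.univ.filter fun i : Fin M => per k M i = top).card + k := by
    exact_mod_cast h4.trans (Nat.add_le_add_left h5 _)
  have hk : (0 : ℝ) ≤ k := Nat.cast_nonneg k
  exact abs_le.2 ⟨by linarith [h0.1], by linarith [h0.2]⟩

theorem L2_card_ge {k M : ℕ} (h : k + 1 ≤ M) (top : Fin (k + 1)) {x : ℝ} (hx : x ≤ M + 1)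
    (hx' : 2 * (1 + ((k : ℝ) + 1) ^ 2) ≤ x) :
    x ≤ 2 * ((k : ℝ) + 1) * (fib (blkR (per k M) (spOf h) top) top).card := by
  have h0 := (abs_le.1 (card_ref h top)).1
  have hk : (0 : ℝ) < (k : ℝ) + 1 := by positivity
  have h1 : (M : ℝ) / (k + 1) * (k + 1) = M := div_mul_cancel₀ _ hk.ne'
  nlinarith

theorem L2_big (B c D : ℝ) {γ : ℝ} (hγ : 0 < γ) :
    ∀ᶠ x : ℕ in Filter.atTop, B * √(x : ℝ) + c + D * √((x : ℝ) * √(x : ℝ)) ≤ γ * x := by
  have h1 : Filter.Tendsto (fun x : ℕ => √(√(x : ℝ))) Filter.atTop Filter.atTop :=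
    Real.tendsto_sqrt_atTop.comp (Real.tendsto_sqrt_atTop.comp tendsto_natCast_atTop_atTop)
  filter_upwards [h1.eventually_ge_atTop 1, h1.eventually_ge_atTop ((|B| + |c| + |D|) / γ)]
    with x h2 h3
  set u := √(√(x : ℝ)) with hu
  have e2 : √(x : ℝ) = u ^ 2 := (Real.sq_sqrt (Real.sqrt_nonneg _)).symm
  have e4 : (x : ℝ) = u ^ 4 := by
    rw [← Real.sq_sqrt (Nat.cast_nonneg x : (0 : ℝ) ≤ x), e2]; ring
  have e3 : √((x : ℝ) * √(x : ℝ)) = u ^ 3 := by
    rw [e2]
    nth_rewrite 1 [e4]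
    rw [show u ^ 4 * u ^ 2 = (u ^ 3) ^ 2 by ring, Real.sqrt_sq (by positivity)]
  rw [e3, e2]
  nth_rewrite 1 [e4]
  rw [div_le_iff₀ hγ] at h3
  have h4 : u ^ 2 ≤ u ^ 3 := pow_le_pow_right₀ h2 (by norm_num)
  have h5 : 1 ≤ u ^ 3 := one_le_pow₀ h2
  have h6 : B * u ^ 2 ≤ |B| * u ^ 3 :=
    (mul_le_mul_of_nonneg_right (le_abs_self B) (by positivity)).trans
      (mul_le_mul_of_nonneg_left h4 (abs_nonneg B))
  have h7 : c ≤ |c| * u ^ 3 := (le_abs_self c).trans (le_mul_of_one_le_right (abs_nonneg c) h5)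
  have h8 : D * u ^ 3 ≤ |D| * u ^ 3 := mul_le_mul_of_nonneg_right (le_abs_self D) (by positivity)
  have h9 := mul_le_mul_of_nonneg_right h3 (show 0 ≤ u ^ 3 by positivity)
  nlinarith

/-- the periodic system of size `M` with site labels `lab` -/
noncomputable def sysP (S : Spec) {n : ℕ} (M : ℕ) (θ : ℕ → ℝ) (lab : Fin M → Fin (S.k + 1))
    (mag : Fin (S.k + 1) → ℝ) (Kp : ℝ) (π' : PI n S.k (S.k + 1) → ℝ) : Par M :=
  sys S 1 θ (per S.k M) lab mag Kp (fun _ => 0) (fun _ _ => 0) π'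

/-- its reference system -/
noncomputable def refP (S : Spec) {n M : ℕ} (h : S.k + 1 ≤ M) (θ : ℕ → ℝ)
    (lab : Fin M → Fin (S.k + 1)) (mag : Fin (S.k + 1) → ℝ) (Kp : ℝ)
    (π' : PI n S.k (S.k + 1) → ℝ) : Par M :=
  sys S 1 θ (blkR (per S.k M) (spOf h) S.top) lab mag Kp (fun _ => 0) (fun _ _ => 0) π'

/-- All systems met during one period are at bounded distance from the first one
(`cav_up_crude`, `cav_same_crude` with `ρ = 2 (k+1)`, induction on `M`; for the last statement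
`sys_perm`, `perm_symm`). -/
theorem close (S : Spec) {K : ℝ} (hK : 0 ≤ K) : ∃ C δ1 : ℝ, 0 < δ1 ∧ ∃ M1 : ℕ, ∀ M0 : ℕ, M1 ≤ M0 →
    ∀ (X : Expo) (θ : ℕ → ℝ) (mag : Fin (S.k + 1) → ℝ) (π' : PI X.n S.k (S.k + 1) → ℝ),
    Small π' δ1 → (∀ j, |mag j| ≤ 1) → ∑ a ∈ Finset.Icc 1 X.n, θ a ^ 2 ≤ 1 →
    (∀ M, M0 ≤ M → M ≤ M0 + (S.k + 1) →
      |(sysP S M θ (per S.k M) mag (K / (2 * M0)) π').A X -
        (sysP S M0 θ (per S.k M0) mag (K / (2 * M0)) π').A X| ≤ C ∧
      ∀ h : S.k + 1 ≤ M, |(refP S h θ (per S.k M) mag (K / (2 * M0)) π').A X -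
        (sysP S M0 θ (per S.k M0) mag (K / (2 * M0)) π').A X| ≤ C) ∧
    (∀ (M : ℕ) (h : S.k + 1 ≤ M) (ς : Equiv.Perm (Fin (M + 1))), M0 = M + 1 →
      |(refP S h θ (fun r => per S.k (M + 1) (ς r.castSucc)) mag (K / (2 * M0)) π').A X -
        (sysP S M0 θ (per S.k M0) mag (K / (2 * M0)) π').A X| ≤ C) := by
  have hk : (0 : ℝ) ≤ S.k := Nat.cast_nonneg _
  obtain ⟨C1, δa, hδa, h1⟩ := cav_up_crude S (ρ := 2 * ((S.k : ℝ) + 1)) (by linarith) hK
  obtain ⟨C2, δb, hδb, h2⟩ := cav_same_crude S (ρ := 2 * ((S.k : ℝ) + 1)) (by linarith)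
  refine ⟨(S.k + 2) * (|C1| + |C2|), min δa δb, lt_min hδa hδb, 2 * (1 + (S.k + 1) ^ 2) + 1,
    fun M0 hM0 X θ mag π' hs hm hθ => ?_⟩
  have hM0' : 2 * (1 + ((S.k : ℝ) + 1) ^ 2) + 1 ≤ M0 := by exact_mod_cast hM0
  have hkM : S.k + 2 ≤ M0 := by nlinarith
  have hkM' : (S.k : ℝ) + 2 ≤ M0 := by exact_mod_cast hkM
  have hKp : 0 ≤ K / (2 * M0) := by positivity
  have hKM : ∀ M : ℕ, M ≤ M0 + (S.k + 1) → K / (2 * M0) * M ≤ K := fun M hM => by
    have : (M : ℝ) ≤ M0 + (S.k + 1) := by exact_mod_cast hM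
    rw [div_mul_eq_mul_div, div_le_iff₀ (by linarith)]
    exact mul_le_mul_of_nonneg_left (by linarith) hK
  have hcard : ∀ (M : ℕ) (h : S.k + 1 ≤ M), M0 ≤ M + 1 →
      (M : ℝ) ≤ 2 * ((S.k : ℝ) + 1) * (fib (blkR (per S.k M) (spOf h) S.top) S.top).card :=
    fun M h hM => by
      have : (M0 : ℝ) ≤ M + 1 := by exact_mod_cast hM
      exact L2_card_ge h S.top (by linarith) (by linarith)
  have hne : ∀ (M : ℕ) (h : S.k + 1 ≤ M), M0 ≤ M + 1 →
      (fib (blkR (per S.k M) (spOf h) S.top) S.top).Nonempty := fun M h hM => by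
    rw [← Finset.card_pos, Nat.pos_iff_ne_zero]
    intro h0
    have h3 := hcard M h hM
    rw [h0] at h3
    have : (S.k : ℝ) + 1 ≤ M := by exact_mod_cast h
    simp only [Nat.cast_zero, mul_zero] at h3
    linarith
  have hup : ∀ (M : ℕ) (h : S.k + 1 ≤ M) (lab' : Fin (M + 1) → Fin (S.k + 1)), M0 ≤ M + 1 →
      M ≤ M0 + (S.k + 1) →
      |(sysP S (M + 1) θ lab' mag (K / (2 * M0)) π').A X -
        (refP S h θ (fun r => lab' r.castSucc) mag (K / (2 * M0)) π').A X| ≤ |C1| := by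
    intro M h lab' hM hM'
    have h3 := h1 X M (S.k + 1) θ (fun _ => 0) 0 (per S.k M) (jOf S.k M) (spOf h) (cav_per h) lab'
      mag (K / (2 * M0)) π' (hs.mono (min_le_left _ _)) hm hKp (hKM M hM')
      (by simpa using hθ.trans one_le_two) (by simp) (hne M h hM) (hcard M h hM)
    simp only [snoc_per, lastOnly_zero, zero_mul] at h3
    exact h3.trans (le_abs_self _)
  have hsame : ∀ (M : ℕ) (h : S.k + 1 ≤ M), M0 ≤ M + 1 →
      |(sysP S M θ (per S.k M) mag (K / (2 * M0)) π').A X -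
        (refP S h θ (per S.k M) mag (K / (2 * M0)) π').A X| ≤ |C2| := fun M h hM =>
    (h2 X M (S.k + 1) θ (per S.k M) (jOf S.k M) (spOf h) (cav_per h) (per S.k M)
      mag (K / (2 * M0)) π' (hs.mono (min_le_right _ _)) (hne M h hM) (hcard M h hM)).trans
      (le_abs_self _)
  have hind : ∀ i : ℕ, i ≤ S.k + 1 →
      |(sysP S (M0 + i) θ (per S.k (M0 + i)) mag (K / (2 * M0)) π').A X -
        (sysP S M0 θ (per S.k M0) mag (K / (2 * M0)) π').A X| ≤ i * (|C1| + |C2|) := by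
    intro i
    induction i with
    | zero => intro _; simp
    | succ i ih =>
      intro hi
      have h : S.k + 1 ≤ M0 + i := by omega
      have h3 := abs_le.1 (ih (by omega))
      have h4 := abs_le.1 (hup (M0 + i) h (per S.k (M0 + i + 1)) (by omega) (by omega))
      have h5 := abs_le.1 (hsame (M0 + i) h (by omega))
      rw [per_castSucc] at h4
      push_cast
      refine abs_le.2 ⟨?_, ?_⟩
      · change _ ≤ (sysP S (M0 + i + 1) θ (per S.k (M0 + i + 1)) mag (K / (2 * M0)) π').A X - _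
        linarith [h3.1, h4.1, h5.2]
      · change (sysP S (M0 + i + 1) θ (per S.k (M0 + i + 1)) mag (K / (2 * M0)) π').A X - _ ≤ _
        linarith [h3.2, h4.2, h5.1]
  have a1 := abs_nonneg C1
  have a2 := abs_nonneg C2
  refine ⟨fun M hM hM' => ?_, fun M h ς hM => ?_⟩
  · obtain ⟨i, rfl⟩ := Nat.exists_eq_add_of_le hM
    have hi : i ≤ S.k + 1 := by omega
    have hi' : (i : ℝ) ≤ S.k + 1 := by exact_mod_cast hi
    have h3 := hind i hi
    have h4 : (i : ℝ) * (|C1| + |C2|) ≤ (S.k + 1) * (|C1| + |C2|) :=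
      mul_le_mul_of_nonneg_right hi' (by positivity)
    refine ⟨h3.trans (by linarith), fun h => ?_⟩
    have h5 := abs_le.1 (hsame _ h (by omega))
    have h6 := abs_le.1 h3
    exact abs_le.2 ⟨by linarith [h5.2, h6.1], by linarith [h5.1, h6.2]⟩
  · subst hM
    have h3 := hup M h (fun r => per S.k (M + 1) (ς r)) le_rfl (by omega)
    have h4 : (sysP S (M + 1) θ (fun r => per S.k (M + 1) (ς r)) mag (K / (2 * (M + 1 : ℕ))) π').A X
        = (sysP S (M + 1) θ (per S.k (M + 1)) mag (K / (2 * (M + 1 : ℕ))) π').A X := by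
      unfold sysP
      rw [← sys_perm, (perm_symm _ ς).1]
    rw [h4, abs_sub_comm] at h3
    refine h3.trans ?_
    nlinarith

/-- the penalised value of the periodic system of size `M` -/
noncomputable def FL (S : Spec) (X : Expo) (η : ℝ) (mag : Fin (S.k + 1) → ℝ) (K Lp : ℝ) (M : ℕ)
    (π' : PI X.n S.k (S.k + 1) → ℝ) : ℝ :=
  (sysP S M (fun _ => η) (per S.k M) mag (K / (2 * M)) π').A X -
    M * Lp * ∑ d, (π' d - pc X.n S.k (S.k + 1) η d) ^ 2

/-- `π'` is an interior maximiser -/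
structure Contact (S : Spec) (X : Expo) (η : ℝ) (mag : Fin (S.k + 1) → ℝ) (K Lp : ℝ) (M : ℕ)
    (π' : PI X.n S.k (S.k + 1) → ℝ) : Prop where
  mem : π' ∈ Metric.closedBall (pc X.n S.k (S.k + 1) η) (η / 2)
  max : ∀ π'' ∈ Metric.closedBall (pc X.n S.k (S.k + 1) η) η,
    FL S X η mag K Lp M π'' ≤ FL S X η mag K Lp M π'

/-- `exists_contact` with `Z = Unit`, `osc_le`; the penalty at the maximiser is at most the
oscillation -/
theorem exists_Contact (S : Spec) (X : Expo) {η Lp : ℝ} (hη : 0 < η) {mag : Fin (S.k + 1) → ℝ}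
    (hm : ∀ j, |mag j| ≤ 1) (K : ℝ) (hL : 6 * (η + 9 * X.n * η ^ 2) ≤ Lp * (η / 2) ^ 2) {M : ℕ}
    (hM : 0 < M) : ∃ π', Contact S X η mag K Lp M π' ∧
      Lp * ∑ d, (π' d - pc X.n S.k (S.k + 1) η d) ^ 2 ≤ 6 * (η + 9 * X.n * η ^ 2) := by
  have hM' : (0 : ℝ) < M := by exact_mod_cast hM
  have hδ : 0 < η + 9 * X.n * η ^ 2 := by positivity
  have hLp : 0 < Lp := by
    by_contra h
    have : Lp * (η / 2) ^ 2 ≤ 0 := mul_nonpos_of_nonpos_of_nonneg (not_lt.1 h) (by positivity)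
    linarith
  have hosc : ∀ p ∈ Metric.closedBall (pc X.n S.k (S.k + 1) η) η,
      (sysP S M (fun _ => η) (per S.k M) mag (K / (2 * M)) p).A X ≤
        (sysP S M (fun _ => η) (per S.k M) mag (K / (2 * M)) (pc X.n S.k (S.k + 1) η)).A X +
          6 * (η + 9 * X.n * η ^ 2) * M := fun p hp =>
    osc_le S 1 _ _ _ mag hm _ _ _ (small_of_mem hη.le hp).1
      (small_of_mem hη.le (Metric.mem_closedBall_self hη.le)).1
  have hcont : Continuous fun p : Unit × (PI X.n S.k (S.k + 1) → ℝ) =>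
      (sysP S M (fun _ => η) (per S.k M) mag (K / (2 * M)) p.2).A X := by
    refine continuous_A _ (fun i => ?_) (fun a r => ?_) (fun a r => ?_) (fun a r => ?_)
      (fun σ => ?_)
    · simp only [sysP, sys]; fun_prop
    · simp only [sysP, sys]; fun_prop
    · simp only [sysP, sys, vtOf]
      split_ifs <;> fun_prop
    · simp only [sysP, sys]; fun_prop
    · simp only [sysP, sys]; fun_prop
  obtain ⟨_, -, π', hπ, hmax⟩ := exists_contact (Z := Unit) isCompact_univ Set.univ_nonempty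
    (fun _ p => (sysP S M (fun _ => η) (per S.k M) mag (K / (2 * M)) p).A X) hcont
    (pc X.n S.k (S.k + 1) η) (Osc := 6 * (η + 9 * X.n * η ^ 2) * M) (Lp := M * Lp) hη
    (by positivity) (by nlinarith) (fun _ _ => hosc)
  refine ⟨π', ⟨hπ, fun π'' h => hmax () (Set.mem_univ _) π'' h⟩, ?_⟩
  have h1 := hmax () (Set.mem_univ _) _ (Metric.mem_closedBall_self hη.le)
  have h2 := hosc π' (Metric.closedBall_subset_closedBall (by linarith) hπ)
  simp only [sub_self, ne_eq, OfNat.ofNat_ne_zero, not_false_eq_true, zero_pow,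
    Finset.sum_const_zero, mul_zero, sub_zero] at h1
  refine le_of_mul_le_mul_left ?_ hM'
  nlinarith

/-- the magnetisation constants determined by the slopes -/
noncomputable def ybOf {n k : ℕ} (η Lp : ℝ) (M0 : ℕ) (π' : PI n k (k + 1) → ℝ) (j : Fin (k + 1)) : ℝ :=
  2 * M0 * Lp * (π' (Sum.inr (Sum.inr j)) - pc n k (k + 1) η (Sum.inr (Sum.inr j)))

/-- Every system `p` that is `C`-close to the contact system `p0` satisfies the hypotheses of the
cavity theorems with the constants of `p0`: `conc_of_contact` (for `p` with `C`, for `p0` with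
`0`; error `ε0 = O(√M0)`), `sync` for both, `ErrQ_le`
(`| |T| Q^p - |T| Q^{p0} | ≤ 2 δ₁ + | |T| - |T0| | · Q^{p0}`, `Q^{p0} ≤ k+1`), `abs_yv_le`. -/
theorem ref_hyp (S : Spec) (X : Expo) {w μ η Lp C K δ0 : ℝ} (hw : 0 < w) (hw1 : w ≤ 1) (hη : 0 < η)
    (hK : 0 ≤ K) (hδ0 : 0 < δ0) (hμ0 : 0 ≤ μ) (hW : ∀ r, 2 ≤ r → r ≤ X.n → w ≤ X.W r ∧ X.W r ≤ μ)
    (hμ : 8 * (S.k + 1) * (4 * √μ + 2 * √(μ / X.m)) ≤ δ0) : ∃ M1 : ℕ, ∀ M0 : ℕ, M1 ≤ M0 →
    S.k + 1 ∣ M0 → ∀ (mag : Fin (S.k + 1) → ℝ) (π' : PI X.n S.k (S.k + 1) → ℝ),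
    (∀ j, |mag j| ≤ 1) → Contact S X η mag K Lp M0 π' →
    (∀ b, (sysP S M0 (fun _ => η) (per S.k M0) mag (K / (2 * M0)) π').ErrQ X (fib (per S.k M0) b)
      ((sysP S M0 (fun _ => η) (per S.k M0) mag (K / (2 * M0)) π').Q X (fib (per S.k M0) b)) ≤
        δ0 * M0) ∧
    ∀ (M : ℕ) (h : S.k + 1 ≤ M) (lab : Fin M → Fin (S.k + 1)), M0 ≤ M + 1 → M ≤ M0 + (S.k + 1) →
      (∀ π'' ∈ Metric.closedBall (pc X.n S.k (S.k + 1) η) η,
        |(refP S h (fun _ => η) lab mag (K / (2 * M0)) π'').A X -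
          (sysP S M0 (fun _ => η) (per S.k M0) mag (K / (2 * M0)) π'').A X| ≤ C) →
      (refP S h (fun _ => η) lab mag (K / (2 * M0)) π').ErrQ X
          (fib (blkR (per S.k M) (spOf h) S.top) S.top)
          ((sysP S M0 (fun _ => η) (per S.k M0) mag (K / (2 * M0)) π').Q X
            (fib (per S.k M0) S.top)) ≤
        δ0 * (fib (blkR (per S.k M) (spOf h) S.top) S.top).card ∧
      ∀ j, K / (2 * M0) * |ybOf η Lp M0 π' j| ≤ 3 * K ∧
        K / (2 * M0) * ∫ x, |yv lab mag j x.2.2 - ybOf η Lp M0 π' j|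
          ∂((refP S h (fun _ => η) lab mag (K / (2 * M0)) π').PP X) ≤ δ0 := by
  have hm0 := X.m_pos
  have hk : (0 : ℝ) ≤ S.k := Nat.cast_nonneg _
  obtain ⟨E, hE⟩ : ∃ E, E = 2 * exp (X.m * (Lp + 2 * |C|)) / X.m := ⟨_, rfl⟩
  have hE0 : 0 ≤ E := by rw [hE]; positivity
  obtain ⟨A, hA⟩ : ∃ A, A = 4 * √μ + 2 * √(μ / X.m) := ⟨_, rfl⟩
  have hA0 : 0 ≤ A := by rw [hA]; positivity
  rw [← hA] at hμ
  obtain ⟨γ, hγ⟩ : ∃ γ, γ = δ0 / (4 * ((S.k : ℝ) + 1)) := ⟨_, rfl⟩
  have hγ0 : 0 < γ := by rw [hγ]; positivity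
  have hγ1 : 4 * ((S.k : ℝ) + 1) * γ = δ0 := by rw [hγ]; field_simp
  have hAγ : 2 * A ≤ γ := by
    refine le_of_mul_le_mul_left ?_ (show 0 < 4 * ((S.k : ℝ) + 1) by positivity)
    linarith
  have t1 : Filter.Tendsto (fun x : ℕ => √(x : ℝ)) Filter.atTop Filter.atTop :=
    Real.tendsto_sqrt_atTop.comp tendsto_natCast_atTop_atTop
  obtain ⟨M1, hM1⟩ := Filter.eventually_atTop.1 ((t1.eventually_ge_atTop (2 / η)).and
    (((tendsto_natCast_atTop_atTop (R := ℝ)).eventually_ge_atTop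
      (2 * (1 + ((S.k : ℝ) + 1) ^ 2))).and
    ((L2_big (28 * E * (1 + η⁻¹) / w) (2 * ((S.k + 2) * (S.k + 1))) (2 * √(4 / (η * X.m))) hγ0).and
    ((L2_big E 0 0 (γ := 4) (by norm_num)).and
      (L2_big (K * E) 0 0 (γ := 2 * δ0) (by positivity))))))
  refine ⟨M1, fun M0 hM0 hdvd mag π' hm hc => ?_⟩
  obtain ⟨b1, b2, b3, b4, b5⟩ := hM1 M0 hM0
  simp only [add_zero, zero_mul] at b4 b5
  have hkM : (S.k : ℝ) + 1 ≤ M0 := by nlinarith
  have hM0' : (0 : ℝ) < M0 := by linarith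
  have hε : 2 * √(M0 : ℝ) * exp (X.m * (Lp + 2 * |C|)) / X.m = E * √(M0 : ℝ) := by
    rw [hE]; ring
  obtain ⟨c, hcdef⟩ : ∃ c : PI X.n S.k (S.k + 1) → ℝ,
      c = fun d => 2 * M0 * Lp * (π' d - pc X.n S.k (S.k + 1) η d) := ⟨_, rfl⟩
  have hv := (small_of_mem hη.le
    (Metric.closedBall_subset_closedBall (by linarith) hc.mem)).2
  have hsq : ∀ M : ℝ, 0 ≤ M → M ≤ 2 * M0 →
      √(M * √M / (η * X.m)) ≤ √(4 / (η * X.m)) * √((M0 : ℝ) * √(M0 : ℝ)) := fun M h0 h1 => by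
    rw [← Real.sqrt_mul (by positivity)]
    refine Real.sqrt_le_sqrt ?_
    have h2 : √M ≤ 2 * √(M0 : ℝ) := by
      rw [Real.sqrt_le_left (by positivity), mul_pow, Real.sq_sqrt hM0'.le]
      linarith
    rw [div_mul_eq_mul_div]
    refine div_le_div_of_nonneg_right ?_ (by positivity)
    have := mul_le_mul h1 h2 (Real.sqrt_nonneg _) (by positivity)
    linarith
  obtain ⟨δ1, hδ1⟩ : ∃ δ1, δ1 = E * √(M0 : ℝ) * (1 + η⁻¹) / w := ⟨_, rfl⟩
  have hδ10 : 0 ≤ δ1 := by rw [hδ1]; positivity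
  have e4 : 4 * (E * √(M0 : ℝ)) * (1 + η⁻¹) / w = 4 * δ1 := by rw [hδ1]; ring
  have e12 : 12 * (E * √(M0 : ℝ)) * (1 + η⁻¹) / w = 12 * δ1 := by rw [hδ1]; ring
  have e28 : 28 * E * (1 + η⁻¹) / w * √(M0 : ℝ) = 28 * δ1 := by rw [hδ1]; ring
  rw [e28] at b3
  -- the contact system
  have c0 : ∀ d, ∫ x, |Yd (per S.k M0) (per S.k M0) mag d x - c d|
      ∂((sysP S M0 (fun _ => η) (per S.k M0) mag (K / (2 * M0)) π').PP X) ≤ E * √(M0 : ℝ) := by
    intro d
    rw [← hε, hcdef]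
    exact conc_of_contact S 1 _ _ _ mag _ _ _
      (fun p => (sysP S M0 (fun _ => η) (per S.k M0) mag (K / (2 * M0)) p).A X) _ π' hM0' b1 hη
      hc.mem hc.max (fun π'' _ => by simp [sysP]) d
  have card0 : ∀ b, ((fib (per S.k M0) b).card : ℝ) = M0 / (S.k + 1) := fun b =>
    card_per_of_dvd hdvd b
  have ne0 : ∀ b, (fib (per S.k M0) b).Nonempty := fun b => by
    rw [← Finset.card_pos, ← Nat.cast_pos (α := ℝ), card0]
    positivity
  have s0 := fun b => sync S 1 (fun _ => η) (per S.k M0) (per S.k M0) mag (K / (2 * M0))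
    (fun _ => 0) (fun _ _ => 0) π' c hη hw hw1 (fun _ _ _ => le_rfl) hv hW hμ0 c0 b (ne0 b)
  have hγδ : γ ≤ δ0 / 4 := by nlinarith
  refine ⟨fun b => ?_, fun M h lab hM hM' hC => ?_⟩
  · refine (s0 b).2.trans ?_
    rw [e12, ← hA]
    have h1 := hsq M0 hM0'.le (by linarith)
    have h2 : (M0 : ℝ) * A ≤ M0 * (γ / 2) := mul_le_mul_of_nonneg_left (by linarith) hM0'.le
    have h3 : (M0 : ℝ) * γ ≤ M0 * (δ0 / 4) := mul_le_mul_of_nonneg_left hγδ hM0'.le
    have h4 : 0 ≤ ((S.k : ℝ) + 2) * (S.k + 1) := by positivity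
    have h5 : 0 ≤ (M0 : ℝ) * δ0 := by positivity
    nlinarith
  have hMa : (M0 : ℝ) ≤ M + 1 := by exact_mod_cast hM
  have hMb : (M : ℝ) ≤ M0 + (S.k + 1) := by exact_mod_cast hM'
  have c1 : ∀ d, ∫ x, |Yd (blkR (per S.k M) (spOf h) S.top) lab mag d x - c d|
      ∂((refP S h (fun _ => η) lab mag (K / (2 * M0)) π').PP X) ≤ E * √(M0 : ℝ) := by
    intro d
    rw [← hε, hcdef]
    exact conc_of_contact S 1 _ _ _ mag _ _ _
      (fun p => (sysP S M0 (fun _ => η) (per S.k M0) mag (K / (2 * M0)) p).A X) _ π' hM0' b1 hη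
      hc.mem hc.max (fun π'' h' => (hC π'' h').trans (le_abs_self C)) d
  have card1 := L2_card_ge h S.top hMa b2
  have ne1 : (fib (blkR (per S.k M) (spOf h) S.top) S.top).Nonempty := by
    rw [← Finset.card_pos, ← Nat.cast_pos (α := ℝ)]
    exact (mul_pos_iff_of_pos_left (by positivity)).1 (hM0'.trans_le card1)
  have s1 := sync S 1 (fun _ => η) (blkR (per S.k M) (spOf h) S.top) lab mag (K / (2 * M0))
    (fun _ => 0) (fun _ _ => 0) π' c hη hw hw1 (fun _ _ _ => le_rfl) hv hW hμ0 c1 S.top ne1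
  refine ⟨?_, fun j => ⟨?_, ?_⟩⟩
  · have hseq : X.Seq ((sysP S M0 (fun _ => η) (per S.k M0) mag (K / (2 * M0)) π').Q X
        (fib (per S.k M0) S.top)) (S.k + 1) := Q_seq _ (ne0 _) (by
          rw [card0, mul_div_cancel₀ _ (by positivity)])
    obtain ⟨Q0, hQ0⟩ : ∃ Q0, Q0 = (sysP S M0 (fun _ => η) (per S.k M0) mag (K / (2 * M0)) π').Q X
        (fib (per S.k M0) S.top) := ⟨_, rfl⟩
    have s01 := (s0 S.top).1
    change ∀ r, 2 ≤ r → r ≤ X.n + 1 → |_ * (sysP S M0 (fun _ => η) (per S.k M0) mag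
      (K / (2 * M0)) π').Q X (fib (per S.k M0) S.top) r - _| ≤ _ at s01
    rw [← hQ0] at hseq s01 ⊢
    have hmono : ∀ a b, 1 ≤ a → a ≤ b → b ≤ X.n + 1 → Q0 a ≤ Q0 b := by
      intro a b ha hab
      induction hab with
      | refl => exact fun _ => le_rfl
      | @step b hab ih =>
        intro hb
        exact (ih (by omega)).trans (hseq.mono b (le_trans ha hab) (by omega))
    have hcd : |((fib (blkR (per S.k M) (spOf h) S.top) S.top).card : ℝ) -
        (fib (per S.k M0) S.top).card| ≤ S.k + 2 := by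
      have h1 := abs_le.1 (card_ref h S.top)
      have h2 : (M : ℝ) / (S.k + 1) - M0 / (S.k + 1) ≤ 1 := by
        rw [← sub_div, div_le_one (by positivity)]; linarith
      have h3 : (M0 : ℝ) / (S.k + 1) - M / (S.k + 1) ≤ 1 := by
        rw [← sub_div, div_le_one (by positivity)]; linarith
      rw [card0]
      exact abs_le.2 ⟨by linarith [h1.1], by linarith [h1.2]⟩
    refine (ErrQ_le _ _ Q0 ((refP S h (fun _ => η) lab mag (K / (2 * M0)) π').Q X
      (fib (blkR (per S.k M) (spOf h) S.top) S.top)) (D := 8 * δ1 + (S.k + 2) * (S.k + 1))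
      fun r r2 rn => ?_).trans ?_
    · have h1 := abs_le.1 (s01 r r2 rn)
      have h2 := abs_le.1 (s1.1 r r2 rn)
      rw [e4] at h1 h2
      have q0 : 0 ≤ Q0 r := hseq.one ▸ hmono 1 r le_rfl (by omega) rn
      have q1 : Q0 r ≤ S.k + 1 := (hmono r _ (by omega) rn le_rfl).trans hseq.le
      have h3 : |(((fib (blkR (per S.k M) (spOf h) S.top) S.top).card : ℝ) -
          (fib (per S.k M0) S.top).card) * Q0 r| ≤ (S.k + 2) * (S.k + 1) := by
        rw [abs_mul, abs_of_nonneg q0]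
        exact mul_le_mul hcd q1 q0 (by positivity)
      have h4 := abs_le.1 h3
      unfold refP
      exact abs_le.2 ⟨by linarith [h1.1, h2.2, h4.1], by linarith [h1.2, h2.1, h4.2]⟩
    · have h0 := s1.2
      rw [e12, ← hA] at h0
      have h1 := hsq M (Nat.cast_nonneg M) (by linarith)
      have h2 : (M : ℝ) * A ≤ 2 * M0 * (γ / 2) :=
        mul_le_mul (by linarith) (by linarith) hA0 (by positivity)
      have h3 := mul_le_mul_of_nonneg_left card1 (show 0 ≤ 2 * γ by positivity)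
      unfold refP
      rw [← hγ1]
      linarith
  · have h1 := c0 (Sum.inr (Sum.inr j))
    have e : c (Sum.inr (Sum.inr j)) = ybOf η Lp M0 π' j := by rw [hcdef]; rfl
    rw [e] at h1
    have hb : ∀ σ, |yv (per S.k M0) mag j σ| ≤ 2 * M0 := fun σ => (abs_yv_le _ _ hm j σ).trans (by
      have : (fib (per S.k M0) j).card ≤ M0 := (Finset.card_le_univ _).trans (by simp)
      have : ((fib (per S.k M0) j).card : ℝ) ≤ M0 := by exact_mod_cast this
      linarith)
    have h2 : |ybOf η Lp M0 π' j| - 2 * M0 ≤ ∫ x, |yv (per S.k M0) mag j x.2.2 - ybOf η Lp M0 π' j|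
        ∂((sysP S M0 (fun _ => η) (per S.k M0) mag (K / (2 * M0)) π').PP X) := by
      have hi : Integrable (fun x : MS X.n M0 => |yv (per S.k M0) mag j x.2.2 - ybOf η Lp M0 π' j|)
          ((sysP S M0 (fun _ => η) (per S.k M0) mag (K / (2 * M0)) π').PP X) := by
        refine Integrable.of_bound
          (m1_meas_spin (fun σ => |yv (per S.k M0) mag j σ - ybOf η Lp M0 π' j|)).aestronglyMeasurable
          (2 * M0 + |ybOf η Lp M0 π' j|) (Filter.Eventually.of_forall fun x => ?_)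
        rw [Real.norm_eq_abs, abs_abs]
        exact (abs_sub _ _).trans (add_le_add_left (hb _) _)
      have := integral_mono (integrable_const (|ybOf η Lp M0 π' j| - 2 * M0)) hi fun x => by
        have h3 := hb x.2.2
        have h4 := abs_sub_abs_le_abs_sub (ybOf η Lp M0 π' j) (yv (per S.k M0) mag j x.2.2)
        rw [abs_sub_comm] at h4
        linarith
      simpa using this
    have h3 : |ybOf η Lp M0 π' j| ≤ 6 * M0 := by
      have : ∫ x, |yv (per S.k M0) mag j x.2.2 - ybOf η Lp M0 π' j|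
        ∂((sysP S M0 (fun _ => η) (per S.k M0) mag (K / (2 * M0)) π').PP X) ≤ E * √(M0 : ℝ) := h1
      linarith
    rw [div_mul_eq_mul_div, div_le_iff₀ (by positivity)]
    nlinarith
  · have h1 := c1 (Sum.inr (Sum.inr j))
    have e : c (Sum.inr (Sum.inr j)) = ybOf η Lp M0 π' j := by rw [hcdef]; rfl
    rw [e] at h1
    have h2 : ∫ x, |yv lab mag j x.2.2 - ybOf η Lp M0 π' j|
        ∂((refP S h (fun _ => η) lab mag (K / (2 * M0)) π').PP X) ≤ E * √(M0 : ℝ) := h1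
    refine (mul_le_mul_of_nonneg_left h2 (by positivity)).trans ?_
    rw [div_mul_eq_mul_div, div_le_iff₀ (by positivity)]
    linarith

end Crest.Agent.R164
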