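import Crest.Agent.R164.L1
import Crest.Agent.R164.L2

/-! # Lower bound: consequences of the cavity theorems at a contact point -/

set_option autoImplicit false
set_option linter.unusedVariables false
set_option linter.unusedSectionVars false

open MeasureTheory ProbabilityTheory Real Crest.ProbabilityR.InvariantGlass
open scoped ENNReal

namespace Crest.Agent.R164

/-- Self-consistency for every site of the contact system.  Write `M0 = M + 1`, view the site `r`
as the last one (`ς = Equiv.swap r last`, `sys_perm`, `perm_symm`, `snoc_per`), and apply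
`self_cons` with `c0 = A ref + Rh 0/2 - Γ/2 - b mag`.  The hypothesis `hc` is the conclusion of
`cav_up` for these views. -/
theorem site_cons (S : Spec) (X : Expo) {M : ℕ} (η : ℝ) (mag : Fin (S.k + 1) → ℝ) (Kp : ℝ)
    (π' : PI X.n S.k (S.k + 1) → ℝ) {v0 : ℕ → ℝ} (hv : ∀ l, 1 ≤ l → l ≤ X.n → 0 ≤ v0 l)
    (b : Fin (S.k + 1) → ℝ) {ε δT : ℝ} (hT : 0 < δT) (hT1 : δT ≤ 1)
    (hc : ∀ r : Fin (M + 1), ∃ c0 : ℝ, ∀ (ϑ : ℕ → ℝ) (δ : ℝ),
      ∑ a ∈ Finset.Icc 1 X.n, ϑ a ^ 2 ≤ 1 → |δ| ≤ 1 →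
      |(sys S 1 (fun _ => η) (per S.k (M + 1))
          (fun i => per S.k (M + 1) (Equiv.swap r (Fin.last M) i)) mag Kp
          (fun σ => δ * spinVec σ (Fin.last M)) (lastOnly ϑ) π').A X -
        (c0 + X.Phi (fun l => η ^ 2 + ϑ l ^ 2 + v0 l) (b (per S.k (M + 1) r) + δ))| ≤ ε)
    (hdvd : S.k + 1 ∣ M + 1) (d : Fin (S.k + 1) → ℕ → ℝ)
    (hd : ∀ j l, 1 ≤ l → l ≤ X.n → HasDerivAt (fun δ => X.Phi
      (Function.update (fun l => η ^ 2 + v0 l) l (η ^ 2 + v0 l + δ)) (b j)) (d j l) 0) :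
    (∀ j, |ML (X.lst (fun l => η ^ 2 + v0 l) 1) (b j) - mag j| ≤ 2 * δT + 2 * ε / δT +
      (S.k + 1) / (M + 1) * √(∫ x, ∑ j, yv (per S.k (M + 1)) mag j x.2.2 ^ 2
        ∂((sysP S (M + 1) (fun _ => η) (per S.k (M + 1)) mag Kp π').PP X))) ∧
    ∀ l, 1 ≤ l → l ≤ X.n →
      |(1 - X.tau ((sysP S (M + 1) (fun _ => η) (per S.k (M + 1)) mag Kp π').Q X Finset.univ) l) / 2 -
        S.av (fun j => d j l)| ≤ 20 * δT + 2 * ε / δT ^ 2 := by
  set p0 := sysP S (M + 1) (fun _ => η) (per S.k (M + 1)) mag Kp π' with hp0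
  have hN : (0 : ℝ) < ((M + 1 : ℕ) : ℝ) := by positivity
  have hk : (0 : ℝ) < (S.k : ℝ) + 1 := by positivity
  have key : ∀ r : Fin (M + 1),
      |∫ x, σO r x ∂(p0.PP X) - ML (X.lst (fun l => η ^ 2 + v0 l) 1) (b (per S.k (M + 1) r))| ≤
        2 * δT + 2 * ε / δT ∧
      ∀ l, 1 ≤ l → l ≤ X.n → |(1 - X.tau (p0.ovσ X {r}) l) / 2 - d (per S.k (M + 1) r) l| ≤
        20 * δT + 2 * ε / δT ^ 2 := by
    intro r
    obtain ⟨c0, h0⟩ := hc r
    have h1 := self_cons S X (fun _ => η) (per S.k (M + 1))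
      (fun i => per S.k (M + 1) (Equiv.swap r (Fin.last M) i)) mag Kp π' hv hT hT1 h0
    have h2 := perm_symm (X := X) p0 (Equiv.swap r (Fin.last M))
    rw [hp0, sysP, sys_perm] at h2
    rw [h2.2.1, Equiv.swap_apply_right] at h1
    refine ⟨h1.1, fun l hl hl' => ?_⟩
    have h3 := h1.2 l _ hl hl' (hd (per S.k (M + 1) r) l hl hl')
    have h4 := funext (h2.2.2 (Fin.last M))
    rw [Equiv.swap_apply_right] at h4
    rw [h4] at h3
    exact h3
  refine ⟨fun j => ?_, fun l hl hl' => ?_⟩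
  · have hint : ∀ f : (Fin (M + 1) → Bool) → ℝ,
        Integrable (fun x : MS X.n (M + 1) => f x.2.2) (p0.PP X) := fun f =>
      Tower.Gr.integrable_PP (lg_Ham p0) (lg_spin f).gr
    have hcard : ((fib (per S.k (M + 1)) j).card : ℝ) = ((M + 1 : ℕ) : ℝ) / (S.k + 1) :=
      card_per_of_dvd hdvd j
    set Y := √(∫ x, ∑ j, yv (per S.k (M + 1)) mag j x.2.2 ^ 2 ∂(p0.PP X)) with hY
    set μj := ML (X.lst (fun l => η ^ 2 + v0 l) 1) (b j) with hμj
    have h1 : |∫ x, yv (per S.k (M + 1)) mag j x.2.2 ∂(p0.PP X)| ≤ Y := by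
      refine (abs_integral_le_integral_abs).trans
        ((m3_abs_le (hint fun σ => yv (per S.k (M + 1)) mag j σ ^ 2)).trans ?_)
      apply Real.sqrt_le_sqrt
      refine integral_mono (hint fun σ => yv (per S.k (M + 1)) mag j σ ^ 2)
        (hint fun σ => ∑ j, yv (per S.k (M + 1)) mag j σ ^ 2) fun x => ?_
      exact Finset.single_le_sum (f := fun j => yv (per S.k (M + 1)) mag j x.2.2 ^ 2)
        (fun _ _ => sq_nonneg _) (Finset.mem_univ j)
    have h2 : ∫ x, yv (per S.k (M + 1)) mag j x.2.2 ∂(p0.PP X) =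
        ∑ r ∈ fib (per S.k (M + 1)) j, (∫ x, σO r x ∂(p0.PP X) - mag j) := by
      unfold yv
      rw [integral_finsetSum _ fun r _ => hint fun σ => spinVec σ r - mag j]
      refine Finset.sum_congr rfl fun r _ => ?_
      rw [integral_sub (hint fun σ => spinVec σ r) (integrable_const _)]
      simp [σO]
    have h3 : |∑ r ∈ fib (per S.k (M + 1)) j, (∫ x, σO r x ∂(p0.PP X) - μj)| ≤
        ((M + 1 : ℕ) : ℝ) / (S.k + 1) * (2 * δT + 2 * ε / δT) := by
      refine (Finset.abs_sum_le_sum_abs _ _).trans ?_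
      rw [← hcard, ← nsmul_eq_mul]
      refine Finset.sum_le_card_nsmul _ _ _ fun r hr => ?_
      have hr' : per S.k (M + 1) r = j := (Finset.mem_filter.1 hr).2
      have := (key r).1
      rwa [hr'] at this
    have h4 : ((M + 1 : ℕ) : ℝ) / (S.k + 1) * (μj - mag j) =
        ∫ x, yv (per S.k (M + 1)) mag j x.2.2 ∂(p0.PP X) -
          ∑ r ∈ fib (per S.k (M + 1)) j, (∫ x, σO r x ∂(p0.PP X) - μj) := by
      rw [h2, ← Finset.sum_sub_distrib, ← hcard]
      simp [mul_sub]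
    have hpos : (0 : ℝ) < ((M + 1 : ℕ) : ℝ) / (S.k + 1) := by positivity
    have h5 : ((M + 1 : ℕ) : ℝ) / (S.k + 1) * |μj - mag j| ≤
        Y + ((M + 1 : ℕ) : ℝ) / (S.k + 1) * (2 * δT + 2 * ε / δT) := by
      rw [← abs_of_pos hpos, ← abs_mul, h4, abs_of_pos hpos]
      exact (abs_sub _ _).trans (add_le_add h1 h3)
    refine le_of_mul_le_mul_left (h5.trans (le_of_eq ?_)) hpos
    push_cast
    field_simp
    ring
  · rw [tau_Q_univ p0 hl]
    have h1 : X.tau (p0.ovσ X Finset.univ) l = ∑ r, X.tau (p0.ovσ X {r}) l := by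
      unfold Expo.tau
      rw [Finset.sum_comm]
      refine Finset.sum_congr rfl fun a _ => ?_
      rw [ovσ_univ_eq_sum, Finset.mul_sum]
    have h2 := sum_per_of_dvd hdvd fun j => d j l
    have h3 : (1 - X.tau (p0.ovσ X Finset.univ) l / ((M + 1 : ℕ) : ℝ)) / 2 -
        S.av (fun j => d j l) =
        (∑ r, ((1 - X.tau (p0.ovσ X {r}) l) / 2 - d (per S.k (M + 1) r) l)) /
          ((M + 1 : ℕ) : ℝ) := by
      rw [Finset.sum_sub_distrib, h2, ← Finset.sum_div, Finset.sum_sub_distrib, ← h1, Spec.av]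
      simp only [Finset.sum_const, Finset.card_univ, Fintype.card_fin, nsmul_eq_mul, mul_one]
      field_simp
    rw [h3, abs_div, abs_of_pos hN, div_le_iff₀ hN]
    refine (Finset.abs_sum_le_sum_abs _ _).trans ?_
    have := Finset.sum_le_card_nsmul Finset.univ _ _ fun r _ => (key r).2 l hl hl'
    rw [Finset.card_univ, Fintype.card_fin, nsmul_eq_mul, mul_comm] at this
    exact this

/-- Summing the increments over one period: for `M = M0 + i`, `i < k+1`, the new row and the new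
site have the class `jOf k M = i`; `Σ_b log (1+κ_b β) - Σ_a log (1+κ_{succAbove j a} β) =
log (1+κ_j β)` (`Fin.sum_univ_succAbove`), and `Γ` is linear. -/
theorem period_sum (S : Spec) (X : Expo) {M0 : ℕ} (hdvd : S.k + 1 ∣ M0) (a r : ℕ → ℝ)
    (Q : ℕ → ℝ) (F : Fin (S.k + 1) → ℝ) {ε : ℝ}
    (h1 : ∀ M, M0 ≤ M → M < M0 + (S.k + 1) → |a M - (r M -
      X.Gam (fun l => ∑ c, log (1 + S.κ ((jOf S.k M).succAbove c) * X.D Q l)) / 2)| ≤ ε)
    (h2 : ∀ M, M0 ≤ M → M < M0 + (S.k + 1) → |a (M + 1) - (r M + S.Rh 0 / 2 -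
      X.Gam (fun l => ∑ b, log (1 + S.κ b * X.D Q l) +
        log (S.av fun b => 1 / (1 + S.κ b * X.D Q l))) / 2 + F (jOf S.k M))| ≤ ε) :
    a M0 + (S.k + 1) * (S.Rh 0 / 2 - X.Gam (fun l => S.LL (X.D Q l)) / 2 + S.av F - 2 * ε) ≤
      a (M0 + (S.k + 1)) := by
  have hk : (0 : ℝ) < (S.k : ℝ) + 1 := by positivity
  have hj : ∀ i : Fin (S.k + 1), jOf S.k (M0 + i) = i := by
    intro i
    obtain ⟨c, rfl⟩ := hdvd
    ext
    simp [jOf, Nat.mod_eq_of_lt i.2]
  have step : ∀ i : Fin (S.k + 1), S.Rh 0 / 2 - X.Gam (fun l => log (1 + S.κ i * X.D Q l) +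
      log (S.av fun b => 1 / (1 + S.κ b * X.D Q l))) / 2 + F i - 2 * ε ≤
      a (M0 + (i + 1)) - a (M0 + i) := by
    intro i
    have e1 := h1 (M0 + i) (by omega) (by have := i.2; omega)
    have e2 := h2 (M0 + i) (by omega) (by have := i.2; omega)
    rw [hj] at e1 e2
    have e3 : X.Gam (fun l => ∑ b, log (1 + S.κ b * X.D Q l) +
        log (S.av fun b => 1 / (1 + S.κ b * X.D Q l))) =
        X.Gam (fun l => ∑ c, log (1 + S.κ (i.succAbove c) * X.D Q l)) +
        X.Gam (fun l => log (1 + S.κ i * X.D Q l) +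
          log (S.av fun b => 1 / (1 + S.κ b * X.D Q l))) := by
      unfold Expo.Gam
      rw [← Finset.sum_add_distrib]
      refine Finset.sum_congr rfl fun l _ => ?_
      simp only [Fin.sum_univ_succAbove _ i]
      ring
    rw [e3] at e2
    rw [← add_assoc]
    have := abs_le.1 e1
    have := abs_le.1 e2
    linarith
  have hsum := Finset.sum_le_sum fun i (_ : i ∈ Finset.univ) => step i
  rw [Fin.sum_univ_eq_sum_range (fun i => a (M0 + (i + 1)) - a (M0 + i)),
    Finset.sum_range_sub (fun i => a (M0 + i))] at hsum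
  have e4 : ∑ i : Fin (S.k + 1), X.Gam (fun l => log (1 + S.κ i * X.D Q l) +
      log (S.av fun b => 1 / (1 + S.κ b * X.D Q l))) =
      (S.k + 1) * X.Gam (fun l => S.LL (X.D Q l)) := by
    unfold Expo.Gam
    rw [Finset.sum_comm, Finset.mul_sum]
    refine Finset.sum_congr rfl fun l _ => ?_
    rw [← Finset.sum_div, Finset.sum_sub_distrib, Finset.sum_add_distrib, Finset.sum_add_distrib]
    simp only [Finset.sum_const, Finset.card_univ, Fintype.card_fin, nsmul_eq_mul, Spec.LL]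
    have hav : ∀ f : Fin (S.k + 1) → ℝ, ∑ b, f b = (S.k + 1) * S.av f := fun f => by
      rw [Spec.av]; field_simp
    rw [hav, hav]
    push_cast
    ring
  have e5 : ∑ i, F i = (S.k + 1) * S.av F := by rw [Spec.av]; field_simp
  simp only [Finset.sum_sub_distrib, Finset.sum_add_distrib, ← Finset.sum_div, e4, e5,
    Finset.sum_const, Finset.card_univ, Fintype.card_fin, nsmul_eq_mul, add_zero] at hsum
  push_cast at hsum
  linarith

/-- a weaker penalty increases the value -/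
theorem sysP_mono_K (S : Spec) (X : Expo) (M : ℕ) (θ : ℕ → ℝ) (lab : Fin M → Fin (S.k + 1))
    (mag : Fin (S.k + 1) → ℝ) {Kp Kp' : ℝ} (h : Kp' ≤ Kp) (π' : PI X.n S.k (S.k + 1) → ℝ) :
    (sysP S M θ lab mag Kp π').A X ≤ (sysP S M θ lab mag Kp' π').A X := by
  have := A_le_of_le (X := X) (sysP S M θ lab mag Kp π') (sysP S M θ lab mag Kp' π') rfl rfl rfl
    (δ := 0) (D := 0) (fun i => by simp [sysP, sys]) (fun σ => by
      simp only [sysP, sys, add_zero, zero_add]
      refine Finset.sum_le_sum fun j _ => ?_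
      have := mul_le_mul_of_nonneg_right h (sq_nonneg (yv lab mag j σ))
      linarith)
  simpa using this

end Crest.Agent.R164
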