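import Crest.Agent.R164.O1

/-! # One-site recursion: step fields and the constrained value -/

set_option autoImplicit false
set_option linter.unusedVariables false
set_option linter.unusedSectionVars false

open MeasureTheory ProbabilityTheory Real Crest.ProbabilityR.InvariantGlass
open scoped ENNReal

namespace Crest.Agent.R164

/-- the value of the step field on the interval number `n - 1` -/
def o2H {k : ℕ} (hv : Fin k → ℝ) (n : ℕ) : ℝ := ∑ l : Fin k, if l.val + 1 = n then hv l else 0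

/-- the left endpoint of the interval number `n` -/
def o2Z {k : ℕ} (w : Fin k → ℝ) (n : ℕ) : ℝ := ∑ l : Fin k, if l.val < n then w l else 0

theorem o2H_zero {k : ℕ} (hv : Fin k → ℝ) : o2H hv 0 = 0 := by simp [o2H]

theorem o2H_succ {k : ℕ} (hv : Fin k → ℝ) (i : Fin k) : o2H hv (i + 1) = hv i := by
  unfold o2H
  rw [Finset.sum_eq_single i]
  · simp
  · intro l _ hl
    rw [if_neg fun h => hl (Fin.ext (by omega))]
  · simp

theorem o2_inc {k : ℕ} (hv : Fin k → ℝ) (i : Fin k) :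
    increment hv i = o2H hv (i + 1) - o2H hv i := by
  rw [o2H_succ]; rfl

theorem o2_left {k : ℕ} (w : Fin k → ℝ) (i : Fin k) : leftEnd w i = o2Z w i := rfl

theorem o2Z_zero {k : ℕ} (w : Fin k → ℝ) : o2Z w 0 = 0 := by simp [o2Z]

theorem o2Z_succ {k : ℕ} (w : Fin k → ℝ) (i : Fin k) : o2Z w (i + 1) = o2Z w i + w i := by
  have e : w i = ∑ l : Fin k, if l = i then w l else 0 := by simp
  unfold o2Z
  rw [e, ← Finset.sum_add_distrib]
  refine Finset.sum_congr rfl fun l _ => ?_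
  by_cases h1 : l = i
  · subst h1; simp
  · have h2 : l.val ≠ i.val := fun h => h1 (Fin.ext h)
    by_cases h3 : l.val < i.val
    · rw [if_pos (by omega), if_pos h3, if_neg h1, add_zero]
    · rw [if_neg (by omega), if_neg h3, if_neg h1, add_zero]

theorem o2Z_top {k : ℕ} (w : Fin k → ℝ) : o2Z w k = ∑ l, w l :=
  Finset.sum_congr rfl fun l _ => if_pos l.2

theorem o2Z_mono {k : ℕ} {w : Fin k → ℝ} (hw : ∀ i, 0 < w i) : Monotone (o2Z w) := by
  intro a b hab
  refine Finset.sum_le_sum fun l _ => ?_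
  by_cases h1 : l.val < a
  · rw [if_pos h1, if_pos (by omega)]
  · rw [if_neg h1]
    split_ifs
    · exact (hw l).le
    · exact le_rfl

theorem o2_sum_map {k : ℕ} (w hv : Fin k → ℝ) (F : ℝ × ℝ → ℝ) :
    ((stepL w hv).map F).sum = ∑ i : Fin k, F (leftEnd w i, increment hv i) := by
  unfold stepL
  rw [List.map_map, Fin.sum_univ_def]
  rfl

theorem o2_foldr {ι : Type} (l : List ι) (a v : ι → ℝ) :
    l.foldr (fun i acc => gaussOp (a i) (v i) acc) (fun z => log (cosh z)) =
      fL (l.map fun i => (a i, v i)) := by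
  induction l with
  | nil => rfl
  | cons i l ih => rw [List.foldr_cons, ih]; rfl

theorem o2_left_mem {k : ℕ} {w hv : Fin k → ℝ} (h : IsStepField w hv) (i : Fin k) :
    0 ≤ leftEnd w i ∧ leftEnd w i ≤ 1 := by
  rw [o2_left]
  refine ⟨?_, ?_⟩
  · rw [← o2Z_zero w]; exact o2Z_mono h.2.1 (Nat.zero_le _)
  · rw [← h.2.2.1, ← o2Z_top w]; exact o2Z_mono h.2.1 i.2.le

theorem o2_inc_nonneg {k : ℕ} {w hv : Fin k → ℝ} (h : IsStepField w hv) (i : Fin k) :
    0 ≤ increment hv i := by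
  rw [o2_inc, o2H_succ]
  obtain ⟨i, hi⟩ := i
  rcases i with _ | i
  · rw [o2H_zero, sub_zero]; exact h.2.2.2.2 _
  · have := o2H_succ hv ⟨i, by omega⟩
    simp only at this ⊢
    rw [this]
    exact sub_nonneg.2 (h.2.2.2.1 (Fin.mk_le_mk.2 (by omega)))

theorem o2_stepFn {k : ℕ} {w hv : Fin k → ℝ} (h : IsStepField w hv) {s : ℝ} (hs : s ≤ 1) :
    stepFn w hv s = ∑ i : Fin k, increment hv i * if leftEnd w i < s then 1 else 0 := by
  have key : ∀ m : ℕ, ∑ i ∈ Finset.range m,
      (if o2Z w i < s ∧ s ≤ o2Z w (i + 1) then o2H hv (i + 1) else 0) =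
      ∑ i ∈ Finset.range m, (o2H hv (i + 1) - o2H hv i) * (if o2Z w i < s then 1 else 0) -
        o2H hv m * (if o2Z w m < s then 1 else 0) := by
    intro m
    induction m with
    | zero => simp [o2H_zero]
    | succ m ih =>
      rw [Finset.sum_range_succ, Finset.sum_range_succ, ih]
      have hm : o2Z w m ≤ o2Z w (m + 1) := o2Z_mono h.2.1 (Nat.le_succ m)
      by_cases h1 : o2Z w m < s
      · by_cases h2 : o2Z w (m + 1) < s
        · rw [if_neg (show ¬ (o2Z w m < s ∧ s ≤ o2Z w (m + 1)) from fun h3 => by linarith [h3.2]),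
            if_pos h1, if_pos h2]
          ring
        · rw [if_pos (show o2Z w m < s ∧ s ≤ o2Z w (m + 1) from ⟨h1, not_lt.1 h2⟩), if_pos h1,
            if_neg h2]
          ring
      · rw [if_neg (show ¬ (o2Z w m < s ∧ s ≤ o2Z w (m + 1)) from fun h3 => h1 h3.1), if_neg h1,
          if_neg (show ¬ o2Z w (m + 1) < s from fun h3 => h1 (by linarith))]
        ring
  have hk := key k
  rw [o2Z_top, h.2.2.1, if_neg (not_lt.2 hs), mul_zero, sub_zero,
    ← Fin.sum_univ_eq_sum_range (fun i =>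
      if o2Z w i < s ∧ s ≤ o2Z w (i + 1) then o2H hv (i + 1) else 0),
    ← Fin.sum_univ_eq_sum_range (fun i =>
      (o2H hv (i + 1) - o2H hv i) * (if o2Z w i < s then 1 else 0))] at hk
  unfold stepFn
  refine Eq.trans (Finset.sum_congr rfl fun i _ => ?_)
    (hk.trans (Finset.sum_congr rfl fun i _ => ?_))
  · rw [o2Z_succ, o2H_succ]; rfl
  · rw [o2_inc]; rfl

theorem fieldValueAt_eq {k : ℕ} (b : ℝ) {w hv : Fin k → ℝ} (h : IsStepField w hv) :
    fieldValueAt b w hv = fL (stepL w hv) b - ((stepL w hv).map fun q => q.2).sum / 2 := by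
  have e : ((stepL w hv).map fun q => q.2).sum = o2H hv k := by
    rw [o2_sum_map]
    simp only [o2_inc]
    rw [Fin.sum_univ_eq_sum_range (fun i => o2H hv (i + 1) - o2H hv i), Finset.sum_range_sub,
      o2H_zero, sub_zero]
  unfold fieldValueAt
  rw [o2_foldr, e]
  rfl

theorem fieldValue_eq {k : ℕ} (w hv : Fin k → ℝ) : fieldValue w hv = fieldValueAt 0 w hv := rfl

theorem stepL_ok {k : ℕ} {w hv : Fin k → ℝ} (h : IsStepField w hv) : LOK (stepL w hv) := by
  intro q hq
  obtain ⟨i, -, rfl⟩ := List.mem_map.1 hq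
  exact ⟨(o2_left_mem h i).1, (o2_left_mem h i).2, o2_inc_nonneg h i⟩

theorem stepL_sorted {k : ℕ} {w hv : Fin k → ℝ} (h : IsStepField w hv) :
    (stepL w hv).Pairwise (fun p q => p.1 ≤ q.1) := by
  unfold stepL
  rw [List.pairwise_map]
  exact (List.pairwise_lt_finRange k).imp fun {a b} hab => o2Z_mono h.2.1 (Fin.le_def.1 hab.le)

theorem IsTrialPath.integrableOn {p : ℝ → ℝ} (hp : IsTrialPath p) :
    IntegrableOn p (Set.Ioo 0 1) := by
  refine Measure.integrableOn_of_bounded (M := 1) (by simp) hp.1.aestronglyMeasurable ?_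
  refine (ae_restrict_iff' measurableSet_Ioo).2 (Filter.Eventually.of_forall fun s hs => ?_)
  rw [Real.norm_eq_abs, abs_of_nonneg (hp.2.2 s hs).1]
  exact (hp.2.2 s hs).2

/-- a step field is the sum of its increments times the indicators of `(ζ_i, 1]` -/
theorem integral_stepFn {k : ℕ} {w hv : Fin k → ℝ} (h : IsStepField w hv) {p : ℝ → ℝ}
    (hp : IntegrableOn p (Set.Ioo 0 1)) :
    ∫ s in Set.Ioo (0 : ℝ) 1, p s * stepFn w hv s =
      ((stepL w hv).map fun q => q.2 * tl p q.1).sum := by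
  rw [o2_sum_map]
  have e1 : ∀ s ∈ Set.Ioo (0 : ℝ) 1, p s * stepFn w hv s =
      ∑ i : Fin k, increment hv i * (Set.Ioi (leftEnd w i)).indicator p s := by
    intro s hs
    rw [o2_stepFn h hs.2.le, Finset.mul_sum]
    refine Finset.sum_congr rfl fun i _ => ?_
    by_cases h1 : leftEnd w i < s
    · rw [if_pos h1, Set.indicator_of_mem (show s ∈ Set.Ioi _ from h1)]; ring
    · rw [if_neg h1, Set.indicator_of_notMem (show s ∉ Set.Ioi _ from h1)]; ring
  rw [setIntegral_congr_fun measurableSet_Ioo e1,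
    integral_finsetSum _ fun i _ => (hp.indicator measurableSet_Ioi).const_mul _]
  refine Finset.sum_congr rfl fun i _ => ?_
  rw [integral_const_mul, setIntegral_indicator measurableSet_Ioi]
  unfold tl
  have e2 : Set.Ioo (0 : ℝ) 1 ∩ Set.Ioi (leftEnd w i) = Set.Ioo (leftEnd w i) 1 := by
    ext s
    have := (o2_left_mem h i).1
    constructor
    · rintro ⟨h1, h2⟩; exact ⟨h2, h1.2⟩
    · rintro ⟨h1, h2⟩; exact ⟨⟨by linarith, h2⟩, h1⟩
  rw [e2]

theorem stepFn_nonneg {k : ℕ} {w hv : Fin k → ℝ} (h : IsStepField w hv) (s : ℝ) :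
    0 ≤ stepFn w hv s := by
  refine Finset.sum_nonneg fun i _ => ?_
  split_ifs
  · exact h.2.2.2.2 i
  · exact le_rfl

theorem integrableOn_mul_stepFn {k : ℕ} (w hv : Fin k → ℝ) {p : ℝ → ℝ}
    (hp : IntegrableOn p (Set.Ioo 0 1)) :
    IntegrableOn (fun s => p s * stepFn w hv s) (Set.Ioo 0 1) := by
  have e : (fun s => p s * stepFn w hv s) = fun s => ∑ i : Fin k,
      hv i * (Set.Ioc (leftEnd w i) (leftEnd w i + w i)).indicator p s := by
    funext s
    unfold stepFn
    rw [Finset.mul_sum]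
    refine Finset.sum_congr rfl fun i _ => ?_
    by_cases h1 : leftEnd w i < s ∧ s ≤ leftEnd w i + w i
    · rw [if_pos h1, Set.indicator_of_mem (show s ∈ Set.Ioc _ _ from h1)]; ring
    · rw [if_neg h1, Set.indicator_of_notMem (show s ∉ Set.Ioc _ _ from h1)]; ring
  rw [e]
  exact integrable_finsetSum _ fun i _ => (hp.indicator measurableSet_Ioc).const_mul _

/-- `∫ h` -/
noncomputable def hInt {k : ℕ} (w hv : Fin k → ℝ) : ℝ := ∫ s in Set.Ioo (0 : ℝ) 1, stepFn w hv s

theorem hInt_nonneg {k : ℕ} {w hv : Fin k → ℝ} (h : IsStepField w hv) : 0 ≤ hInt w hv := by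
  exact integral_nonneg fun s => stepFn_nonneg h s

theorem o2_tl_one {ζ : ℝ} (h : ζ ≤ 1) : tl (fun _ => 1) ζ = 1 - ζ := by
  unfold tl
  simp [Real.volume_real_Ioo, h]

theorem o2_hInt_one {k : ℕ} (w hv : Fin k → ℝ) :
    hInt w hv = ∫ s in Set.Ioo (0 : ℝ) 1, (fun _ => (1 : ℝ)) s * stepFn w hv s := by
  simp [hInt]

theorem o2_one : IntegrableOn (fun _ : ℝ => (1 : ℝ)) (Set.Ioo 0 1) := integrableOn_const (by simp)

theorem o2_hInt {k : ℕ} {w hv : Fin k → ℝ} (h : IsStepField w hv) :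
    hInt w hv = ∑ i : Fin k, increment hv i * (1 - leftEnd w i) := by
  rw [o2_hInt_one, integral_stepFn h o2_one, o2_sum_map]
  exact Finset.sum_congr rfl fun i _ => by rw [o2_tl_one (o2_left_mem h i).2]

theorem fieldValueAt_ge {k : ℕ} {w hv : Fin k → ℝ} (h : IsStepField w hv) (b : ℝ) :
    |b| - log 2 - hInt w hv / 2 ≤ fieldValueAt b w hv := by
  have h1 := fL_ge (stepL_ok h) b
  rw [fieldValueAt_eq b h, o2_hInt h]
  rw [o2_sum_map] at h1 ⊢
  have e : ∑ i : Fin k, increment hv i * (1 - leftEnd w i) =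
      ∑ i : Fin k, increment hv i - ∑ i : Fin k, leftEnd w i * increment hv i := by
    rw [← Finset.sum_sub_distrib]
    exact Finset.sum_congr rfl fun i _ => by ring
  rw [e]
  simp only at h1 ⊢
  linarith

theorem fieldValueAt_zero_le {k : ℕ} {w hv : Fin k → ℝ} (h : IsStepField w hv) :
    fieldValueAt 0 w hv ≤ 0 := by
  have h1 := fL_le (stepL_ok h) 0
  rw [fieldValueAt_eq 0 h]
  rw [cosh_zero, log_one] at h1
  linarith

theorem fieldValueAt_zero_coer {k : ℕ} {w hv : Fin k → ℝ} (h : IsStepField w hv) :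
    fieldValueAt 0 w hv ≤ 2 * log 2 - hInt w hv / 4 := by
  have h1 := fL_le_coer (stepL_ok h) (a := 1 / 2) (by norm_num) (by norm_num)
  rw [fieldValueAt_eq 0 h, o2_hInt h]
  rw [o2_sum_map] at h1 ⊢
  have e : ∑ i : Fin k, max (leftEnd w i) (1 / 2) * increment hv i +
      (∑ i : Fin k, increment hv i * (1 - leftEnd w i)) / 2 ≤ ∑ i : Fin k, increment hv i := by
    rw [Finset.sum_div, ← Finset.sum_add_distrib]
    refine Finset.sum_le_sum fun i _ => ?_
    have h2 := o2_left_mem h i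
    have h3 := o2_inc_nonneg h i
    have h4 : max (leftEnd w i) (1 / 2) ≤ 1 - (1 - leftEnd w i) / 2 :=
      max_le (by linarith [h2.2]) (by linarith [h2.1])
    nlinarith
  simp only at h1 ⊢
  linarith

theorem o2_lower {k : ℕ} {w hv : Fin k → ℝ} (h : IsStepField w hv) {s : ℝ} (hs : |s| ≤ 1)
    (b : ℝ) : -log 2 - hInt w hv / 2 ≤ fieldValueAt b w hv - b * s := by
  have h1 := fieldValueAt_ge h b
  have h2 : b * s ≤ |b| := by
    calc b * s ≤ |b * s| := le_abs_self _
      _ = |b| * |s| := abs_mul _ _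
      _ ≤ |b| := mul_le_of_le_one_right (abs_nonneg _) hs
  linarith

theorem cfv_le {k : ℕ} {w hv : Fin k → ℝ} (h : IsStepField w hv) {s : ℝ} (hs : |s| ≤ 1) (b : ℝ) :
    cfv s w hv ≤ fieldValueAt b w hv - b * s := by
  exact ciInf_le (f := fun b : ℝ => fieldValueAt b w hv - b * s)
    ⟨_, Set.forall_mem_range.2 (o2_lower h hs)⟩ b

theorem cfv_ge {k : ℕ} {w hv : Fin k → ℝ} (h : IsStepField w hv) {s : ℝ} (hs : |s| ≤ 1) :
    -log 2 - hInt w hv / 2 ≤ cfv s w hv := by
  exact le_ciInf (o2_lower h hs)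

theorem constrainedFieldValue_eq {k : ℕ} {w hv : Fin k → ℝ} (h : IsStepField w hv) {s : ℝ}
    (hs : |s| ≤ 1) : constrainedFieldValue s w hv = ((cfv s w hv : ℝ) : EReal) := by
  unfold constrainedFieldValue
  refine le_antisymm ?_ (le_iInf fun b => EReal.coe_le_coe_iff.2 (cfv_le h hs b))
  by_contra hlt
  obtain ⟨z, hz1, hz2⟩ := EReal.lt_iff_exists_real_btwn.1 (not_le.1 hlt)
  obtain ⟨b, hb⟩ := exists_lt_of_ciInf_lt (EReal.coe_lt_coe_iff.1 hz1)
  exact absurd (hz2.trans_le (iInf_le _ b)) (not_lt.2 (EReal.coe_le_coe_iff.2 hb.le))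

theorem cfv_zero {k : ℕ} {w hv : Fin k → ℝ} (h : IsStepField w hv) :
    cfv 0 w hv = fieldValueAt 0 w hv := by
  refine le_antisymm (by simpa using cfv_le h (s := 0) (by simp) 0) (le_ciInf fun b => ?_)
  rw [fieldValueAt_eq 0 h, fieldValueAt_eq b h]
  have h1 := (fL_convex (stepL_ok h)).2 (Set.mem_univ b) (Set.mem_univ (-b))
    (show (0 : ℝ) ≤ 1 / 2 by norm_num) (show (0 : ℝ) ≤ 1 / 2 by norm_num) (by norm_num)
  simp only [smul_eq_mul, fL_neg] at h1
  rw [show 1 / 2 * b + 1 / 2 * -b = 0 by ring] at h1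
  linarith

theorem o2_sign {k : ℕ} {w hv : Fin k → ℝ} (h : IsStepField w hv) (b m : ℝ) :
    ∃ b' : ℝ, |b'| = |b| ∧ b' * m = |b| * |m| ∧ fieldValueAt b' w hv = fieldValueAt b w hv := by
  have hneg : ∀ x, fieldValueAt (-x) w hv = fieldValueAt x w hv := fun x => by
    rw [fieldValueAt_eq _ h, fieldValueAt_eq _ h, fL_neg]
  have habs : fieldValueAt |b| w hv = fieldValueAt b w hv := by
    rcases abs_cases b with h1 | h1 <;> rw [h1.1]
    exact hneg b
  rcases abs_cases m with h1 | h1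
  · exact ⟨|b|, abs_abs b, by rw [h1.1], habs⟩
  · exact ⟨-|b|, by rw [abs_neg, abs_abs], by rw [h1.1]; ring, by rw [hneg, habs]⟩

/-- `ℓ^[s]` is even and concave in `s`, `ℓ^[m] ≤ 0`, `ℓ_b - |b| ≥ -log 2 - ½∫h` -/
theorem cfv_compare {k : ℕ} {w hv : Fin k → ℝ} (h : IsStepField w hv) {s m lam : ℝ} (hs : |s| ≤ 1)
    (hm : |m| < 1) (hl : 0 ≤ lam) (hsm : |s| - |m| ≤ lam * (1 - |m|)) :
    cfv m w hv ≤ cfv s w hv + lam * (log 2 + hInt w hv / 2) := by
  have h0 := hInt_nonneg h
  have hl2 : 0 < log 2 := log_pos (by norm_num)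
  have hc0 : cfv m w hv ≤ 0 := by
    have := cfv_le h hm.le 0
    linarith [fieldValueAt_zero_le h]
  by_cases hl1 : lam ≤ 1
  · have : cfv m w hv - lam * (log 2 + hInt w hv / 2) ≤ cfv s w hv := by
      refine le_ciInf fun b => ?_
      obtain ⟨b', h1, h2, h3⟩ := o2_sign h b m
      have h4 := cfv_le h hm.le b'
      rw [h2, h3] at h4
      have h5 := fieldValueAt_ge h b
      have h6 : b * s ≤ |b| * |s| := by rw [← abs_mul]; exact le_abs_self _
      have h7 : |b| * (|s| - |m|) ≤ |b| * (lam * (1 - |m|)) :=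
        mul_le_mul_of_nonneg_left hsm (abs_nonneg b)
      have h8 : lam * (|b| - |b| * |m|) ≤
          lam * (fieldValueAt b w hv + (log 2 + hInt w hv / 2) - |b| * |m|) :=
        mul_le_mul_of_nonneg_left (by linarith) hl
      have h9 : (1 - lam) * cfv m w hv ≤ (1 - lam) * (fieldValueAt b w hv - |b| * |m|) :=
        mul_le_mul_of_nonneg_left h4 (by linarith)
      have h10 : lam * cfv m w hv ≤ 0 := mul_nonpos_of_nonneg_of_nonpos hl hc0
      nlinarith
    linarith
  · have h1 := cfv_ge h hs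
    have h2 : 1 * (log 2 + hInt w hv / 2) ≤ lam * (log 2 + hInt w hv / 2) :=
      mul_le_mul_of_nonneg_right (by linarith) (by linarith)
    linarith

/-- the infimum is nearly attained at a bounded field of the sign of `m` -/
theorem exists_near_cfv {k : ℕ} {w hv : Fin k → ℝ} (h : IsStepField w hv) {m Λ ε : ℝ}
    (hm : |m| < 1) (hΛ : log 2 + hInt w hv / 2 ≤ Λ * (1 - |m|)) (hε : 0 < ε) :
    ∃ b : ℝ, |b| ≤ Λ ∧ 0 ≤ b * m ∧ (m = 0 → b = 0) ∧
      fieldValueAt b w hv - b * m ≤ cfv m w hv + ε := by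
  have h0 := hInt_nonneg h
  have hl2 : 0 < log 2 := log_pos (by norm_num)
  have hΛ0 : 0 ≤ Λ := by
    by_contra h1
    have : Λ * (1 - |m|) < 0 := mul_neg_of_neg_of_pos (not_le.1 h1) (by linarith)
    linarith
  by_cases hm0 : m = 0
  · subst hm0
    refine ⟨0, by simpa using hΛ0, by simp, fun _ => rfl, ?_⟩
    rw [cfv_zero h]
    linarith
  obtain ⟨b, hb⟩ := exists_lt_of_ciInf_lt (f := fun b : ℝ => fieldValueAt b w hv - b * m)
    (show cfv m w hv < cfv m w hv + ε by linarith)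
  have h6 : b * m ≤ |b| * |m| := by rw [← abs_mul]; exact le_abs_self _
  by_cases hbΛ : |b| ≤ Λ
  · obtain ⟨b', h1, h2, h3⟩ := o2_sign h b m
    refine ⟨b', h1 ▸ hbΛ, by rw [h2]; positivity, fun h4 => absurd h4 hm0, ?_⟩
    rw [h2, h3]
    linarith
  · refine ⟨0, by simpa using hΛ0, by simp, fun _ => rfl, ?_⟩
    have h1 := fieldValueAt_zero_le h
    have h2 := fieldValueAt_ge h b
    have h3 : Λ * (1 - |m|) ≤ |b| * (1 - |m|) :=
      mul_le_mul_of_nonneg_right (not_le.1 hbΛ).le (by linarith)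
    linarith

theorem o2_concat {L : List (ℝ × ℝ)} (h : LOK L) {v : ℝ} (hv : 0 ≤ v) (x : ℝ) :
    fL (L ++ [(1, v)]) x = fL L x + v / 2 := by
  induction L generalizing x with
  | nil => exact gaussOp_logcosh hv x
  | cons q L ih =>
    have hL : LOK L := fun r hr => h r (List.mem_cons_of_mem _ hr)
    have e : fL (L ++ [(1, v)]) = fun y => fL L y + v / 2 := funext fun y => ih hL y
    show gaussOp q.1 q.2 (fL (L ++ [(1, v)])) x = gaussOp q.1 q.2 (fL L) x + v / 2
    rw [e, gaussOp_add_const (fL_lip hL)]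

/-- The step field attached to an exponent sequence: value `0` on `(0, m]` and
`v 1 + … + v l` on `(e l, e (l+1)]`; the last level has exponent `1` and cancels. -/
theorem exists_stepField (X : Expo) (hW : ∀ l, 2 ≤ l → l ≤ X.n → 0 < X.W l) {v : ℕ → ℝ}
    (hv : ∀ l, 1 ≤ l → l ≤ X.n → 0 ≤ v l) :
    ∃ (k : ℕ) (w hv : Fin k → ℝ), IsStepField w hv ∧
      (∀ b, fieldValueAt b w hv = X.Phi v b - (∑ l ∈ Finset.Icc 1 X.n, v l) / 2) ∧
      (∀ p : ℝ → ℝ, IntegrableOn p (Set.Ioo 0 1) →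
        ∫ s in Set.Ioo (0 : ℝ) 1, p s * stepFn w hv s =
          ∑ l ∈ Finset.Icc 1 X.n, v l * tl p (X.e l)) ∧
      hInt w hv = ∑ l ∈ Finset.Icc 1 X.n, v l * (1 - X.e l) := by
  obtain ⟨m, hm⟩ : ∃ m, X.n = m + 1 := ⟨X.n - 1, by have := X.n_pos; omega⟩
  set E : ℕ → ℝ := fun i => if i = 0 then 0 else X.e i with hE
  set V : ℕ → ℝ := fun i => if i = 0 then 0 else v i with hV
  have hV0 : ∀ i, i ≤ X.n → 0 ≤ V i := fun i hi => by
    simp only [hV]
    split_ifs with h0
    · exact le_rfl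
    · exact hv i (by omega) hi
  set w : Fin (m + 1) → ℝ := fun i => E (i + 1) - E i with hw
  set H : Fin (m + 1) → ℝ := fun i => ∑ l ∈ Finset.range (i + 1), V l with hH
  have hZ : ∀ n, n ≤ m + 1 → o2Z w n = E n := by
    intro n
    induction n with
    | zero => intro _; rw [o2Z_zero]; simp [hE]
    | succ n ih =>
      intro hn
      have := o2Z_succ w ⟨n, by omega⟩
      simp only at this
      rw [this, ih (by omega)]
      simp only [hw]
      ring
  have hHs : ∀ n, n ≤ m + 1 → o2H H n = ∑ l ∈ Finset.range n, V l := by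
    intro n hn
    rcases n with _ | n
    · rw [o2H_zero]; simp
    · exact o2H_succ H ⟨n, by omega⟩
  have hleft : ∀ i : Fin (m + 1), leftEnd w i = E i := fun i => hZ i i.2.le
  have hinc : ∀ i : Fin (m + 1), increment H i = V i := fun i => by
    rw [o2_inc, hHs _ i.2, hHs _ i.2.le, Finset.sum_range_succ]
    ring
  have hS : IsStepField w H := by
    refine ⟨by omega, fun i => ?_, ?_, fun a b hab => ?_, fun i => ?_⟩
    · simp only [hw, hE]
      rw [if_neg (by omega)]
      split_ifs with h0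
      · rw [h0, zero_add, X.e01, sub_zero]; exact X.pos
      · have := hW (i + 1) (by omega) (by have := i.2; omega)
        simpa [Expo.W] using this
    · rw [← o2Z_top, hZ _ le_rfl]
      simp only [hE]
      rw [if_neg (by omega), ← hm, X.en]
    · refine Finset.sum_le_sum_of_subset_of_nonneg (Finset.range_mono ?_) fun l hl _ => hV0 l ?_
      · have := Fin.le_def.1 hab; omega
      · have := Finset.mem_range.1 hl
        have := b.2
        omega
    · refine Finset.sum_nonneg fun l hl => hV0 l ?_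
      have := Finset.mem_range.1 hl
      have := i.2
      omega
  have hsum : ∀ F : ℝ × ℝ → ℝ, F (0, 0) = 0 → ∑ i : Fin (m + 1), F (leftEnd w i, increment H i) +
      F (1, v (m + 1)) = ∑ l ∈ Finset.Icc 1 X.n, F (X.e l, v l) := by
    intro F hF
    simp only [hleft, hinc]
    rw [Fin.sum_univ_eq_sum_range (fun i => F (E i, V i)), Finset.sum_range_succ', hm,
      ← Finset.Ico_add_one_right_eq_Icc, Finset.sum_Ico_eq_sum_range,
      show m + 1 + 1 - 1 = m + 1 by omega, Finset.sum_range_succ, add_comm 1 m, ← hm, X.en]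
    simp only [hE, hV, if_true, hF, add_zero, Nat.add_eq_zero_iff, one_ne_zero, and_false, if_false,
      add_comm 1]
  have hint : ∀ p : ℝ → ℝ, IntegrableOn p (Set.Ioo 0 1) →
      ∫ s in Set.Ioo (0 : ℝ) 1, p s * stepFn w H s =
        ∑ l ∈ Finset.Icc 1 X.n, v l * tl p (X.e l) := by
    intro p hp
    rw [integral_stepFn hS hp, o2_sum_map, ← hsum (fun q => q.2 * tl p q.1) (by simp)]
    simp [tl]
  refine ⟨m + 1, w, H, hS, fun b => ?_, hint, ?_⟩
  · rw [fieldValueAt_eq b hS, o2_sum_map, ← hsum (fun q => q.2) rfl]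
    set L : List (ℝ × ℝ) := (List.range' 1 m).map fun l => (X.e l, v l) with hL
    have e1 : stepL w H = (0, 0) :: L := by
      unfold stepL
      simp only [hleft, hinc]
      have : (List.finRange (m + 1)).map (fun i : Fin (m + 1) => (E i, V i)) =
          ((List.finRange (m + 1)).map (↑·)).map (fun i : ℕ => (E i, V i)) := by
        rw [List.map_map]; rfl
      rw [this, List.map_coe_finRange_eq_range, List.range_eq_range', List.range'_succ,
        List.map_cons]
      congr 1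
      refine List.map_congr_left fun l hl => ?_
      have := (List.mem_range'_1.1 hl).1
      simp only [hE, hV]
      rw [if_neg (by omega), if_neg (by omega)]
    have e2 : X.lst v 1 = L ++ [(1, v (m + 1))] := by
      unfold Expo.lst
      rw [show X.n + 1 - 1 = m + 1 by omega, List.range'_1_concat, List.map_append, add_comm 1 m,
        List.map_singleton, ← hm, X.en]
    have hLok : LOK L := by
      have := stepL_ok hS
      rw [e1] at this
      exact fun q hq => this q (List.mem_cons_of_mem _ hq)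
    unfold Expo.Phi
    rw [e1, e2, o2_concat hLok (hv (m + 1) (by omega) (by omega))]
    have e3 : fL ((0, 0) :: L) = fL L := gaussOp_zero 0
    rw [e3]
    simp only
    ring
  · rw [o2_hInt_one, hint _ o2_one]
    exact Finset.sum_congr rfl fun l _ => by rw [o2_tl_one (X.le_one l)]

theorem SLe.mono {J : ℕ} {γ mag : Fin J → ℝ} {p p' : ℝ → ℝ} {y : ℝ} (h : SLe γ mag p y)
    (hp : IsTrialPath p) (hp' : IsTrialPath p') (hle : ∀ s ∈ Set.Ioo (0 : ℝ) 1, p' s ≤ p s) :
    SLe γ mag p' y := by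
  intro k w hv hS
  have h1 := h k w hv hS
  have h2 : ∫ s in Set.Ioo (0 : ℝ) 1, p' s * stepFn w hv s ≤
      ∫ s in Set.Ioo (0 : ℝ) 1, p s * stepFn w hv s :=
    setIntegral_mono_on (integrableOn_mul_stepFn w hv (IsTrialPath.integrableOn hp'))
      (integrableOn_mul_stepFn w hv (IsTrialPath.integrableOn hp)) measurableSet_Ioo
      fun s hs => mul_le_mul_of_nonneg_right (hle s hs) (stepFn_nonneg hS s)
  linarith

/-- the zero field -/
theorem SLe.ge {J : ℕ} {γ mag : Fin J → ℝ} {p : ℝ → ℝ} {y : ℝ} (h : SLe γ mag p y)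
    (hγ : ∀ j, 0 ≤ γ j) (h1 : ∑ j, γ j = 1) (hm : ∀ j, |mag j| ≤ 1) : -log 2 ≤ y := by
  have hS : IsStepField (k := 1) (fun _ => 1) (fun _ => 0) :=
    ⟨one_pos, fun _ => one_pos, by simp, monotone_const, fun _ => le_rfl⟩
  have hf : ∀ s, stepFn (k := 1) (fun _ => 1) (fun _ => 0) s = 0 := fun s => by simp [stepFn]
  have h2 := h 1 _ _ hS
  have h3 : hInt (k := 1) (fun _ => 1) (fun _ => 0) = 0 := by simp [hInt, hf]
  have h4 : ∑ j, γ j * (-log 2) ≤ ∑ j, γ j * cfv (k := 1) (mag j) (fun _ => 1) (fun _ => 0) :=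
    Finset.sum_le_sum fun j _ => mul_le_mul_of_nonneg_left (by
      have := cfv_ge hS (hm j)
      rw [h3] at this
      linarith) (hγ j)
  rw [← Finset.sum_mul, h1] at h4
  simp only [hf, mul_zero, integral_zero] at h2
  linarith

theorem sle_zero {J : ℕ} {γ mag : Fin J → ℝ} (hγ : ∀ j, 0 ≤ γ j) (hm : ∀ j, |mag j| ≤ 1) :
    SLe γ mag (fun _ => 0) 0 := by
  intro k w hv hS
  have h1 : ∑ j, γ j * cfv (mag j) w hv ≤ 0 :=
    Finset.sum_nonpos fun j _ => mul_nonpos_of_nonneg_of_nonpos (hγ j) (by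
      have := cfv_le hS (hm j) 0
      linarith [fieldValueAt_zero_le hS])
  simpa using h1

/-- Changing the prescribed magnetisations slightly, at the price of shrinking the path:
`ℓ^[m] + ½∫(1-κ) p h ≤ (1-κ)(ℓ^[s] + ½∫ p h) + κ (ℓ^[s] + ¼∫ h) + (κ/2) log 2`. -/
theorem SLe.perturb {J : ℕ} {γ s mag : Fin J → ℝ} {p : ℝ → ℝ} {y κ : ℝ} (h : SLe γ s p y)
    (hp : IsTrialPath p) (hγ : ∀ j, 0 ≤ γ j) (h1 : ∑ j, γ j = 1) (hs : ∀ j, |s j| ≤ 1)
    (hm : ∀ j, |mag j| < 1) (hκ : 0 ≤ κ) (hκ1 : κ ≤ 1)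
    (hsm : ∀ j, |s j| - |mag j| ≤ κ / 2 * (1 - |mag j|)) :
    SLe γ mag (fun x => (1 - κ) * p x) (y + 4 * κ) := by
  intro k w hv hS
  have h2 := h k w hv hS
  have h3 := h.ge hγ h1 hs
  have h4 : ∑ j, γ j * cfv (mag j) w hv ≤
      ∑ j, (γ j * cfv (s j) w hv + γ j * (κ / 2 * (log 2 + hInt w hv / 2))) :=
    Finset.sum_le_sum fun j _ => by
      rw [← mul_add]
      exact mul_le_mul_of_nonneg_left
        (cfv_compare hS (hs j) (hm j) (by linarith) (hsm j)) (hγ j)
  rw [Finset.sum_add_distrib, ← Finset.sum_mul, h1, one_mul] at h4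
  have h5 : ∑ j, γ j * cfv (s j) w hv ≤ ∑ j, γ j * (2 * log 2 - hInt w hv / 4) :=
    Finset.sum_le_sum fun j _ => mul_le_mul_of_nonneg_left (by
      have := cfv_le hS (hs j) 0
      linarith [fieldValueAt_zero_coer hS]) (hγ j)
  rw [← Finset.sum_mul, h1, one_mul] at h5
  have e : ∫ x in Set.Ioo (0 : ℝ) 1, (1 - κ) * p x * stepFn w hv x =
      (1 - κ) * ∫ x in Set.Ioo (0 : ℝ) 1, p x * stepFn w hv x := by
    rw [← integral_const_mul]
    simp only [mul_assoc]
  simp only
  rw [e]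
  have hl2 : log 2 < 1 := by have := Real.log_two_lt_d9; linarith
  have h6 := mul_le_mul_of_nonneg_left h2 (sub_nonneg.2 hκ1)
  have h7 := mul_le_mul_of_nonneg_left h5 hκ
  have h8 := mul_le_mul_of_nonneg_left h3 hκ
  have h9 := mul_le_mul_of_nonneg_left hl2.le hκ
  nlinarith

theorem constrainedEntropyPart_le_iff {J : ℕ} (γ m : Fin J → ℚ) (hγ : ∀ j, 0 ≤ γ j)
    (hm : ∀ j, -1 < m j ∧ m j < 1) (p : ℝ → ℝ) (y : ℝ) :
    constrainedEntropyPart γ m p ≤ (y : EReal) ↔
      SLe (fun j => (γ j : ℝ)) (fun j => (m j : ℝ)) p y := by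
  have hm' : ∀ j, |((m j : ℚ) : ℝ)| ≤ 1 := fun j => by
    have h1 : ((-1 : ℚ) : ℝ) < (m j : ℝ) := by exact_mod_cast (hm j).1
    have h2 : (m j : ℝ) < ((1 : ℚ) : ℝ) := by exact_mod_cast (hm j).2
    push_cast at h1 h2
    exact abs_le.2 ⟨h1.le, h2.le⟩
  have hsum : ∀ (s : Finset (Fin J)) (F : Fin J → ℝ),
      ∑ j ∈ s, ((F j : ℝ) : EReal) = ((∑ j ∈ s, F j : ℝ) : EReal) := by
    intro s F
    induction s using Finset.induction_on with
    | empty => simp
    | insert a s ha ih => rw [Finset.sum_insert ha, Finset.sum_insert ha, ih, EReal.coe_add]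
  unfold constrainedEntropyPart SLe
  simp only [iSup_le_iff]
  refine forall_congr' fun k => forall_congr' fun w => forall_congr' fun hv =>
    forall_congr' fun hS => ?_
  unfold groupFieldValue
  simp only [constrainedFieldValue_eq hS (hm' _), ← EReal.coe_mul]
  rw [hsum, ← EReal.coe_add, EReal.coe_le_coe_iff]

end Crest.Agent.R164
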