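import Crest.Agent.R164.SDefs
import Crest.Agent.R164.O2
import Crest.Agent.R164.G1

/-! # The deficit function of a trial path -/

set_option autoImplicit false
set_option linter.unusedVariables false
set_option linter.unusedSectionVars false

open MeasureTheory ProbabilityTheory Real Crest.ProbabilityR.InvariantGlass
open scoped ENNReal

namespace Crest.Agent.R164

theorem s2_int {p : ℝ → ℝ} (hp : IntegrableOn p (Set.Ioo 0 1)) (r : ℝ) :
    IntegrableOn (fun s => max (p s - r) 0) (Set.Ioo 0 1) :=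
  Integrable.pos_part (hp.sub (integrableOn_const (by simp)))

theorem s2_const {a b : ℝ} (h : a ≤ b) (c : ℝ) : ∫ _ in Set.Ioo a b, c = c * (b - a) := by
  simp [h, mul_comm]

theorem s2_split {f : ℝ → ℝ} (hf : IntegrableOn f (Set.Ioo 0 1)) {a b : ℝ} (h0 : 0 ≤ a)
    (hab : a ≤ b) (h1 : b ≤ 1) : tl f a = (∫ s in Set.Ioo a b, f s) + tl f b := by
  unfold tl
  simp only [← integral_Ioc_eq_integral_Ioo]
  rw [← intervalIntegral.integral_of_le hab, ← intervalIntegral.integral_of_le h1,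
    ← intervalIntegral.integral_of_le (hab.trans h1),
    intervalIntegral.integral_add_adjacent_intervals]
  · exact (intervalIntegrable_iff_integrableOn_Ioo_of_le hab).mpr
      (hf.mono_set (Set.Ioo_subset_Ioo h0 h1))
  · exact (intervalIntegrable_iff_integrableOn_Ioo_of_le h1).mpr
      (hf.mono_set (Set.Ioo_subset_Ioo (h0.trans hab) le_rfl))

theorem s2_gap {f : ℝ → ℝ} (hf : IntegrableOn f (Set.Ioo 0 1)) {a b c : ℝ} (h0 : 0 ≤ a)
    (hab : a ≤ b) (h1 : b ≤ 1) (hc : ∀ s ∈ Set.Ioo a b, f s ≤ c) :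
    tl f a ≤ c * (b - a) + tl f b := by
  rw [s2_split hf h0 hab h1, ← s2_const hab]
  have := setIntegral_mono_on (hf.mono_set (Set.Ioo_subset_Ioo h0 h1))
    (integrableOn_const (C := c) (by simp)) measurableSet_Ioo hc
  linarith

theorem s2_tl_one (f : ℝ → ℝ) : tl f 1 = 0 := by simp [tl]

theorem s2_tl_sub {p : ℝ → ℝ} (hp : IntegrableOn p (Set.Ioo 0 1)) (r : ℝ) {ζ : ℝ} (h0 : 0 ≤ ζ)
    (h1 : ζ ≤ 1) : tl p ζ - r * (1 - ζ) = ∫ s in Set.Ioo ζ 1, (p s - r) := by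
  rw [integral_sub (hp.mono_set (Set.Ioo_subset_Ioo h0 le_rfl)) (integrableOn_const (by simp)),
    s2_const h1, tl]

theorem s2_I_eq {p : ℝ → ℝ} (hp : IntegrableOn p (Set.Ioo 0 1)) {r ζ : ℝ} (h0 : 0 ≤ ζ)
    (h1 : ζ ≤ 1) (hl : ∀ s ∈ Set.Ioo 0 ζ, p s ≤ r) (hr : ∀ s ∈ Set.Ioo ζ 1, r ≤ p s) :
    ∫ s in Set.Ioo (0 : ℝ) 1, max (p s - r) 0 = tl p ζ - r * (1 - ζ) := by
  have := s2_split (s2_int hp r) le_rfl h0 h1
  unfold tl at this
  rw [this, s2_tl_sub hp r h0 h1,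
    setIntegral_congr_fun (g := fun _ => (0 : ℝ)) measurableSet_Ioo
      (fun s hs => max_eq_right (sub_nonpos.mpr (hl s hs))),
    setIntegral_congr_fun (g := fun s => p s - r) measurableSet_Ioo
      (fun s hs => max_eq_left (sub_nonneg.mpr (hr s hs)))]
  simp

theorem s2_abs_le {p p' : ℝ → ℝ} (hp : IntegrableOn p (Set.Ioo 0 1))
    (hp' : IntegrableOn p' (Set.Ioo 0 1)) {r r' δ : ℝ}
    (h : ∀ s ∈ Set.Ioo (0 : ℝ) 1, |(p s - r) - (p' s - r')| ≤ δ) :
    |(∫ s in Set.Ioo (0 : ℝ) 1, max (p s - r) 0) - ∫ s in Set.Ioo (0 : ℝ) 1, max (p' s - r') 0|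
      ≤ δ := by
  rw [← integral_sub (s2_int hp r) (s2_int hp' r')]
  have := norm_setIntegral_le_of_norm_le_const (μ := volume) (s := Set.Ioo (0 : ℝ) 1)
    (f := fun s => max (p s - r) 0 - max (p' s - r') 0) (C := δ) (by simp)
    (fun s hs => (abs_max_sub_max_le_abs _ _ _).trans (h s hs))
  simpa using this

theorem deficit_nonneg {p : ℝ → ℝ} (hp : IsTrialPath p) {r : ℝ} (h0 : 0 ≤ r) (h1 : r ≤ 1) :
    0 ≤ deficit p r := by
  have := setIntegral_mono_on (s2_int (IsTrialPath.integrableOn hp) r)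
    (integrableOn_const (C := 1 - r) (by simp)) measurableSet_Ioo
    (fun s hs => max_le (by linarith [(hp.2.2 s hs).2]) (by linarith))
  rw [s2_const zero_le_one] at this
  unfold deficit
  linarith
theorem deficit_le_one {p : ℝ → ℝ} (hp : IsTrialPath p) {r : ℝ} (h0 : 0 ≤ r) :
    deficit p r ≤ 1 := by
  have : 0 ≤ ∫ s in Set.Ioo (0 : ℝ) 1, max (p s - r) 0 :=
    integral_nonneg fun s => le_max_right _ _
  unfold deficit
  linarith
theorem continuous_deficit {p : ℝ → ℝ} (hp : IsTrialPath p) : Continuous (deficit p) := by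
  have h : LipschitzWith 1 fun r : ℝ => ∫ s in Set.Ioo (0 : ℝ) 1, max (p s - r) 0 := by
    refine LipschitzWith.of_dist_le_mul fun r r' => ?_
    rw [Real.dist_eq, Real.dist_eq, NNReal.coe_one, one_mul]
    refine s2_abs_le (IsTrialPath.integrableOn hp) (IsTrialPath.integrableOn hp) fun s _ => ?_
    rw [abs_sub_comm]
    exact le_of_eq (by congr 1; ring)
  exact (continuous_const.sub continuous_id).sub h.continuous

theorem abs_deficit_sub_le {p p' : ℝ → ℝ} (hp : IsTrialPath p) (hp' : IsTrialPath p') {δ : ℝ}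
    (h : ∀ s ∈ Set.Ioo (0 : ℝ) 1, |p s - p' s| ≤ δ) (r : ℝ) :
    |deficit p r - deficit p' r| ≤ δ := by
  have := s2_abs_le (IsTrialPath.integrableOn hp') (IsTrialPath.integrableOn hp) (r := r) (r' := r)
    (δ := δ) fun s hs => by
      rw [sub_sub_sub_cancel_right, abs_sub_comm]; exact h s hs
  unfold deficit
  rwa [sub_sub_sub_cancel_left]

/-- `∫ (p - r)_+ = max_ζ ∫_ζ^1 (p - r)` for monotone `p` -/
theorem tl_sub_le {p : ℝ → ℝ} (hp : IsTrialPath p) (r : ℝ) {ζ : ℝ} (h0 : 0 ≤ ζ) (h1 : ζ ≤ 1) :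
    tl p ζ - r * (1 - ζ) ≤ ∫ s in Set.Ioo (0 : ℝ) 1, max (p s - r) 0 := by
  have hi := IsTrialPath.integrableOn hp
  have hsub : Set.Ioo ζ 1 ⊆ Set.Ioo 0 1 := Set.Ioo_subset_Ioo h0 le_rfl
  rw [s2_tl_sub hi r h0 h1]
  refine (setIntegral_mono_on ((hi.mono_set hsub).sub (integrableOn_const (by simp)))
    ((s2_int hi r).mono_set hsub) measurableSet_Ioo fun s _ => le_max_left _ _).trans ?_
  exact setIntegral_mono_set (s2_int hi r) (ae_of_all _ fun s => le_max_right _ _)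
    hsub.eventuallyLE
theorem exists_tl_sub_eq {p : ℝ → ℝ} (hp : IsTrialPath p) (r : ℝ) : ∃ ζ ∈ Set.Icc (0 : ℝ) 1,
    ∫ s in Set.Ioo (0 : ℝ) 1, max (p s - r) 0 = tl p ζ - r * (1 - ζ) := by
  set S : Set ℝ := insert 0 {s ∈ Set.Ioo (0 : ℝ) 1 | p s ≤ r} with hS
  have hb : ∀ s ∈ S, s ≤ 1 := by
    rintro s (rfl | hs)
    · exact zero_le_one
    · exact hs.1.2.le
  have hB : BddAbove S := ⟨1, hb⟩
  have hne : S.Nonempty := ⟨0, Set.mem_insert _ _⟩
  have h0 : 0 ≤ sSup S := le_csSup hB (Set.mem_insert _ _)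
  have h1 : sSup S ≤ 1 := csSup_le hne hb
  refine ⟨sSup S, ⟨h0, h1⟩, s2_I_eq (IsTrialPath.integrableOn hp) h0 h1 (fun s hs => ?_)
    fun s hs => ?_⟩
  · obtain ⟨t, ht, hst⟩ := exists_lt_of_lt_csSup hne hs.2
    rcases ht with rfl | ht
    · exact absurd hs.1 (not_lt.mpr hst.le)
    · exact (hp.2.1 ⟨hs.1, hst.trans ht.1.2⟩ ht.1 hst.le).trans ht.2
  · by_contra hlt
    have : s ∈ S := Or.inr ⟨⟨h0.trans_lt hs.1, hs.2⟩, (not_le.mp hlt).le⟩
    exact absurd (le_csSup hB this) (not_le.mpr hs.1)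

/-- Comparison of the deficits from a comparison of the tails on the grid: move the optimal `ζ`
to the next grid point `e l ≥ ζ` (cost at most the gap `≤ μ`, or nothing if `ζ ≤ m` and `p = 0`
on `(0, m]`). -/
theorem deficit_le_of_tl (X : Expo) {p p' : ℝ → ℝ} (hp : IsTrialPath p) (hp' : IsTrialPath p')
    {δ μ : ℝ} (hμ0 : 0 ≤ μ) (hμ : ∀ l, 2 ≤ l → l ≤ X.n → X.W l ≤ μ)
    (hm : X.m ≤ μ ∨ ∀ s, s ≤ X.m → p s = 0)
    (h : ∀ l, 1 ≤ l → l ≤ X.n → tl p (X.e l) ≤ tl p' (X.e l) + δ) {r : ℝ} (h0 : 0 ≤ r)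
    (h1 : r ≤ 1) : deficit p' r ≤ deficit p r + δ + μ := by
  classical
  obtain ⟨ζ, ⟨z0, z1⟩, hζ⟩ := exists_tl_sub_eq hp r
  have hi := IsTrialPath.integrableOn hp
  have hex : ∃ l, 1 ≤ l ∧ ζ ≤ X.e l := ⟨X.n, X.n_pos, X.en ▸ z1⟩
  set l := Nat.find hex with hl
  obtain ⟨l1, l2⟩ : 1 ≤ l ∧ ζ ≤ X.e l := Nat.find_spec hex
  have l3 : l ≤ X.n := Nat.find_min' hex ⟨X.n_pos, X.en ▸ z1⟩
  have e1 := X.le_one l
  have k1 := tl_sub_le hp' r (z0.trans l2) e1
  have k2 := h l l1 l3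
  have k3 : tl p ζ ≤ μ + tl p (X.e l) := by
    have g1 := s2_gap hi z0 l2 e1 (c := 1) fun s hs =>
      (hp.2.2 s ⟨z0.trans_lt hs.1, hs.2.trans_le e1⟩).2
    rcases l1.eq_or_lt with h1 | h1
    · have em : X.e l = X.m := by rw [← h1]; exact X.e01
      rcases hm with hm | hm
      · linarith
      · have g2 := s2_gap hi z0 l2 e1 (c := 0) fun s hs => (hm s (em ▸ hs.2.le)).le
        linarith
    · have g3 := Nat.find_min hex (m := l - 1) (by omega)
      have g4 : X.e (l - 1) < ζ := not_le.mp fun h' => g3 ⟨by omega, h'⟩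
      have g5 := hμ l h1 l3
      unfold Expo.W at g5
      linarith
  have k4 : r * (1 - X.e l) ≤ r * (1 - ζ) := mul_le_mul_of_nonneg_left (by linarith) h0
  unfold deficit
  linarith

theorem isTrialPath_scale {p : ℝ → ℝ} (hp : IsTrialPath p) {c : ℝ} (h0 : 0 ≤ c) (h1 : c ≤ 1) :
    IsTrialPath (fun s => c * p s) := by
  refine ⟨hp.1.const_mul c, fun s hs t ht hst => mul_le_mul_of_nonneg_left (hp.2.1 hs ht hst) h0,
    fun s hs => ⟨mul_nonneg h0 (hp.2.2 s hs).1, mul_le_one₀ h1 (hp.2.2 s hs).1 (hp.2.2 s hs).2⟩⟩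

theorem isTrialPath_avg {J : Type} [Fintype J] {p : J → ℝ → ℝ} (hp : ∀ j, IsTrialPath (p j))
    {γ : J → ℝ} (h0 : ∀ j, 0 ≤ γ j) (h1 : ∑ j, γ j = 1) :
    IsTrialPath (fun s => ∑ j, γ j * p j s) := by
  refine ⟨Finset.measurable_sum _ fun j _ => (hp j).1.const_mul _,
    fun s hs t ht hst => Finset.sum_le_sum fun j _ =>
      mul_le_mul_of_nonneg_left ((hp j).2.1 hs ht hst) (h0 j),
    fun s hs => ⟨Finset.sum_nonneg fun j _ => mul_nonneg (h0 j) ((hp j).2.2 s hs).1, ?_⟩⟩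
  rw [← h1]
  exact Finset.sum_le_sum fun j _ => mul_le_of_le_one_right (h0 j) ((hp j).2.2 s hs).2

theorem tl_nonneg {p : ℝ → ℝ} (hp : IsTrialPath p) {ζ : ℝ} (h0 : 0 ≤ ζ) : 0 ≤ tl p ζ := by
  exact setIntegral_nonneg measurableSet_Ioo fun s hs => (hp.2.2 s ⟨h0.trans_lt hs.1, hs.2⟩).1
theorem tl_le {p : ℝ → ℝ} (hp : IsTrialPath p) {ζ c : ℝ} (h0 : 0 ≤ ζ) (h1 : ζ ≤ 1)
    (hc : ∀ s ∈ Set.Ioo (0 : ℝ) 1, p s ≤ c) : tl p ζ ≤ c * (1 - ζ) := by
  have := s2_gap (IsTrialPath.integrableOn hp) h0 h1 le_rfl (c := c)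
    fun s hs => hc s ⟨h0.trans_lt hs.1, hs.2⟩
  rwa [s2_tl_one, add_zero] at this

namespace Expo

variable (X : Expo) {Q : ℕ → ℝ}

theorem Seq.s2_mono {X : Expo} {ρ : ℝ} (h : X.Seq Q ρ) {a b : ℕ} (h1 : 1 ≤ a) (hab : a ≤ b)
    (h2 : b ≤ X.n + 1) : Q a ≤ Q b := by
  induction b, hab using Nat.le_induction with
  | base => exact le_rfl
  | succ b hab ih => exact (ih (by omega)).trans (h.mono b (by omega) (by omega))

theorem s2_e_pos (a : ℕ) : 0 < X.e a := X.pos.trans_le (X.mono (Nat.zero_le a))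

theorem s2_D_step (Q : ℕ → ℝ) {l : ℕ} (h : l ≤ X.n) :
    X.D Q l = X.e l * (Q (l + 1) - Q l) + X.D Q (l + 1) := by
  unfold D
  rw [← Finset.insert_Icc_add_one_left_eq_Icc h, Finset.sum_insert (by simp)]

theorem s2_D_top (Q : ℕ → ℝ) {l : ℕ} (h : X.n < l) : X.D Q l = 0 := by
  unfold D
  rw [Finset.Icc_eq_empty (by omega), Finset.sum_empty]

theorem s2_tau_step (Q : ℕ → ℝ) {l : ℕ} (h : l + 1 ≤ X.n) :
    X.tau Q l = (X.e (l + 1) - X.e l) * Q (l + 1) + X.tau Q (l + 1) := by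
  unfold tau
  rw [← Finset.insert_Icc_add_one_left_eq_Icc h, Finset.sum_insert (by simp)]
  rfl

theorem s2_tau_top (Q : ℕ → ℝ) : X.tau Q X.n = 0 := by
  unfold tau
  rw [Finset.Icc_eq_empty (by omega), Finset.sum_empty]

theorem s2_abel (Q : ℕ → ℝ) {l : ℕ} (h : l ≤ X.n) :
    X.D Q l + X.e l * Q l + X.tau Q l = Q (X.n + 1) := by
  induction h using Nat.decreasingInduction with
  | self => rw [X.s2_D_step Q le_rfl, X.s2_D_top Q (Nat.lt_succ_self _), X.s2_tau_top, X.en]; ring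
  | of_succ l hl ih => rw [X.s2_D_step Q hl.le, X.s2_tau_step Q hl, ← ih]; ring

theorem Seq.nonneg {X : Expo} {ρ : ℝ} (h : X.Seq Q ρ) {l : ℕ} (h1 : 1 ≤ l) (h2 : l ≤ X.n + 1) :
    0 ≤ Q l ∧ Q l ≤ ρ := by
  exact ⟨h.one ▸ h.s2_mono le_rfl h1 h2, (h.s2_mono h1 h2 le_rfl).trans h.le⟩
theorem Seq.D_nonneg {X : Expo} {ρ : ℝ} (h : X.Seq Q ρ) {l : ℕ} (h1 : 1 ≤ l) :
    0 ≤ X.D Q l ∧ X.D Q l ≤ ρ := by
  have hρ := h.nonneg (l := X.n + 1) (by omega) le_rfl
  rcases le_or_gt l (X.n + 1) with h2 | h2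
  · have key : 0 ≤ X.D Q l ∧ X.D Q l ≤ Q (X.n + 1) - Q l := by
      induction h2 using Nat.decreasingInduction with
      | self => rw [X.s2_D_top Q (Nat.lt_succ_self _)]; simp
      | of_succ l hl ih =>
        obtain ⟨a, b⟩ := ih (by omega)
        have c := h.mono l h1 (by omega)
        have d := X.s2_e_pos l
        have e := X.le_one l
        rw [X.s2_D_step Q (show l ≤ X.n by omega)]
        constructor <;> nlinarith
    have := (h.nonneg h1 h2).1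
    exact ⟨key.1, by linarith [key.2, hρ.2]⟩
  · rw [X.s2_D_top Q (by omega)]
    exact ⟨le_rfl, hρ.1.trans hρ.2⟩
theorem Seq.D_anti {X : Expo} {ρ : ℝ} (h : X.Seq Q ρ) {l : ℕ} (h1 : 1 ≤ l) :
    X.D Q (l + 1) ≤ X.D Q l := by
  rcases le_or_gt l X.n with h2 | h2
  · rw [X.s2_D_step Q h2]
    have c := h.mono l h1 h2
    have d := X.s2_e_pos l
    nlinarith
  · rw [X.s2_D_top Q h2, X.s2_D_top Q (by omega)]

theorem s2_path_zero (Q : ℕ → ℝ) {s : ℝ} (hs : s ≤ X.m) : X.path Q s = 0 := by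
  refine Finset.sum_eq_zero fun r _ => if_neg fun h => ?_
  exact absurd (hs.trans (X.mono (Nat.zero_le (r - 1)))) (not_le.mpr h.1)

theorem s2_path_eq (Q : ℕ → ℝ) {r : ℕ} (h2 : 2 ≤ r) (hn : r ≤ X.n) {s : ℝ}
    (h : X.e (r - 1) < s ∧ s ≤ X.e r) : X.path Q s = Q r := by
  unfold path
  rw [Finset.sum_eq_single r, if_pos h]
  · intro b _ hb
    refine if_neg fun h' => ?_
    rcases lt_or_gt_of_ne hb with hlt | hlt
    · have := X.mono (show b ≤ r - 1 by omega)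
      linarith [h.1, h'.2]
    · have := X.mono (show r ≤ b - 1 by omega)
      linarith [h'.1, h.2]
  · intro hr
    exact absurd (Finset.mem_Icc.mpr ⟨h2, hn⟩) hr

theorem s2_exists_level {s : ℝ} (h0 : X.m < s) (h1 : s ≤ 1) :
    ∃ r, 2 ≤ r ∧ r ≤ X.n ∧ X.e (r - 1) < s ∧ s ≤ X.e r := by
  classical
  have hex : ∃ r, s ≤ X.e r := ⟨X.n, X.en ▸ h1⟩
  have h2 := Nat.find_spec hex
  have h3 : 2 ≤ Nat.find hex := by
    by_contra hc
    have := X.mono (show Nat.find hex ≤ 1 by omega)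
    rw [X.e01] at this
    exact absurd (h2.trans this) (not_le.mpr h0)
  exact ⟨Nat.find hex, h3, Nat.find_min' hex (X.en ▸ h1),
    not_le.mp (Nat.find_min hex (by omega)), h2⟩

theorem s2_path_int (Q : ℕ → ℝ) : IntegrableOn (X.path Q) (Set.Ioo 0 1) := by
  refine integrable_finsetSum _ fun r _ => ?_
  have := (integrableOn_const (μ := volume) (s := Set.Ioo (0 : ℝ) 1) (C := Q r)
    (by simp)).indicator (measurableSet_Ioc (a := X.e (r - 1)) (b := X.e r))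
  refine this.congr (ae_of_all _ fun s => ?_)
  simp only [Set.indicator_apply, Set.mem_Ioc]

theorem s2_path_le {ρ : ℝ} (h : X.Seq Q ρ) {l : ℕ} (h1 : 1 ≤ l) (h2 : l ≤ X.n) {s : ℝ}
    (hs : s ≤ X.e l) : X.path Q s ≤ Q l := by
  rcases le_or_gt s X.m with hm | hm
  · rw [X.s2_path_zero Q hm]; exact (h.nonneg h1 (by omega)).1
  · obtain ⟨r, a, b, c⟩ := X.s2_exists_level hm (hs.trans (X.le_one l))
    rw [X.s2_path_eq Q a b c]
    refine h.s2_mono (by omega) ?_ (by omega)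
    by_contra hc
    have := X.mono (show l ≤ r - 1 by omega)
    linarith [c.1]

theorem s2_le_path {ρ : ℝ} (h : X.Seq Q ρ) {l : ℕ} (h1 : 1 ≤ l) {s : ℝ}
    (hs : X.e l < s) (hs1 : s ≤ 1) : Q (l + 1) ≤ X.path Q s := by
  obtain ⟨r, a, b, c⟩ := X.s2_exists_level ((X.mono (Nat.zero_le l)).trans_lt hs) hs1
  rw [X.s2_path_eq Q a b c]
  refine h.s2_mono (by omega) ?_ (by omega)
  by_contra hc
  have := X.mono (show r ≤ l by omega)
  linarith [c.2]

theorem path_trial (h : X.Seq Q 1) : IsTrialPath (X.path Q) := by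
  have h0 : ∀ s, s ≤ 1 → 0 ≤ X.path Q s := fun s hs => by
    rcases le_or_gt s X.m with hm | hm
    · rw [X.s2_path_zero Q hm]
    · obtain ⟨r, a, b, c⟩ := X.s2_exists_level hm hs
      rw [X.s2_path_eq Q a b c]
      exact (h.nonneg (by omega) (by omega)).1
  refine ⟨Finset.measurable_sum _ fun r _ => Measurable.ite
    (measurableSet_Ioc (a := X.e (r - 1)) (b := X.e r)) measurable_const measurable_const,
    fun s hs t ht hst => ?_, fun s hs => ⟨h0 s hs.2.le, ?_⟩⟩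
  · rcases le_or_gt t X.m with hm | hm
    · rw [X.s2_path_zero Q hm, X.s2_path_zero Q (hst.trans hm)]
    · obtain ⟨r, a, b, c⟩ := X.s2_exists_level hm ht.2.le
      rw [X.s2_path_eq Q a b c]
      exact X.s2_path_le h (by omega) b (hst.trans c.2)
  · exact (X.s2_path_le h X.n_pos le_rfl (X.en ▸ hs.2.le)).trans
      (h.nonneg X.n_pos (Nat.le_succ _)).2
theorem path_zero (Q : ℕ → ℝ) {s : ℝ} (hs : s ≤ X.m) : X.path Q s = 0 := by
  exact X.s2_path_zero Q hs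
theorem tl_path (Q : ℕ → ℝ) {l : ℕ} (h1 : 1 ≤ l) (h2 : l ≤ X.n) :
    tl (X.path Q) (X.e l) = X.tau Q l := by
  induction h2 using Nat.decreasingInduction with
  | self => rw [X.en, s2_tl_one, X.s2_tau_top]
  | of_succ l hl ih =>
    have hm := X.mono (Nat.le_succ l)
    rw [s2_split (X.s2_path_int Q) (X.s2_e_pos l).le hm (X.le_one _), ih (by omega),
      X.s2_tau_step Q hl, setIntegral_congr_fun (s := Set.Ioo (X.e l) (X.e l.succ))
        (g := fun _ => Q (l + 1)) measurableSet_Ioo (fun s hs => X.s2_path_eq Q (by omega) hl ⟨hs.1, hs.2.le⟩), s2_const hm, mul_comm]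

/-- on `[Q l, Q (l+1)]` the deficit of the step path is `D l - e l (r - Q l)`; fundamental theorem
of calculus on each of these intervals -/
theorem Gam_eq_integral (h : X.Seq Q 1) (h1 : Q (X.n + 1) = 1) {φ φ' : ℝ → ℝ}
    (hφ : ∀ x, HasDerivAt φ (φ' x) x) (hc : Continuous φ') :
    X.Gam (fun l => φ (X.D Q l)) = ∫ r in Set.Ioo (0 : ℝ) 1, φ' (deficit (X.path Q) r) := by
  have hcont : Continuous fun r => φ' (deficit (X.path Q) r) :=
    hc.comp (continuous_deficit (X.path_trial h))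
  have hsum := intervalIntegral.sum_integral_adjacent_intervals_Ico (μ := volume)
    (f := fun r => φ' (deficit (X.path Q) r)) (a := Q) (m := 1) (n := X.n + 1) (by omega)
    (fun k _ => hcont.intervalIntegrable _ _)
  rw [h.one, h1, intervalIntegral.integral_of_le zero_le_one, integral_Ioc_eq_integral_Ioo,
    Finset.Ico_add_one_right_eq_Icc] at hsum
  rw [← hsum]
  refine Finset.sum_congr rfl fun l hl => ?_
  obtain ⟨l1, l2⟩ := Finset.mem_Icc.mp hl
  have he := X.s2_e_pos l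
  have hdef : ∀ r ∈ Set.uIcc (Q l) (Q (l + 1)),
      φ' (deficit (X.path Q) r) = φ' (X.D Q l - X.e l * (r - Q l)) := by
    intro r hr
    rw [Set.uIcc_of_le (h.mono l l1 l2)] at hr
    congr 1
    unfold deficit
    rw [s2_I_eq (X.s2_path_int Q) he.le (X.le_one l)
      (fun s hs => (X.s2_path_le h l1 l2 hs.2.le).trans hr.1)
      (fun s hs => hr.2.trans (X.s2_le_path h l1 hs.1 hs.2.le)), X.tl_path Q l1 l2]
    have := X.s2_abel Q l2
    rw [h1] at this
    linarith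
  have hd : ∀ r : ℝ, HasDerivAt (fun r => -φ (X.D Q l - X.e l * (r - Q l)) / X.e l)
      (φ' (X.D Q l - X.e l * (r - Q l))) r := by
    intro r
    have a1 : HasDerivAt (fun r : ℝ => X.D Q l - X.e l * (r - Q l)) (-X.e l) r := by
      simpa using (((hasDerivAt_id r).sub_const (Q l)).const_mul (X.e l)).const_sub (X.D Q l)
    have a2 := ((hφ _).comp r a1).neg.div_const (X.e l)
    refine a2.congr_deriv ?_
    field_simp
  rw [intervalIntegral.integral_congr hdef,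
    intervalIntegral.integral_eq_sub_of_hasDerivAt (fun r _ => hd r)
      ((hc.comp (by fun_prop)).intervalIntegrable _ _)]
  have e1 : X.D Q l - X.e l * (Q (l + 1) - Q l) = X.D Q (l + 1) := by
    rw [X.s2_D_step Q l2]; ring
  rw [e1, sub_self, mul_zero, sub_zero]
  ring

end Expo

end Crest.Agent.R164
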