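import Crest.Agent.R164.S1
import Crest.Agent.R164.S2

/-! # The two real-variable cores of the upper and lower bounds -/

set_option autoImplicit false
set_option linter.unusedVariables false
set_option linter.unusedSectionVars false

open MeasureTheory ProbabilityTheory Real Crest.ProbabilityR.InvariantGlass
open scoped ENNReal

namespace Crest.Agent.R164

theorem s3_abs_int {f : ℝ → ℝ} {C : ℝ} (h : ∀ r ∈ Set.Ioo (0 : ℝ) 1, |f r| ≤ C) :
    |∫ r in Set.Ioo (0 : ℝ) 1, f r| ≤ C := by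
  have := norm_setIntegral_le_of_norm_le_const (μ := volume) (s := Set.Ioo (0 : ℝ) 1) (f := f)
    (C := C) (by simp) h
  simpa using this

theorem s3_intOn {f : ℝ → ℝ} (hf : Continuous f) : IntegrableOn f (Set.Ioo (0 : ℝ) 1) :=
  (hf.integrableOn_Icc (a := 0) (b := 1)).mono_set Set.Ioo_subset_Icc_self

theorem s3_int_le {f g : ℝ → ℝ} (hf : Continuous f) (hg : Continuous g) {c : ℝ}
    (h : ∀ r ∈ Set.Ioo (0 : ℝ) 1, f r ≤ g r + c) :
    ∫ r in Set.Ioo (0 : ℝ) 1, f r ≤ (∫ r in Set.Ioo (0 : ℝ) 1, g r) + c := by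
  have h1 : ∫ r in Set.Ioo (0 : ℝ) 1, f r ≤ ∫ r in Set.Ioo (0 : ℝ) 1, (g r + c) :=
    setIntegral_mono_on (s3_intOn hf) (s3_intOn (hg.add continuous_const)) measurableSet_Ioo h
  rw [integral_add (s3_intOn hg) (s3_intOn continuous_const)] at h1
  simpa using h1

theorem s3_uc {f : ℝ → ℝ} (hf : Continuous f) {ε : ℝ} (hε : 0 < ε) : ∃ δ > 0, δ ≤ 1 ∧
    ∀ x y, x ∈ Set.Icc (0 : ℝ) 2 → y ∈ Set.Icc (0 : ℝ) 2 → |x - y| ≤ δ → |f x - f y| ≤ ε := by
  obtain ⟨δ, hδ, h⟩ := Metric.uniformContinuousOn_iff_le.1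
    ((isCompact_Icc (a := (0 : ℝ)) (b := 2)).uniformContinuousOn_of_continuous hf.continuousOn) ε hε
  exact ⟨min δ 1, lt_min hδ one_pos, min_le_right _ _, fun x y hx hy hxy =>
    h x hx y hy (hxy.trans (min_le_left _ _))⟩

theorem s3_lip {f f' : ℝ → ℝ} (hf : ∀ x, HasDerivAt f (f' x) x) {C : ℝ} (h : ∀ x, |f' x| ≤ C)
    (x y : ℝ) : |f x - f y| ≤ C * |x - y| :=
  Convex.norm_image_sub_le_of_norm_hasDerivWithin_le (s := Set.univ)
    (fun z _ => (hf z).hasDerivWithinAt) (fun z _ => h z) convex_univ (Set.mem_univ y)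
    (Set.mem_univ x)

theorem s3_tel (f : ℕ → ℝ) (n : ℕ) :
    ∑ l ∈ Finset.Icc 1 n, (f (l + 1) - f l) = f (n + 1) - f 1 := by
  induction n with
  | zero => simp
  | succ n ih => rw [Finset.sum_Icc_succ_top (by omega), ih]; ring

namespace Expo

variable (X : Expo)

theorem s3_D_sum {ι : Type} [Fintype ι] (c : ι → ℝ) (Q : ι → ℕ → ℝ) (l : ℕ) :
    X.D (fun r => ∑ b, c b * Q b r) l = ∑ b, c b * X.D (Q b) l := by
  simp only [D, Finset.mul_sum, ← Finset.sum_sub_distrib]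
  rw [Finset.sum_comm]
  exact Finset.sum_congr rfl fun b _ => Finset.sum_congr rfl fun r _ => by ring

theorem s3_wn_sum {ι : Type} [Fintype ι] (z : ι → ℕ → ℝ) :
    X.wn (fun l => ∑ b, z b l) = ∑ b, X.wn (z b) := by
  simp only [wn, Finset.mul_sum, Finset.sum_add_distrib]
  rw [Finset.sum_comm]

theorem s3_Gam_sub (z z' : ℕ → ℝ) : X.Gam (fun l => z l - z' l) = X.Gam z - X.Gam z' := by
  simp only [Gam, ← Finset.sum_sub_distrib]
  exact Finset.sum_congr rfl fun l _ => by ring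

theorem s3_Gam_congr {z z' : ℕ → ℝ} (h : ∀ l, 1 ≤ l → z l = z' l) : X.Gam z = X.Gam z' := by
  refine Finset.sum_congr rfl fun l hl => ?_
  have := (Finset.mem_Icc.1 hl).1
  rw [h l this, h (l + 1) (by omega)]

theorem s3_seq {ι : Type} [Fintype ι] {c : ι → ℝ} (hc : ∀ b, 0 ≤ c b) {Q : ι → ℕ → ℝ} {ρ : ℝ}
    (hQ : ∀ b, X.Seq (Q b) ρ) (h1 : ∑ b, c b * Q b (X.n + 1) = 1) :
    X.Seq (fun r => ∑ b, c b * Q b r) 1 where
  one := Finset.sum_eq_zero fun b _ => by rw [(hQ b).one, mul_zero]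
  mono := fun l h h' => Finset.sum_le_sum fun b _ =>
    mul_le_mul_of_nonneg_left ((hQ b).mono l h h') (hc b)
  le := h1.le

/-- summation by parts -/
theorem s3_Gam_mul {Q : ℕ → ℝ} (h0 : Q 1 = 0) (h1 : Q (X.n + 1) = 1) (R : ℕ → ℝ) :
    X.Gam (fun l => X.D Q l * R l) = R (X.n + 1) +
      ∑ l ∈ Finset.Icc 1 X.n, (R l - R (l + 1)) / X.e l * (1 - X.tau Q l) := by
  have h := s3_tel (fun l => Q l * R l) X.n
  rw [h0, h1, zero_mul, one_mul, sub_zero] at h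
  rw [← h, ← Finset.sum_add_distrib]
  refine Finset.sum_congr rfl fun l hl => ?_
  have hl' := (Finset.mem_Icc.1 hl).2
  have e1 := X.D_eq Q hl'
  have e2 := X.D_step Q hl'
  have he := (X.e_pos l).ne'
  rw [h1] at e1
  have e3 : X.D Q (l + 1) = X.D Q l - X.e l * (Q (l + 1) - Q l) := by linarith
  show (X.D Q l * R l - X.D Q (l + 1) * R (l + 1)) / X.e l = _
  rw [e3, e1]
  field_simp
  ring

end Expo

namespace Spec

variable (S : Spec)

theorem s3_av (f : Fin (S.k + 1) → ℝ) : S.av f = ∑ b, ((S.k : ℝ) + 1)⁻¹ * f b := by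
  rw [av, div_eq_inv_mul, Finset.mul_sum]

theorem s3_inv_le : ((S.k : ℝ) + 1)⁻¹ ≤ 1 :=
  inv_le_one_of_one_le₀ (by linarith [(Nat.cast_nonneg S.k : (0 : ℝ) ≤ S.k)])

theorem s3_G (p : ℝ → ℝ) : S.G p = 1 / 2 * ∫ r in Set.Ioo (0 : ℝ) 1, S.R (deficit p r) := rfl

/-- the time-dependent spectral part -/
theorem s3_Gt {p : ℝ → ℝ} (hp : IsTrialPath p) {ρ ω : ℝ → ℝ} (hρ : Continuous ρ)
    (hb : ∀ x, |ρ x| ≤ S.Λ) (hω : ∀ x, HasDerivAt ω (ρ x) x) (hR : ∀ x, 0 ≤ x → ω x = x * S.R x)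
    (hc : Continuous S.R) : ∃ Gt : ℝ → ℝ, (∀ t, HasDerivAt Gt
      (1 / 2 * ∫ r in Set.Ioo (0 : ℝ) 1, ρ (t * deficit p r)) t) ∧ Gt 0 = 0 ∧ Gt 1 = S.G p := by
  have hD := continuous_deficit hp
  have hio : ∀ f : ℝ → ℝ, ∫ r in Set.Ioo (0 : ℝ) 1, f r = ∫ r in (0 : ℝ)..1, f r := fun f => by
    rw [intervalIntegral.integral_of_le zero_le_one, integral_Ioc_eq_integral_Ioo]
  have hG : Continuous fun t : ℝ => 1 / 2 * ∫ r in Set.Ioo (0 : ℝ) 1, ρ (t * deficit p r) := by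
    simp only [hio]
    refine continuous_const.mul
      (intervalIntegral.continuous_parametric_intervalIntegral_of_continuous' ?_ 0 1)
    exact hρ.comp (continuous_fst.mul (hD.comp continuous_snd))
  have hF : ∀ x, 0 ≤ x → ∫ s in Set.Ioo (0 : ℝ) 1, ρ (s * x) = S.R x := by
    have hFc : Continuous fun x : ℝ => ∫ s in Set.Ioo (0 : ℝ) 1, ρ (s * x) := by
      simp only [hio]
      refine intervalIntegral.continuous_parametric_intervalIntegral_of_continuous' ?_ 0 1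
      exact hρ.comp (continuous_snd.mul continuous_fst)
    have h1 : Set.EqOn (fun x : ℝ => ∫ s in Set.Ioo (0 : ℝ) 1, ρ (s * x)) S.R (Set.Ioi 0) := by
      intro x hx
      have hx' : (0 : ℝ) < x := hx
      show ∫ s in Set.Ioo (0 : ℝ) 1, ρ (s * x) = S.R x
      rw [hio, intervalIntegral.integral_comp_mul_right ρ hx'.ne',
        intervalIntegral.integral_eq_sub_of_hasDerivAt (fun y _ => hω y)
          (hρ.intervalIntegrable _ _), zero_mul, one_mul, hR x hx'.le, hR 0 le_rfl, smul_eq_mul]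
      field_simp
      ring
    intro x hx
    refine h1.closure hFc hc ?_
    rw [closure_Ioi]
    exact hx
  refine ⟨fun t => ∫ s in (0 : ℝ)..t, 1 / 2 * ∫ r in Set.Ioo (0 : ℝ) 1, ρ (s * deficit p r),
    fun t => (hG.integral_hasStrictDerivAt 0 t).hasDerivAt, by simp, ?_⟩
  show ∫ s in (0 : ℝ)..1, 1 / 2 * ∫ r in Set.Ioo (0 : ℝ) 1, ρ (s * deficit p r) = _
  rw [← hio, integral_const_mul, s3_G, integral_integral_swap]
  · congr 1
    refine setIntegral_congr_fun measurableSet_Ioo fun r hr => ?_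
    exact hF _ (deficit_nonneg hp hr.1.le hr.2.le)
  · refine (integrable_const S.Λ).mono' (Continuous.aestronglyMeasurable ?_)
      (Filter.Eventually.of_forall fun z => hb _)
    exact hρ.comp (continuous_fst.mul (hD.comp continuous_snd))

theorem abs_G_le {p : ℝ → ℝ} (hp : IsTrialPath p) : |S.G p| ≤ S.Λ / 2 := by
  obtain ⟨ρ, ω, I, -, -, -, -, -, -, -, hb, -⟩ := S.exists_primitives
  have := s3_abs_int (f := fun r => S.R (deficit p r)) fun r _ => hb _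
  rw [s3_G, abs_mul, abs_of_pos (by norm_num : (0 : ℝ) < 1 / 2)]
  linarith

/-- uniform continuity of `R` on `[0,1]` -/
theorem G_cont {ε : ℝ} (hε : 0 < ε) : ∃ δ > 0, ∀ p p' : ℝ → ℝ, IsTrialPath p → IsTrialPath p' →
    (∀ r ∈ Set.Ioo (0 : ℝ) 1, |deficit p r - deficit p' r| ≤ δ) → |S.G p - S.G p'| ≤ ε := by
  obtain ⟨ρ, ω, I, -, -, -, -, -, -, hc, -⟩ := S.exists_primitives
  obtain ⟨δ, hδ, -, h⟩ := s3_uc hc hε
  refine ⟨δ, hδ, fun p p' hp hp' hd => ?_⟩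
  have hmem : ∀ q, IsTrialPath q → ∀ r ∈ Set.Ioo (0 : ℝ) 1, deficit q r ∈ Set.Icc (0 : ℝ) 2 :=
    fun q hq r hr => ⟨deficit_nonneg hq hr.1.le hr.2.le,
      (deficit_le_one hq hr.1.le).trans one_le_two⟩
  have := s3_abs_int (f := fun r => S.R (deficit p r) - S.R (deficit p' r)) fun r hr =>
    h _ _ (hmem p hp r hr) (hmem p' hp' r hr) (hd r hr)
  rw [integral_sub (s3_intOn (f := fun r => S.R (deficit p r)) (hc.comp (continuous_deficit hp)))
    (s3_intOn (f := fun r => S.R (deficit p' r)) (hc.comp (continuous_deficit hp')))] at this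
  rw [s3_G, s3_G, ← mul_sub, abs_mul, abs_of_pos (by norm_num : (0 : ℝ) < 1 / 2)]
  linarith [abs_nonneg ((∫ r in Set.Ioo (0 : ℝ) 1, S.R (deficit p r)) -
    ∫ r in Set.Ioo (0 : ℝ) 1, S.R (deficit p' r))]

/-- The time-dependent spectral part `Gt t = ½ ∫_0^t ∫_0^1 ρ (s D_p(r)) dr ds`, with
`G' t = ½ ∫_0^1 ρ (t D_p(r)) dr` and `Gt 1 = G p` (Fubini and `∫_0^1 ρ(s x) ds = R x`), and the
inequality at a contact point.  Let `pN l = Σ_b γ_b Q b l`, `x_l = D pN l = Σ_b γ_b D (Q b) l`,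
`β_l = D (Q top) l`, `φ x = ω (t x)/t` (`Λ`-Lipschitz, `φ' x = ρ (t x)`,
`φ (av (β/(1+tκβ))) = av (lam β/(1+tκβ))`).  Then `Σ γ lam Q(n+1) = Γ[Σ γ lam D] ≈ Γ[φ(x)] =
∫ ρ (t D_{pN})` (`Gam_D`, `abs_Gam_sub_le`, `Gam_eq_integral`), and
`D_{pN} ≤ D_p + μ0` (`deficit_le_of_tl`), `ρ` monotone and uniformly continuous on `[0,2]`. -/
theorem ub_core {p : ℝ → ℝ} (hp : IsTrialPath p) {ε ρ0 : ℝ} (hε : 0 < ε) (hρ0 : 0 < ρ0) :
    ∃ Gt G' : ℝ → ℝ, (∀ t, HasDerivAt Gt (G' t) t) ∧ Gt 0 = 0 ∧ Gt 1 = S.G p ∧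
      (∀ t, |G' t| ≤ S.Λ / 2) ∧
      ∃ μ0 > 0, ∀ m : ℝ, 0 < m → m ≤ μ0 → ∃ δ0 > 0, ∀ X : Expo, X.m = m →
        (∀ l, 2 ≤ l → l ≤ X.n → X.W l ≤ μ0) → ∀ t, 0 < t → t ≤ 1 →
        ∀ (γ : Fin (S.k + 1) → ℝ) (Q : Fin (S.k + 1) → ℕ → ℝ), (∀ b, 0 ≤ γ b) →
        (∀ b, |γ b - ((S.k : ℝ) + 1)⁻¹| ≤ δ0) → (∀ b, X.Seq (Q b) ρ0) →
        ∑ b, γ b * Q b (X.n + 1) = 1 →
        (∀ b, X.wn (fun l => |X.D (Q b) l -
          X.D (Q S.top) l / (1 + t * S.κ b * X.D (Q S.top) l)|) ≤ δ0) →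
        (∀ l, 1 ≤ l → l ≤ X.n → tl p (X.e l) ≤ X.tau (fun r => ∑ b, γ b * Q b r) l) →
        (∑ b, γ b * S.lam b * Q b (X.n + 1)) / 2 ≤ G' t + ε := by
  obtain ⟨ρ, ω, I, hρ, hmono, hb, hω, hR, hωg, hc, -⟩ := S.exists_primitives
  obtain ⟨Gt, h1, h2, h3⟩ := S.s3_Gt hp hρ hb hω hR hc
  obtain ⟨μ0, hμ0, hμ1, huc⟩ := s3_uc hρ hε
  have hΛ := S.Λ_nonneg
  refine ⟨Gt, _, h1, h2, h3, fun t => ?_, μ0, hμ0, fun m hm hmμ => ?_⟩
  · have := s3_abs_int (f := fun r => ρ (t * deficit p r)) fun r _ => hb _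
    rw [abs_mul, abs_of_pos (by norm_num : (0 : ℝ) < 1 / 2)]
    linarith
  set A : ℝ := 2 * S.Λ * (((S.k : ℝ) + 1) * (2 * ρ0 + 1)) with hA
  have hA0 : 0 ≤ A := by positivity
  refine ⟨ε * m ^ 2 / (A + 1), by positivity, ?_⟩
  intro X hX hW t ht ht1 γ Q hγ hγδ hQ hQ1 herr htl
  set δ0 : ℝ := ε * m ^ 2 / (A + 1) with hδ0
  have hδ0' : 0 ≤ δ0 := by positivity
  have hseq := X.s3_seq hγ hQ hQ1
  have hφ : ∀ x, HasDerivAt (fun x => ω (t * x) / t) (ρ (t * x)) x := by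
    intro x
    have := ((hω (t * x)).comp x ((hasDerivAt_id x).const_mul t)).div_const t
    rwa [mul_one, mul_div_cancel_right₀ _ ht.ne'] at this
  have hG := X.Gam_eq_integral hseq hQ1 hφ (hρ.comp (continuous_const.mul continuous_id))
  have hz := X.Gam_D (fun r => ∑ b, (γ b * S.lam b) * Q b r)
  have hz1 : ∑ b, (γ b * S.lam b) * Q b 1 = 0 :=
    Finset.sum_eq_zero fun b _ => by rw [(hQ b).one, mul_zero]
  rw [hz1, sub_zero] at hz
  have hω0 : ω 0 = 0 := by rw [hR 0 le_rfl, zero_mul]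
  have hsub := X.abs_Gam_sub_le (X.D (fun r => ∑ b, (γ b * S.lam b) * Q b r))
    (fun l => ω (t * X.D (fun r => ∑ b, γ b * Q b r) l) / t)
    (by simp only [X.D_top, mul_zero, hω0, zero_div])
  have hwn : X.wn (fun l => |X.D (fun r => ∑ b, (γ b * S.lam b) * Q b r) l -
      ω (t * X.D (fun r => ∑ b, γ b * Q b r) l) / t|) ≤ A * δ0 := by
    have hpt : ∀ l, 1 ≤ l → l ≤ X.n → |X.D (fun r => ∑ b, (γ b * S.lam b) * Q b r) l -
        ω (t * X.D (fun r => ∑ b, γ b * Q b r) l) / t| ≤ 2 * S.Λ * ∑ b, (δ0 * ρ0 +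
          |X.D (Q b) l - X.D (Q S.top) l / (1 + t * S.κ b * X.D (Q S.top) l)|) := by
      intro l hl _
      rw [X.s3_D_sum, X.s3_D_sum]
      set β := X.D (Q S.top) l with hβ
      have hβ0 : 0 ≤ β := ((hQ S.top).D_nonneg hl).1
      set y : Fin (S.k + 1) → ℝ := fun b => β / (1 + t * S.κ b * β) with hy
      have e1 : S.g (t * β) = t * ∑ b, ((S.k : ℝ) + 1)⁻¹ * y b := by
        rw [g, s3_av, Finset.mul_sum]
        refine Finset.sum_congr rfl fun b _ => ?_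
        simp only [hy]
        rw [show S.κ b * (t * β) = t * S.κ b * β by ring]
        ring
      have e2 : ω (t * ∑ b, ((S.k : ℝ) + 1)⁻¹ * y b) / t =
          ∑ b, S.lam b * (((S.k : ℝ) + 1)⁻¹ * y b) := by
        rw [← e1, hωg _ (by positivity), s3_av, Finset.sum_div]
        refine Finset.sum_congr rfl fun b _ => ?_
        simp only [hy]
        rw [show S.κ b * (t * β) = t * S.κ b * β by ring]
        field_simp
      have e3 : ∀ b, |γ b * X.D (Q b) l - ((S.k : ℝ) + 1)⁻¹ * y b| ≤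
          δ0 * ρ0 + |X.D (Q b) l - y b| := by
        intro b
        obtain ⟨d0, d1⟩ := (hQ b).D_nonneg hl
        rw [show γ b * X.D (Q b) l - ((S.k : ℝ) + 1)⁻¹ * y b =
          (γ b - ((S.k : ℝ) + 1)⁻¹) * X.D (Q b) l + ((S.k : ℝ) + 1)⁻¹ * (X.D (Q b) l - y b) by ring]
        refine (abs_add_le _ _).trans (add_le_add ?_ ?_)
        · rw [abs_mul, abs_of_nonneg d0]
          exact mul_le_mul (hγδ b) d1 d0 hδ0'
        · rw [abs_mul, abs_of_nonneg (by positivity : (0 : ℝ) ≤ ((S.k : ℝ) + 1)⁻¹)]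
          exact mul_le_of_le_one_left (abs_nonneg _) S.s3_inv_le
      have e4 := s3_lip hφ (fun x => hb _) (∑ b, ((S.k : ℝ) + 1)⁻¹ * y b)
        (∑ b, γ b * X.D (Q b) l)
      have e5 : |∑ b, ((S.k : ℝ) + 1)⁻¹ * y b - ∑ b, γ b * X.D (Q b) l| ≤
          ∑ b, (δ0 * ρ0 + |X.D (Q b) l - y b|) := by
        rw [abs_sub_comm, ← Finset.sum_sub_distrib]
        exact (Finset.abs_sum_le_sum_abs _ _).trans (Finset.sum_le_sum fun b _ => e3 b)
      have e6 : |∑ b, γ b * S.lam b * X.D (Q b) l - ∑ b, S.lam b * (((S.k : ℝ) + 1)⁻¹ * y b)| ≤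
          S.Λ * ∑ b, (δ0 * ρ0 + |X.D (Q b) l - y b|) := by
        rw [← Finset.sum_sub_distrib, Finset.mul_sum]
        refine (Finset.abs_sum_le_sum_abs _ _).trans (Finset.sum_le_sum fun b _ => ?_)
        rw [show γ b * S.lam b * X.D (Q b) l - S.lam b * (((S.k : ℝ) + 1)⁻¹ * y b) =
          S.lam b * (γ b * X.D (Q b) l - ((S.k : ℝ) + 1)⁻¹ * y b) by ring, abs_mul]
        exact mul_le_mul (S.abs_lam_le b) (e3 b) (abs_nonneg _) hΛ
      rw [e2] at e4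
      have e7 := mul_le_mul_of_nonneg_left e5 hΛ
      have e8 := abs_sub_le (∑ b, γ b * S.lam b * X.D (Q b) l)
        (∑ b, S.lam b * (((S.k : ℝ) + 1)⁻¹ * y b)) (ω (t * ∑ b, γ b * X.D (Q b) l) / t)
      linarith
    refine (X.wn_mono hpt).trans ?_
    rw [X.wn_const_mul, X.s3_wn_sum, hA, mul_assoc (2 * S.Λ)]
    refine mul_le_mul_of_nonneg_left ?_ (by positivity)
    refine (Finset.sum_le_sum (g := fun _ => (2 * ρ0 + 1) * δ0) fun b _ => ?_).trans_eq ?_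
    · rw [X.wn_add]
      have := X.wn_const_le (c := δ0 * ρ0) (by positivity)
      have := herr b
      linarith
    · simp only [Finset.sum_const, Finset.card_univ, Fintype.card_fin, nsmul_eq_mul]
      push_cast
      ring
  have hle : A * δ0 / X.m ^ 2 ≤ ε := by
    rw [hX, div_le_iff₀ (by positivity), hδ0, ← mul_div_assoc, div_le_iff₀ (by positivity)]
    nlinarith [mul_pos hε (pow_pos hm 2)]
  have h4 := (hsub.trans (div_le_div_of_nonneg_right hwn (by positivity))).trans hle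
  rw [hz, hG] at h4
  have hp' := X.path_trial hseq
  have h5 := s3_int_le (f := fun r => ρ (t * deficit (X.path fun r => ∑ b, γ b * Q b r) r))
    (g := fun r => ρ (t * deficit p r))
    (hρ.comp (continuous_const.mul (continuous_deficit hp')))
    (hρ.comp (continuous_const.mul (continuous_deficit hp))) (c := ε) fun r hr => by
      have a1 := deficit_le_of_tl X hp hp' (δ := 0) hμ0.le hW (Or.inl (hX ▸ hmμ))
        (fun l hl hl' => by rw [X.tl_path _ hl hl', add_zero]; exact htl l hl hl') hr.1.le hr.2.le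
      have a2 := deficit_nonneg hp hr.1.le hr.2.le
      have a3 := deficit_le_one hp hr.1.le
      have a4 : t * deficit (X.path fun r => ∑ b, γ b * Q b r) r ≤ t * deficit p r + μ0 := by
        nlinarith
      have a5 : 0 ≤ t * deficit p r := by positivity
      have a6 : t * deficit p r ≤ 1 := by nlinarith
      have a7 := huc (t * deficit p r + μ0) (t * deficit p r) ⟨by linarith, by linarith⟩
        ⟨a5, by linarith⟩ (by rw [add_sub_cancel_left, abs_of_pos hμ0])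
      have a8 := hmono a4
      linarith [(abs_le.1 a7).2]
  linarith [(abs_le.1 h4).2]

/-- Let `pN = av Q`, `x_l = D pN l ≈ g β_l`, `R_l = Rh β_l = R (g β_l)`.  `G p ≈ G (path pN) =
½ Γ[I (x)] ≈ ½ Γ[I (g β)] = ½ Γ[g β · R] - ½ Γ[LL β]` (`deficit_le_of_tl` both ways, `G_cont`,
`Gam_eq_integral`), `Γ[g β · R] ≈ Γ[x R]`, and by summation by parts (`Gam_eq`, `D_eq`,
`τ_{l-1} = τ_l + W_l pN_l`) exactly `Γ[x R] = R_{n+1} + Σ_l (R_l - R_{l+1}) (1 - τ_l)/e_l`,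
`R_{n+1} = Rh 0`; finally `Σ_l (R_l - R_{l+1})/e_l ≤ 2Λ/m`. -/
theorem lb_core {ε ρ0 : ℝ} (hε : 0 < ε) (hρ0 : 0 < ρ0) :
    ∃ μ0 > 0, ∀ m : ℝ, 0 < m → ∃ δ0 > 0, ∀ X : Expo, X.m = m →
      (∀ l, 2 ≤ l → l ≤ X.n → X.W l ≤ μ0) →
      ∀ (Q : Fin (S.k + 1) → ℕ → ℝ), (∀ b, X.Seq (Q b) ρ0) → S.av (fun b => Q b (X.n + 1)) = 1 →
      (∀ b, X.wn (fun l => |X.D (Q b) l -
        X.D (Q S.top) l / (1 + S.κ b * X.D (Q S.top) l)|) ≤ δ0) →
      ∀ p : ℝ → ℝ, IsTrialPath p → (∀ s, s ≤ X.m → p s = 0) →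
      (∀ l, 1 ≤ l → l ≤ X.n → |tl p (X.e l) - X.tau (fun r => S.av fun b => Q b r) l| ≤ δ0) →
      S.G p ≤ S.Rh 0 / 2 + (∑ l ∈ Finset.Icc 1 X.n,
          (S.Rh (X.D (Q S.top) l) - S.Rh (X.D (Q S.top) (l + 1))) / X.e l *
            (1 - tl p (X.e l))) / 2 -
        X.Gam (fun l => S.LL (X.D (Q S.top) l)) / 2 + ε := by
  obtain ⟨ρ, ω, I, -, -, -, -, -, -, hc, hb, hI, hIg⟩ := S.exists_primitives
  obtain ⟨δ, hδ, hGc⟩ := S.G_cont (half_pos hε)
  have hΛ := S.Λ_nonneg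
  refine ⟨δ / 2, half_pos hδ, fun m hm => ?_⟩
  set A : ℝ := S.Λ * ((S.k : ℝ) + 1) / m ^ 2 + S.Λ / m with hA
  have hA0 : 0 ≤ A := by positivity
  refine ⟨min (δ / 2) (ε / 2 / (A + 1)), lt_min (half_pos hδ) (by positivity), ?_⟩
  intro X hX hW Q hQ hQ1 herr p hp hp0 htl
  set δ0 : ℝ := min (δ / 2) (ε / 2 / (A + 1)) with hδ0
  have hδ0' : 0 ≤ δ0 := (lt_min (half_pos hδ) (by positivity)).le
  have hδ1 : δ0 ≤ δ / 2 := min_le_left _ _
  have hδ2 : A * δ0 ≤ ε / 2 := by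
    have : δ0 * (A + 1) ≤ ε / 2 := (le_div_iff₀ (by positivity)).1 (min_le_right _ _)
    nlinarith
  simp only [s3_av] at hQ1 htl
  set pN : ℕ → ℝ := fun r => ∑ b, ((S.k : ℝ) + 1)⁻¹ * Q b r with hpN
  have hseq : X.Seq pN 1 := X.s3_seq (fun _ => by positivity) hQ hQ1
  have hp' := X.path_trial hseq
  have hβ0 : ∀ l, 1 ≤ l → 0 ≤ X.D (Q S.top) l := fun l hl => ((hQ S.top).D_nonneg hl).1
  have h1 : |S.G p - S.G (X.path pN)| ≤ ε / 2 := by
    refine hGc _ _ hp hp' fun r hr => ?_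
    have a1 := deficit_le_of_tl X hp hp' (δ := δ0) (half_pos hδ).le hW (Or.inr hp0)
      (fun l hl hl' => by
        rw [X.tl_path _ hl hl']; linarith [(abs_le.1 (htl l hl hl')).2]) hr.1.le hr.2.le
    have a2 := deficit_le_of_tl X hp' hp (δ := δ0) (half_pos hδ).le hW
      (Or.inr fun s hs => X.path_zero _ hs)
      (fun l hl hl' => by
        rw [X.tl_path _ hl hl']; linarith [(abs_le.1 (htl l hl hl')).1]) hr.1.le hr.2.le
    rw [abs_le]
    constructor <;> linarith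
  have h2 := X.Gam_eq_integral hseq hQ1 hI hc
  have hg0 : S.g 0 = 0 := by simp [g, av]
  have hwn : X.wn (fun l => S.Λ * |X.D pN l - S.g (X.D (Q S.top) l)|) ≤
      S.Λ * (((S.k : ℝ) + 1) * δ0) := by
    rw [X.wn_const_mul]
    refine mul_le_mul_of_nonneg_left ?_ hΛ
    have hpt : ∀ l, 1 ≤ l → l ≤ X.n → |X.D pN l - S.g (X.D (Q S.top) l)| ≤
        ∑ b, |X.D (Q b) l - X.D (Q S.top) l / (1 + S.κ b * X.D (Q S.top) l)| := by
      intro l _ _
      rw [hpN, X.s3_D_sum, g, s3_av, ← Finset.sum_sub_distrib]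
      refine (Finset.abs_sum_le_sum_abs _ _).trans (Finset.sum_le_sum fun b _ => ?_)
      rw [← mul_sub, abs_mul, abs_of_nonneg (by positivity : (0 : ℝ) ≤ ((S.k : ℝ) + 1)⁻¹)]
      exact mul_le_of_le_one_left (abs_nonneg _) S.s3_inv_le
    refine (X.wn_mono hpt).trans ?_
    rw [X.s3_wn_sum]
    refine (Finset.sum_le_sum (g := fun _ => δ0) fun b _ => herr b).trans_eq ?_
    simp only [Finset.sum_const, Finset.card_univ, Fintype.card_fin, nsmul_eq_mul]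
    push_cast
    ring
  have h3 := (X.abs_Gam_sub_le (fun l => I (X.D pN l)) (fun l => I (S.g (X.D (Q S.top) l)))
    (by simp only [X.D_top, hg0])).trans (div_le_div_of_nonneg_right
      ((X.wn_mono fun l _ _ => s3_lip hI hb _ _).trans hwn) (by positivity))
  have h4 := (X.abs_Gam_sub_le (fun l => X.D pN l * S.Rh (X.D (Q S.top) l))
    (fun l => S.g (X.D (Q S.top) l) * S.Rh (X.D (Q S.top) l))
    (by simp only [X.D_top, hg0])).trans (div_le_div_of_nonneg_right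
      ((X.wn_mono fun l hl _ => by
        rw [← sub_mul, abs_mul, mul_comm]
        exact mul_le_mul_of_nonneg_right (S.abs_Rh_le (hβ0 l hl)) (abs_nonneg _)).trans hwn)
      (by positivity))
  have h5 : X.Gam (fun l => I (S.g (X.D (Q S.top) l))) =
      X.Gam (fun l => S.g (X.D (Q S.top) l) * S.Rh (X.D (Q S.top) l)) -
        X.Gam (fun l => S.LL (X.D (Q S.top) l)) := by
    rw [← X.s3_Gam_sub]
    exact X.s3_Gam_congr fun l hl => hIg _ (hβ0 l hl)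
  have h6 := X.s3_Gam_mul hseq.one hQ1 (fun l => S.Rh (X.D (Q S.top) l))
  simp only [X.D_top] at h6
  have h7 : ∑ l ∈ Finset.Icc 1 X.n, (S.Rh (X.D (Q S.top) l) - S.Rh (X.D (Q S.top) (l + 1))) /
        X.e l * (1 - X.tau pN l) ≤
      ∑ l ∈ Finset.Icc 1 X.n, (S.Rh (X.D (Q S.top) l) - S.Rh (X.D (Q S.top) (l + 1))) /
        X.e l * (1 - tl p (X.e l)) + 2 * S.Λ / m * δ0 := by
    have ht := s3_tel (fun l => S.Rh (X.D (Q S.top) l)) X.n
    have hs : ∑ l ∈ Finset.Icc 1 X.n,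
        (S.Rh (X.D (Q S.top) l) - S.Rh (X.D (Q S.top) (l + 1))) / m * δ0 ≤ 2 * S.Λ / m * δ0 := by
      rw [← Finset.sum_mul, ← Finset.sum_div]
      refine mul_le_mul_of_nonneg_right (div_le_div_of_nonneg_right ?_ hm.le) hδ0'
      have : ∑ l ∈ Finset.Icc 1 X.n, (S.Rh (X.D (Q S.top) l) - S.Rh (X.D (Q S.top) (l + 1))) =
          -∑ l ∈ Finset.Icc 1 X.n, (S.Rh (X.D (Q S.top) (l + 1)) - S.Rh (X.D (Q S.top) l)) := by
        rw [← Finset.sum_neg_distrib]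
        exact Finset.sum_congr rfl fun l _ => by ring
      rw [this, ht]
      linarith [(abs_le.1 (S.abs_Rh_le (hβ0 1 le_rfl))).2,
        (abs_le.1 (S.abs_Rh_le (hβ0 (X.n + 1) (by omega)))).1]
    refine le_trans ?_ (add_le_add le_rfl hs)
    rw [← Finset.sum_add_distrib]
    refine Finset.sum_le_sum fun l hl => ?_
    obtain ⟨hl1, hl2⟩ := Finset.mem_Icc.1 hl
    have a1 : 0 ≤ S.Rh (X.D (Q S.top) l) - S.Rh (X.D (Q S.top) (l + 1)) :=
      sub_nonneg.2 (S.Rh_mono (hβ0 _ (by omega)) (hβ0 _ hl1) ((hQ S.top).D_anti hl1))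
    have a2 : (S.Rh (X.D (Q S.top) l) - S.Rh (X.D (Q S.top) (l + 1))) / X.e l ≤
        (S.Rh (X.D (Q S.top) l) - S.Rh (X.D (Q S.top) (l + 1))) / m :=
      div_le_div_of_nonneg_left a1 hm (hX ▸ X.m_le l)
    have a3 : 0 ≤ (S.Rh (X.D (Q S.top) l) - S.Rh (X.D (Q S.top) (l + 1))) / X.e l :=
      div_nonneg a1 (X.e_pos l).le
    have a4 := mul_le_mul_of_nonneg_left (abs_le.1 (htl l hl1 hl2)).2 a3
    have a5 := mul_le_mul_of_nonneg_right a2 hδ0'
    nlinarith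
  have h8 : S.Λ * (((S.k : ℝ) + 1) * δ0) / X.m ^ 2 + S.Λ / m * δ0 = A * δ0 := by
    rw [hX, hA]; ring
  have h9 : 2 * S.Λ / m * δ0 = 2 * (S.Λ / m * δ0) := by ring
  rw [s3_G (p := X.path pN), ← h2] at h1
  linarith [(abs_le.1 h1).2, (abs_le.1 h3).2, (abs_le.1 h4).1]

end Spec

end Crest.Agent.R164
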