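import Crest.Agent.R164.M6
import Crest.Agent.R164.O2

/-! # Upper bound: grids of exponents, the bound at time zero, coercivity -/

set_option autoImplicit false
set_option linter.unusedVariables false
set_option linter.unusedSectionVars false

open MeasureTheory ProbabilityTheory Real Crest.ProbabilityR.InvariantGlass
open scoped ENNReal

namespace Crest.Agent.R164

theorem u0_lim {A B C h0 : ℝ} (hh : 0 < h0) (h : ∀ s, 0 < s → s ≤ h0 → A ≤ B + s * C) :
    A ≤ B := by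
  have h1 : Filter.Tendsto (fun s : ℝ => B + s * C) (nhdsWithin 0 (Set.Ioi 0)) (nhds B) := by
    have h2 : Continuous fun s : ℝ => B + s * C := by fun_prop
    have h3 := h2.tendsto 0
    simp only [zero_mul, add_zero] at h3
    exact h3.mono_left nhdsWithin_le_nhds
  refine ge_of_tendsto h1 ?_
  filter_upwards [Ioc_mem_nhdsGT hh] with s hs
  exact h s hs.1 hs.2

theorem u0_vtOf {n k J : ℕ} (a : ℕ) (b : Fin (k + 1)) :
    vtOf (fun _ : PI n k J => (0 : ℝ)) a b = 0 := by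
  unfold vtOf
  split_ifs <;> rfl

theorem u0_sum_lab {N J : ℕ} (lab : Fin N → Fin J) (c : Fin J → ℝ) :
    ∑ r, c (lab r) = ∑ j, ((fib lab j).card : ℝ) * c j := by
  rw [← Finset.sum_fiberwise Finset.univ lab]
  refine Finset.sum_congr rfl fun j _ => ?_
  rw [Finset.sum_congr rfl (g := fun _ => c j), Finset.sum_const, nsmul_eq_mul]
  · rfl
  · intro r hr
    rw [(Finset.mem_filter.1 hr).2]

theorem u0_le_sub (X : Expo) {N : ℕ} (p p' : Par N) {V : MS X.n N → ℝ} (hV : (mT X N).LG V)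
    (s : ℝ) (h : ∀ x, Ham p' x = Ham p x + s * V x) :
    s * ∫ x, V x ∂(p.PP X) ≤ p'.A X - p.A X := by
  have h1 := Tower.E_le_X_sub (lg_Ham (X := X) p) (hV.const_mul s) 0 (mT X N).x0
  rw [Tower.E_zero_eq, integral_const_mul, ← funext h] at h1
  exact h1

/-- a uniform grid of exponents between `m` and `1` -/
theorem exists_expo {m μ : ℝ} (hm : 0 < m) (hm1 : m < 1) (hμ : 0 < μ) :
    ∃ (X : Expo) (w : ℝ), X.m = m ∧ 0 < w ∧ w ≤ 1 ∧ 2 ≤ X.n ∧
      (∀ r, 2 ≤ r → r ≤ X.n → w ≤ X.W r ∧ X.W r ≤ μ) := by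
  obtain ⟨K, hK⟩ := exists_nat_ge ((1 - m) / μ)
  have hK1 : (0 : ℝ) < (K : ℝ) + 1 := by positivity
  have hw : 0 < (1 - m) / ((K : ℝ) + 1) := div_pos (by linarith) hK1
  have hwK : (1 - m) / ((K : ℝ) + 1) * ((K : ℝ) + 1) = 1 - m := div_mul_cancel₀ _ hK1.ne'
  have hwμ : (1 - m) / ((K : ℝ) + 1) ≤ μ := by
    rw [div_le_iff₀ hK1]
    rw [div_le_iff₀ hμ] at hK
    nlinarith
  have hw1 : (1 - m) / ((K : ℝ) + 1) ≤ 1 := by
    rw [div_le_iff₀ hK1]
    have : (0 : ℝ) ≤ K := by positivity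
    linarith
  set w := (1 - m) / ((K : ℝ) + 1) with hwdef
  refine ⟨⟨K + 2, fun r => m + w * ((min (r - 1) (K + 1) : ℕ) : ℝ), by omega, by simpa using hm,
    ?_, ?_, by simp, ?_⟩, w, by simp [Expo.m], hw, hw1, by simp, ?_⟩
  · intro a b hab
    have : min (a - 1) (K + 1) ≤ min (b - 1) (K + 1) := by omega
    have h1 : ((min (a - 1) (K + 1) : ℕ) : ℝ) ≤ ((min (b - 1) (K + 1) : ℕ) : ℝ) := by
      exact_mod_cast this
    have := mul_le_mul_of_nonneg_left h1 hw.le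
    beta_reduce
    linarith
  · intro a
    have h1 : ((min (a - 1) (K + 1) : ℕ) : ℝ) ≤ ((K + 1 : ℕ) : ℝ) := by
      exact_mod_cast min_le_right _ _
    have := mul_le_mul_of_nonneg_left h1 hw.le
    push_cast at this ⊢
    linarith
  · have : min (K + 2 - 1) (K + 1) = K + 1 := by omega
    rw [this]
    push_cast
    linarith
  · intro r h2 hr
    obtain ⟨s, rfl⟩ : ∃ s, r = s + 2 := ⟨r - 2, by omega⟩
    have hr' : s + 2 ≤ K + 2 := hr
    have e1 : min (s + 2 - 1) (K + 1) = s + 1 := by omega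
    have e2 : min (s + 2 - 1 - 1) (K + 1) = s := by omega
    simp only [Expo.W, e1, e2]
    push_cast
    constructor <;> linarith

/-- admissible tilting fields -/
def BOK {J : ℕ} (mag : Fin J → ℝ) (Λb : ℝ) (b : Fin J → ℝ) : Prop :=
  ∀ j, |b j| ≤ Λb ∧ 0 ≤ b j * mag j ∧ (mag j = 0 → b j = 0)

/-- `osc_le` (to `π = 0`), `exists_stepField`, `exists_near_cfv` (accuracy `δ`), `A_le_of_le`,
`A_fact`, grouping the sites by label, and `cfv_ge` to bound the effect of the proportions. -/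
theorem ub_zero (S : Spec) (X : Expo) (hW : ∀ l, 2 ≤ l → l ≤ X.n → 0 < X.W l) {N J : ℕ}
    (θ : ℕ → ℝ) (blk : Fin N → Fin (S.k + 1)) (lab : Fin N → Fin J) {γ mag : Fin J → ℝ}
    (hγ : ∀ j, 0 ≤ γ j) (hγ1 : ∑ j, γ j = 1) (hm : ∀ j, |mag j| < 1) {p : ℝ → ℝ}
    (hp : IsTrialPath p) {y : ℝ} (hy : SLe γ mag p y) {Hb Λb δ : ℝ} (hδ : 0 < δ) (hδ1 : δ ≤ 1)
    (hH : ∑ l ∈ Finset.Icc 1 X.n, θ l ^ 2 * (1 - X.e l) ≤ Hb)
    (hΛ : ∀ j, log 2 + Hb / 2 ≤ Λb * (1 - |mag j|))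
    (hlab : ∀ j, |((fib lab j).card : ℝ) - γ j * N| ≤ δ * N) (f0 : (Fin N → Bool) → ℝ)
    (hf : ∀ b, BOK mag Λb b → ∀ σ, f0 σ ≤ ∑ r, b (lab r) * (spinVec σ r - mag (lab r)))
    {π' : PI X.n S.k J → ℝ} (hπ : Small π' δ) :
    (sys S 0 θ blk lab mag 0 f0 (fun _ _ => 0) π').A X ≤
      N * (y + (∑ l ∈ Finset.Icc 1 X.n, θ l ^ 2 * (1 - tl p (X.e l))) / 2 +
        δ * (7 + J * (2 + Hb))) := by
  have hm' : ∀ j, |mag j| ≤ 1 := fun j => (hm j).le
  have h0 := osc_le (X := X) S 0 θ blk lab mag hm' 0 f0 (fun _ _ => 0) hπ (small_zero hδ.le)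
  obtain ⟨k, w, hv, hs, hF, hI, hH'⟩ :=
    exists_stepField X hW (v := fun l => θ l ^ 2) fun _ _ _ => sq_nonneg _
  have hHb : hInt w hv ≤ Hb := hH' ▸ hH
  have hH0 := hInt_nonneg hs
  have hb := fun j => exists_near_cfv hs (hm j) (Λ := Λb) (by linarith [hΛ j]) hδ
  choose b hb1 hb2 hb3 hb4 using hb
  have hf' := hf b fun j => ⟨hb1 j, hb2 j, hb3 j⟩
  have h1 := A_le_of_le (X := X)
    (sys S 0 θ blk lab mag 0 f0 (fun _ _ => 0) (fun _ : PI X.n S.k J => (0 : ℝ)))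
    { sys S 0 θ blk lab mag 0 f0 (fun _ _ => 0) (fun _ : PI X.n S.k J => (0 : ℝ)) with
      f := fun σ => ∑ r, b (lab r) * spinVec σ r + -∑ r, b (lab r) * mag (lab r) } rfl rfl rfl
    (δ := 0) (D := 0) (fun i => by simp) (fun σ => by
      have := hf' σ
      simp only [mul_sub, Finset.sum_sub_distrib] at this
      simp only [sys, zero_mul, sub_zero, Finset.sum_const_zero, add_zero]
      linarith)
  have h1' := A_fact (X := X)
    { sys S 0 θ blk lab mag 0 f0 (fun _ _ => 0) (fun _ : PI X.n S.k J => (0 : ℝ)) with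
      f := fun σ => ∑ r, b (lab r) * spinVec σ r + -∑ r, b (lab r) * mag (lab r) }
    (fun i => by simp [sys]) (fun a r => u0_vtOf (J := J) a (blk r)) (fun _ _ => rfl)
    (fun r => b (lab r)) (-∑ r, b (lab r) * mag (lab r)) (fun _ => rfl)
  rw [h1'] at h1
  have h2 : ∑ r, X.Phi (fun a => θ a ^ 2) (b (lab r)) + -∑ r, b (lab r) * mag (lab r) ≤
      ∑ r, cfv (mag (lab r)) w hv + N * (δ + (∑ l ∈ Finset.Icc 1 X.n, θ l ^ 2) / 2) := by
    have : ∑ r, (X.Phi (fun a => θ a ^ 2) (b (lab r)) - b (lab r) * mag (lab r)) ≤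
        ∑ r, (cfv (mag (lab r)) w hv + (δ + (∑ l ∈ Finset.Icc 1 X.n, θ l ^ 2) / 2)) := by
      refine Finset.sum_le_sum fun r _ => ?_
      have := hb4 (lab r)
      rw [hF] at this
      linarith
    rw [Finset.sum_sub_distrib, Finset.sum_add_distrib, Finset.sum_const, Finset.card_univ,
      Fintype.card_fin, nsmul_eq_mul] at this
    linarith
  have h3 : ∑ r, cfv (mag (lab r)) w hv ≤
      N * ∑ j, γ j * cfv (mag j) w hv + J * (δ * N * (2 + Hb)) := by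
    rw [u0_sum_lab lab fun j => cfv (mag j) w hv, Finset.mul_sum]
    have : ∑ j, ((fib lab j).card : ℝ) * cfv (mag j) w hv ≤
        ∑ j, ((N : ℝ) * (γ j * cfv (mag j) w hv) + δ * N * (2 + Hb)) := by
      refine Finset.sum_le_sum fun j _ => ?_
      have c1 := cfv_ge hs (hm' j)
      have c2 := cfv_le hs (hm' j) 0
      have c3 := fieldValueAt_zero_le hs
      have c4 : log 2 ≤ 2 := by linarith [log_le_sub_one_of_pos (show (0 : ℝ) < 2 by norm_num)]
      have c5 : |cfv (mag j) w hv| ≤ 2 + Hb := abs_le.2 ⟨by linarith, by linarith⟩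
      have c6 := le_abs_self ((((fib lab j).card : ℝ) - γ j * N) * cfv (mag j) w hv)
      rw [abs_mul] at c6
      have c7 := mul_le_mul (hlab j) c5 (abs_nonneg _) (by positivity)
      linarith
    rwa [Finset.sum_add_distrib, Finset.sum_const, Finset.card_univ, Fintype.card_fin,
      nsmul_eq_mul] at this
  have h4 := hy k w hv hs
  rw [hI p (IsTrialPath.integrableOn hp)] at h4
  have h5 := mul_le_mul_of_nonneg_left h4 (Nat.cast_nonneg (α := ℝ) N)
  have h6 : ∑ l ∈ Finset.Icc 1 X.n, θ l ^ 2 * (1 - tl p (X.e l)) =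
      ∑ l ∈ Finset.Icc 1 X.n, θ l ^ 2 - ∑ l ∈ Finset.Icc 1 X.n, θ l ^ 2 * tl p (X.e l) := by
    rw [← Finset.sum_sub_distrib]
    exact Finset.sum_congr rfl fun l _ => by ring
  rw [h6]
  simp only [sys] at h0 h1 ⊢
  linarith

/-- `osc_le`, `A_le_of_le`, `A_fact` with `b = 0`, `fL_le_coer` with `a = κ/2`, `tl_le` -/
theorem ub_coer (S : Spec) (X : Expo) {N J : ℕ} {t : ℝ} (ht0 : 0 ≤ t) (ht1 : t ≤ 1) (θ : ℕ → ℝ)
    (blk : Fin N → Fin (S.k + 1)) (lab : Fin N → Fin J) {mag : Fin J → ℝ} (hm : ∀ j, |mag j| ≤ 1)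
    {p : ℝ → ℝ} (hp : IsTrialPath p) {κ δ : ℝ} (hκ : 0 < κ) (hκ1 : κ ≤ 1) (hδ : 0 ≤ δ)
    (hpκ : ∀ s ∈ Set.Ioo (0 : ℝ) 1, p s ≤ 1 - κ) (f0 : (Fin N → Bool) → ℝ) (hf : ∀ σ, f0 σ ≤ 0)
    {π' : PI X.n S.k J → ℝ} (hπ : Small π' δ) :
    (sys S t θ blk lab mag 0 f0 (fun _ _ => 0) π').A X ≤
      N * ((∑ l ∈ Finset.Icc 1 X.n, θ l ^ 2 * (1 - tl p (X.e l))) / 2 + S.Λ / 2 + 6 * δ +
        2 * log 2 / κ - κ / 4 * ∑ l ∈ Finset.Icc 1 X.n, θ l ^ 2 * (1 - X.e l)) := by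
  have h0 := osc_le (X := X) S t θ blk lab mag hm 0 f0 (fun _ _ => 0) hπ (small_zero hδ)
  have h1 := A_le_of_le (X := X)
    (sys S t θ blk lab mag 0 f0 (fun _ _ => 0) (fun _ : PI X.n S.k J => (0 : ℝ)))
    { sys S t θ blk lab mag 0 f0 (fun _ _ => 0) (fun _ : PI X.n S.k J => (0 : ℝ)) with
      lam := fun _ => 0
      f := fun σ => ∑ r, (0 : ℝ) * spinVec σ r + 0 } rfl rfl rfl
    (δ := S.Λ) (D := 0) (fun i => by
      have c1 : |S.lam (blk i)| ≤ S.Λ :=
        Finset.single_le_sum (f := fun b => |S.lam b|) (fun _ _ => abs_nonneg _)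
          (Finset.mem_univ _)
      have c2 := le_abs_self (S.lam (blk i))
      have c3 := abs_nonneg (S.lam (blk i))
      simp only [sys]
      nlinarith) (fun σ => by
      have := hf σ
      simp only [sys, zero_mul, sub_zero, Finset.sum_const_zero, add_zero]
      linarith)
  have h1' := A_fact (X := X)
    { sys S t θ blk lab mag 0 f0 (fun _ _ => 0) (fun _ : PI X.n S.k J => (0 : ℝ)) with
      lam := fun _ => 0
      f := fun σ => ∑ r, (0 : ℝ) * spinVec σ r + 0 }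
    (fun i => rfl) (fun a r => u0_vtOf (J := J) a (blk r)) (fun _ _ => rfl) (fun _ => 0) 0 (fun _ => rfl)
  rw [h1'] at h1
  have h2 : X.Phi (fun a => θ a ^ 2) 0 ≤
      (∑ l ∈ Finset.Icc 1 X.n, θ l ^ 2 * (1 - tl p (X.e l))) / 2 + 2 * log 2 / κ -
        κ / 4 * ∑ l ∈ Finset.Icc 1 X.n, θ l ^ 2 * (1 - X.e l) := by
    have c1 := fL_le_coer (X.lst_ok (v := fun a => θ a ^ 2) (a := 1) fun _ _ _ => sq_nonneg _)
      (a := κ / 2) (by linarith) (by linarith)
    rw [X.lst_sum _ 1 (fun q => max q.1 (κ / 2) * q.2)] at c1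
    have c2 : ∑ l ∈ Finset.Icc 1 X.n, max (X.e l) (κ / 2) * θ l ^ 2 ≤
        ∑ l ∈ Finset.Icc 1 X.n, (θ l ^ 2 * (1 - tl p (X.e l)) -
          κ / 2 * (θ l ^ 2 * (1 - X.e l))) := by
      refine Finset.sum_le_sum fun l _ => ?_
      have d0 : 0 ≤ X.e l := X.pos.le.trans (X.mono (Nat.zero_le l))
      have d1 := X.le_one l
      have d2 := tl_le hp d0 d1 hpκ
      have d3 : max (X.e l) (κ / 2) ≤ 1 - tl p (X.e l) - κ / 2 * (1 - X.e l) :=
        max_le (by nlinarith) (by nlinarith)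
      have d4 := mul_le_mul_of_nonneg_right d3 (sq_nonneg (θ l))
      linarith
    rw [Finset.sum_sub_distrib, ← Finset.mul_sum] at c2
    have c3 : log 2 / (κ / 2) = 2 * log 2 / κ := by field_simp
    unfold Expo.Phi
    linarith
  have h3 := mul_le_mul_of_nonneg_left h2 (Nat.cast_nonneg (α := ℝ) N)
  simp only [sys, Finset.sum_const, Finset.card_univ, Fintype.card_fin, nsmul_eq_mul] at h0 h1 ⊢
  linarith

/-- first-order condition in the site field of level `l + 1` (`Ham_sys_θ`, `E_le_X_sub`,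
`integral_siteField`, let the increment tend to `0`) -/
theorem ub_foc_θ (S : Spec) (X : Expo) {N J : ℕ} (hN : 0 < N) (t : ℝ) (θ : ℕ → ℝ)
    (blk : Fin N → Fin (S.k + 1)) (lab : Fin N → Fin J) (mag : Fin J → ℝ) (Kp : ℝ)
    (f0 : (Fin N → Bool) → ℝ) (tx : ℕ → Fin N → ℝ) (π' : PI X.n S.k J → ℝ) (l : Fin X.n)
    (hθ : 0 < θ (l + 1)) {τ h0 : ℝ} (hh : 0 < h0)
    (hmax : ∀ h, 0 < h → h ≤ h0 →
      (sys S t (Function.update θ (l + 1) (θ (l + 1) + h)) blk lab mag Kp f0 tx π').A X -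
        (sys S t θ blk lab mag Kp f0 tx π').A X ≤
          N * (((θ (l + 1) + h) ^ 2 - θ (l + 1) ^ 2) * (1 - τ) / 2)) :
    τ ≤ X.tau ((sys S t θ blk lab mag Kp f0 tx π').Q X Finset.univ) (l + 1) := by
  have hN' : (0 : ℝ) < N := Nat.cast_pos.2 hN
  have hV : (mT X N).LG fun x => ∑ r, x.2.1 (0, l, r) * σO r x :=
    Tower.LG.sum _ fun r _ => (m1_lg_coord _).mul_bdd (measurable_σO r) (abs_σO r)
  rw [tau_Q_univ _ (by omega), le_div_iff₀ hN']
  set T := X.tau ((sys S t θ blk lab mag Kp f0 tx π').ovσ X Finset.univ) (l + 1) with hT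
  have h1 : θ (l + 1) * (N - T) ≤ N * θ (l + 1) * (1 - τ) := by
    refine u0_lim (C := N * (1 - τ) / 2) hh fun s hs hs0 => ?_
    have h2 := (u0_le_sub X _ _ hV s (Ham_sys_θ S t θ blk lab mag Kp f0 tx π' l s)).trans
      (hmax s hs hs0)
    rw [integral_siteField _ l (θ := θ (l + 1)) fun _ => rfl, ← hT] at h2
    refine le_of_mul_le_mul_left (h2.trans_eq ?_) hs
    ring
  refine le_of_mul_le_mul_left ?_ hθ
  linarith

/-- first-order condition in time (`Ham_sys_t`, `E_le_X_sub`) -/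
theorem ub_foc_t (S : Spec) (X : Expo) {N J : ℕ} (hN : 0 < N) (t : ℝ) (θ : ℕ → ℝ)
    (blk : Fin N → Fin (S.k + 1)) (lab : Fin N → Fin J) (mag : Fin J → ℝ) (Kp : ℝ)
    (f0 : (Fin N → Bool) → ℝ) (tx : ℕ → Fin N → ℝ) (π' : PI X.n S.k J → ℝ) {g : ℝ → ℝ} {g' h0 : ℝ}
    (hg : HasDerivAt g g' t) (hh : 0 < h0)
    (hmax : ∀ h, 0 < h → h ≤ h0 →
      (sys S (t - h) θ blk lab mag Kp f0 tx π').A X / N - g (t - h) ≤
        (sys S t θ blk lab mag Kp f0 tx π').A X / N - g t) :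
    g' ≤ (∑ b, ((fib blk b).card : ℝ) / N * S.lam b *
      (sys S t θ blk lab mag Kp f0 tx π').Q X (fib blk b) (X.n + 1)) / 2 := by
  have hN' : (0 : ℝ) < N := Nat.cast_pos.2 hN
  have hV : (mT X N).LG fun x => (1 / 2) * ∑ i, S.lam (blk i) * sO i x ^ 2 :=
    (Tower.LG.sum _ fun i _ => (m1_lg_sq i).const_mul _).const_mul _
  set P := sys S t θ blk lab mag Kp f0 tx π' with hP
  have hI : (∫ x, (1 / 2) * ∑ i, S.lam (blk i) * sO i x ^ 2 ∂(P.PP X)) / N =
      (∑ b, ((fib blk b).card : ℝ) / N * S.lam b * P.Q X (fib blk b) (X.n + 1)) / 2 := by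
    have e1 : ∀ b, ((fib blk b).card : ℝ) / N * S.lam b * P.Q X (fib blk b) (X.n + 1) =
        (∫ x, S.lam b * ∑ i ∈ fib blk b, sO i x ^ 2 ∂(P.PP X)) / N := by
      intro b
      have hn := X.n_pos
      rw [integral_const_mul, Par.Q, if_neg (by omega), if_neg (by omega), Par.ov,
        Tower.ov_of_ge (T := mT X N) (r := X.n + 2) _ _ (fun i _ => measurable_sO i) le_rfl]
      rcases (fib blk b).eq_empty_or_nonempty with h0 | h0
      · simp [h0]
      · have : ((fib blk b).card : ℝ) ≠ 0 := Nat.cast_ne_zero.2 h0.card_pos.ne'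
        rw [Par.PP]
        field_simp
    simp only [e1]
    rw [← Finset.sum_div, ← integral_finsetSum, integral_const_mul]
    · have e2 : ∀ x : MS X.n N, ∑ b, S.lam b * ∑ i ∈ fib blk b, sO i x ^ 2 =
          ∑ i, S.lam (blk i) * sO i x ^ 2 := by
        intro x
        rw [← Finset.sum_fiberwise Finset.univ blk]
        refine Finset.sum_congr rfl fun b _ => ?_
        rw [Finset.mul_sum]
        refine Finset.sum_congr rfl fun i hi => ?_
        rw [(Finset.mem_filter.1 hi).2]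
      simp only [e2]
      ring
    · intro b _
      exact Tower.Gr.integrable_PP (lg_Ham P)
        ((Tower.Gr.sum _ fun i _ => (gr_sO i).pow 2).const_mul _)
  rw [← hI]
  refine le_of_tendsto hg.tendsto_slope_zero_left ?_
  filter_upwards [Ico_mem_nhdsLT (neg_lt_zero.2 hh)] with s hs
  have h1 := u0_le_sub X P _ hV s (Ham_sys_t S t θ blk lab mag Kp f0 tx π' s)
  have h2 := hmax (-s) (by linarith [hs.2]) (by linarith [hs.1])
  rw [sub_neg_eq_add] at h2
  have h3 := div_le_div_of_nonneg_right h1 hN'.le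
  rw [smul_eq_mul, inv_mul_eq_div, div_le_iff_of_neg hs.2]
  rw [sub_div, mul_div_assoc] at h3
  linarith

end Crest.Agent.R164
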