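import Crest.Agent.R164.L3
import Crest.Agent.R164.S3
import Crest.Agent.R164.U0

/-! # Lower bound: one period of cavity steps

Order of the constants (`P = k+1`, `ρ = 2P`, `m0 = max |mag| < 1`, all accuracies a fraction
of `ε`): `κ` (`G_cont`, `4κ ≤ ε`); `lb_core` (with `ρ0 = ρ`) gives `μ0` and, for `m`, `δ0`;
`H = 2Λ/m + 1`, `B = (log 2 + H/2)/(1 - m0)`, `δs = min (κ (1-m0)/2) (ε/B)`; `K ≥ K0` with
`P √(2 (Λ+8)/K) ≤ δs/2` (`y_sq_bound` with `Kp = K/(2 M0)`); `δT`, then `εc ≤ ε` with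
`2 δT + 2 εc/δT ≤ δs/2` and `2 (20 δT + 2 εc/δT²) ≤ δ0`; `cav_up`, `cav_same` (accuracy `εc`) give
`δc, n0`; `close` gives `C, δ1`; `δr ≤ δc` with `400 ρ² (Λ+1) δr ≤ δ0/2`; the mesh `μ ≤ μ0` for
`ref_hyp` with `δr`; `X, w` (`exists_expo`); `η` with `δ = η + 9nη²` below `δc, δ1, 1, ε`,
`400 ρ² √δ ≤ δ0/2`, `n η² ≤ 1`; `Lp`; `M1`.
For `M0 ≥ M1`, `P ∣ M0`: `exists_Contact`; `Q b = p0.Q (fib per b)`, `Qt = Q top`,
`b_j = π'(h_j) - 2 Kp ybOf j`, `v0 = vst S X Qt`, `v = η² + v0`.  `close` + `ref_hyp` give the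
hypotheses of `cav_up`/`cav_same` for the references of the sizes `M0 ≤ M < M0 + P` and of the
views of `p0` (size `M0 - 1`).  `onesite`, `site_cons`, `resolvent_rel`, `lb_core`
(`sum_Q_fib`, `card_per_of_dvd`), `hx` for the path `(1-κ) p`, `period_sum`
(`F j = Φ v (b j) - b j mag j`; `snoc_per`, `per_castSucc`, `per_last`, `lastOnly_zero`),
`sysP_mono_K`, and the penalty `P · Lp Σ ≤ 6 δ P`. -/

set_option autoImplicit false
set_option linter.unusedVariables false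
set_option linter.unusedSectionVars false

open MeasureTheory ProbabilityTheory Real Crest.ProbabilityR.InvariantGlass
open scoped ENNReal

namespace Crest.Agent.R164

theorem l4_pick (f g h : ℝ → ℝ) {a b c : ℝ} (ha : 0 < a) (hb : 0 < b) (hc : 0 < c)
    (hf : Continuous f := by fun_prop) (hg : Continuous g := by fun_prop)
    (hh : Continuous h := by fun_prop) (f0 : f 0 = 0 := by simp) (g0 : g 0 = 0 := by simp)
    (h0 : h 0 = 0 := by simp) : ∃ x, 0 < x ∧ f x ≤ a ∧ g x ≤ b ∧ h x ≤ c := by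
  have key : ∀ {f : ℝ → ℝ} {a : ℝ}, 0 < a → Continuous f → f 0 = 0 →
      ∀ᶠ x in nhdsWithin 0 (Set.Ioi 0), f x ≤ a := fun ha hf f0 =>
    ((hf.tendsto' 0 0 f0).eventually_le_const ha).filter_mono nhdsWithin_le_nhds
  have h1 : ∀ᶠ x in nhdsWithin (0 : ℝ) (Set.Ioi 0), 0 < x := self_mem_nhdsWithin
  exact (h1.and ((key ha hf f0).and ((key hb hg g0).and (key hc hh h0)))).exists

theorem l4_big (k n0 : ℕ) (R : ℝ) : ∃ M2 : ℕ, ∀ M, M2 ≤ M → R ≤ M ∧ ∃ h : k + 1 ≤ M, ∀ top,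
    n0 < (fib (blkR (per k M) (spOf h) top) top).card ∧
    (M : ℝ) ≤ 2 * ((k : ℝ) + 1) * (fib (blkR (per k M) (spOf h) top) top).card := by
  refine ⟨⌈R⌉₊ + (k + 1) * (n0 + 2 * (k + 1) + 1), fun M hM => ?_⟩
  have h : k + 1 ≤ M := by nlinarith
  refine ⟨(Nat.le_ceil R).trans (by exact_mod_cast le_of_add_le_left hM), h, fun top => ?_⟩
  have h1 := (abs_le.1 (card_ref h top)).1
  have h2 : ((k : ℝ) + 1) * (n0 + 2 * (k + 1) + 1) ≤ M := by exact_mod_cast le_of_add_le_right hM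
  have hk : (0 : ℝ) < k + 1 := by positivity
  have h3 : (M : ℝ) = (k + 1) * (M / (k + 1)) := by field_simp
  have h4 : (n0 : ℝ) + 2 * (k + 1) + 1 ≤ M / (k + 1) := by rwa [le_div_iff₀' hk]
  have h5 : (0 : ℝ) ≤ n0 := Nat.cast_nonneg _
  refine ⟨(Nat.cast_lt (α := ℝ)).1 (by linarith), ?_⟩
  nlinarith

theorem l4_prop (k M : ℕ) {δ : ℝ} (hδ : 0 < δ) (h : δ⁻¹ ≤ M) (b : Fin (k + 1)) :
    |((fib (Fin.snoc (per k M) (jOf k M) : Fin (M + 1) → Fin (k + 1)) b).card : ℝ) / (M + 1) -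
      ((k : ℝ) + 1)⁻¹| ≤ δ := by
  have h1 := card_per k (M + 1) b
  have hM : (0 : ℝ) < M + 1 := by positivity
  rw [snoc_per, ← mul_div_cancel_right₀ ((k : ℝ) + 1)⁻¹ hM.ne', ← sub_div, abs_div, abs_of_pos hM,
    div_le_iff₀ hM, ← div_eq_inv_mul]
  rw [inv_le_iff_one_le_mul₀' hδ] at h
  push_cast at h1
  exact h1.trans (by linarith)

theorem l4_avQ (S : Spec) (X : Expo) {M0 : ℕ} (hM : 0 < M0) (hd : S.k + 1 ∣ M0) (p : Par M0) :
    (fun r => S.av fun b => p.Q X (fib (per S.k M0) b) r) = p.Q X Finset.univ := by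
  funext r
  rw [← sum_Q_fib p (per S.k M0) hM, S.s3_av]
  refine Finset.sum_congr rfl fun b _ => ?_
  have : (M0 : ℝ) ≠ 0 := by exact_mod_cast hM.ne'
  rw [fib, card_per_of_dvd hd]
  field_simp

theorem l4_card {k M0 : ℕ} (hM : 0 < M0) (hd : k + 1 ∣ M0) (b : Fin (k + 1)) :
    (fib (per k M0) b).Nonempty ∧ (M0 : ℝ) ≤ 2 * ((k : ℝ) + 1) * (fib (per k M0) b).card := by
  have h := card_per_of_dvd hd b
  have h0 : (0 : ℝ) < M0 := by exact_mod_cast hM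
  have h1 : 2 * ((k : ℝ) + 1) * (M0 / (k + 1)) = 2 * M0 := by field_simp
  refine ⟨Finset.card_pos.1 (Nat.cast_pos.1 (h.symm ▸ by positivity : (0 : ℝ) < _)), ?_⟩
  rw [fib, h, h1]
  linarith

theorem l4_sqrt {P K A M I δ : ℝ} (hP : 0 < P) (hM : 0 < M) (hδ : 0 < δ) (hK0 : 0 < K)
    (hK : 8 * A * P ^ 2 / δ ^ 2 ≤ K) (h : K / (2 * M) * I ≤ A * M) : P / M * √I ≤ δ / 2 := by
  rw [div_mul_eq_mul_div, div_le_iff₀ (by positivity)] at h
  rw [div_le_iff₀ (by positivity)] at hK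
  rw [← le_div_iff₀' (by positivity), sqrt_le_iff]
  refine ⟨by positivity, le_of_mul_le_mul_left (h.trans ?_) hK0⟩
  rw [show K * (δ / 2 / (P / M)) ^ 2 = K * δ ^ 2 * (M ^ 2 / (4 * P ^ 2)) by field_simp; ring,
    show A * M * (2 * M) = 8 * A * P ^ 2 * (M ^ 2 / (4 * P ^ 2)) by field_simp; ring]
  gcongr

theorem lb_step (S : Spec) {mag : Fin (S.k + 1) → ℝ} (hm : ∀ j, |mag j| < 1) {x : ℝ}
    (hx : ∀ p, IsTrialPath p → ∀ y, SLe (fun _ => ((S.k : ℝ) + 1)⁻¹) mag p y → x ≤ y + S.G p)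
    {m ε : ℝ} (hm0 : 0 < m) (hm1 : m < 1) (hε : 0 < ε) (K0 : ℝ) :
    ∃ (K η Lp : ℝ) (X : Expo), K0 ≤ K ∧ 0 < K ∧ X.m = m ∧ 0 < η ∧ 0 ≤ Lp ∧
      η + 9 * X.n * η ^ 2 ≤ ε ∧ ∃ M1 : ℕ, ∀ M0 : ℕ, M1 ≤ M0 → S.k + 1 ∣ M0 →
      ∃ π', Contact S X η mag K Lp M0 π' ∧
        FL S X η mag K Lp M0 π' + (S.k + 1) * (x - ε) ≤
          FL S X η mag K Lp (M0 + (S.k + 1)) π' := by
  obtain ⟨j0, hj0⟩ := Finite.exists_max fun j => |mag j|
  have hm' : ∀ j, |mag j| ≤ 1 := fun j => (hm j).le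
  have h1m : 0 < 1 - |mag j0| := sub_pos.2 (hm j0)
  have hΛ := S.Λ_nonneg
  have hP : (0 : ℝ) < S.k + 1 := by positivity
  have hρ : (1 : ℝ) ≤ 2 * ((S.k : ℝ) + 1) := by linarith [(Nat.cast_nonneg S.k : (0 : ℝ) ≤ S.k)]
  have he : 0 < ε / 12 := by positivity
  obtain ⟨δG, hδG, hG⟩ := S.G_cont he
  obtain ⟨κ, hκ, κ1, κ2, κ3⟩ := l4_pick (fun x => x) (fun x => x) (fun x => 4 * x) hδG one_pos he
  obtain ⟨μ0, hμ0, hcore⟩ := S.lb_core he (one_pos.trans_le hρ)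
  obtain ⟨δ0, hδ0, hcore⟩ := hcore m hm0
  obtain ⟨δs, hδs, s1, s2, -⟩ := l4_pick (fun x => x)
    (fun x => (log 2 + (2 * S.Λ / m + 1) / 2) / (1 - |mag j0|) * x) (fun x => x)
    (by positivity : 0 < κ / 2 * (1 - |mag j0|)) he he
  obtain ⟨K, hK0, hK1⟩ : ∃ K, K0 ≤ K ∧ 8 * (S.Λ + 8) * ((S.k : ℝ) + 1) ^ 2 / δs ^ 2 ≤ K :=
    ⟨_, le_max_left _ _, le_max_right _ _⟩
  have hK : 0 < K := lt_of_lt_of_le (by positivity) hK1
  obtain ⟨δT, hδT, t1, t2, t3⟩ := l4_pick (fun x => x) (fun x => 2 * x) (fun x => 20 * x) one_pos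
    (by positivity : 0 < δs / 4) (by positivity : 0 < δ0 / 4)
  obtain ⟨εc, hεc, c1, c2, c3⟩ := l4_pick (fun x => x) (fun x => 2 * x / δT)
    (fun x => 2 * x / δT ^ 2) he (by positivity : 0 < δs / 4) (by positivity : 0 < δ0 / 4)
  obtain ⟨δu, hδu, nu, hup⟩ := cav_up S hρ hK.le hm0 hεc
  obtain ⟨δv, hδv, nv, hsame⟩ := cav_same S hρ hm0 hεc
  obtain ⟨C, δ1, hδ1, Mc, hclose⟩ := close S hK.le
  obtain ⟨δr, hδr, r1, r2, r3⟩ := l4_pick (fun x => x) (fun x => x)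
    (fun x => 400 * (2 * ((S.k : ℝ) + 1)) ^ 2 * ((S.Λ + 1) * x)) hδu hδv (half_pos hδ0)
  obtain ⟨μ, hμ, u1, u2, -⟩ := l4_pick (fun x => x)
    (fun x => 8 * ((S.k : ℝ) + 1) * (4 * √x + 2 * √(x / m))) (fun x => x) hμ0 hδr he
  obtain ⟨X, w, hX, hw, hw1, -, hW⟩ := exists_expo hm0 hm1 hμ
  obtain ⟨η, hη, e1, e2, e3⟩ := l4_pick (fun x => x + 9 * X.n * x ^ 2)
    (fun x => 400 * (2 * ((S.k : ℝ) + 1)) ^ 2 * √(x + 9 * X.n * x ^ 2)) (fun x => X.n * x ^ 2)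
    (lt_min (lt_min hδr hδ1) (lt_min one_pos he)) (half_pos hδ0) one_pos
  simp only [le_min_iff] at e1
  obtain ⟨⟨e11, e12⟩, e13, e14⟩ := e1
  obtain ⟨Lp, hL0, hL⟩ : ∃ Lp, 0 ≤ Lp ∧ 6 * (η + 9 * X.n * η ^ 2) ≤ Lp * (η / 2) ^ 2 :=
    ⟨6 * (η + 9 * X.n * η ^ 2) / (η / 2) ^ 2, by positivity,
      (div_mul_cancel₀ _ (by positivity)).ge⟩
  obtain ⟨Mr, href⟩ := ref_hyp S X (Lp := Lp) (C := C) hw hw1 hη hK.le hδr hμ.le hW (hX ▸ u2)
  obtain ⟨M2, hbig⟩ := l4_big S.k (max nu nv) (max δu⁻¹ (2 * (S.k + 1) * K + 1))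
  refine ⟨K, η, Lp, X, hK0, hK, hX, hη, hL0, by linarith, Mc + Mr + M2 + 1, fun M0 hM0 hd => ?_⟩
  have hM : 0 < M0 := by omega
  have hM' : (0 : ℝ) < M0 := by exact_mod_cast hM
  have hPM : S.k + 1 ≤ M0 := Nat.le_of_dvd hM hd
  obtain ⟨π', hπ, hpen⟩ := exists_Contact S X hη hm' K hL hM
  refine ⟨π', hπ, ?_⟩
  have hθ : ∑ a ∈ Finset.Icc 1 X.n, η ^ 2 ≤ 1 := by simpa using e3
  have hsm := (small_of_mem hη.le
    (Metric.closedBall_subset_closedBall (half_le_self hη.le) hπ.mem)).1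
  have hcl := fun π'' h => hclose M0 (by omega) X (fun _ => η) mag π''
    ((small_of_mem hη.le h).1.mono e12) hm' hθ
  obtain ⟨hE, href⟩ := href M0 (by omega) hd mag π' hm' hπ
  have hKp : 0 ≤ K / (2 * M0) := by positivity
  have hmono := sysP_mono_K S X (M0 + (S.k + 1)) (fun _ => η) (per S.k _) mag
    (Kp := K / (2 * M0)) (Kp' := K / (2 * (M0 + (S.k + 1) : ℕ))) (by gcongr; omega) π'
  have hKM : ∀ M : ℕ, M ≤ M0 + (S.k + 1) → K / (2 * M0) * M ≤ K := fun M h => by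
    rw [div_mul_eq_mul_div, div_le_iff₀ (by positivity)]
    exact mul_le_mul_of_nonneg_left (by exact_mod_cast (by omega : M ≤ 2 * M0)) hK.le
  have hy := y_sq_bound S X (fun _ => η) (per S.k M0) (per S.k M0) hm' hKp (by
    have h1 := le_of_max_le_right (hbig M0 (by omega)).1
    have h2 : 0 ≤ 2 * ((S.k : ℝ) + 1) * K := by positivity
    rw [← mul_div_assoc, div_le_iff₀ (by positivity)]
    push_cast
    nlinarith) hθ (hsm.mono e13)
  have hy' := l4_sqrt hP hM' hδs hK hK1 hy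
  have hQ := fun b => Q_seq (X := X) (sysP S M0 (fun _ => η) (per S.k M0) mag (K / (2 * M0)) π')
    (l4_card hM hd b).1 (l4_card hM hd b).2
  have hres := resolvent_rel S zero_le_one le_rfl _ _ _ _ _ _ _ π' (by positivity) e13 hsm hM
    (fun b => (l4_card hM hd b).2) hE
  have hav := l4_avQ S X hM hd (sysP S M0 (fun _ => η) (per S.k M0) mag (K / (2 * M0)) π')
  simp only [one_mul] at hres
  have hcore := hcore X hX (fun l h1 h2 => (hW l h1 h2).2.trans u1) _ hQ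
    ((congrFun hav _).trans (Q_univ_top _ hM))
    fun b => (hres b).trans (by linarith)
  rw [hav] at hcore
  set Qt := (sysP S M0 (fun _ => η) (per S.k M0) mag (K / (2 * M0)) π').Q X
    (fib (per S.k M0) S.top) with hQt
  set b : Fin (S.k + 1) → ℝ := fun j =>
    π' (Sum.inr (Sum.inr j)) - 2 * (K / (2 * M0)) * ybOf η Lp M0 π' j with hb
  have hv0 : ∀ l, 1 ≤ l → l ≤ X.n → 0 ≤ vst S X Qt l := fun l h _ => vst_nonneg S X (hQ S.top) h
  obtain ⟨p, d, hp, hp0, hd1, hd2, hS⟩ := onesite S X (v := fun l => η ^ 2 + vst S X Qt l)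
    (fun l h1 h2 => add_pos_of_pos_of_nonneg (by positivity) (hv0 l h1 h2)) b mag
    (H := 2 * S.Λ / m + 1) (by
      rw [Finset.sum_add_distrib, ← hX]
      linarith [sum_vst_le S X (hQ S.top)]) hj0 (hm j0) hκ.le κ2 hδs.le s1
  -- the cavity theorems
  have hup' : ∀ (M : ℕ) (h : S.k + 1 ≤ M) (lab' : Fin (M + 1) → Fin (S.k + 1)), M0 ≤ M + 1 →
      M ≤ M0 + (S.k + 1) → (∀ π'' ∈ Metric.closedBall (pc X.n S.k (S.k + 1) η) η,
        |(refP S h (fun _ => η) (fun r => lab' r.castSucc) mag (K / (2 * M0)) π'').A X -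
          (sysP S M0 (fun _ => η) (per S.k M0) mag (K / (2 * M0)) π'').A X| ≤ C) →
      ∀ (ϑ : ℕ → ℝ) (δ : ℝ), ∑ a ∈ Finset.Icc 1 X.n, ϑ a ^ 2 ≤ 1 → |δ| ≤ 1 →
      |(sys S 1 (fun _ => η) (per S.k (M + 1)) lab' mag (K / (2 * M0))
          (fun σ => δ * spinVec σ (Fin.last M)) (lastOnly ϑ) π').A X -
        ((refP S h (fun _ => η) (fun r => lab' r.castSucc) mag (K / (2 * M0)) π').A X + S.Rh 0 / 2 -
          X.Gam (fun l => ∑ b, log (1 + S.κ b * X.D Qt l) +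
            log (S.av fun b => 1 / (1 + S.κ b * X.D Qt l))) / 2 +
          X.Phi (fun l => η ^ 2 + ϑ l ^ 2 + vst S X Qt l) (b (lab' (Fin.last M)) + δ) -
          b (lab' (Fin.last M)) * mag (lab' (Fin.last M)))| ≤ εc := by
    intro M h lab' h1 h2 hC ϑ δ hϑ hδ
    obtain ⟨g1, _, g2⟩ := hbig M (by omega)
    obtain ⟨g3, g4⟩ := href M h _ h1 h2 hC
    rw [← snoc_per]
    exact hup X hX M _ (fun _ => η) ϑ δ _ _ _ (cav_per h) lab' mag _ π' (hsm.mono (e11.trans r1))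
      hm' hKp (hKM M h2) (by rw [Finset.sum_add_distrib]; linarith) hδ
      ((le_max_left _ _).trans_lt (g2 _).1) (g2 _).2 (l4_prop _ _ hδu (le_of_max_le_left g1)) Qt
      (hQ _) (g3.trans (mul_le_mul_of_nonneg_right r1 (Nat.cast_nonneg _))) _ (g4 _).1
      ((g4 _).2.trans r1)
  have hper := period_sum S X hd
    (fun M => (sysP S M (fun _ => η) (per S.k M) mag (K / (2 * M0)) π').A X)
    (fun M => if h : S.k + 1 ≤ M then
      (refP S h (fun _ => η) (per S.k M) mag (K / (2 * M0)) π').A X else 0) Qt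
    (fun j => X.Phi (fun l => η ^ 2 + vst S X Qt l) (b j) - b j * mag j) (ε := εc)
    (fun M h1 h2 => by
      obtain ⟨-, h, g2⟩ := hbig M (by omega)
      rw [dif_pos h]
      exact hsame X hX M _ _ _ _ _ (cav_per h) _ mag _ π' (hsm.mono (e11.trans r2))
        ((le_max_right _ _).trans_lt (g2 _).1) (g2 _).2 Qt (hQ _)
        ((href M h _ (by omega) h2.le fun π'' h' => ((hcl π'' h').1 M h1 h2.le).2 h).1.trans
          (mul_le_mul_of_nonneg_right r2 (Nat.cast_nonneg _))))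
    (fun M h1 h2 => by
      have h : S.k + 1 ≤ M := hPM.trans h1
      have := hup' M h (per S.k (M + 1)) (by omega) h2.le
        (by rw [per_castSucc]; exact fun π'' h' => ((hcl π'' h').1 M h1 h2.le).2 h)
        (fun _ => 0) 0 (by simp) (by simp)
      simp only [per_castSucc, per_last, lastOnly_zero, zero_mul, add_zero, ne_eq,
        OfNat.ofNat_ne_zero, not_false_eq_true, zero_pow] at this
      rw [dif_pos h, ← add_sub_assoc]
      exact this)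
  obtain ⟨M, rfl⟩ := Nat.exists_eq_add_one_of_ne_zero hM.ne'
  obtain ⟨-, h, -⟩ := hbig M (by omega)
  obtain ⟨k1, k2⟩ := site_cons S X η mag (K / (2 * (M + 1 : ℕ))) π' hv0 b hδT t1 (ε := εc)
    (fun r => ⟨_, fun ϑ δ h1 h2 => by
      have := hup' M h (fun i => per S.k (M + 1) (Equiv.swap r (Fin.last M) i)) le_rfl (by omega)
        (fun π'' h' => (hcl π'' h').2 M h _ rfl) ϑ δ h1 h2
      rwa [Equiv.swap_apply_right, add_sub_right_comm] at this⟩) hd d hd1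
  have hS := hx _ (isTrialPath_scale hp (sub_nonneg.2 κ2) (by linarith)) _
    (hS fun j => (k1 j).trans (by push_cast at hy' ⊢; unfold sysP; linarith))
  have hG := hG _ _ (isTrialPath_scale hp (sub_nonneg.2 κ2) (by linarith)) hp fun r _ =>
    abs_deficit_sub_le (isTrialPath_scale hp (sub_nonneg.2 κ2) (by linarith)) hp (fun s hs => by
      obtain ⟨a1, a2⟩ := hp.2.2 s hs
      rw [abs_le]
      constructor <;> nlinarith) r
  have hcore := hcore p hp hp0 fun l h1 h2 => by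
    have := abs_le.1 (k2 l h1 h2)
    rw [hd2 l h1 h2] at this
    rw [abs_le]
    constructor <;> linarith
  have hsum : ∑ l ∈ Finset.Icc 1 X.n, vst S X Qt l * (1 - tl p (X.e l)) ≤
      ∑ l ∈ Finset.Icc 1 X.n, (η ^ 2 + vst S X Qt l) * (1 - tl p (X.e l)) :=
    Finset.sum_le_sum fun l _ => mul_le_mul_of_nonneg_right (le_add_of_nonneg_left (sq_nonneg _))
      (by linarith [tl_le hp (X.e_pos l).le (X.le_one l) fun s hs => (hp.2.2 s hs).2, X.e_pos l])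
  have hfin : x - ε + Lp * ∑ d, (π' d - pc X.n S.k (S.k + 1) η d) ^ 2 ≤
      S.Rh 0 / 2 - X.Gam (fun l => S.LL (X.D Qt l)) / 2 +
        S.av (fun j => X.Phi (fun l => η ^ 2 + vst S X Qt l) (b j) - b j * mag j) - 2 * εc := by
    unfold vst at hsum hS ⊢
    linarith [(abs_le.1 hG).2]
  have := mul_le_mul_of_nonneg_left hfin hP.le
  unfold FL
  push_cast at hmono hper ⊢
  linarith

end Crest.Agent.R164
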