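import Crest.Agent.R164.L4

/-! # The lower bound on the fractional moment

Let `a M` be the maximal value of `FL … M`.  By `lb_step`, `a (M0 + P) ≥ a M0 + P (x - ε)` along
the multiples of `P`, so `a M0 ≥ M0 (x - 2ε)` eventually.  `a M0 ≤ A (sysP M0 π') ≤
A (sysP M0, θ = 0, π = 0) + (6δ + δ) M0` (`osc_le`, `small_zero`, `A_noField`, `A_plain_eq`).
For general `N` let `M0 = P ⌊N/P⌋` and use `close` with `θ = 0`, `π = 0`.  Finally
`c y ≥ - Kp y² - c²/(4 Kp)` removes the penalty: `Σ_r c σ_r = Σ_j (c_j y_j + c_j mag_j |fib j|)`,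
`fm_le`, `card_per`; choose `K0` with `Σ c_j²/(2 K0) ≤ ε`. -/

set_option autoImplicit false
set_option linter.unusedVariables false
set_option linter.unusedSectionVars false

open MeasureTheory ProbabilityTheory Real Crest.ProbabilityR.InvariantGlass
open scoped ENNReal

namespace Crest.Agent.R164

theorem l5_quad {K M : ℝ} (hK : 0 < K) (hM : 0 < M) (c y : ℝ) :
    -(K / (2 * M) * y ^ 2) ≤ c * y + c ^ 2 * M / (2 * K) := by
  have h : c * y + c ^ 2 * M / (2 * K) + K / (2 * M) * y ^ 2 =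
      (K * y + c * M) ^ 2 / (2 * K * M) := by
    field_simp
    ring
  have h2 : 0 ≤ (K * y + c * M) ^ 2 / (2 * K * M) := by positivity
  linarith

theorem l5_sum {N J : ℕ} (lab : Fin N → Fin J) (mag c : Fin J → ℝ) (σ : Fin N → Bool) :
    ∑ r, c (lab r) * spinVec σ r =
      ∑ j, (c j * yv lab mag j σ + c j * mag j * (fib lab j).card) := by
  rw [← Finset.sum_fiberwise Finset.univ lab]
  refine Finset.sum_congr rfl fun j _ => ?_
  rw [Finset.sum_congr rfl (g := fun r => c j * spinVec σ r)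
    (fun i hi => by rw [(Finset.mem_filter.1 hi).2])]
  unfold yv
  rw [Finset.sum_sub_distrib, Finset.sum_const, nsmul_eq_mul, ← Finset.mul_sum]
  unfold fib
  ring

theorem l5_card (S : Spec) {mag : Fin (S.k + 1) → ℝ} (hm : ∀ j, |mag j| ≤ 1)
    (c : Fin (S.k + 1) → ℝ) (N : ℕ) :
    N * S.av (fun j => c j * mag j) - ∑ j, |c j| ≤
      ∑ j, c j * mag j * (fib (per S.k N) j).card := by
  rw [S.s3_av, Finset.mul_sum, ← Finset.sum_sub_distrib]
  refine Finset.sum_le_sum fun j _ => ?_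
  have h1 : |((fib (per S.k N) j).card : ℝ) - (N : ℝ) / (S.k + 1)| ≤ 1 := card_per S.k N j
  have h2 : |c j * mag j * (((fib (per S.k N) j).card : ℝ) - (N : ℝ) / (S.k + 1))| ≤ |c j| := by
    rw [abs_mul, abs_mul]
    calc |c j| * |mag j| * |((fib (per S.k N) j).card : ℝ) - (N : ℝ) / (S.k + 1)|
        ≤ |c j| * 1 * 1 := by gcongr; exact hm j
      _ = |c j| := by ring
  have h3 := (abs_le.1 h2).1
  have h4 : (N : ℝ) * (((S.k : ℝ) + 1)⁻¹ * (c j * mag j)) = c j * mag j * ((N : ℝ) / (S.k + 1)) := by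
    rw [div_eq_mul_inv]; ring
  rw [h4]
  linarith

/-- removing the magnetisation penalty -/
theorem l5_pen (S : Spec) (X : Expo) {mag : Fin (S.k + 1) → ℝ} (hm : ∀ j, |mag j| ≤ 1)
    (c : Fin (S.k + 1) → ℝ) {K M : ℝ} (hK : 0 < K) (hM : 0 < M) (N : ℕ) :
    (sysP S N (fun _ => 0) (per S.k N) mag (K / (2 * M))
        (fun _ : PI X.n S.k (S.k + 1) => (0 : ℝ))).A X ≤
      fm X.m (fun i => S.lam (per S.k N i)) (fun σ => ∑ r, c (per S.k N r) * spinVec σ r) +
        ((∑ j, c j ^ 2) * M / (2 * K) - (N * S.av (fun j => c j * mag j) - ∑ j, |c j|)) := by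
  rw [A_plain_eq _ (fun _ _ => rfl) (fun a r => by simp [sysP, sys, vtOf]) (fun _ _ => rfl)]
  have h := fm_le (m := X.m) X.pos
    (lam := (sysP S N (fun _ => 0) (per S.k N) mag (K / (2 * M))
      (fun _ : PI X.n S.k (S.k + 1) => (0 : ℝ))).lam) (lam' := fun i => S.lam (per S.k N i))
    (f := (sysP S N (fun _ => 0) (per S.k N) mag (K / (2 * M))
      (fun _ : PI X.n S.k (S.k + 1) => (0 : ℝ))).f)
    (f' := fun σ => ∑ r, c (per S.k N r) * spinVec σ r) (δ := 0)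
    (D := (∑ j, c j ^ 2) * M / (2 * K) - (N * S.av (fun j => c j * mag j) - ∑ j, |c j|))
    (fun i => by simp [sysP, sys]) (fun σ => by
      have h1 := l5_card S hm c N
      have h2 : ∑ j, -(K / (2 * M) * yv (per S.k N) mag j σ ^ 2) ≤
          ∑ j, (c j * yv (per S.k N) mag j σ + c j ^ 2 * M / (2 * K)) :=
        Finset.sum_le_sum fun j _ => l5_quad hK hM _ _
      rw [Finset.sum_add_distrib, ← Finset.sum_div, ← Finset.sum_mul] at h2
      simp only [sysP, sys, zero_mul, zero_sub, zero_add]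
      rw [l5_sum (per S.k N) mag c σ, Finset.sum_add_distrib]
      linarith)
  linarith

/-- removing the perturbation -/
theorem l5_osc (S : Spec) (X : Expo) {η K Lp : ℝ} (hη : 0 < η) (hL : 0 ≤ Lp)
    {mag : Fin (S.k + 1) → ℝ} (hm : ∀ j, |mag j| ≤ 1) (M : ℕ) {π' : PI X.n S.k (S.k + 1) → ℝ}
    (h : π' ∈ Metric.closedBall (pc X.n S.k (S.k + 1) η) η) :
    FL S X η mag K Lp M π' ≤ (sysP S M (fun _ => 0) (per S.k M) mag (K / (2 * M))
        (fun _ : PI X.n S.k (S.k + 1) => (0 : ℝ))).A X + 7 * (η + 9 * X.n * η ^ 2) * M := by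
  have hδ : 0 ≤ η + 9 * X.n * η ^ 2 := by positivity
  have h1 := osc_le (X := X) S 1 (fun _ => η) (per S.k M) (per S.k M) mag hm (K / (2 * M))
    (fun _ => 0) (fun _ _ => 0) (small_of_mem hη.le h).1 (small_zero hδ)
  have h2 := (A_noField (X := X) (sysP S M (fun _ => η) (per S.k M) mag (K / (2 * M))
    (fun _ : PI X.n S.k (S.k + 1) => (0 : ℝ))) (Θ := η + 9 * X.n * η ^ 2)
    (fun i => by simpa [sysP, sys, vtOf] using hδ) (fun r => by
      have : 0 ≤ (X.n : ℝ) * η ^ 2 := by positivity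
      simp only [sysP, sys, ne_eq, OfNat.ofNat_ne_zero, not_false_eq_true, zero_pow, add_zero,
        Finset.sum_const, Nat.card_Icc, add_tsub_cancel_right, nsmul_eq_mul]
      linarith)).2
  have h3 := A_plain_eq (X := X) (sysP S M (fun _ => 0) (per S.k M) mag (K / (2 * M))
    (fun _ : PI X.n S.k (S.k + 1) => (0 : ℝ))) (fun _ _ => rfl)
    (fun a r => by simp [sysP, sys, vtOf]) (fun _ _ => rfl)
  have h4 : 0 ≤ M * Lp * ∑ d, (π' d - pc X.n S.k (S.k + 1) η d) ^ 2 := by positivity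
  rw [h3]
  unfold FL
  unfold sysP at h2 ⊢
  simp only [sys] at h1 h2 ⊢
  linarith

theorem lower (S : Spec) {mag : Fin (S.k + 1) → ℝ} (hm : ∀ j, |mag j| < 1)
    (c : Fin (S.k + 1) → ℝ) {x : ℝ}
    (hx : ∀ p, IsTrialPath p → ∀ y, SLe (fun _ => ((S.k : ℝ) + 1)⁻¹) mag p y → x ≤ y + S.G p)
    {m ε : ℝ} (hm0 : 0 < m) (hm1 : m < 1) (hε : 0 < ε) :
    ∀ᶠ N : ℕ in Filter.atTop, N * (S.av (fun j => c j * mag j) + x - ε) ≤
      fm m (fun i => S.lam (per S.k N i)) (fun σ => ∑ r, c (per S.k N r) * spinVec σ r) := by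
  have hm' : ∀ j, |mag j| ≤ 1 := fun j => (hm j).le
  have he : 0 < ε / 10 := by positivity
  obtain ⟨K, η, Lp, X, hK0, hK, hX, hη, hL, hδ, M1, hstep⟩ :=
    lb_step S hm hx hm0 hm1 he ((∑ j, c j ^ 2) / (ε / 10))
  obtain ⟨C, δ1, hδ1, Mc, hclose⟩ := close S hK.le
  have hP : (0 : ℝ) < (S.k : ℝ) + 1 := by positivity
  obtain ⟨π0, hπ0, -⟩ := hstep ((S.k + 1) * M1) (Nat.le_mul_of_pos_left _ (Nat.succ_pos _))
    (dvd_mul_right _ _)
  set a0 := FL S X η mag K Lp ((S.k + 1) * M1) π0 with ha0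
  have hchain : ∀ j : ℕ, ∃ π' ∈ Metric.closedBall (pc X.n S.k (S.k + 1) η) η,
      a0 + j * ((S.k + 1) * (x - ε / 10)) ≤ FL S X η mag K Lp ((S.k + 1) * (M1 + j)) π' := by
    intro j
    induction j with
    | zero =>
      exact ⟨π0, Metric.closedBall_subset_closedBall (half_le_self hη.le) hπ0.mem, by
        simp [ha0]⟩
    | succ j ih =>
      obtain ⟨π', h1, h2⟩ := ih
      obtain ⟨π'', h3, h4⟩ := hstep ((S.k + 1) * (M1 + j))
        ((Nat.le_add_right _ _).trans (Nat.le_mul_of_pos_left _ (Nat.succ_pos _)))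
        (dvd_mul_right _ _)
      refine ⟨π'', Metric.closedBall_subset_closedBall (half_le_self hη.le) h3.mem, ?_⟩
      have h5 := h3.max π' h1
      rw [show (S.k + 1) * (M1 + (j + 1)) = (S.k + 1) * (M1 + j) + (S.k + 1) by ring]
      push_cast
      linarith
  set D : ℝ := |a0| + ((S.k + 1) + (S.k + 1) * M1) * |x - ε / 10| + C + ∑ j, |c j| with hD
  filter_upwards [Filter.eventually_ge_atTop ((S.k + 1) * (M1 + Mc + 1)),
    Filter.eventually_ge_atTop ⌈D / (ε / 10)⌉₊] with N hN1 hN2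
  have hN3 : D ≤ N * (ε / 10) := by
    rw [← div_le_iff₀ he]
    exact (Nat.le_ceil _).trans (by exact_mod_cast hN2)
  have hq : M1 + Mc + 1 ≤ N / (S.k + 1) := by
    rw [Nat.le_div_iff_mul_le (Nat.succ_pos _), mul_comm]
    exact hN1
  obtain ⟨j, hj⟩ : ∃ j, N / (S.k + 1) = M1 + j := ⟨N / (S.k + 1) - M1, by omega⟩
  have hdm := Nat.div_add_mod N (S.k + 1)
  have hlt : N % (S.k + 1) < S.k + 1 := Nat.mod_lt N (Nat.succ_pos S.k)
  rw [hj] at hdm hq
  obtain ⟨π', h1, h2⟩ := hchain j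
  obtain ⟨M0, hM0⟩ : ∃ M0, M0 = (S.k + 1) * (M1 + j) := ⟨_, rfl⟩
  have hM0' : M1 + j ≤ M0 := hM0 ▸ Nat.le_mul_of_pos_left _ (Nat.succ_pos _)
  rw [← hM0] at hdm h2
  have hMpos : (0 : ℝ) < M0 := by exact_mod_cast (by omega : 0 < M0)
  have h3 := l5_osc S X (K := K) hη hL hm' M0 h1
  have h4 := (abs_le.1 ((hclose M0 (by omega) X (fun _ => 0) mag (fun _ => 0) (small_zero hδ1.le)
    hm' (by simp)).1 N (by omega) (by omega)).1).1
  have h5 := l5_pen S X hm' c hK hMpos N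
  rw [hX] at h5
  have hle : (M0 : ℝ) ≤ N := by exact_mod_cast (by omega : M0 ≤ N)
  have hge : (N : ℝ) ≤ M0 + (S.k + 1) := by exact_mod_cast (by omega : N ≤ M0 + (S.k + 1))
  have hM0r : (M0 : ℝ) = (S.k + 1) * (M1 + j) := by rw [hM0]; push_cast; ring
  have h6 : 7 * (η + 9 * X.n * η ^ 2) * M0 ≤ 7 * (ε / 10) * N := by gcongr
  have h7 : (∑ j, c j ^ 2) * M0 / (2 * K) ≤ ε / 10 * N := by
    rw [div_le_iff₀ he] at hK0
    rw [div_le_iff₀ (by positivity)]
    have h0 : 0 ≤ K * (ε / 10) := by positivity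
    calc (∑ j, c j ^ 2) * M0 ≤ K * (ε / 10) * N := by gcongr
      _ ≤ 2 * (K * (ε / 10) * N) := by
        have : 0 ≤ K * (ε / 10) * N := by positivity
        linarith
      _ = _ := by ring
  have h8 : N * (x - ε / 10) - ((S.k + 1) + (S.k + 1) * M1) * |x - ε / 10| ≤
      j * ((S.k + 1) * (x - ε / 10)) := by
    have e1 : (j : ℝ) * ((S.k + 1) * (x - ε / 10)) =
        N * (x - ε / 10) - (N - M0 + (S.k + 1) * M1) * (x - ε / 10) := by
      rw [hM0r]; ring
    have e2 : ((N : ℝ) - M0 + (S.k + 1) * M1) * (x - ε / 10) ≤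
        ((S.k + 1) + (S.k + 1) * M1) * |x - ε / 10| := by
      have e3 : (0 : ℝ) ≤ (S.k + 1) * M1 := by positivity
      calc ((N : ℝ) - M0 + (S.k + 1) * M1) * (x - ε / 10)
          ≤ ((N : ℝ) - M0 + (S.k + 1) * M1) * |x - ε / 10| :=
            mul_le_mul_of_nonneg_left (le_abs_self _) (by linarith)
        _ ≤ _ := mul_le_mul_of_nonneg_right (by linarith) (abs_nonneg _)
    linarith
  have h9 := neg_abs_le a0
  nlinarith

end Crest.Agent.R164
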