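import Crest.Agent.R164.H1
import Crest.Agent.R164.G3
import Crest.Agent.R164.S2

/-! # The model: basic properties -/

set_option autoImplicit false
set_option linter.unusedVariables false
set_option linter.unusedSectionVars false

open MeasureTheory ProbabilityTheory Real Crest.ProbabilityR.InvariantGlass
open scoped ENNReal

namespace Crest.Agent.R164

variable {N : ℕ} {X : Expo}

@[simp] theorem mT_L : (mT X N).L = X.n + 2 := rfl
@[simp] theorem mT_e : (mT X N).e = X.e := rfl
@[simp] theorem mT_W (r : ℕ) : (mT X N).W r = X.W r := rfl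

theorem m1_meas_spin {n : ℕ} (f : (Fin N → Bool) → ℝ) :
    Measurable (fun x : MS n N => f x.2.2) :=
  (measurable_of_finite f).comp (measurable_snd.comp measurable_snd)

theorem m1_sO_eq {n : ℕ} (i : Fin N) (x : MS n N) : sO i x = ∑ j, x.1.1 i j * σO j x := by
  simp only [sO, sv, σO, Matrix.mulVec, dotProduct]

theorem m1_meas_entry {n : ℕ} (i j : Fin N) : Measurable (fun x : MS n N => x.1.1 i j) :=
  (measurable_entry i j).comp measurable_fst

theorem m1_meas_coord {n : ℕ} (q : MI n N) : Measurable (fun x : MS n N => x.2.1 q) :=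
  (measurable_pi_apply q).comp (measurable_fst.comp measurable_snd)

theorem measurable_σO {n : ℕ} (r : Fin N) : Measurable (σO (n := n) r) := by
  exact m1_meas_spin (fun σ => spinVec σ r)
theorem measurable_sO {n : ℕ} (i : Fin N) : Measurable (sO (n := n) i) := by
  have e : sO (n := n) i = fun x => ∑ j, x.1.1 i j * σO j x := funext fun x => m1_sO_eq i x
  rw [e]
  exact Finset.measurable_sum _ fun j _ => (m1_meas_entry i j).mul (measurable_σO j)
theorem σO_sq {n : ℕ} (r : Fin N) (x : MS n N) : σO r x ^ 2 = 1 := by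
  exact spinVec_sq _ _
theorem abs_σO {n : ℕ} (r : Fin N) (x : MS n N) : |σO r x| ≤ 1 := by
  exact (abs_spinVec _ _).le
theorem abs_sO {n : ℕ} (i : Fin N) (x : MS n N) : |sO i x| ≤ √N := by
  exact abs_sv_le _ _ _
theorem sum_sO_sq {n : ℕ} (x : MS n N) : ∑ i, sO i x ^ 2 = N := by
  exact sum_sv_sq _ _
theorem gr_σO (r : Fin N) : (mT X N).Gr (σO r) := by
  exact Tower.Gr.of_bdd (measurable_σO r) (abs_σO r)
theorem gr_sO (i : Fin N) : (mT X N).Gr (sO i) := by
  exact Tower.Gr.of_bdd (measurable_sO i) (abs_sO i)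
theorem measurable_Ham {n : ℕ} (p : Par N) : Measurable (Ham (n := n) p) := by
  unfold Ham
  refine ((((Measurable.const_mul ?_ _).add ?_).add ?_).add ?_).add (m1_meas_spin p.f)
  · exact Finset.measurable_sum _ fun i _ => ((measurable_sO i).pow_const 2).const_mul _
  · exact Finset.measurable_sum _ fun l _ => Finset.measurable_sum _ fun r _ =>
      ((m1_meas_coord _).mul (measurable_σO r)).const_mul _
  · exact Finset.measurable_sum _ fun l _ => Finset.measurable_sum _ fun r _ =>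
      ((m1_meas_coord _).mul (measurable_sO r)).const_mul _
  · exact Finset.measurable_sum _ fun l _ => Finset.measurable_sum _ fun r _ =>
      ((m1_meas_coord _).mul (measurable_σO r)).const_mul _
theorem m1_lg_spin (f : (Fin N → Bool) → ℝ) : (mT X N).LG (fun x => f x.2.2) :=
  Tower.LG.of_bdd (m1_meas_spin f) (C := ∑ σ, |f σ|) fun x =>
    Finset.single_le_sum (f := fun σ => |f σ|) (fun _ _ => abs_nonneg _) (Finset.mem_univ _)

theorem m1_lg_coord (q : MI X.n N) : (mT X N).LG (fun x => x.2.1 q) := lg_coord q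

theorem m1_sq_le {n : ℕ} (i : Fin N) (x : MS n N) : sO i x ^ 2 ≤ N := by
  rw [← sum_sO_sq x]
  exact Finset.single_le_sum (f := fun i => sO i x ^ 2) (fun _ _ => sq_nonneg _)
    (Finset.mem_univ _)

theorem m1_lg_sq (i : Fin N) : (mT X N).LG (fun x => sO i x ^ 2) :=
  Tower.LG.of_bdd ((measurable_sO i).pow_const 2) (C := N) fun x => by
    rw [abs_of_nonneg (sq_nonneg _)]
    exact m1_sq_le i x

theorem lg_Ham (p : Par N) : (mT X N).LG (Ham p) := by
  unfold Ham
  refine ((((Tower.LG.const_mul ?_ _).add ?_).add ?_).add ?_).add (m1_lg_spin p.f)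
  · exact Tower.LG.sum _ fun i _ => (m1_lg_sq i).const_mul _
  · exact Tower.LG.sum _ fun l _ => Tower.LG.sum _ fun r _ =>
      ((m1_lg_coord _).mul_bdd (measurable_σO r) (abs_σO r)).const_mul _
  · exact Tower.LG.sum _ fun l _ => Tower.LG.sum _ fun r _ =>
      ((m1_lg_coord _).mul_bdd (measurable_sO r) (abs_sO r)).const_mul _
  · exact Tower.LG.sum _ fun l _ => Tower.LG.sum _ fun r _ =>
      ((m1_lg_coord _).mul_bdd (measurable_σO r) (abs_σO r)).const_mul _
theorem lg_spin (f : (Fin N → Bool) → ℝ) : (mT X N).LG (fun x => f x.2.2) := by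
  exact m1_lg_spin f
theorem lg_Yd {k J : ℕ} (blk : Fin N → Fin (k + 1)) (lab : Fin N → Fin J) (mag : Fin J → ℝ)
    (d : PI X.n k J) : (mT X N).LG (Yd blk lab mag d) := by
  rcases d with b | q | j
  · exact (Tower.LG.sum _ fun i _ => m1_lg_sq i).const_mul _
  · exact Tower.LG.sum _ fun i _ => (m1_lg_coord _).mul_bdd (measurable_sO i) (abs_sO i)
  · exact m1_lg_spin (yv lab mag j)

theorem m1_pd_field {n : ℕ} (q : MI n N) (c : Fin 3) (a : ℕ → Fin N → ℝ)
    {s : Fin N → MS n N → ℝ} (hs : ∀ r, Inv q (s r)) :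
    PD q (fun x : MS n N => ∑ l : Fin n, ∑ r, a (l + 1) r * (x.2.1 (c, l, r) * s r x))
      (fun x => ∑ l : Fin n, ∑ r, a (l + 1) r * ((if (c, l, r) = q then 1 else 0) * s r x)) :=
  PD.g3_sum _ fun l _ => PD.g3_sum _ fun r _ =>
    ((g3_pd_coord q (c, l, r)).g3_mul_inv (hs r)).g3_const_mul _

theorem m1_pd {n : ℕ} (p : Par N) (q : MI n N) :
    PD q (Ham p) (fun x => 0 +
      (∑ l : Fin n, ∑ r, p.th (l + 1) r * ((if (0, l, r) = q then 1 else 0) * σO r x)) +
      (∑ l : Fin n, ∑ r, p.vt (l + 1) r * ((if (1, l, r) = q then 1 else 0) * sO r x)) +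
      (∑ l : Fin n, ∑ r, p.tx (l + 1) r * ((if (2, l, r) = q then 1 else 0) * σO r x)) + 0) := by
  have h1 : Inv q (fun x : MS n N => (1 / 2) * (∑ i, p.lam i * sO i x ^ 2)) := fun _ _ => rfl
  have h2 : Inv q (fun x : MS n N => p.f x.2.2) := fun _ _ => rfl
  exact (((h1.g3_pd.g3_add (m1_pd_field q 0 p.th fun r _ _ => rfl)).g3_add
    (m1_pd_field q 1 p.vt fun r _ _ => rfl)).g3_add
    (m1_pd_field q 2 p.tx fun r _ _ => rfl)).g3_add h2.g3_pd

theorem pd_Ham0 {n : ℕ} (p : Par N) (l : Fin n) (r : Fin N) :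
    PD ((0, l, r) : MI n N) (Ham p) (fun x => p.th (l + 1) r * σO r x) := by
  refine (m1_pd p _).g3_congr fun x => ?_
  simp only [Prod.mk.injEq, ite_and]
  simp [Finset.sum_ite_eq', Finset.sum_ite_irrel]
theorem pd_Ham1 {n : ℕ} (p : Par N) (l : Fin n) (i : Fin N) :
    PD ((1, l, i) : MI n N) (Ham p) (fun x => p.vt (l + 1) i * sO i x) := by
  refine (m1_pd p _).g3_congr fun x => ?_
  simp only [Prod.mk.injEq, ite_and]
  simp [Finset.sum_ite_eq', Finset.sum_ite_irrel]
theorem pd_Ham2 {n : ℕ} (p : Par N) (l : Fin n) (r : Fin N) :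
    PD ((2, l, r) : MI n N) (Ham p) (fun x => p.tx (l + 1) r * σO r x) := by
  refine (m1_pd p _).g3_congr fun x => ?_
  simp only [Prod.mk.injEq, ite_and]
  simp [Finset.sum_ite_eq', Finset.sum_ite_irrel]

/-- the matrix is known after level `0` -/
theorem E_sO (p : Par N) {r : ℕ} (hr : 1 ≤ r) (i : Fin N) (x : MS X.n N) :
    (mT X N).E (Ham p) r (sO i) x =
      x.1.1.mulVec (fun j => (mT X N).E (Ham p) r (σO j) x) i := by
  have e : sO (n := X.n) i = fun x => ∑ j, x.1.1 i j * σO j x := funext fun x => m1_sO_eq i x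
  rw [e, Tower.E_sum _ (lg_Ham p)]
  · simp only [Matrix.mulVec, dotProduct]
    refine Finset.sum_congr rfl fun j _ => ?_
    exact Tower.E_mul_dep (lg_Ham p).ub (m1_meas_entry i j)
      (dep_fst (fun U : Orth N => U.1 i j) hr) x
  · intro j _
    refine (Tower.Gr.of_bdd (m1_meas_entry i j) (C := 1) fun x => ?_).mul (gr_σO j)
    have h := orth_row x.1 i i
    rw [if_pos rfl] at h
    have h2 : x.1.1 i j * x.1.1 i j ≤ 1 := h ▸
      Finset.single_le_sum (f := fun j => x.1.1 i j * x.1.1 i j)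
        (fun _ _ => mul_self_nonneg _) (Finset.mem_univ j)
    exact abs_le_one_iff_mul_self_le_one.2 h2

theorem ov_univ (p : Par N) {r : ℕ} (hr : 1 ≤ r) :
    p.ov X Finset.univ r = p.ovσ X Finset.univ r := by
  unfold Par.ov Par.ovσ Tower.ov
  refine integral_congr_ae (ae_of_all _ fun x => ?_)
  simp only [E_sO p hr, sq]
  exact orth_inner _ _ _
theorem sum_ov_fib {β : Type} [Fintype β] [DecidableEq β] (p : Par N) (blk : Fin N → β) (r : ℕ) :
    ∑ b, p.ov X (fib blk b) r = p.ov X Finset.univ r := by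
  unfold Par.ov Tower.ov
  rw [← integral_finsetSum]
  · refine integral_congr_ae (ae_of_all _ fun x => ?_)
    exact Finset.sum_fiberwise Finset.univ blk _
  · intro b _
    exact Tower.Gr.integrable_PP (lg_Ham p) (Tower.Gr.sum _ fun i _ =>
      (Tower.Gr.E (lg_Ham p) (gr_sO i) r).pow 2)
theorem ovσ_univ_eq_sum (p : Par N) (a : ℕ) :
    p.ovσ X Finset.univ a = ∑ r, p.ovσ X {r} a := by
  unfold Par.ovσ Tower.ov
  simp only [Finset.sum_singleton]
  rw [integral_finsetSum]
  intro i _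
  exact Tower.Gr.integrable_PP (lg_Ham p) ((Tower.Gr.E (lg_Ham p) (gr_σO i) a).pow 2)
theorem ov_univ_top (p : Par N) : p.ov X Finset.univ (X.n + 2) = N := by
  unfold Par.ov
  rw [Tower.ov_of_ge (T := mT X N) (r := X.n + 2) _ _ (fun i _ => measurable_sO i) le_rfl]
  simp only [sum_sO_sq]
  simp
theorem ov_le (p : Par N) (J : Finset (Fin N)) (r : ℕ) : p.ov X J r ≤ N := by
  refine (Tower.ov_mono J (lg_Ham p) (fun i _ => gr_sO i) (le_max_left r (X.n + 2))).trans ?_
  rw [Tower.ov_of_ge (T := mT X N) (r := max r (X.n + 2)) _ _ (fun i _ => measurable_sO i)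
    (le_max_right _ _)]
  have h : ∫ x, ∑ i ∈ J, sO i x ^ 2 ∂((mT X N).PP (Ham p)) ≤
      ∫ x, (N : ℝ) ∂((mT X N).PP (Ham p)) := by
    refine integral_mono (Tower.Gr.integrable_PP (lg_Ham p)
      (Tower.Gr.sum _ fun i _ => (gr_sO i).pow 2)) (integrable_const _) fun x => ?_
    beta_reduce
    rw [← sum_sO_sq x]
    exact Finset.sum_le_sum_of_subset_of_nonneg (Finset.subset_univ _) fun _ _ _ => sq_nonneg _
  simpa using h
theorem ovσ_le (p : Par N) (r : ℕ) : p.ovσ X Finset.univ r ≤ N := by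
  refine (Tower.ov_mono _ (lg_Ham p) (fun i _ => gr_σO i) (le_max_left r (X.n + 2))).trans ?_
  rw [Tower.ov_of_ge (T := mT X N) (r := max r (X.n + 2)) _ _ (fun i _ => measurable_σO i)
    (le_max_right _ _)]
  simp only [σO_sq]
  simp

theorem Q_seq (p : Par N) {J : Finset (Fin N)} {ρ : ℝ} (hJ : J.Nonempty)
    (h : (N : ℝ) ≤ ρ * J.card) : X.Seq (p.Q X J) ρ := by
  have hc : (0 : ℝ) < J.card := Nat.cast_pos.2 hJ.card_pos
  have hm := Tower.ov_mono J (lg_Ham (X := X) p) (fun i _ => gr_sO i)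
  have hn := X.n_pos
  refine ⟨by simp [Par.Q], fun l h1 h2 => ?_, ?_⟩
  · unfold Par.Q
    rw [if_neg (show ¬ l + 1 ≤ 1 by omega)]
    split_ifs with a b c
    · exact div_nonneg (Tower.ov_nonneg _ _ _ _) hc.le
    · exact div_nonneg (Tower.ov_nonneg _ _ _ _) hc.le
    · exact div_le_div_of_nonneg_right (hm (Nat.le_succ l)) hc.le
    · exact div_le_div_of_nonneg_right (hm (by omega)) hc.le
  · unfold Par.Q
    rw [if_neg (by omega), if_neg (by omega), div_le_iff₀ hc]
    exact (ov_le p J _).trans h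

theorem sum_Q_fib {β : Type} [Fintype β] [DecidableEq β] (p : Par N) (blk : Fin N → β)
    (hN : 0 < N) (r : ℕ) :
    ∑ b, ((fib blk b).card : ℝ) / N * p.Q X (fib blk b) r = p.Q X Finset.univ r := by
  have key : ∀ a, ∑ b, ((fib blk b).card : ℝ) / N * (p.ov X (fib blk b) a / (fib blk b).card) =
      p.ov X Finset.univ a / (Finset.univ : Finset (Fin N)).card := by
    intro a
    rw [← sum_ov_fib p blk a, Finset.card_univ, Fintype.card_fin, Finset.sum_div]
    refine Finset.sum_congr rfl fun b _ => ?_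
    rcases (fib blk b).eq_empty_or_nonempty with h | h
    · rw [h]
      simp [Par.ov, Tower.ov]
    · have hc : ((fib blk b).card : ℝ) ≠ 0 := Nat.cast_ne_zero.2 h.card_pos.ne'
      field_simp
  unfold Par.Q
  split_ifs
  · simp
  · exact key _
  · exact key _
theorem Q_univ_top (p : Par N) (hN : 0 < N) : p.Q X Finset.univ (X.n + 1) = 1 := by
  have hn := X.n_pos
  unfold Par.Q
  rw [if_neg (by omega), if_neg (by omega), ov_univ_top, Finset.card_univ, Fintype.card_fin]
  exact div_self (Nat.cast_ne_zero.2 hN.ne')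
theorem tau_Q_univ (p : Par N) {l : ℕ} (hl : 1 ≤ l) :
    X.tau (p.Q X Finset.univ) l = X.tau (p.ovσ X Finset.univ) l / N := by
  unfold Expo.tau
  rw [Finset.sum_div]
  refine Finset.sum_congr rfl fun r hr => ?_
  rw [Finset.mem_Icc] at hr
  unfold Par.Q
  rw [if_neg (by omega), if_pos hr.2, ov_univ p (by omega), Finset.card_univ, Fintype.card_fin,
    mul_div_assoc]

theorem ErrQ_nonneg (p : Par N) (J : Finset (Fin N)) (Q : ℕ → ℝ) : 0 ≤ p.ErrQ X J Q := by
  exact add_nonneg (Tower.Err2_nonneg _ _ _ _ _)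
    (X.g3_tau_nonneg _ fun r => Tower.Err2_nonneg _ _ _ _ _)
theorem ErrQ_le (p : Par N) (J : Finset (Fin N)) (Q Q' : ℕ → ℝ) {D : ℝ}
    (h : ∀ r, 2 ≤ r → r ≤ X.n + 1 → |J.card * Q r - J.card * Q' r| ≤ D) :
    p.ErrQ X J Q ≤ p.ErrQ X J Q' + 2 * D := by
  have hn := X.n_pos
  have key : ∀ r c c', p.Err2 X J r c ≤ p.Err2 X J r c' + |c - c'| := fun r c c' =>
    Tower.Err2_le_add _ J (fun i _ => measurable_sO i) (fun i _ => abs_sO i) r c c'
  have h0 := h (X.n + 1) (by omega) le_rfl
  have hD : 0 ≤ D := (abs_nonneg _).trans h0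
  have h1 := key (X.n + 2) (J.card * Q (X.n + 1)) (J.card * Q' (X.n + 1))
  have h2 := X.g3_tau_le (Q := fun r => p.Err2 X J r (J.card * Q r) - p.Err2 X J r (J.card * Q' r))
    (c := D) (l := 1) hn fun r h1 h2 => by
      have := key r (J.card * Q r) (J.card * Q' r)
      have := h r (by omega) (by omega)
      linarith
  rw [X.g3_tau_sub] at h2
  have h3 : (1 - X.e 1) * D ≤ D := by
    have := X.e_pos 1
    nlinarith
  unfold Par.ErrQ
  linarith

/-- the mean of the site field term (`ibp_PP`) -/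
theorem integral_siteField (p : Par N) (l : Fin X.n) {θ : ℝ} (h : ∀ r, p.th (l + 1) r = θ) :
    ∫ x, ∑ r, x.2.1 (0, l, r) * σO r x ∂(p.PP X) =
      θ * (N - X.tau (p.ovσ X Finset.univ) (l + 1)) := by
  have key : ∀ r : Fin N, ∫ x, x.2.1 (0, l, r) * σO r x ∂(p.PP X) =
      θ * (1 - X.tau (p.ovσ X {r}) (l + 1)) := by
    intro r
    have h1 := ibp_PP (X := X) (P := haar N) (lev := mlev) (A := Fin N → Bool)
      ((0, l, r) : MI X.n N) (lg_Ham p) ((gr_σO r).const_mul (p.th (l + 1) r)) (pd_Ham0 p l r)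
      (gr_σO r) (Tower.Gr.const 0) (Inv.g3_pd fun _ _ => rfl)
    refine h1.trans ?_
    have e1 : ∀ y : MS X.n N, (0 : ℝ) + σO r y * (p.th (l + 1) r * σO r y) = θ := by
      intro y
      have := σO_sq r y
      rw [h r]
      linear_combination θ * this
    have e2 : ∀ a, ∫ y, (mT X N).E (Ham p) a (σO r) y *
        (mT X N).E (Ham p) a (fun x => p.th (l + 1) r * σO r x) y ∂((mT X N).PP (Ham p)) =
        θ * p.ovσ X {r} a := by
      intro a
      unfold Par.ovσ Tower.ov
      rw [← integral_const_mul]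
      refine integral_congr_ae (ae_of_all _ fun y => ?_)
      simp only [Tower.E_const_mul, Finset.sum_singleton, h r]
      ring
    change ∫ y, ((0 : ℝ) + σO r y * (p.th (l + 1) r * σO r y)) ∂((mT X N).PP (Ham p)) -
      X.tau (fun a => ∫ y, (mT X N).E (Ham p) a (σO r) y *
        (mT X N).E (Ham p) a (fun x => p.th (l + 1) r * σO r x) y ∂((mT X N).PP (Ham p)))
        (l + 1) = _
    simp only [e1, e2, X.g3_tau_mul]
    simp only [integral_const, probReal_univ, smul_eq_mul]
    ring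
  rw [integral_finsetSum]
  · simp only [key]
    have e : p.ovσ X Finset.univ = fun a => ∑ r, p.ovσ X {r} a := funext (ovσ_univ_eq_sum p)
    rw [e, X.g3_tau_sum, ← Finset.mul_sum, Finset.sum_sub_distrib]
    simp
  · intro r _
    exact Tower.Gr.integrable_PP (lg_Ham p) ((m1_lg_coord _).gr.mul (gr_σO r))

/-! ### the perturbed systems -/

section Sys
variable (S : Spec) {n J : ℕ} (t : ℝ) (θ : ℕ → ℝ) (blk : Fin N → Fin (S.k + 1))
  (lab : Fin N → Fin J) (mag : Fin J → ℝ) (Kp : ℝ) (f0 : (Fin N → Bool) → ℝ)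
  (tx : ℕ → Fin N → ℝ) (π' : PI n S.k J → ℝ)

theorem m1_vtOf {k : ℕ} (π'' : PI n k J → ℝ) (l : Fin n) (b : Fin (k + 1)) :
    vtOf π'' (l + 1) b = π'' (Sum.inr (Sum.inl (l, b))) := by
  unfold vtOf
  rw [dif_pos ⟨by omega, by omega⟩]
  rfl

theorem Ham_sys_update (d : PI n S.k J) (δ : ℝ) (x : MS n N) :
    Ham (sys S t θ blk lab mag Kp f0 tx (Function.update π' d (π' d + δ))) x =
      Ham (sys S t θ blk lab mag Kp f0 tx π') x + δ * Yd blk lab mag d x := by
  have hu : ∀ d', Function.update π' d (π' d + δ) d' = π' d' + if d' = d then δ else 0 := by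
    intro d'
    by_cases e : d' = d
    · subst e; simp
    · simp [e]
  simp only [Ham, sys, m1_vtOf, hu]
  rcases d with b | q | j
  · simp only [Yd, fib, Finset.sum_filter, Sum.inl.injEq, reduceCtorEq, if_false, add_zero]
    have e : ∑ i, (t * S.lam (blk i) + (π' (Sum.inl (blk i)) + if blk i = b then δ else 0)) *
        sO i x ^ 2 = ∑ i, (t * S.lam (blk i) + π' (Sum.inl (blk i))) * sO i x ^ 2 +
        δ * ∑ i, if blk i = b then sO i x ^ 2 else 0 := by
      rw [Finset.mul_sum, ← Finset.sum_add_distrib]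
      refine Finset.sum_congr rfl fun i _ => ?_
      split_ifs <;> ring
    rw [e]
    ring
  · obtain ⟨l0, b⟩ := q
    simp only [Yd, fib, Finset.sum_filter, Sum.inr.injEq, Sum.inl.injEq, reduceCtorEq, if_false,
      add_zero, Prod.mk.injEq]
    have e : ∑ l : Fin n, ∑ i, (π' (Sum.inr (Sum.inl (l, blk i))) +
        if l = l0 ∧ blk i = b then δ else 0) * (x.2.1 (1, l, i) * sO i x) =
        ∑ l : Fin n, ∑ i, π' (Sum.inr (Sum.inl (l, blk i))) * (x.2.1 (1, l, i) * sO i x) +
        δ * ∑ i, if blk i = b then x.2.1 (1, l0, i) * sO i x else 0 := by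
      simp only [add_mul, Finset.sum_add_distrib, add_right_inj]
      rw [Finset.sum_eq_single l0]
      · rw [Finset.mul_sum]
        refine Finset.sum_congr rfl fun i _ => ?_
        by_cases hb : blk i = b <;> simp [hb]
      · intro l _ hl
        simp [hl]
      · simp
    rw [e]
    ring
  · simp only [Yd, Sum.inr.injEq, reduceCtorEq, if_false, add_zero]
    have e : ∑ j', ((π' (Sum.inr (Sum.inr j')) + if j' = j then δ else 0) * yv lab mag j' x.2.2 -
        Kp * yv lab mag j' x.2.2 ^ 2) =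
        ∑ j', (π' (Sum.inr (Sum.inr j')) * yv lab mag j' x.2.2 - Kp * yv lab mag j' x.2.2 ^ 2) +
        δ * yv lab mag j x.2.2 := by
      have e' : δ * yv lab mag j x.2.2 = ∑ j', if j' = j then δ * yv lab mag j' x.2.2 else 0 := by
        simp
      rw [e', ← Finset.sum_add_distrib]
      refine Finset.sum_congr rfl fun j' _ => ?_
      split_ifs <;> ring
    rw [e]
    ring

theorem Ham_sys_t (δ : ℝ) (x : MS n N) :
    Ham (sys S (t + δ) θ blk lab mag Kp f0 tx π') x = Ham (sys S t θ blk lab mag Kp f0 tx π') x +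
      δ * ((1 / 2) * ∑ i, S.lam (blk i) * sO i x ^ 2) := by
  simp only [Ham, sys]
  have e : ∑ i, ((t + δ) * S.lam (blk i) + π' (Sum.inl (blk i))) * sO i x ^ 2 =
      ∑ i, (t * S.lam (blk i) + π' (Sum.inl (blk i))) * sO i x ^ 2 +
      δ * ∑ i, S.lam (blk i) * sO i x ^ 2 := by
    rw [Finset.mul_sum, ← Finset.sum_add_distrib]
    refine Finset.sum_congr rfl fun i _ => ?_
    ring
  rw [e]
  ring

theorem Ham_sys_θ (l : Fin n) (δ : ℝ) (x : MS n N) :
    Ham (sys S t (Function.update θ (l + 1) (θ (l + 1) + δ)) blk lab mag Kp f0 tx π') x =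
      Ham (sys S t θ blk lab mag Kp f0 tx π') x + δ * ∑ r, x.2.1 (0, l, r) * σO r x := by
  simp only [Ham, sys]
  have hu : ∀ l' : Fin n, Function.update θ (l + 1) (θ (l + 1) + δ) (l' + 1) =
      θ (l' + 1) + if l' = l then δ else 0 := by
    intro l'
    by_cases e : l' = l
    · subst e; simp
    · have e' : (l' : ℕ) + 1 ≠ l + 1 := fun c => e (Fin.ext (by omega))
      simp [e, Function.update_of_ne e']
  have e : ∑ l' : Fin n, ∑ r, Function.update θ (l + 1) (θ (l + 1) + δ) (l' + 1) *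
      (x.2.1 (0, l', r) * σO r x) = ∑ l' : Fin n, ∑ r, θ (l' + 1) * (x.2.1 (0, l', r) * σO r x) +
      δ * ∑ r, x.2.1 (0, l, r) * σO r x := by
    simp only [hu, add_mul, Finset.sum_add_distrib, add_right_inj]
    rw [Finset.sum_eq_single l]
    · simp [Finset.mul_sum]
    · intro l' _ hl
      simp [hl]
    · simp
  rw [e]
  ring

theorem abs_yv_le (hm : ∀ j, |mag j| ≤ 1) (j : Fin J) (σ : Fin N → Bool) :
    |yv lab mag j σ| ≤ 2 * (fib lab j).card := by
  unfold yv
  refine (Finset.abs_sum_le_sum_abs _ _).trans ?_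
  refine (Finset.sum_le_card_nsmul _ _ 2 fun r _ => ?_).trans ?_
  · have h1 := abs_spinVec σ r
    have h2 := hm j
    have h3 := abs_sub (spinVec σ r) (mag j)
    linarith
  · rw [nsmul_eq_mul, mul_comm]
theorem sum_abs_yv_le (hm : ∀ j, |mag j| ≤ 1) (σ : Fin N → Bool) :
    ∑ j, |yv lab mag j σ| ≤ 2 * N := by
  refine (Finset.sum_le_sum fun j _ => abs_yv_le lab mag hm j σ).trans ?_
  rw [← Finset.mul_sum]
  have h := Finset.card_eq_sum_card_fiberwise (f := lab) (s := Finset.univ) (t := Finset.univ)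
    (fun _ _ => Finset.mem_coe.2 (Finset.mem_univ _))
  rw [Finset.card_univ, Fintype.card_fin] at h
  have h' : (N : ℝ) = ∑ j, ((fib lab j).card : ℝ) := by
    conv_lhs => rw [h]
    push_cast
    rfl
  rw [← h']

end Sys

end Crest.Agent.R164
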