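import Crest.Agent.R164.O1Aux

/-! # One-site recursion: elementary properties -/

set_option autoImplicit false
set_option linter.unusedVariables false
set_option linter.unusedSectionVars false

open MeasureTheory ProbabilityTheory Real Crest.ProbabilityR.InvariantGlass
open scoped ENNReal

namespace Crest.Agent.R164

/-- `1`-Lipschitz functions -/
def Lip1 (g : ℝ → ℝ) : Prop := ∀ x y, |g x - g y| ≤ |x - y|

theorem Lip1.continuous {g : ℝ → ℝ} (h : Lip1 g) : Continuous g := by
  refine (LipschitzWith.of_dist_le_mul (K := 1) fun x y => ?_).continuous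
  simpa [Real.dist_eq] using h x y

theorem Lip1.o1g {g : ℝ → ℝ} (h : Lip1 g) (x s : ℝ) : O1G fun z => g (x + s * z) := by
  have hc := h.continuous
  refine ⟨by fun_prop, |g x| + |s|, fun z => ?_⟩
  have h1 := h (x + s * z) x
  rw [add_sub_cancel_left, abs_mul] at h1
  have h2 := abs_sub_abs_le_abs_sub (g (x + s * z)) (g x)
  nlinarith [abs_nonneg (g x), abs_nonneg s, abs_nonneg z, mul_nonneg (abs_nonneg (g x)) (abs_nonneg z)]

theorem Lip1.add_const {g : ℝ → ℝ} (h : Lip1 g) (c : ℝ) : Lip1 fun y => g y + c := fun x y => by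
  simpa using h x y

theorem lip1_logcosh : Lip1 fun z => log (cosh z) := fun x y => by
  have h1 := o1_logcosh_le x y
  have h2 := o1_logcosh_le y x
  rw [abs_sub_comm] at h2
  exact abs_sub_le_iff.2 ⟨by linarith, by linarith⟩

theorem Lip1.integrable_exp {g : ℝ → ℝ} (h : Lip1 g) (e v x : ℝ) :
    Integrable (fun z => exp (e * g (x + √v * z))) (gaussianReal 0 1) := by
  exact (h.o1g x √v).int_exp e

theorem Lip1.o1_int_map {g : ℝ → ℝ} (h : Lip1 g) (e v x : ℝ) :
    Integrable (fun y => exp (e * g y)) ((gaussianReal 0 1).map fun z => x + √v * z) := by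
  have hc := h.continuous
  exact (integrable_map_measure (by fun_prop) (by fun_prop)).2 (h.integrable_exp e v x)

theorem Lip1.prob {g : ℝ → ℝ} (h : Lip1 g) (e v x : ℝ) : IsProbabilityMeasure (tm e v g x) := by
  have : IsProbabilityMeasure ((gaussianReal 0 1).map fun z => x + √v * z) :=
    Measure.isProbabilityMeasure_map (by fun_prop)
  exact isProbabilityMeasure_tilted (h.o1_int_map e v x)

theorem integral_tm {g φ : ℝ → ℝ} (h : Lip1 g) (hφ : Measurable φ) (e v x : ℝ) :
    ∫ y, φ y ∂(tm e v g x) =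
      (∫ z, φ (x + √v * z) * exp (e * g (x + √v * z)) ∂(gaussianReal 0 1)) /
        ∫ z, exp (e * g (x + √v * z)) ∂(gaussianReal 0 1) := by
  have hc := h.continuous
  rw [tm, integral_tilted, integral_map (by fun_prop) (by fun_prop),
    integral_map (by fun_prop) (by fun_prop), ← integral_div]
  refine integral_congr_ae (Filter.Eventually.of_forall fun z => ?_)
  simp only [smul_eq_mul]
  ring

/-- functions of exponential growth are integrable for the tilted law -/
theorem Lip1.integrable_tm {g φ : ℝ → ℝ} (h : Lip1 g) (hφ : Measurable φ) {C : ℝ}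
    (hb : ∀ y, |φ y| ≤ C * exp (C * |y|)) (e v x : ℝ) : Integrable φ (tm e v g x) := by
  have hc := h.continuous
  rw [tm, integrable_tilted_iff (h.o1_int_map e v x)]
  refine (integrable_map_measure (by fun_prop) (by fun_prop)).2 ?_
  obtain ⟨D, hD⟩ := (h.o1g x √v).exp_le e
  have hC : 0 ≤ C := by simpa using (abs_nonneg _).trans (hb 0)
  refine o1_int_of_le (by fun_prop) (A := exp D * (C * exp (C * |x|))) (C := D + C * √v) fun z => ?_
  simp only [Function.comp_apply, smul_eq_mul]
  rw [abs_mul, abs_of_pos (exp_pos _)]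
  have h1 : |φ (x + √v * z)| ≤ C * (exp (C * |x|) * exp (C * √v * |z|)) := by
    refine (hb _).trans (mul_le_mul_of_nonneg_left ?_ hC)
    rw [← exp_add, mul_assoc, ← mul_add]
    refine exp_le_exp.2 (mul_le_mul_of_nonneg_left ((abs_add_le _ _).trans_eq ?_) hC)
    rw [abs_mul, abs_of_nonneg (sqrt_nonneg v)]
  refine (mul_le_mul (hD z) h1 (abs_nonneg _) (by positivity)).trans_eq ?_
  rw [add_mul, exp_add]
  ring

theorem tm_zero {g : ℝ → ℝ} (e x : ℝ) : tm e 0 g x = Measure.dirac x := by
  have h1 : (fun z : ℝ => x + √0 * z) = fun _ => x := by ext z; simp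
  rw [tm, h1, Measure.map_const, measure_univ, one_smul, tilted_congr (ae_eq_dirac _)]
  exact tilted_const _ _

theorem gaussOp_zero {g : ℝ → ℝ} (e : ℝ) : gaussOp e 0 g = g := by
  ext x
  have h1 : (fun z : ℝ => g (x + √0 * z)) = fun _ => g x := by ext z; simp
  rw [gaussOp_eq_lme, h1, lme_const]

theorem Lip1.gaussOp {g : ℝ → ℝ} (h : Lip1 g) {e : ℝ} (he : 0 ≤ e) (v : ℝ) :
    Lip1 (gaussOp e v g) := by
  have key : ∀ x y, Crest.ProbabilityR.InvariantGlass.gaussOp e v g x ≤
      Crest.ProbabilityR.InvariantGlass.gaussOp e v g y + |x - y| := by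
    intro x y
    rw [gaussOp_eq_lme, gaussOp_eq_lme, ← lme_add_const (h.o1g y √v)]
    refine lme_mono (h.o1g x √v) ((h.o1g y √v).add (o1g_const _)) (fun z => ?_) he
    have h1 := (abs_le.1 (h (x + √v * z) (y + √v * z))).2
    rw [add_sub_add_right_eq_sub] at h1
    linarith
  intro x y
  have h1 := key x y
  have h2 := key y x
  rw [abs_sub_comm] at h2
  exact abs_sub_le_iff.2 ⟨by linarith, by linarith⟩

theorem gaussOp_mono {g g' : ℝ → ℝ} (h : Lip1 g) (h' : Lip1 g') (hle : ∀ x, g x ≤ g' x)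
    {e e' : ℝ} (he : 0 ≤ e) (hee : e ≤ e') (v x : ℝ) : gaussOp e v g x ≤ gaussOp e' v g' x := by
  exact (lme_mono (h.o1g x √v) (h'.o1g x √v) (fun z => hle _) he).trans
    (lme_mono_exp (h'.o1g x √v) he hee)

theorem gaussOp_add_const {g : ℝ → ℝ} (h : Lip1 g) (e v c x : ℝ) :
    gaussOp e v (fun y => g y + c) x = gaussOp e v g x + c := by
  exact lme_add_const (h.o1g x √v) e c

/-- for convex `g`, `s ↦ F (x + s z) + F (x - s z)` is nondecreasing on `s ≥ 0`
(`F = exp (e g)` or `g`), and the Gaussian law is symmetric -/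
theorem gaussOp_mono_var {g : ℝ → ℝ} (h : Lip1 g) (hc : ConvexOn ℝ Set.univ g) {e v v' : ℝ}
    (he : 0 ≤ e) (hv : v ≤ v') (x : ℝ) : gaussOp e v g x ≤ gaussOp e v' g x := by
  have hs := sqrt_le_sqrt hv
  have hs0 := sqrt_nonneg v
  rw [gaussOp_eq_lme, gaussOp_eq_lme]
  generalize √v = s at hs hs0 ⊢
  generalize √v' = s' at hs ⊢
  rcases hs.eq_or_lt with rfl | hlt
  · exact le_rfl
  have hs' : 0 < s' := hs0.trans_lt hlt
  have h1 : s / s' ≤ 1 := (div_le_one hs').2 hs
  have h0 : 0 ≤ s / s' := by positivity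
  have ha : 0 ≤ (1 + s / s') / 2 := by linarith
  have hb : 0 ≤ (1 - s / s') / 2 := by linarith
  have hab : (1 + s / s') / 2 + (1 - s / s') / 2 = 1 := by ring
  have h2 := lme_convex (h.o1g x s') (h.o1g x (-s')) he ha hb hab
  have h3 : lme e (fun z => g (x + -s' * z)) = lme e fun z => g (x + s' * z) := by
    rw [← lme_neg e fun z => g (x + s' * z)]
    simp only [neg_mul, mul_neg]
  rw [h3, ← add_mul, hab, one_mul] at h2
  refine (lme_mono (h.o1g x s) (((h.o1g x s').const_mul _).add ((h.o1g x (-s')).const_mul _))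
    (fun z => ?_) he).trans h2
  have h4 := hc.2 (Set.mem_univ (x + s' * z)) (Set.mem_univ (x + -s' * z)) ha hb hab
  simp only [smul_eq_mul] at h4
  refine le_of_eq_of_le ?_ h4
  congr 1
  field_simp
  ring

theorem gaussOp_convex {g : ℝ → ℝ} (h : Lip1 g) (hc : ConvexOn ℝ Set.univ g) {e : ℝ} (he : 0 ≤ e)
    (v : ℝ) : ConvexOn ℝ Set.univ (gaussOp e v g) := by
  refine ⟨convex_univ, fun x _ y _ a b ha hb hab => ?_⟩
  simp only [smul_eq_mul, gaussOp_eq_lme]
  refine (lme_mono (h.o1g _ √v) (((h.o1g x √v).const_mul a).add ((h.o1g y √v).const_mul b))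
    (fun z => ?_) he).trans (lme_convex (h.o1g x √v) (h.o1g y √v) he ha hb hab)
  have h4 := hc.2 (Set.mem_univ (x + √v * z)) (Set.mem_univ (y + √v * z)) ha hb hab
  simp only [smul_eq_mul] at h4
  refine le_of_eq_of_le ?_ h4
  congr 1
  linear_combination (-(√v * z)) * hab

theorem gaussOp_lin {e v : ℝ} (hv : 0 ≤ v) (c x : ℝ) :
    gaussOp e v (fun y => c * y) x = c * x + e * c ^ 2 * v / 2 := by
  unfold gaussOp
  split_ifs with he
  · have hi : Integrable (fun z : ℝ => √v * z) (gaussianReal 0 1) :=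
      ((memLp_id_gaussianReal (μ := 0) (v := 1) 1).integrable (by simp)).const_mul _
    rw [integral_const_mul, integral_add (integrable_const _) hi, integral_const_mul,
      integral_id_gaussianReal, he]
    simp
  · have h1 : ∀ z : ℝ, exp (e * (c * (x + √v * z))) = exp (e * c * x) * exp (e * c * √v * z) :=
      fun z => by rw [← exp_add]; congr 1; ring
    simp only [h1]
    rw [integral_const_mul, o1_mgf, ← exp_add, log_exp, mul_pow, sq_sqrt hv]
    field_simp

theorem gaussOp_logcosh {v : ℝ} (hv : 0 ≤ v) (x : ℝ) :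
    gaussOp 1 v (fun z => log (cosh z)) x = log (cosh x) + v / 2 := by
  have h1 : ∀ z : ℝ, exp (1 * log (cosh (x + √v * z))) =
      exp x / 2 * exp (√v * z) + exp (-x) / 2 * exp (-√v * z) := fun z => by
    rw [one_mul, exp_log (cosh_pos _), cosh_eq, neg_add, exp_add, exp_add, neg_mul]
    ring
  rw [gaussOp, if_neg one_ne_zero]
  simp only [h1]
  rw [(o1_mgf2 _ _ _).2, ← add_div, ← cosh_eq, log_mul (cosh_pos _).ne' (exp_pos _).ne', log_exp,
    sq_sqrt hv, inv_one, one_mul]

theorem Lip1.abs_deriv_le {g : ℝ → ℝ} (h : Lip1 g) {d x : ℝ} (hd : HasDerivAt g d x) :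
    |d| ≤ 1 := by
  have := hd.le_of_lip' (C := 1) zero_le_one (Filter.Eventually.of_forall fun y => by
    simpa using h y x)
  simpa using this

theorem hasDerivAt_gaussOp {g M : ℝ → ℝ} (h : Lip1 g) (hd : ∀ x, HasDerivAt g (M x) x) {e : ℝ}
    (he : 0 ≤ e) (v x : ℝ) : HasDerivAt (gaussOp e v g) (∫ y, M y ∂(tm e v g x)) x := by
  have hc := h.continuous
  have hM : Measurable M := by
    have : M = deriv g := funext fun y => (hd y).deriv.symm
    rw [this]
    exact measurable_deriv g
  have hb : ∀ y, |M y| ≤ 1 := fun y => h.abs_deriv_le (hd y)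
  have hd' : ∀ y z, HasDerivAt (fun y => g (y + √v * z)) (M (y + √v * z)) y := fun y z =>
    (hd (y + √v * z)).comp_add_const y (√v * z)
  rw [integral_tm h hM]
  rcases he.eq_or_lt with rfl | he
  · have h1 := (hasDerivAt_integral_of_dominated_loc_of_deriv_le (μ := gaussianReal 0 1)
      (F := fun y z => g (y + √v * z)) (F' := fun y z => M (y + √v * z)) (x₀ := x)
      (bound := fun _ => 1) (s := Set.univ) Filter.univ_mem
      (Filter.Eventually.of_forall fun y => by fun_prop) (h.o1g x √v).int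
      (Measurable.aestronglyMeasurable (by fun_prop))
      (Filter.Eventually.of_forall fun z y _ => hb _) (integrable_const _)
      (Filter.Eventually.of_forall fun z y _ => hd' y z)).2
    have h2 : gaussOp 0 v g = fun y => ∫ z, g (y + √v * z) ∂(gaussianReal 0 1) :=
      funext fun y => if_pos rfl
    rw [h2]
    simpa using h1
  · have h1 := (hasDerivAt_integral_of_dominated_loc_of_deriv_le (μ := gaussianReal 0 1)
      (F := fun y z => exp (e * g (y + √v * z)))
      (F' := fun y z => exp (e * g (y + √v * z)) * (e * M (y + √v * z))) (x₀ := x)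
      (bound := fun z => e * exp e * exp (e * g (x + √v * z))) (s := Metric.ball x 1)
      (Metric.ball_mem_nhds x one_pos)
      (Filter.Eventually.of_forall fun y => by fun_prop) (h.integrable_exp e v x)
      (Measurable.aestronglyMeasurable (by fun_prop))
      (Filter.Eventually.of_forall fun z y hy => ?_) ((h.integrable_exp e v x).const_mul _)
      (Filter.Eventually.of_forall fun z y _ => ((hd' y z).const_mul e).exp)).2
    · have h2 : gaussOp e v g =
          fun y => e⁻¹ * log (∫ z, exp (e * g (y + √v * z)) ∂(gaussianReal 0 1)) :=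
        funext fun y => if_neg he.ne'
      rw [h2]
      refine ((h1.log (integral_exp_pos (h.integrable_exp e v x)).ne').const_mul e⁻¹).congr_deriv ?_
      rw [← mul_div_assoc, ← integral_const_mul]
      congr 2
      ext z
      field_simp
    · rw [Real.norm_eq_abs, abs_mul, abs_mul, abs_of_pos (exp_pos _), abs_of_pos he]
      have h3 := (abs_le.1 (h (y + √v * z) (x + √v * z))).2
      rw [add_sub_add_right_eq_sub] at h3
      have h4 : |y - x| < 1 := hy
      have h5 : exp (e * g (y + √v * z)) ≤ exp e * exp (e * g (x + √v * z)) := by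
        rw [← exp_add]
        exact exp_le_exp.2 (by nlinarith)
      calc _ ≤ exp e * exp (e * g (x + √v * z)) * (e * 1) :=
            mul_le_mul h5 (mul_le_mul_of_nonneg_left (hb _) he.le) (by positivity) (by positivity)
        _ = _ := by ring

theorem LOK.o1_tail {q : ℝ × ℝ} {L : List (ℝ × ℝ)} (h : LOK (q :: L)) : LOK L :=
  fun p hp => h p (List.mem_cons_of_mem _ hp)
theorem LOK.o1_head {q : ℝ × ℝ} {L : List (ℝ × ℝ)} (h : LOK (q :: L)) :
    0 ≤ q.1 ∧ q.1 ≤ 1 ∧ 0 ≤ q.2 := h q List.mem_cons_self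

theorem fL_lip {L : List (ℝ × ℝ)} (h : LOK L) : Lip1 (fL L) := by
  induction L with
  | nil => exact lip1_logcosh
  | cons q L ih => exact (ih h.o1_tail).gaussOp h.o1_head.1 _
theorem fL_convex {L : List (ℝ × ℝ)} (h : LOK L) : ConvexOn ℝ Set.univ (fL L) := by
  induction L with
  | nil => exact o1_logcosh_convex
  | cons q L ih => exact gaussOp_convex (fL_lip h.o1_tail) (ih h.o1_tail) h.o1_head.1 _
theorem fL_neg (L : List (ℝ × ℝ)) (x : ℝ) : fL L (-x) = fL L x := by
  induction L generalizing x with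
  | nil => simp [fL]
  | cons q L ih =>
    simp only [fL, gaussOp_eq_lme]
    rw [← lme_neg]
    congr 1
    ext z
    rw [← ih]
    congr 1
    ring
theorem fL_hasDerivAt {L : List (ℝ × ℝ)} (h : LOK L) (x : ℝ) : HasDerivAt (fL L) (ML L x) x := by
  induction L generalizing x with
  | nil => exact o1_logcosh_deriv x
  | cons q L ih => exact hasDerivAt_gaussOp (fL_lip h.o1_tail) (ih h.o1_tail) h.o1_head.1 _ _
theorem measurable_ML {L : List (ℝ × ℝ)} (h : LOK L) : Measurable (ML L) := by
  have : ML L = deriv (fL L) := funext fun y => (fL_hasDerivAt h y).deriv.symm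
  rw [this]
  exact measurable_deriv _
theorem abs_ML_lt {L : List (ℝ × ℝ)} (h : LOK L) (x : ℝ) : |ML L x| < 1 := by
  induction L generalizing x with
  | nil => exact abs_tanh_lt_one x
  | cons q L ih =>
    have := (fL_lip h.o1_tail).prob q.1 q.2 x
    have hm := measurable_ML h.o1_tail
    have hi : Integrable (fun y => |ML L y|) (tm q.1 q.2 (fL L) x) :=
      (integrable_const (1 : ℝ)).mono' (by fun_prop) (Filter.Eventually.of_forall fun y => by
        simpa using (ih h.o1_tail y).le)
    have h1 : 0 < ∫ y, 1 - |ML L y| ∂(tm q.1 q.2 (fL L) x) := by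
      rw [integral_pos_iff_support_of_nonneg (fun y => sub_nonneg.2 (ih h.o1_tail y).le)
        ((integrable_const _).sub hi)]
      have : Function.support (fun y => 1 - |ML L y|) = Set.univ :=
        Set.eq_univ_of_forall fun y => (sub_pos.2 (ih h.o1_tail y)).ne'
      rw [this, measure_univ]
      exact one_pos
    rw [integral_sub (integrable_const _) hi] at h1
    have h2 : |∫ y, ML L y ∂(tm q.1 q.2 (fL L) x)| ≤ ∫ y, |ML L y| ∂(tm q.1 q.2 (fL L) x) :=
      abs_integral_le_integral_abs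
    simp only [integral_const, probReal_univ, smul_eq_mul, mul_one] at h1
    exact h2.trans_lt (by linarith)

/-- compare with `|x| - log 2`, i.e. with `± x - log 2` -/
theorem fL_ge {L : List (ℝ × ℝ)} (h : LOK L) (x : ℝ) :
    |x| - log 2 + (L.map fun q => q.1 * q.2).sum / 2 ≤ fL L x := by
  have key : ∀ σ : ℝ, |σ| = 1 → ∀ x,
      σ * x + (-log 2 + (L.map fun q => q.1 * q.2).sum / 2) ≤ fL L x := by
    intro σ hσ
    have hl : Lip1 fun y => σ * y := fun x y => by rw [← mul_sub, abs_mul, hσ, one_mul]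
    induction L with
    | nil =>
      intro x
      have h1 := o1_le_logcosh x
      have h2 := le_abs_self (σ * x)
      rw [abs_mul, hσ, one_mul] at h2
      simp only [fL, List.map_nil, List.sum_nil]
      linarith
    | cons q L ih =>
      intro x
      have h1 := gaussOp_mono (hl.add_const _) (fL_lip h.o1_tail) (ih h.o1_tail) h.o1_head.1
        le_rfl q.2 x
      rw [gaussOp_add_const hl, gaussOp_lin h.o1_head.2.2, ← sq_abs, hσ] at h1
      simp only [fL, List.map_cons, List.sum_cons]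
      linarith
  have h1 := key 1 abs_one x
  have h2 := key (-1) (by simp) x
  rcases abs_cases x with h3 | h3 <;> linarith [h3.1]

/-- raise all exponents to `1` -/
theorem fL_le {L : List (ℝ × ℝ)} (h : LOK L) (x : ℝ) :
    fL L x ≤ log (cosh x) + (L.map fun q => q.2).sum / 2 := by
  induction L generalizing x with
  | nil => simp [fL]
  | cons q L ih =>
    have h1 := gaussOp_mono (fL_lip h.o1_tail) (lip1_logcosh.add_const _) (ih h.o1_tail)
      h.o1_head.1 h.o1_head.2.1 q.2 x
    rw [gaussOp_add_const lip1_logcosh, gaussOp_logcosh h.o1_head.2.2] at h1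
    simp only [fL, List.map_cons, List.sum_cons]
    linarith

/-- `log cosh ≤ log 2 / a + g_a` with `g_a z = a⁻¹ log cosh (a z)`, and
`T_{e,v} g_a ≤ T_{max e a, v} g_a ≤ g_a + max e a · v / 2`: write
`cosh (a (z+u)) = cosh (a z) (p e^{au} + (1-p) e^{-au})` and use Jensen for the power
`max e a / a ≥ 1`. -/
theorem fL_le_coer {L : List (ℝ × ℝ)} (h : LOK L) {a : ℝ} (ha : 0 < a) (ha1 : a ≤ 1) :
    fL L 0 ≤ log 2 / a + (L.map fun q => max q.1 a * q.2).sum / 2 := by
  have hl : Lip1 fun z => a⁻¹ * log (cosh (a * z)) := fun x y => by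
    rw [← mul_sub, abs_mul, abs_of_pos (inv_pos.2 ha), inv_mul_le_iff₀ ha]
    refine (lip1_logcosh _ _).trans_eq ?_
    rw [← mul_sub, abs_mul, abs_of_pos ha]
  have step : ∀ {m v : ℝ}, a ≤ m → 0 ≤ v → ∀ x, gaussOp m v (fun z => a⁻¹ * log (cosh (a * z))) x ≤
      a⁻¹ * log (cosh (a * x)) + m * v / 2 := by
    intro m v ham hv x
    rw [gaussOp_eq_lme]
    refine (hl.o1g x √v).lme_le (ha.trans_le ham) ?_
    obtain ⟨i1, i2⟩ := o1_mgf2 (exp (a * x) / (2 * cosh (a * x)))
      (exp (-(a * x)) / (2 * cosh (a * x))) (m * √v)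
    have hpq : exp (a * x) / (2 * cosh (a * x)) + exp (-(a * x)) / (2 * cosh (a * x)) = 1 := by
      rw [← add_div, div_eq_one_iff_eq (mul_pos two_pos (cosh_pos _)).ne', cosh_eq]; ring
    rw [hpq, one_mul, mul_pow, sq_sqrt hv] at i2
    rw [mul_add, exp_add, show m * (m * v / 2) = m ^ 2 * v / 2 by ring, ← i2, ← integral_const_mul]
    refine integral_mono ((hl.o1g x √v).int_exp m) (i1.const_mul _) fun z => ?_
    have h1 := o1_coer_pt ha ham x (√v * z)
    rw [← mul_assoc m √v, ← mul_assoc (-m) √v, neg_mul m √v] at h1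
    exact h1
  have key : ∀ x, fL L x ≤ a⁻¹ * log (cosh (a * x)) +
      (log 2 / a + (L.map fun q => max q.1 a * q.2).sum / 2) := by
    induction L with
    | nil =>
      intro x
      have h1 := o1_le_logcosh (a * x)
      have h2 := o1_logcosh_le x 0
      rw [abs_mul, abs_of_pos ha] at h1
      rw [cosh_zero, log_one, sub_zero, zero_add] at h2
      have h3 : |x| ≤ a⁻¹ * (log (cosh (a * x)) + log 2) := by
        rw [le_inv_mul_iff₀ ha]; linarith
      simp only [fL, List.map_nil, List.sum_nil]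
      rw [div_eq_inv_mul (log 2)]
      linarith
    | cons q L ih =>
      intro x
      have h1 := gaussOp_mono (fL_lip h.o1_tail) (hl.add_const _) (ih h.o1_tail)
        h.o1_head.1 (le_max_left q.1 a) q.2 x
      rw [gaussOp_add_const hl] at h1
      have h2 := step (le_max_right q.1 a) h.o1_head.2.2 x
      simp only [fL, List.map_cons, List.sum_cons]
      linarith
  simpa using key 0

theorem fL_mono {L L' : List (ℝ × ℝ)} (h : LOK L) (h' : LOK L')
    (hle : List.Forall₂ (fun p q => p.1 ≤ q.1 ∧ p.2 ≤ q.2) L L') (x : ℝ) : fL L x ≤ fL L' x := by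
  induction hle generalizing x with
  | nil => exact le_rfl
  | cons hpq _ ih =>
    exact (gaussOp_mono_var (fL_lip h.o1_tail) (fL_convex h.o1_tail) h.o1_head.1 hpq.2 x).trans
      (gaussOp_mono (fL_lip h.o1_tail) (fL_lip h'.o1_tail) (ih h.o1_tail h'.o1_tail) h.o1_head.1
        hpq.1 _ x)

/-- the derivative has the sign of the argument, and bounds it:
`b - log 2 ≤ f b ≤ f 0 + b f' b` -/
theorem ML_sign {L : List (ℝ × ℝ)} (h : LOK L) (b : ℝ) : 0 ≤ b * ML L b := by
  have h1 := o1_tangent (fL_convex h) (fL_hasDerivAt h b) (-b)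
  rw [fL_neg] at h1
  linarith

theorem abs_le_of_ML {L : List (ℝ × ℝ)} (h : LOK L) (b : ℝ) :
    |b| * (1 - |ML L b|) ≤ log 2 + (L.map fun q => q.2).sum / 2 := by
  have h1 := o1_tangent (fL_convex h) (fL_hasDerivAt h b) 0
  have h2 := fL_ge h b
  have h3 := fL_le h 0
  have h4 : 0 ≤ (L.map fun q => q.1 * q.2).sum := List.sum_nonneg fun y hy => by
    obtain ⟨q, hq, rfl⟩ := List.mem_map.1 hy
    exact mul_nonneg (h q hq).1 (h q hq).2.2
  have h5 := le_abs_self (b * ML L b)
  rw [abs_mul] at h5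
  rw [cosh_zero, log_one] at h3
  linarith

namespace Expo
variable (X : Expo)
theorem lst_step (v : ℕ → ℝ) {a : ℕ} (h : a ≤ X.n) :
    X.lst v a = (X.e a, v a) :: X.lst v (a + 1) := by
  unfold lst
  rw [show X.n + 1 - a = X.n + 1 - (a + 1) + 1 by omega, List.range'_succ, List.map_cons]
theorem lst_top (v : ℕ → ℝ) : X.lst v (X.n + 1) = [] := by
  simp [lst]
theorem lst_ok {v : ℕ → ℝ} {a : ℕ} (hv : ∀ l, a ≤ l → l ≤ X.n → 0 ≤ v l) : LOK (X.lst v a) := by
  intro q hq
  obtain ⟨l, hl, rfl⟩ := List.mem_map.1 hq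
  rw [List.mem_range'_1] at hl
  exact ⟨X.pos.le.trans (X.mono (Nat.zero_le l)), X.le_one l, hv l hl.1 (by omega)⟩
theorem lst_sort (v : ℕ → ℝ) (a : ℕ) : LSort (X.lst v a) := by
  refine ⟨fun q hq => ?_, ?_⟩
  · obtain ⟨l, hl, rfl⟩ := List.mem_map.1 hq
    exact ⟨X.pos.trans_le (X.mono (Nat.zero_le l)), X.le_one l⟩
  · rw [lst, List.pairwise_map]
    exact List.pairwise_le_range'.imp fun h => X.mono h
theorem lst_congr {v v' : ℕ → ℝ} {a : ℕ} (h : ∀ l, a ≤ l → l ≤ X.n → v l = v' l) :
    X.lst v a = X.lst v' a := by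
  refine List.map_congr_left fun l hl => ?_
  rw [List.mem_range'_1] at hl
  rw [h l hl.1 (by omega)]
theorem lst_sum (v : ℕ → ℝ) (a : ℕ) (F : ℝ × ℝ → ℝ) :
    ((X.lst v a).map F).sum = ∑ l ∈ Finset.Icc a X.n, F (X.e l, v l) := by
  rw [lst, List.map_map, Nat.Icc_eq_range']
  rfl
theorem Phi_mono {v v' : ℕ → ℝ} (hv : ∀ l, 1 ≤ l → l ≤ X.n → 0 ≤ v l ∧ v l ≤ v' l) (b : ℝ) :
    X.Phi v b ≤ X.Phi v' b := by
  refine fL_mono (X.lst_ok fun l h1 h2 => (hv l h1 h2).1)
    (X.lst_ok fun l h1 h2 => (hv l h1 h2).1.trans (hv l h1 h2).2) ?_ b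
  unfold lst
  rw [List.forall₂_map_left_iff, List.forall₂_map_right_iff, List.forall₂_same]
  intro l hl
  rw [List.mem_range'_1] at hl
  exact ⟨le_rfl, (hv l hl.1 (by omega)).2⟩
end Expo

end Crest.Agent.R164
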