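import Crest.Agent.R164.M1
import Crest.Agent.R164.O1

/-! # The model: comparison, continuity, symmetry, factorisation -/

set_option autoImplicit false
set_option linter.unusedVariables false
set_option linter.unusedSectionVars false

open MeasureTheory ProbabilityTheory Real Crest.ProbabilityR.InvariantGlass
open scoped ENNReal

namespace Crest.Agent.R164

variable {N : ℕ} {X : Expo}

theorem m2_card : (Fintype.card (Fin N → Bool) : ℝ)⁻¹ = (1 / 2) ^ N := by
  simp

theorem m2_sum_Icc (n : ℕ) (z : ℕ → ℝ) :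
    ∑ l : Fin n, z (l + 1) = ∑ a ∈ Finset.Icc 1 n, z a := by
  rw [Fin.sum_univ_eq_sum_range (fun l => z (l + 1)) n, Finset.range_eq_Ico,
    Finset.sum_Ico_add' z 0 n 1]
  rfl

/-- the spin observable multiplying a Gaussian coordinate -/
noncomputable def m2o {n : ℕ} (q : MI n N) (x : MS n N) : ℝ :=
  if q.1 = 1 then sO q.2.2 x else σO q.2.2 x

/-- the strength of a Gaussian coordinate -/
def m2c {n : ℕ} (p : Par N) (q : MI n N) : ℝ :=
  if q.1 = 0 then p.th (q.2.1 + 1) q.2.2 else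
    if q.1 = 1 then p.vt (q.2.1 + 1) q.2.2 else p.tx (q.2.1 + 1) q.2.2

theorem m2_meas_o {n : ℕ} (q : MI n N) : Measurable (m2o q) := by
  unfold m2o
  split_ifs
  · exact measurable_sO _
  · exact measurable_σO _

theorem m2_abs_o {n : ℕ} (q : MI n N) (x : MS n N) : |m2o q x| ≤ 1 + √N := by
  unfold m2o
  have h0 : 0 ≤ √(N : ℝ) := sqrt_nonneg _
  split_ifs
  · linarith [abs_sO q.2.2 x]
  · linarith [abs_σO q.2.2 x]

theorem m2_Ham {n : ℕ} (p : Par N) (x : MS n N) :
    Ham p x = ((1 / 2) * (∑ i, p.lam i * sv x.1 x.2.2 i ^ 2) + p.f x.2.2) +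
      ∑ q, x.2.1 q * (m2c p q * m2o q x) := by
  simp only [Ham, Fintype.sum_prod_type, Fin.sum_univ_three, m2c, m2o, sO]
  simp only [Fin.isValue, ↓reduceIte, Fin.reduceEq, mul_left_comm (x.2.1 _)]
  ring

theorem m2_sandwich {H : MS X.n N → ℝ} (hH : (mT X N).LG H) (J : Finset (MI X.n N))
    (c : MI X.n N → ℝ) (iH : ∀ q ∈ J, Inv q H) {B : ℝ}
    (hB : ∀ x : MS X.n N, ∑ q ∈ J, (c q * m2o q x) ^ 2 ≤ 2 * B) :
    (mT X N).A H ≤ (mT X N).A (fun x => H x + ∑ q ∈ J, x.2.1 q * (c q * m2o q x)) ∧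
    (mT X N).A (fun x => H x + ∑ q ∈ J, x.2.1 q * (c q * m2o q x)) ≤ (mT X N).A H + B := by
  have hm : ∀ q, Measurable fun x : MS X.n N => c q * m2o q x := fun q =>
    (m2_meas_o q).const_mul _
  have h := sandwich (X := X) (P := haar N) (lev := mlev) J (H := H)
    (a := fun q x => c q * m2o q x) hH (fun q _ => hm q) (B := (∑ q, |c q|) * (1 + √N))
    (fun q _ x => by
      rw [abs_mul]
      exact mul_le_mul (Finset.single_le_sum (f := fun q => |c q|) (fun _ _ => abs_nonneg _)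
        (Finset.mem_univ q)) (m2_abs_o q x) (abs_nonneg _)
        (Finset.sum_nonneg fun _ _ => abs_nonneg _)) iH (fun _ _ _ _ _ _ => rfl)
  refine ⟨h.1, h.2.trans (Tower.t3_mono (T := mT X N) (hH.add (Tower.LG.of_bdd ?_ (C := B) ?_)) hH
    fun x => ?_)⟩
  · exact (Finset.measurable_sum _ fun q _ => (hm q).pow_const 2).const_mul _
  · intro x
    have := hB x
    rw [abs_of_nonneg (by positivity)]
    linarith
  · have := hB x
    linarith

theorem m2_row_le {n : ℕ} {z : ℕ → Fin N → ℝ} {s : Fin N → ℝ} {Θ : ℝ}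
    (h : ∀ i, ∑ a ∈ Finset.Icc 1 n, z a i ≤ Θ) (hs : ∑ i, s i ^ 2 = N) :
    ∑ l : Fin n, ∑ i, z (l + 1) i * s i ^ 2 ≤ Θ * N := by
  rw [Finset.sum_comm, ← hs, Finset.mul_sum]
  refine Finset.sum_le_sum fun i _ => ?_
  rw [← Finset.sum_mul, m2_sum_Icc n fun a => z a i]
  exact mul_le_mul_of_nonneg_right (h i) (sq_nonneg _)

theorem m2_plain (lam : Fin N → ℝ) (f : (Fin N → Bool) → ℝ) :
    (mT X N).A (fun x => (1 / 2) * (∑ i, lam i * sv x.1 x.2.2 i ^ 2) + f x.2.2) =
      fm X.m lam f := by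
  have h := A_plain (X := X) (P := haar N) (lev := (mlev : MI X.n N → _))
    (F := fun (U : Orth N) (σ : Fin N → Bool) => (1 / 2) * (∑ i, lam i * sv U σ i ^ 2) + f σ)
    (fun σ => ((Finset.measurable_sum _ fun i _ =>
      ((measurable_sv σ i).pow_const 2).const_mul _).const_mul _).add_const _)
  rw [m2_card] at h
  exact h

theorem m2_lg_plain (lam : Fin N → ℝ) (f : (Fin N → Bool) → ℝ) :
    (mT X N).LG (fun x => (1 / 2) * (∑ i, lam i * sv x.1 x.2.2 i ^ 2) + f x.2.2) := by
  have h := lg_Ham (X := X) ⟨lam, fun _ _ => 0, fun _ _ => 0, fun _ _ => 0, f⟩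
  convert h using 2 with x
  simp [Ham, sO]

theorem A_plain_eq (p : Par N) (h1 : ∀ a r, p.th a r = 0) (h2 : ∀ a r, p.vt a r = 0)
    (h3 : ∀ a r, p.tx a r = 0) : p.A X = fm X.m p.lam p.f := by
  rw [← m2_plain (X := X), Par.A]
  congr 1
  funext x
  simp [Ham, sO, h1, h2, h3]

/-- same fields, comparable spectra and spin terms -/
theorem A_le_of_le (p p' : Par N) (h1 : p.th = p'.th) (h2 : p.vt = p'.vt) (h3 : p.tx = p'.tx)
    {δ D : ℝ} (hl : ∀ i, p.lam i ≤ p'.lam i + δ) (hf : ∀ σ, p.f σ ≤ p'.f σ + D) :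
    p.A X ≤ p'.A X + δ * N / 2 + D := by
  rw [add_assoc]
  refine Tower.t3_mono (lg_Ham p) (lg_Ham p') fun x => ?_
  have e1 : ∑ i, p.lam i * sO i x ^ 2 ≤ ∑ i, p'.lam i * sO i x ^ 2 + δ * N := by
    rw [← sum_sO_sq x, Finset.mul_sum, ← Finset.sum_add_distrib]
    refine Finset.sum_le_sum fun i _ => ?_
    rw [← add_mul]
    exact mul_le_mul_of_nonneg_right (hl i) (sq_nonneg _)
  have e2 := hf x.2.2
  simp only [Ham, h1, h2, h3]
  linarith

/-- removing the row fields (`sandwich`) -/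
theorem A_noRow (p : Par N) {Θ : ℝ} (h : ∀ i, ∑ a ∈ Finset.Icc 1 X.n, p.vt a i ^ 2 ≤ Θ) :
    ({ p with vt := fun _ _ => 0 } : Par N).A X ≤ p.A X ∧
      p.A X ≤ ({ p with vt := fun _ _ => 0 } : Par N).A X + Θ * N / 2 := by
  have key := m2_sandwich (lg_Ham (X := X) ({ p with vt := fun _ _ => 0 } : Par N))
    (({1} : Finset (Fin 3)) ×ˢ Finset.univ) (m2c p) (B := Θ * N / 2) ?_ ?_
  · have e : Ham (n := X.n) p = fun x => Ham ({ p with vt := fun _ _ => 0 } : Par N) x +
        ∑ q ∈ ({1} : Finset (Fin 3)) ×ˢ Finset.univ, x.2.1 q * (m2c p q * m2o q x) := by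
      funext x
      rw [Finset.sum_product, Finset.sum_singleton, Fintype.sum_prod_type]
      simp only [Ham, m2c, m2o, Fin.isValue, ↓reduceIte, Fin.reduceEq, mul_left_comm (x.2.1 _),
        zero_mul, Finset.sum_const_zero]
      ring
    unfold Par.A
    rw [e]
    exact key
  · rintro ⟨k, l, r⟩ hq t x
    have hk : k = 1 := Finset.mem_singleton.1 (Finset.mem_product.1 hq).1
    subst hk
    simp [Ham, shift, sO, σO]
  · intro x
    rw [Finset.sum_product, Finset.sum_singleton, Fintype.sum_prod_type]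
    simp only [m2c, m2o, Fin.isValue, ↓reduceIte, Fin.reduceEq, mul_pow]
    have := m2_row_le (z := fun a i => p.vt a i ^ 2) h (sum_sO_sq x)
    linarith

/-- removing all fields (`sandwich`) -/
theorem A_noField (p : Par N) {Θ : ℝ}
    (h : ∀ i, ∑ a ∈ Finset.Icc 1 X.n, p.vt a i ^ 2 ≤ Θ)
    (h' : ∀ r, ∑ a ∈ Finset.Icc 1 X.n, (p.th a r ^ 2 + p.tx a r ^ 2) ≤ Θ) :
    fm X.m p.lam p.f ≤ p.A X ∧ p.A X ≤ fm X.m p.lam p.f + Θ * N := by
  have key := m2_sandwich (m2_lg_plain (X := X) p.lam p.f) Finset.univ (m2c p) (B := Θ * N)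
    (fun _ _ _ _ => rfl) ?_
  · rw [m2_plain] at key
    unfold Par.A
    rw [show Ham (n := X.n) p = _ from funext (m2_Ham p)]
    exact key
  · intro x
    simp only [Fintype.sum_prod_type, Fin.sum_univ_three, m2c, m2o, Fin.isValue, ↓reduceIte,
      Fin.reduceEq, mul_pow]
    have e1 := m2_row_le (z := fun a i => p.vt a i ^ 2) h (sum_sO_sq x)
    have e2 := m2_row_le (z := fun a r => p.th a r ^ 2 + p.tx a r ^ 2) (s := fun r => σO r x) h'
      (by simp [σO_sq])
    simp only [add_mul, Finset.sum_add_distrib] at e2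
    linarith

/-- `continuous_A_lin`: the Hamiltonian is linear in all parameters -/
theorem continuous_A {Z : Type} [TopologicalSpace Z] (p : Z → Par N)
    (h1 : ∀ i, Continuous fun z => (p z).lam i) (h2 : ∀ a r, Continuous fun z => (p z).th a r)
    (h3 : ∀ a r, Continuous fun z => (p z).vt a r) (h4 : ∀ a r, Continuous fun z => (p z).tx a r)
    (h5 : ∀ σ, Continuous fun z => (p z).f σ) : Continuous fun z => (p z).A X := by
  let Y : Fin N ⊕ MI X.n N ⊕ (Fin N → Bool) → MS X.n N → ℝ :=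
    Sum.elim (fun i x => (1 / 2) * sO i x ^ 2)
      (Sum.elim (fun q x => x.2.1 q * m2o q x) fun σ x => if x.2.2 = σ then 1 else 0)
  let c : Z → Fin N ⊕ MI X.n N ⊕ (Fin N → Bool) → ℝ := fun z =>
    Sum.elim (p z).lam (Sum.elim (m2c (p z)) (p z).f)
  have hY : ∀ d, (mT X N).LG (Y d) := by
    rintro (i | q | σ)
    · refine (Tower.LG.of_bdd ((measurable_sO i).pow_const 2) (C := √N ^ 2) fun x => ?_).const_mul _
      rw [abs_pow]
      exact pow_le_pow_left₀ (abs_nonneg _) (abs_sO i x) 2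
    · exact (lg_coord q).mul_bdd (m2_meas_o q) (m2_abs_o q)
    · exact lg_spin fun τ => if τ = σ then 1 else 0
  have hc : Continuous c := by
    refine continuous_pi ?_
    rintro (i | q | σ)
    · exact h1 i
    · change Continuous fun z => m2c (p z) q
      unfold m2c
      split_ifs
      exacts [h2 _ _, h3 _ _, h4 _ _]
    · exact h5 σ
  have key := (Tower.continuous_A_lin (T := mT X N) (Tower.LG.const 0) hY).comp hc
  convert key using 2 with z
  simp only [Function.comp, Par.A]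
  congr 1
  funext x
  rw [m2_Ham]
  simp only [Y, c, Fintype.sum_sum_type, Sum.elim_inl, Sum.elim_inr, mul_ite, mul_one, mul_zero,
    Finset.sum_ite_eq, Finset.mem_univ, if_true, sO, mul_left_comm (x.2.1 _), Finset.mul_sum,
    mul_left_comm ((p z).lam _)]
  ring

/-- relabelling the sites -/
def Par.perm (p : Par N) (ς : Equiv.Perm (Fin N)) : Par N where
  lam := p.lam
  th := fun a r => p.th a (ς r)
  vt := p.vt
  tx := fun a r => p.tx a (ς r)
  f := fun σ => p.f (fun r => σ (ς.symm r))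

/-- `mor_inj` with `U ↦ U O` (`O` a permutation matrix, right invariance), the permuted site
coordinates and spins: site `r` of `p.perm ς` is site `ς r` of `p`. -/
theorem perm_symm (p : Par N) (ς : Equiv.Perm (Fin N)) :
    (p.perm ς).A X = p.A X ∧
    (∀ r, ∫ x, σO r x ∂((p.perm ς).PP X) = ∫ x, σO (ς r) x ∂(p.PP X)) ∧
    (∀ r a, (p.perm ς).ovσ X {r} a = p.ovσ X {ς r} a) := by
  obtain ⟨O, hO⟩ := exists_permO ς
  let ι : MI X.n N → MI X.n N := fun q => (q.1, q.2.1, if q.1 = 1 then q.2.2 else ς.symm q.2.2)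
  have hι : Function.Injective ι := by
    rintro ⟨k, l, r⟩ ⟨k', l', r'⟩ h
    simp only [ι, Prod.mk.injEq] at h
    obtain ⟨rfl, rfl, h⟩ := h
    split_ifs at h
    · rw [h]
    · rw [ς.symm.injective h]
  have hm := mor_inj (X := X) (P := haar N) (P' := haar N) (lev := (mlev : MI X.n N → _))
    (lev' := (mlev : MI X.n N → _)) (measurable_orth_mul_right O) (a0 := 0)
    (fun _ => haar_map_mul_right O) ι hι (fun _ => rfl)
    (unif_map_equiv (Equiv.arrowCongr ς (Equiv.refl Bool)))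
  obtain ⟨pm, hpm⟩ : ∃ pm : MS X.n N → MS X.n N, pm = fun x =>
      (x.1 * O, fun a => x.2.1 (ι a), (Equiv.arrowCongr ς (Equiv.refl Bool)) x.2.2) := ⟨_, rfl⟩
  rw [← hpm] at hm
  have e1 : ∀ r y, σO (ς r) (pm y) = σO r y := fun r y => by
    simp [hpm, σO, spinVec]
  have e2 : ∀ i y, sO i (pm y) = sO i y := fun i y => by
    have : O.1.mulVec (spinVec ((Equiv.arrowCongr ς (Equiv.refl Bool)) y.2.2)) =
        spinVec y.2.2 := by
      rw [hO]
      funext j
      simp [spinVec]
    simp only [hpm, sO, sv, Submonoid.coe_mul, ← Matrix.mulVec_mulVec, this]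
  have e3 : Ham (p.perm ς) = fun y => Ham p (pm y) := by
    funext y
    have a0 : ∀ l r, (pm y).2.1 (0, l, ς r) = y.2.1 (0, l, r) := fun l r => by simp [hpm, ι]
    have a1 : ∀ l r, (pm y).2.1 (1, l, r) = y.2.1 (1, l, r) := fun l r => by simp [hpm, ι]
    have a2 : ∀ l r, (pm y).2.1 (2, l, ς r) = y.2.1 (2, l, r) := fun l r => by simp [hpm, ι]
    have a3 : p.f (pm y).2.2 = p.f fun r => y.2.2 (ς.symm r) := by rw [hpm]; rfl
    simp only [Ham, Par.perm, e2, a1, a3]
    congr 3
    · congr 1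
      refine Finset.sum_congr rfl fun l _ => ?_
      rw [← Equiv.sum_comp ς fun r => p.th (l + 1) r * ((pm y).2.1 (0, l, r) * σO r (pm y))]
      simp only [a0, e1]
    · refine funext fun l => ?_
      rw [← Equiv.sum_comp ς fun r => p.tx (l + 1) r * ((pm y).2.1 (2, l, r) * σO r (pm y))]
      simp only [a2, e1]
  refine ⟨?_, fun r => ?_, fun r a => ?_⟩
  · unfold Par.A
    rw [e3]
    exact hm.A (measurable_Ham p)
  · unfold Par.PP
    rw [e3]
    simp only [← e1 r]
    exact hm.integral (lg_Ham p).ub (measurable_σO (ς r))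
  · have h := hm.ov (lg_Ham (X := X) p).ub (s := fun r => σO (ς r)) {r}
      (fun i _ => measurable_σO _) a
    simp only [e1] at h
    unfold Par.ovσ
    rw [e3]
    refine h.trans ?_
    simp only [Tower.ov, Finset.sum_singleton]
    rfl

theorem sys_perm (S : Spec) {n J : ℕ} (t : ℝ) (θ : ℕ → ℝ) (blk : Fin N → Fin (S.k + 1))
    (lab : Fin N → Fin J) (mag : Fin J → ℝ) (Kp : ℝ) (π' : PI n S.k J → ℝ)
    (ς : Equiv.Perm (Fin N)) :
    (sys S t θ blk lab mag Kp (fun _ => 0) (fun _ _ => 0) π').perm ς =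
      sys S t θ blk (fun r => lab (ς r)) mag Kp (fun _ => 0) (fun _ _ => 0) π' := by
  have e : ∀ j (σ : Fin N → Bool), yv lab mag j (fun r => σ (ς.symm r)) =
      yv (fun r => lab (ς r)) mag j σ := fun j σ => by
    unfold yv
    refine (Finset.sum_equiv ς (fun r => ?_) fun r _ => ?_).symm
    · simp [fib]
    · simp [spinVec]
  simp only [sys, Par.perm, e]

theorem m2_spin_sum (h : Fin N → ℝ) (c : ℝ) :
    log ((Fintype.card (Fin N → Bool) : ℝ)⁻¹ *
      ∑ σ : Fin N → Bool, exp (∑ r, h r * spinVec σ r + c)) = ∑ r, log (cosh (h r)) + c := by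
  have e1 : ∑ σ : Fin N → Bool, exp (∑ r, h r * spinVec σ r + c) =
      (∏ r, (2 * cosh (h r))) * exp c := by
    simp only [exp_add, exp_sum, ← Finset.sum_mul]
    congr 1
    have := Finset.prod_univ_sum (fun _ : Fin N => (Finset.univ : Finset Bool))
      fun r (s : Bool) => exp (h r * if s then 1 else -1)
    rw [Fintype.piFinset_univ] at this
    refine this.symm.trans (Finset.prod_congr rfl fun r _ => ?_)
    simp only [Fintype.sum_bool, if_true, mul_one, Bool.false_eq_true, if_false, mul_neg, cosh_eq]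
    ring
  rw [e1, m2_card, Finset.prod_mul_distrib, Finset.prod_const, Finset.card_univ, Fintype.card_fin,
    ← mul_assoc, ← mul_assoc, ← mul_pow, show (1 / 2 * 2 : ℝ) = 1 by norm_num, one_pow, one_mul,
    log_mul (Finset.prod_ne_zero_iff.2 fun r _ => (cosh_pos _).ne') (exp_pos _).ne', log_exp,
    log_prod fun r _ => (cosh_pos _).ne']

theorem m2_gauss_abs (φ : ℝ → ℝ) (θ : ℝ) :
    ∫ z, φ (θ * z) ∂(gaussianReal 0 1) = ∫ z, φ (√(θ ^ 2) * z) ∂(gaussianReal 0 1) := by
  rw [sqrt_sq_eq_abs]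
  rcases abs_cases θ with h | h
  · rw [h.1]
  · rw [h.1]
    have e : (gaussianReal 0 1).map (MeasurableEquiv.neg ℝ) = gaussianReal 0 1 := by
      simpa using gaussianReal_map_neg (μ := 0) (v := 1)
    conv_lhs => rw [← e, integral_map_equiv]
    simp

theorem m2_step {I : Type} [Fintype I] (ι : Fin N → I) (hι : Function.Injective ι)
    {g : Fin N → ℝ → ℝ} (hg : ∀ r, Lip1 (g r)) {e : ℝ} (he : 0 < e) (h θ : Fin N → ℝ) (c : ℝ) :
    e⁻¹ * log (∫ z, exp (e * (∑ r, g r (h r + θ r * z (ι r)) + c)) ∂(gpi I)) =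
      ∑ r, gaussOp e (θ r ^ 2) (g r) (h r) + c := by
  have hc : ∀ r, Continuous (g r) := fun r => (hg r).continuous
  have e1 : ∫ z, exp (e * (∑ r, g r (h r + θ r * z (ι r)) + c)) ∂(gpi I) =
      ∫ z, exp (e * (∑ r, g r (h r + θ r * z r) + c)) ∂(gpi (Fin N)) := by
    rw [← gpi_map_inj ι hι, integral_map (Measurable.aemeasurable (by fun_prop))
      (Continuous.aestronglyMeasurable (by fun_prop))]
  have e2 : ∀ r, ∫ z, exp (e * g r (h r + θ r * z)) ∂(gaussianReal 0 1) =
      ∫ z, exp (e * g r (h r + √(θ r ^ 2) * z)) ∂(gaussianReal 0 1) := fun r =>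
    m2_gauss_abs (fun u => exp (e * g r (h r + u))) (θ r)
  have e3 : ∀ r, 0 < ∫ z, exp (e * g r (h r + √(θ r ^ 2) * z)) ∂(gaussianReal 0 1) := fun r =>
    integral_exp_pos ((hg r).integrable_exp e _ _)
  rw [e1]
  simp only [mul_add, exp_add, Finset.mul_sum, exp_sum]
  rw [integral_mul_const, gpi,
    integral_fintype_prod_eq_prod fun r z => exp (e * g r (h r + θ r * z))]
  simp only [e2]
  rw [log_mul (Finset.prod_ne_zero_iff.2 fun r _ => (e3 r).ne') (exp_pos _).ne', log_exp,
    log_prod fun r _ => (e3 r).ne', mul_add, Finset.mul_sum, inv_mul_cancel_left₀ he.ne']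
  simp only [gaussOp, if_neg he.ne']

/-- Independent spins: by downward induction
`X_a = Σ_r fL (X.lst (θ_r²) a) (b_r + Σ_{l < a} θ_{l r} g_{l r})` for `1 ≤ a ≤ n + 1`
(`X_last`, `integral_mix_mid`, `gpi_map_inj`, `integral_fintype_prod`; `θ g ~ √(θ²) g`). -/
theorem A_fact (p : Par N) (h1 : ∀ i, p.lam i = 0) (h2 : ∀ a r, p.vt a r = 0)
    (h3 : ∀ a r, p.tx a r = 0) (b : Fin N → ℝ) (c : ℝ)
    (h4 : ∀ σ, p.f σ = ∑ r, b r * spinVec σ r + c) :
    p.A X = ∑ r, X.Phi (fun a => p.th a r ^ 2) (b r) + c := by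
  have hl : ∀ r a, Lip1 (fL (X.lst (fun a => p.th a r ^ 2) a)) := fun r a =>
    fL_lip (X.lst_ok fun _ _ _ => sq_nonneg _)
  have key : ∀ k a, a + k = X.n + 1 → 1 ≤ a → ∀ x : MS X.n N, (mT X N).X (Ham p) a x =
      ∑ r, fL (X.lst (fun a => p.th a r ^ 2) a) (b r + ∑ l : Fin X.n,
        if l.val + 1 < a then p.th (l + 1) r * x.2.1 (0, l, r) else 0) + c := by
    intro k
    induction k with
    | zero =>
      intro a ha _ x
      obtain rfl : a = X.n + 1 := by omega
      refine (X_last (measurable_Ham p) x).trans ?_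
      simp only [Expo.lst_top, fL, ← m2_spin_sum]
      congr 4
      funext σ
      have : ∀ l : Fin X.n, l.val + 1 < X.n + 1 := fun l => by omega
      simp only [Ham, h1, h2, h3, h4, zero_mul, Finset.sum_const_zero, mul_zero, zero_add,
        add_zero, σO, this, if_true, add_mul, Finset.sum_add_distrib, Finset.sum_mul, mul_assoc]
      rw [Finset.sum_comm]
      congr 1
      ring
    | succ k ih =>
      intro a ha h1a x
      obtain ⟨l₀, rfl⟩ : ∃ l₀ : Fin X.n, a = l₀.val + 1 := ⟨⟨a - 1, by omega⟩, by simp only; omega⟩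
      have hmeas := (mT X N).measurable_X (measurable_Ham p) (l₀.val + 1 + 1)
      rw [Tower.X_step _ _ (by simp), Tower.step]
      have e1 := integral_mix_mid (X := X) (P := haar N) (lev := (mlev : MI X.n N → _))
        (f := fun y => exp (X.e (l₀.val + 1) * (mT X N).X (Ham p) (l₀.val + 1 + 1) y))
        (by fun_prop) h1a (by omega) x
      refine (congrArg (fun t => (X.e (l₀.val + 1))⁻¹ * log t) e1).trans ?_
      simp only [ih (l₀.val + 1 + 1) (by omega) (by omega)]
      have e2 : ∀ (g : MI X.n N → ℝ) r, (b r + ∑ l : Fin X.n, if l.val + 1 < l₀.val + 1 + 1 then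
          p.th (l + 1) r * mixg mlev (l₀.val + 1) x.2.1 g (0, l, r) else 0) =
          (b r + ∑ l : Fin X.n, if l.val + 1 < l₀.val + 1 then
            p.th (l + 1) r * x.2.1 (0, l, r) else 0) + p.th (l₀ + 1) r * g (0, l₀, r) := by
        intro g r
        rw [add_assoc (b r), add_right_inj, ← Finset.add_sum_erase _ _ (Finset.mem_univ l₀),
          ← Finset.add_sum_erase _ _ (Finset.mem_univ l₀), if_pos (by omega), if_neg (by omega),
          zero_add, add_comm]
        congr 1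
        · refine Finset.sum_congr rfl fun l hl => ?_
          have hne : l.val ≠ l₀.val := fun h => (Finset.mem_erase.1 hl).1 (Fin.ext h)
          have e : mixg mlev (l₀.val + 1) x.2.1 g (0, l, r) = x.2.1 (0, l, r) := by
            simp [mixg, mlev, hne]
          rw [e]
          exact if_congr (by omega) rfl rfl
        · simp [mixg, mlev]
      simp only [e2]
      rw [m2_step (fun r => ((0 : Fin 3), l₀, r)) (fun r r' h => by simpa using h)
        (fun r => hl r _) (X.e_pos _)]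
      simp only [X.lst_step _ (show l₀.val + 1 ≤ X.n by omega), fL]
  have h := A_eq_of_lev_pos (X := X) (P := haar N) (lev := (mlev : MI X.n N → _))
    (measurable_Ham p) (fun q => by simp [mlev]) fun _ => true
  refine h.trans ?_
  have e : ∀ ω, (gT X (haar N) (mlev : MI X.n N → _) (Fin N → Bool)).X (Ham p) 1
      (ω, 0, fun _ => true) = ∑ r, X.Phi (fun a => p.th a r ^ 2) (b r) + c := fun ω => by
    refine (key X.n 1 (by omega) le_rfl _).trans ?_
    simp [Expo.Phi]
  simp only [e, integral_const, probReal_univ, smul_eq_mul, one_mul, log_exp]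
  rw [inv_mul_cancel_left₀ X.m_pos.ne']

end Crest.Agent.R164
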