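import Crest.Agent.R164.M1

/-! # The model: synchronisation of the block overlaps -/

set_option autoImplicit false
set_option linter.unusedVariables false
set_option linter.unusedSectionVars false

open MeasureTheory ProbabilityTheory Real Crest.ProbabilityR.InvariantGlass
open scoped ENNReal

namespace Crest.Agent.R164

variable {N : ℕ} {X : Expo}

theorem m3_sqrt_add {a b : ℝ} (ha : 0 ≤ a) (hb : 0 ≤ b) : √(a + b) ≤ √a + √b := by
  refine Real.sqrt_le_iff.2 ⟨by positivity, ?_⟩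
  nlinarith [Real.sq_sqrt ha, Real.sq_sqrt hb, mul_nonneg (sqrt_nonneg a) (sqrt_nonneg b)]

theorem m3_sqrt {α : Type} [MeasurableSpace α] {μ : Measure α} [IsProbabilityMeasure μ]
    {f : α → ℝ} (hf : Integrable f μ) (h0 : ∀ x, 0 ≤ f x) :
    Integrable (fun x => √(f x)) μ ∧ ∫ x, √(f x) ∂μ ≤ √(∫ x, f x ∂μ) := by
  have hi : Integrable (fun x => √(f x)) μ := by
    refine ((integrable_const (1 : ℝ)).add hf).mono'
      (continuous_sqrt.comp_aestronglyMeasurable hf.aestronglyMeasurable)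
      (Filter.Eventually.of_forall fun x => ?_)
    rw [Real.norm_eq_abs, abs_of_nonneg (sqrt_nonneg _)]
    have h1 := Real.sq_sqrt (h0 x)
    simp only [Pi.add_apply]
    nlinarith [sq_nonneg (√(f x) - 1), sqrt_nonneg (f x)]
  exact ⟨hi, Real.strictConcaveOn_sqrt.concaveOn.le_map_integral continuous_sqrt.continuousOn
    isClosed_Ici (Filter.Eventually.of_forall h0) hf hi⟩

theorem m3_abs_le {α : Type} [MeasurableSpace α] {μ : Measure α} [IsProbabilityMeasure μ]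
    {f : α → ℝ} (hf : Integrable (fun x => f x ^ 2) μ) :
    ∫ x, |f x| ∂μ ≤ √(∫ x, f x ^ 2 ∂μ) := by
  have := (m3_sqrt hf fun x => sq_nonneg _).2
  simpa only [Real.sqrt_sq_eq_abs] using this

theorem m3_cs (s : Finset ℕ) {W T : ℕ → ℝ} {μ K : ℝ} (hW : ∀ r ∈ s, 0 ≤ W r ∧ W r ≤ μ)
    (hμ : 0 ≤ μ) (hs : ∑ r ∈ s, W r ≤ 1) (hT : ∀ r ∈ s, 0 ≤ T r) (hK : ∑ r ∈ s, T r ≤ K) :
    ∑ r ∈ s, W r * √(T r) ≤ √(μ * K) := by
  refine Real.le_sqrt_of_sq_le ((Finset.sum_mul_sq_le_sq_mul_sq s W fun r => √(T r)).trans ?_)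
  have h1 : ∑ r ∈ s, W r ^ 2 ≤ μ := by
    calc ∑ r ∈ s, W r ^ 2 ≤ ∑ r ∈ s, μ * W r :=
          Finset.sum_le_sum fun r hr => by nlinarith [(hW r hr).1, (hW r hr).2]
      _ = μ * ∑ r ∈ s, W r := by rw [Finset.mul_sum]
      _ ≤ μ := by nlinarith
  have h2 : ∑ r ∈ s, √(T r) ^ 2 = ∑ r ∈ s, T r :=
    Finset.sum_congr rfl fun r hr => Real.sq_sqrt (hT r hr)
  rw [h2]
  exact mul_le_mul h1 hK (Finset.sum_nonneg hT) hμ

theorem m3_sum_sO (J : Finset (Fin N)) (x : MS X.n N) : ∑ i ∈ J, sO i x ^ 2 ≤ N := by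
  rw [← sum_sO_sq x]
  exact Finset.sum_le_sum_of_subset_of_nonneg (Finset.subset_univ J) fun _ _ _ => sq_nonneg _

theorem m3_sum_E (p : Par N) (J : Finset (Fin N)) (r : ℕ) (x : MS X.n N) :
    ∑ i ∈ J, ((mT X N).E (Ham p) r (sO i) x) ^ 2 ≤ N := by
  calc ∑ i ∈ J, ((mT X N).E (Ham p) r (sO i) x) ^ 2
      ≤ ∑ i ∈ J, (mT X N).E (Ham p) r (fun y => sO i y ^ 2) x :=
        Finset.sum_le_sum fun i _ => Tower.sq_E_le (lg_Ham p) (gr_sO i) r x
    _ = (mT X N).E (Ham p) r (fun y => ∑ i ∈ J, sO i y ^ 2) x :=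
        (Tower.E_sum J (lg_Ham p) (fun i _ => (gr_sO i).pow 2) r x).symm
    _ ≤ N := by
        refine (le_abs_self _).trans (Tower.abs_E_le _ (fun y => ?_) r x)
        rw [abs_of_nonneg (Finset.sum_nonneg fun _ _ => sq_nonneg _)]
        exact m3_sum_sO J y

theorem m3_u (U : Orth N) (J : Finset (Fin N)) (w : Fin N → ℝ) :
    ∑ j, (∑ i ∈ J, w i * U.1 i j) ^ 2 = ∑ i ∈ J, w i ^ 2 := by
  simp only [sq, Finset.sum_mul_sum]
  rw [Finset.sum_comm]
  refine Finset.sum_congr rfl fun i hi => ?_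
  rw [Finset.sum_comm]
  have : ∀ k, ∑ j, w i * U.1 i j * (w k * U.1 k j) = if i = k then w i * w k else 0 := fun k => by
    have h := orth_row U i k
    calc ∑ j, w i * U.1 i j * (w k * U.1 k j) = w i * w k * ∑ j, U.1 i j * U.1 k j := by
          rw [Finset.mul_sum]
          exact Finset.sum_congr rfl fun j _ => by ring
      _ = _ := by rw [h]; split_ifs <;> simp
  simp only [this, Finset.sum_ite_eq, if_pos hi]

/-- the conditional increment of the site overlap -/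
noncomputable def m3τ (p : Par N) (r : ℕ) : MS X.n N → ℝ :=
  (mT X N).E (Ham p) r fun y => ∑ j,
    ((mT X N).E (Ham p) (r + 1) (σO j) y - (mT X N).E (Ham p) r (σO j) y) ^ 2

theorem m3τ_gr0 (p : Par N) (r : ℕ) : (mT X N).Gr fun y => ∑ j,
    ((mT X N).E (Ham p) (r + 1) (σO j) y - (mT X N).E (Ham p) r (σO j) y) ^ 2 :=
  Tower.Gr.sum _ fun j _ =>
    (((gr_σO j).E (lg_Ham p) (r + 1)).sub ((gr_σO j).E (lg_Ham p) r)).pow 2

theorem m3τ_nonneg (p : Par N) (r : ℕ) (x : MS X.n N) : 0 ≤ m3τ p r x :=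
  integral_nonneg fun _ => Finset.sum_nonneg fun _ _ => sq_nonneg _

theorem m3τ_int (p : Par N) (r : ℕ) : Integrable (m3τ p r) (p.PP X) :=
  Tower.Gr.integrable_PP (lg_Ham p) ((m3τ_gr0 p r).E (lg_Ham p) r)

theorem m3τ_integral (p : Par N) (r : ℕ) : ∫ x, m3τ p r x ∂(p.PP X) =
    p.ovσ X Finset.univ (r + 1) - p.ovσ X Finset.univ r :=
  (Tower.integral_E (lg_Ham p) r (m3τ_gr0 p r)).trans
    (Tower.integral_sq_sub _ (lg_Ham p) (fun j _ => gr_σO j) (Nat.le_succ r))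

theorem m3_var (p : Par N) (J : Finset (Fin N)) {r : ℕ} (h1 : 1 ≤ r) (hn : r ≤ X.n) {θ : ℝ}
    (hθ : 0 < θ) (h : ∀ i, p.th r i = θ) (w : Fin N → ℝ) (hw : ∑ i ∈ J, w i ^ 2 ≤ N)
    (x : MS X.n N) :
    ∫ y, |∑ i ∈ J, w i * (sO i y - (mT X N).E (Ham p) r (sO i) x)| ∂((mT X N).K (Ham p) r x) ≤
      √(N * (m3τ p r x + √(m3τ p r x) / θ) / X.m) := by
  obtain ⟨l, rfl⟩ : ∃ l : Fin X.n, r = l + 1 := ⟨⟨r - 1, by omega⟩, by simp; omega⟩
  have hv := var_le (X := X) (P := haar N) (lev := mlev) (A := Fin N → Bool)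
    (fun j : Fin N => ((0, l, j) : MI X.n N))
    (fun a b hab => by simpa using hab) (c := l + 1) (fun j => rfl) (lg_Ham p)
    (s := fun j => σO j) measurable_σO abs_σO (fun j j' t y => rfl) hθ
    (fun j => by have := pd_Ham0 p l j; rwa [h j] at this)
    (fun j => ∑ i ∈ J, w i * x.1.1 i j) x
  have hτ : (mT X N).E (Ham p) (l + 1) (fun y => ∑ j, ((mT X N).E (Ham p) (l + 1 + 1) (σO j) y -
      (mT X N).E (Ham p) (l + 1) (σO j) x) ^ 2) x = m3τ p (l + 1) x := by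
    refine integral_congr_ae ?_
    have : ∀ᵐ y ∂((mT X N).K (Ham p) (l + 1) x), ∀ j, (mT X N).E (Ham p) (l + 1) (σO j) y =
        (mT X N).E (Ham p) (l + 1) (σO j) x := ae_all_iff.2 fun j =>
      Tower.ae_eq_of_dep (lg_Ham p).ub (Tower.measurable_E _ _ _ (measurable_σO j))
        (Tower.dep_E (lg_Ham p).ub _ _) x
    filter_upwards [this] with y hy
    simp only [hy]
  change (mT X N).E (Ham p) (l + 1) (fun y => (∑ j, (∑ i ∈ J, w i * x.1.1 i j) *
      (σO j y - (mT X N).E (Ham p) (l + 1) (σO j) x)) ^ 2) x ≤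
    (∑ j, (∑ i ∈ J, w i * x.1.1 i j) ^ 2) *
      ((mT X N).E (Ham p) (l + 1) (fun y => ∑ j, ((mT X N).E (Ham p) (l + 1 + 1) (σO j) y -
        (mT X N).E (Ham p) (l + 1) (σO j) x) ^ 2) x +
      √((mT X N).E (Ham p) (l + 1) (fun y => ∑ j, ((mT X N).E (Ham p) (l + 1 + 1) (σO j) y -
        (mT X N).E (Ham p) (l + 1) (σO j) x) ^ 2) x) / θ) / X.m at hv
  rw [hτ, m3_u] at hv
  have hU : ∀ᵐ y ∂((mT X N).K (Ham p) (l + 1) x), ∀ i j, y.1.1 i j = x.1.1 i j :=
    ae_all_iff.2 fun i => ae_all_iff.2 fun j =>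
      Tower.ae_eq_of_dep (T := mT X N) (ψ := fun y => y.1.1 i j) (lg_Ham p).ub
        ((measurable_entry i j).comp measurable_fst)
        (dep_fst (fun U : Orth N => U.1 i j) h1) x
  have hg : (mT X N).Gr fun y => ∑ i ∈ J, w i * (sO i y - (mT X N).E (Ham p) (l + 1) (sO i) x) :=
    Tower.Gr.sum _ fun i _ => ((gr_sO i).sub (Tower.Gr.const _)).const_mul _
  refine (m3_abs_le (Tower.Gr.integrable_K (lg_Ham p) (hg.pow 2) _ x)).trans (sqrt_le_sqrt ?_)
  have he : ∫ y, (∑ i ∈ J, w i * (sO i y - (mT X N).E (Ham p) (l + 1) (sO i) x)) ^ 2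
      ∂((mT X N).K (Ham p) (l + 1) x) =
      (mT X N).E (Ham p) (l + 1) (fun y => (∑ j, (∑ i ∈ J, w i * x.1.1 i j) *
        (σO j y - (mT X N).E (Ham p) (l + 1) (σO j) x)) ^ 2) x := by
    refine integral_congr_ae ?_
    filter_upwards [hU] with y hy
    congr 1
    simp only [Finset.sum_mul]
    rw [Finset.sum_comm]
    refine Finset.sum_congr rfl fun i _ => ?_
    rw [E_sO p h1, sO, sv]
    simp only [Matrix.mulVec, dotProduct, hy, ← Finset.sum_sub_distrib, Finset.mul_sum, σO]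
    exact Finset.sum_congr rfl fun j _ => by ring
  rw [he]
  refine hv.trans (div_le_div_of_nonneg_right (mul_le_mul_of_nonneg_right hw ?_) X.m_pos.le)
  have := m3τ_nonneg p (l + 1) x
  positivity

theorem m3_b (p : Par N) (r : ℕ) {θ : ℝ} (hθ : 0 < θ) :
    Integrable (fun x => √(N * (m3τ p r x + √(m3τ p r x) / θ) / X.m)) (p.PP X) ∧
    ∫ x, √(N * (m3τ p r x + √(m3τ p r x) / θ) / X.m) ∂(p.PP X) ≤
      √(N * ((p.ovσ X Finset.univ (r + 1) - p.ovσ X Finset.univ r) +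
        √(p.ovσ X Finset.univ (r + 1) - p.ovσ X Finset.univ r) / θ) / X.m) := by
  have i1 := m3τ_int (X := X) p r
  obtain ⟨i2, e2⟩ := m3_sqrt i1 (m3τ_nonneg p r)
  have i3 : Integrable (fun x => √(m3τ p r x) / θ) (p.PP X) := i2.div_const θ
  have i4 : Integrable (fun x => m3τ p r x + √(m3τ p r x) / θ) (p.PP X) := i1.add i3
  have i5 : Integrable (fun x => N * (m3τ p r x + √(m3τ p r x) / θ) / X.m) (p.PP X) :=
    (i4.const_mul _).div_const _
  have hm := X.m_pos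
  obtain ⟨i6, e6⟩ := m3_sqrt i5 fun x => by
    have := m3τ_nonneg p r x
    positivity
  refine ⟨i6, e6.trans (sqrt_le_sqrt ?_)⟩
  rw [integral_div, integral_const_mul, integral_add i1 i3, integral_div, ← m3τ_integral]
  gcongr

theorem m3_third (p : Par N) (J : Finset (Fin N)) {r : ℕ} (h2 : 2 ≤ r) :
    ∫ x, |∑ i ∈ J, ((mT X N).E (Ham p) r (sO i) x) ^ 2 - (mT X N).E (Ham p) (r - 1)
        (fun y => ∑ i ∈ J, ((mT X N).E (Ham p) r (sO i) y) ^ 2) x| ∂(p.PP X) ≤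
      4 * √(N * (p.ovσ X Finset.univ r - p.ovσ X Finset.univ (r - 1))) := by
  have hH := lg_Ham (X := X) p
  have gA : ∀ a, (mT X N).Gr fun y => ∑ i ∈ J, ((mT X N).E (Ham p) a (sO i) y) ^ 2 := fun a =>
    Tower.Gr.sum _ fun i _ => ((gr_sO i).E hH a).pow 2
  have gD : (mT X N).Gr fun y => |∑ i ∈ J, ((mT X N).E (Ham p) r (sO i) y) ^ 2 -
      ∑ i ∈ J, ((mT X N).E (Ham p) (r - 1) (sO i) y) ^ 2| := ((gA r).sub (gA (r - 1))).abs
  have gS : (mT X N).Gr fun y => ∑ i,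
      ((mT X N).E (Ham p) r (sO i) y - (mT X N).E (Ham p) (r - 1) (sO i) y) ^ 2 :=
    Tower.Gr.sum _ fun i _ => (((gr_sO i).E hH r).sub ((gr_sO i).E hH (r - 1))).pow 2
  have hdep : (mT X N).Dep (r - 1) fun y => ∑ i ∈ J, ((mT X N).E (Ham p) (r - 1) (sO i) y) ^ 2 :=
    Tower.Dep.sum J fun i _ => (Tower.dep_E hH.ub (sO i) (r - 1)).comp fun t => t ^ 2
  have iD := Tower.Gr.integrable_PP hH gD
  have iE := Tower.Gr.integrable_PP hH (gD.E hH (r - 1))
  have iS := Tower.Gr.integrable_PP hH (gS.const_mul (N : ℝ))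
  obtain ⟨i1, e1⟩ := m3_sqrt iS fun x =>
    mul_nonneg (Nat.cast_nonneg _) (Finset.sum_nonneg fun _ _ => sq_nonneg _)
  rw [integral_const_mul, Tower.integral_sq_sub _ hH (fun i _ => gr_sO i) (Nat.sub_le r 1)] at e1
  have e2 : (mT X N).ov (Ham p) sO Finset.univ r = p.ovσ X Finset.univ r := ov_univ p (by omega)
  have e3 : (mT X N).ov (Ham p) sO Finset.univ (r - 1) = p.ovσ X Finset.univ (r - 1) :=
    ov_univ p (by omega)
  rw [e2, e3] at e1
  have e4 : ∫ y, |∑ i ∈ J, ((mT X N).E (Ham p) r (sO i) y) ^ 2 -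
      ∑ i ∈ J, ((mT X N).E (Ham p) (r - 1) (sO i) y) ^ 2| ∂((mT X N).PP (Ham p)) ≤
      2 * √(N * (p.ovσ X Finset.univ r - p.ovσ X Finset.univ (r - 1))) := by
    refine (integral_mono iD (i1.const_mul 2) fun y => ?_).trans ?_
    · have a1 := m3_sum_E p J r y
      have a2 := m3_sum_E p J (r - 1) y
      set m := fun i => (mT X N).E (Ham p) r (sO i) y
      set n := fun i => (mT X N).E (Ham p) (r - 1) (sO i) y
      change |∑ i ∈ J, m i ^ 2 - ∑ i ∈ J, n i ^ 2| ≤ 2 * √(N * ∑ i, (m i - n i) ^ 2)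
      have a3 : ∑ i ∈ J, m i ^ 2 - ∑ i ∈ J, n i ^ 2 = ∑ i ∈ J, (m i + n i) * (m i - n i) := by
        rw [← Finset.sum_sub_distrib]
        exact Finset.sum_congr rfl fun i _ => by ring
      have a4 : ∑ i ∈ J, (m i + n i) ^ 2 ≤ 4 * N := by
        calc ∑ i ∈ J, (m i + n i) ^ 2 ≤ ∑ i ∈ J, (2 * m i ^ 2 + 2 * n i ^ 2) :=
              Finset.sum_le_sum fun i _ => by nlinarith [sq_nonneg (m i - n i)]
          _ ≤ 4 * N := by
              rw [Finset.sum_add_distrib, ← Finset.mul_sum, ← Finset.mul_sum]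
              linarith
      have a5 : ∑ i ∈ J, (m i - n i) ^ 2 ≤ ∑ i, (m i - n i) ^ 2 :=
        Finset.sum_le_sum_of_subset_of_nonneg (Finset.subset_univ J) fun _ _ _ => sq_nonneg _
      have a6 : (2 : ℝ) * √(N * ∑ i, (m i - n i) ^ 2) = √(4 * N * ∑ i, (m i - n i) ^ 2) := by
        rw [mul_assoc, Real.sqrt_mul (by norm_num : (0 : ℝ) ≤ 4),
          show (4 : ℝ) = 2 ^ 2 by norm_num, Real.sqrt_sq (by norm_num)]
      rw [a3, a6]
      refine Real.abs_le_sqrt ((Finset.sum_mul_sq_le_sq_mul_sq J _ _).trans ?_)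
      exact mul_le_mul a4 a5 (Finset.sum_nonneg fun _ _ => sq_nonneg _) (by positivity)
    · rw [integral_const_mul]
      linarith
  have e5 := Tower.integral_E hH (r - 1) gD
  refine (integral_mono_of_nonneg (Filter.Eventually.of_forall fun x => abs_nonneg _) (iD.add iE)
    (Filter.Eventually.of_forall fun x => ?_)).trans ?_
  · have a1 := Tower.E_sub hH (gA r) (gA (r - 1)) (r - 1) x
    rw [Tower.E_of_dep hH.ub (gA (r - 1)).1 hdep] at a1
    have a2 : |(mT X N).E (Ham p) (r - 1) (fun y => ∑ i ∈ J, ((mT X N).E (Ham p) r (sO i) y) ^ 2 -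
        ∑ i ∈ J, ((mT X N).E (Ham p) (r - 1) (sO i) y) ^ 2) x| ≤ (mT X N).E (Ham p) (r - 1)
        (fun y => |∑ i ∈ J, ((mT X N).E (Ham p) r (sO i) y) ^ 2 -
          ∑ i ∈ J, ((mT X N).E (Ham p) (r - 1) (sO i) y) ^ 2|) x := abs_integral_le_integral_abs
    rw [a1, abs_sub_comm] at a2
    simp only [Pi.add_apply]
    exact (abs_sub_le _ _ _).trans (add_le_add le_rfl a2)
  · simp only [Pi.add_apply]
    rw [integral_add iD iE, e5]
    linarith

/-- Write `m_r = E_r s`, `T_c = ovσ (c+1) - ovσ c`.  For replicas `y, y'` split at level `r`,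
`|s·s' - c| ≤ |(s - m_r)·s'| + |m_r·(s' - m_r)| + ||m_r|² - E_{r-1}|m_r|²| + |E_{r-1}|m_r|² - c|`
(products over `J`).  The matrix is a.s. constant under `K r x` (`ae_eq_of_dep`), so
`(s - m_r)·w = u·(σ - E_r σ)` with `u = Uᵀ (1_J w)`, `|u|² ≤ N`: apply `var_le` (site fields of level
`r`), then Jensen for the concave functions of `T`.  Third term: `m_r = m_{r-1} + Δ`,
`∫ |Δ|² ≤ T_{r-1} ≤ N` (`integral_sq_sub`, `ov_univ`), giving `2√(N T) + 2 T ≤ 4 √(N T)`. -/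
theorem Err2_le (p : Par N) (J : Finset (Fin N)) {r : ℕ} (h2 : 2 ≤ r) (hn : r ≤ X.n) {θ : ℝ}
    (hθ : 0 < θ) (h : ∀ i, p.th r i = θ) (c : ℝ) :
    p.Err2 X J r c ≤
      ∫ x, |(mT X N).E (Ham p) (r - 1)
        (fun y => ∑ i ∈ J, ((mT X N).E (Ham p) r (sO i) y) ^ 2) x - c| ∂(p.PP X) +
      4 * √(N * (p.ovσ X Finset.univ r - p.ovσ X Finset.univ (r - 1))) +
      2 * √(N * ((p.ovσ X Finset.univ (r + 1) - p.ovσ X Finset.univ r) +
        √(p.ovσ X Finset.univ (r + 1) - p.ovσ X Finset.univ r) / θ) / X.m) := by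
  have hH := lg_Ham (X := X) p
  have gA : (mT X N).Gr fun y => ∑ i ∈ J, ((mT X N).E (Ham p) r (sO i) y) ^ 2 :=
    Tower.Gr.sum _ fun i _ => ((gr_sO i).E hH r).pow 2
  have gG := gA.E hH (r - 1)
  obtain ⟨ib, eb⟩ := m3_b (X := X) p r hθ
  have e3 := m3_third (X := X) p J h2
  set G := (mT X N).E (Ham p) (r - 1)
    (fun y => ∑ i ∈ J, ((mT X N).E (Ham p) r (sO i) y) ^ 2) with hG
  have i3 : Integrable (fun x => |∑ i ∈ J, ((mT X N).E (Ham p) r (sO i) x) ^ 2 - G x|) (p.PP X) :=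
    Tower.Gr.integrable_PP hH (gA.sub gG).abs
  have i4 : Integrable (fun x => |G x - c|) (p.PP X) :=
    Tower.Gr.integrable_PP hH (gG.sub (Tower.Gr.const c)).abs
  have i5 : Integrable (fun x => 2 * √(N * (m3τ p r x + √(m3τ p r x) / θ) / X.m)) (p.PP X) :=
    ib.const_mul 2
  have i6 : Integrable (fun x => |∑ i ∈ J, ((mT X N).E (Ham p) r (sO i) x) ^ 2 - G x| +
      |G x - c|) (p.PP X) := i3.add i4
  have i7 : Integrable (fun x => 2 * √(N * (m3τ p r x + √(m3τ p r x) / θ) / X.m) +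
      (|∑ i ∈ J, ((mT X N).E (Ham p) r (sO i) x) ^ 2 - G x| + |G x - c|)) (p.PP X) := i5.add i6
  refine (integral_mono_of_nonneg (μ := p.PP X) (Filter.Eventually.of_forall fun x =>
    integral_nonneg fun y => integral_nonneg fun y' => abs_nonneg _) i7
    (Filter.Eventually.of_forall fun x => ?_)).trans ?_
  · have gw : ∀ w : Fin N → ℝ, Integrable (fun y => |∑ i ∈ J, w i *
        (sO i y - (mT X N).E (Ham p) r (sO i) x)|) ((mT X N).K (Ham p) r x) := fun w =>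
      Tower.Gr.integrable_K hH (Tower.Gr.sum _ fun i _ =>
        ((gr_sO i).sub (Tower.Gr.const _)).const_mul _).abs _ x
    have v1 := m3_var p J (by omega) hn hθ h _ (m3_sum_E p J r x) x
    have j1 := (gw fun i => (mT X N).E (Ham p) r (sO i) x).add (integrable_const
      (√(N * (m3τ p r x + √(m3τ p r x) / θ) / X.m) +
        (|∑ i ∈ J, ((mT X N).E (Ham p) r (sO i) x) ^ 2 - G x| + |G x - c|)))
    refine (integral_mono_of_nonneg (Filter.Eventually.of_forall fun y =>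
      integral_nonneg fun y' => abs_nonneg _) j1
      (Filter.Eventually.of_forall fun y => ?_)).trans ?_
    · have v2 := m3_var p J (by omega) hn hθ h _ (m3_sum_sO J y) x
      have j2 := (gw fun i => sO i y).add (integrable_const
        (|∑ i ∈ J, (mT X N).E (Ham p) r (sO i) x * (sO i y - (mT X N).E (Ham p) r (sO i) x)| +
          (|∑ i ∈ J, ((mT X N).E (Ham p) r (sO i) x) ^ 2 - G x| + |G x - c|)))
      refine (integral_mono_of_nonneg (Filter.Eventually.of_forall fun y' => abs_nonneg _) j2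
        (Filter.Eventually.of_forall fun y' => ?_)).trans ?_
      · simp only [Pi.add_apply]
        have e : ∑ i ∈ J, sO i y * sO i y' - c =
            ∑ i ∈ J, sO i y * (sO i y' - (mT X N).E (Ham p) r (sO i) x) +
            (∑ i ∈ J, (mT X N).E (Ham p) r (sO i) x * (sO i y - (mT X N).E (Ham p) r (sO i) x) +
              ((∑ i ∈ J, ((mT X N).E (Ham p) r (sO i) x) ^ 2 - G x) + (G x - c))) := by
          have : ∑ i ∈ J, sO i y * sO i y' =
              ∑ i ∈ J, sO i y * (sO i y' - (mT X N).E (Ham p) r (sO i) x) +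
              ∑ i ∈ J, (mT X N).E (Ham p) r (sO i) x * (sO i y - (mT X N).E (Ham p) r (sO i) x) +
              ∑ i ∈ J, ((mT X N).E (Ham p) r (sO i) x) ^ 2 := by
            rw [← Finset.sum_add_distrib, ← Finset.sum_add_distrib]
            exact Finset.sum_congr rfl fun i _ => by ring
          rw [this]
          ring
        rw [e]
        exact (abs_add_le _ _).trans (add_le_add le_rfl ((abs_add_le _ _).trans
          (add_le_add le_rfl (abs_add_le _ _))))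
      · simp only [Pi.add_apply]
        rw [integral_add (gw _) (integrable_const _), integral_const, probReal_univ, one_smul]
        linarith
    · simp only [Pi.add_apply]
      rw [integral_add (gw _) (integrable_const _), integral_const, probReal_univ, one_smul]
      linarith
  · rw [integral_add i5 i6, integral_add i3 i4, integral_const_mul]
    linarith

theorem m3_xi (p : Par N) (J : Finset (Fin N)) (l : Fin X.n) {a : ℕ} (ha : a ≤ l + 1)
    {ϑ η ε A0 C : ℝ} (hη : 0 < η) (hϑ : η ≤ ϑ) (h1 : ∀ i ∈ J, p.vt (l + 1) i = ϑ)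
    (c0 : ∫ x, |∑ i ∈ J, sO i x ^ 2 - A0| ∂(p.PP X) ≤ ε)
    (c1 : ∫ x, |∑ i ∈ J, x.2.1 (1, l, i) * sO i x - C| ∂(p.PP X) ≤ ε) :
    Integrable (fun x => |X.tau (fun r => (mT X N).E (Ham p) a
      (fun y => ∑ i ∈ J, ((mT X N).E (Ham p) r (sO i) y) ^ 2) x) (l + 1) - (A0 - C / ϑ)|)
      (p.PP X) ∧
    ∫ x, |X.tau (fun r => (mT X N).E (Ham p) a
      (fun y => ∑ i ∈ J, ((mT X N).E (Ham p) r (sO i) y) ^ 2) x) (l + 1) - (A0 - C / ϑ)|
      ∂(p.PP X) ≤ ε + ε / η := by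
  have hH := lg_Ham (X := X) p
  have hε : 0 ≤ ε := (integral_nonneg fun _ => abs_nonneg _).trans c0
  have hϑ0 : 0 < ϑ := hη.trans_le hϑ
  have gA : ∀ r, (mT X N).Gr fun y => ∑ i ∈ J, ((mT X N).E (Ham p) r (sO i) y) ^ 2 := fun r =>
    Tower.Gr.sum _ fun i _ => ((gr_sO i).E hH r).pow 2
  have gY : ∀ i, (mT X N).Gr fun y => y.2.1 (1, l, i) * sO i y := fun i =>
    (lg_coord (X := X) (P := haar N) (lev := mlev) (A := Fin N → Bool)
      ((1, l, i) : MI X.n N)).gr.mul (gr_sO i)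
  have gS : (mT X N).Gr fun y => ∑ i ∈ J, sO i y ^ 2 := Tower.Gr.sum _ fun i _ => (gr_sO i).pow 2
  have gY' : (mT X N).Gr fun y => ∑ i ∈ J, y.2.1 (1, l, i) * sO i y :=
    Tower.Gr.sum _ fun i _ => gY i
  have g0 := (gS.sub (Tower.Gr.const A0)).abs
  have g1 := (gY'.sub (Tower.Gr.const C)).abs
  have key : ∀ x, (mT X N).E (Ham p) a (fun y => ∑ i ∈ J, y.2.1 (1, l, i) * sO i y) x =
      ϑ * ((mT X N).E (Ham p) a (fun y => ∑ i ∈ J, sO i y ^ 2) x -
        X.tau (fun r => (mT X N).E (Ham p) a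
          (fun y => ∑ i ∈ J, ((mT X N).E (Ham p) r (sO i) y) ^ 2) x) (l + 1)) := by
    intro x
    have h2 : ∀ i ∈ J, (mT X N).E (Ham p) a (fun y => y.2.1 (1, l, i) * sO i y) x =
        ϑ * ((mT X N).E (Ham p) a (fun y => sO i y ^ 2) x -
          X.tau (fun r => (mT X N).E (Ham p) a
            (fun y => ((mT X N).E (Ham p) r (sO i) y) ^ 2) x) (l + 1)) := by
      intro i hi
      have h3 := ibp (X := X) (P := haar N) (lev := mlev) (A := Fin N → Bool)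
        ((1, l, i) : MI X.n N) hH ((gr_sO i).const_mul ϑ)
        (by have := pd_Ham1 p l i; rwa [h1 i hi] at this) (gr_sO i) (Tower.Gr.const 0)
        (fun y => hasDerivAt_const (0 : ℝ) (sO i y)) (a := a) ha x
      change (mT X N).E (Ham p) a (fun y => y.2.1 (1, l, i) * sO i y) x =
        (mT X N).E (Ham p) a (fun y => 0 + sO i y * (ϑ * sO i y)) x -
          X.tau (fun r => (mT X N).E (Ham p) a (fun y => (mT X N).E (Ham p) r (sO i) y *
            (mT X N).E (Ham p) r (fun y => ϑ * sO i y) y) x) (l + 1) at h3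
      have h4 : (fun y : MS X.n N => 0 + sO i y * (ϑ * sO i y)) = fun y => ϑ * sO i y ^ 2 := by
        funext y; ring
      have h5 : ∀ r, (fun y => (mT X N).E (Ham p) r (sO i) y *
          (mT X N).E (Ham p) r (fun y => ϑ * sO i y) y) =
          fun y => ϑ * ((mT X N).E (Ham p) r (sO i) y) ^ 2 := fun r => by
        funext y
        rw [Tower.E_const_mul]
        ring
      simp only [h4, h5] at h3
      simp only [Tower.E_const_mul] at h3
      rw [h3, mul_sub, Expo.tau, Expo.tau, Finset.mul_sum]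
      congr 1
      exact Finset.sum_congr rfl fun r _ => by ring
    have h6 : ∀ r, (mT X N).E (Ham p) a
        (fun y => ∑ i ∈ J, ((mT X N).E (Ham p) r (sO i) y) ^ 2) x =
        ∑ i ∈ J, (mT X N).E (Ham p) a (fun y => ((mT X N).E (Ham p) r (sO i) y) ^ 2) x := fun r =>
      Tower.E_sum J hH (fun i _ => ((gr_sO i).E hH r).pow 2) a x
    rw [Tower.E_sum J hH (fun i _ => gY i), Tower.E_sum J hH (fun i _ => (gr_sO i).pow 2),
      Finset.sum_congr rfl h2, ← Finset.mul_sum, Finset.sum_sub_distrib]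
    simp only [h6, Expo.tau, Finset.mul_sum]
    rw [Finset.sum_comm]
  have gT : (mT X N).Gr fun x => X.tau (fun r => (mT X N).E (Ham p) a
      (fun y => ∑ i ∈ J, ((mT X N).E (Ham p) r (sO i) y) ^ 2) x) (l + 1) :=
    Tower.Gr.sum _ fun r _ => ((gA r).E hH a).const_mul _
  have i0 := Tower.Gr.integrable_PP hH (g0.E hH a)
  have i1 := (Tower.Gr.integrable_PP hH (g1.E hH a)).div_const ϑ
  refine ⟨Tower.Gr.integrable_PP hH (gT.sub (Tower.Gr.const _)).abs, ?_⟩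
  refine (integral_mono_of_nonneg (Filter.Eventually.of_forall fun x => abs_nonneg _) (i0.add i1)
    (Filter.Eventually.of_forall fun x => ?_)).trans ?_
  · have a0 : |(mT X N).E (Ham p) a (fun y => ∑ i ∈ J, sO i y ^ 2 - A0) x| ≤
        (mT X N).E (Ham p) a (fun y => |∑ i ∈ J, sO i y ^ 2 - A0|) x :=
      abs_integral_le_integral_abs
    have a1 : |(mT X N).E (Ham p) a (fun y => ∑ i ∈ J, y.2.1 (1, l, i) * sO i y - C) x| ≤
        (mT X N).E (Ham p) a (fun y => |∑ i ∈ J, y.2.1 (1, l, i) * sO i y - C|) x :=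
      abs_integral_le_integral_abs
    rw [Tower.E_sub hH gS (Tower.Gr.const _), Tower.E_const] at a0
    rw [Tower.E_sub hH gY' (Tower.Gr.const _), Tower.E_const, key] at a1
    simp only [Pi.add_apply]
    refine le_trans ?_ (add_le_add a0 (div_le_div_of_nonneg_right a1 hϑ0.le))
    rw [← abs_of_pos hϑ0, ← abs_div, abs_of_pos hϑ0]
    refine le_trans (le_of_eq ?_) (abs_sub _ _)
    congr 1
    field_simp
    ring
  · simp only [Pi.add_apply]
    rw [integral_add i0 i1, integral_div, Tower.integral_E hH a g0, Tower.integral_E hH a g1]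
    exact add_le_add c0 (div_le_div₀ hε c1 hη hϑ)

/-- With `Y_a = Σ_{i∈J} g_{a i} s_i`, `ibp` at level `a` gives
`E_a Y_a = ϑ_a (E_a |s|² - Ξ_a)`, `Ξ_a = Σ_{c>a} W_c E_a |m_c|²`; so `Ξ_a` is concentrated near
`A0 - C_a/ϑ_a`, and `W_r E_{r-1} |m_r|² = Ξ_{r-1} - E_{r-1} Ξ_r`. -/
theorem cond_ov_conc (p : Par N) (J : Finset (Fin N)) (l l' : Fin X.n) (hl : l'.val = l.val + 1)
    {ϑ ϑ' η w ε A0 C C' : ℝ} (hη : 0 < η) (hϑ : η ≤ ϑ) (hϑ' : η ≤ ϑ') (hw : 0 < w)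
    (hW : w ≤ X.W (l' + 1)) (h1 : ∀ i ∈ J, p.vt (l + 1) i = ϑ) (h2 : ∀ i ∈ J, p.vt (l' + 1) i = ϑ')
    (c0 : ∫ x, |∑ i ∈ J, sO i x ^ 2 - A0| ∂(p.PP X) ≤ ε)
    (c1 : ∫ x, |∑ i ∈ J, x.2.1 (1, l, i) * sO i x - C| ∂(p.PP X) ≤ ε)
    (c2 : ∫ x, |∑ i ∈ J, x.2.1 (1, l', i) * sO i x - C'| ∂(p.PP X) ≤ ε) :
    ∫ x, |(mT X N).E (Ham p) (l + 1)
        (fun y => ∑ i ∈ J, ((mT X N).E (Ham p) (l' + 1) (sO i) y) ^ 2) x -
      ((A0 - C / ϑ) - (A0 - C' / ϑ')) / X.W (l' + 1)| ∂(p.PP X) ≤ 2 * (ε + ε / η) / w := by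
  have hH := lg_Ham (X := X) p
  have hε : 0 ≤ ε := (integral_nonneg fun _ => abs_nonneg _).trans c0
  have hn : (l : ℕ) + 1 + 1 ≤ X.n := by have := l'.2; omega
  obtain ⟨i1, e1⟩ := m3_xi p J l (a := l + 1) le_rfl hη hϑ h1 c0 c1
  obtain ⟨i2, e2⟩ := m3_xi p J l' (a := l + 1) (by omega) hη hϑ' h2 c0 c2
  rw [hl] at i2 e2 hW ⊢
  have hW0 : 0 < X.W (l + 1 + 1) := hw.trans_le hW
  refine (integral_mono_of_nonneg (Filter.Eventually.of_forall fun x => abs_nonneg _)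
    ((i1.add i2).div_const (X.W (l + 1 + 1))) (Filter.Eventually.of_forall fun x => ?_)).trans ?_
  · simp only [Pi.add_apply]
    rw [Expo.s2_tau_step _ _ hn, show X.e (l + 1 + 1) - X.e (l + 1) = X.W (l + 1 + 1) from rfl,
      le_div_iff₀ hW0, ← abs_of_pos hW0, ← abs_mul, abs_of_pos hW0]
    refine le_trans (le_of_eq ?_) (abs_sub _ _)
    congr 1
    field_simp
    ring
  · simp only [Pi.add_apply]
    rw [integral_div, integral_add i1 i2]
    exact div_le_div₀ (by positivity) (by linarith) hw hW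

/-- the overlap constants determined by the slopes `c` at a contact point -/
noncomputable def Qc (X : Expo) {k J : ℕ} (π' c : PI X.n k J → ℝ) (b : Fin (k + 1)) (r : ℕ) : ℝ :=
  if r ≤ X.n then (vtOf c r b / vtOf π' r b - vtOf c (r - 1) b / vtOf π' (r - 1) b) / X.W r
  else 2 * c (Sum.inl b)

/-- Synchronisation.  The weighted sum of the increments is bounded by Cauchy–Schwarz:
`Σ W_r √(N T_r) ≤ √(Σ W_r²) √(N Σ T_r) ≤ √μ N`. -/
theorem sync (S : Spec) {J : ℕ} (t : ℝ) (θ : ℕ → ℝ) (blk : Fin N → Fin (S.k + 1))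
    (lab : Fin N → Fin J) (mag : Fin J → ℝ) (Kp : ℝ) (f0 : (Fin N → Bool) → ℝ)
    (tx : ℕ → Fin N → ℝ) (π' c : PI X.n S.k J → ℝ) {η w μ ε : ℝ} (hη : 0 < η) (hw : 0 < w)
    (hw1 : w ≤ 1) (hθ : ∀ a, 1 ≤ a → a ≤ X.n → η ≤ θ a)
    (hv : ∀ a b, 1 ≤ a → a ≤ X.n → η ≤ vtOf π' a b)
    (hW : ∀ r, 2 ≤ r → r ≤ X.n → w ≤ X.W r ∧ X.W r ≤ μ) (hμ : 0 ≤ μ)
    (hc : ∀ d, ∫ x, |Yd blk lab mag d x - c d| ∂((sys S t θ blk lab mag Kp f0 tx π').PP X) ≤ ε)
    (b : Fin (S.k + 1)) (hb : (fib blk b).Nonempty) :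
    (∀ r, 2 ≤ r → r ≤ X.n + 1 → |(fib blk b).card *
        (sys S t θ blk lab mag Kp f0 tx π').Q X (fib blk b) r - Qc X π' c b r| ≤
        4 * ε * (1 + η⁻¹) / w) ∧
    (sys S t θ blk lab mag Kp f0 tx π').ErrQ X (fib blk b)
        ((sys S t θ blk lab mag Kp f0 tx π').Q X (fib blk b)) ≤
      12 * ε * (1 + η⁻¹) / w + N * (4 * √μ + 2 * √(μ / X.m)) +
        2 * √(N * √N / (η * X.m)) := by
  set p := sys S t θ blk lab mag Kp f0 tx π' with hp
  set Jb := fib blk b with hJb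
  have hH := lg_Ham (X := X) p
  have hε : 0 ≤ ε := (integral_nonneg fun _ => abs_nonneg _).trans (hc (Sum.inl b))
  have hcard : ((Jb.card : ℕ) : ℝ) ≠ 0 := Nat.cast_ne_zero.2 hb.card_pos.ne'
  have hm := X.m_pos
  have hη' : 0 < η⁻¹ := inv_pos.2 hη
  set D := 4 * ε * (1 + η⁻¹) / w with hD
  have hD4 : 4 * ε ≤ D := by
    rw [hD, le_div_iff₀ hw]
    have := mul_nonneg hε hη'.le
    nlinarith
  have gS : (mT X N).Gr fun y => ∑ i ∈ Jb, sO i y ^ 2 :=
    Tower.Gr.sum _ fun i _ => (gr_sO i).pow 2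
  have gA : ∀ r, (mT X N).Gr fun y => ∑ i ∈ Jb, ((mT X N).E (Ham p) r (sO i) y) ^ 2 := fun r =>
    Tower.Gr.sum _ fun i _ => ((gr_sO i).E hH r).pow 2
  have c0 : ∫ x, |∑ i ∈ Jb, sO i x ^ 2 - 2 * c (Sum.inl b)| ∂(p.PP X) ≤ 2 * ε := by
    have h1 : ∫ x, |1 / 2 * ∑ i ∈ Jb, sO i x ^ 2 - c (Sum.inl b)| ∂(p.PP X) ≤ ε := hc (Sum.inl b)
    have h2 : ∀ x : MS X.n N, |∑ i ∈ Jb, sO i x ^ 2 - 2 * c (Sum.inl b)| =
        2 * |1 / 2 * ∑ i ∈ Jb, sO i x ^ 2 - c (Sum.inl b)| := fun x => by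
      rw [← abs_of_pos (two_pos : (0 : ℝ) < 2), ← abs_mul, abs_of_pos (two_pos : (0 : ℝ) < 2)]
      congr 1
      ring
    simp only [h2]
    rw [integral_const_mul]
    linarith
  have c1 : ∀ l : Fin X.n, ∫ x, |∑ i ∈ Jb, x.2.1 (1, l, i) * sO i x - vtOf c (l + 1) b|
      ∂(p.PP X) ≤ 2 * ε := fun l => by
    have h1 : ∫ x, |∑ i ∈ Jb, x.2.1 (1, l, i) * sO i x - c (Sum.inr (Sum.inl (l, b)))|
        ∂(p.PP X) ≤ ε := hc (Sum.inr (Sum.inl (l, b)))
    have h2 : vtOf c (l + 1) b = c (Sum.inr (Sum.inl (l, b))) := by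
      rw [vtOf, dif_pos ⟨by omega, by have := l.2; omega⟩]
      rfl
    rw [h2]
    linarith
  have hvt : ∀ a, ∀ i ∈ Jb, p.vt a i = vtOf π' a b := fun a i hi => by
    have : blk i = b := by simpa [hJb, fib] using hi
    rw [← this]
    rfl
  have K : ∀ r, 2 ≤ r → r ≤ X.n → ∫ x, |(mT X N).E (Ham p) (r - 1)
      (fun y => ∑ i ∈ Jb, ((mT X N).E (Ham p) r (sO i) y) ^ 2) x - Qc X π' c b r| ∂(p.PP X) ≤ D := by
    intro r h2 hn
    obtain ⟨q, rfl⟩ : ∃ q, r = q + 1 + 1 := ⟨r - 2, by omega⟩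
    have h3 := cond_ov_conc p Jb ⟨q, by omega⟩ ⟨q + 1, by omega⟩ rfl hη
      (hv (q + 1) b (by omega) (by omega)) (hv (q + 1 + 1) b (by omega) hn) hw
      (hW _ h2 hn).1 (hvt _) (hvt _) c0 (c1 _) (c1 _)
    have h4 : Qc X π' c b (q + 1 + 1) =
        ((2 * c (Sum.inl b) - vtOf c (q + 1) b / vtOf π' (q + 1) b) -
          (2 * c (Sum.inl b) - vtOf c (q + 1 + 1) b / vtOf π' (q + 1 + 1) b)) /
            X.W (q + 1 + 1) := by
      rw [Qc, if_pos hn, Nat.add_sub_cancel]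
      ring
    rw [h4]
    refine h3.trans (le_of_eq ?_)
    rw [hD]
    ring
  have hQ : ∀ r, 2 ≤ r → r ≤ X.n → Jb.card * p.Q X Jb r = p.ov X Jb r := fun r h2 hn => by
    rw [Par.Q, if_neg (by omega), if_pos hn, mul_div_cancel₀ _ hcard]
  have hQ' : Jb.card * p.Q X Jb (X.n + 1) = ∫ x, ∑ i ∈ Jb, sO i x ^ 2 ∂(p.PP X) := by
    have := X.n_pos
    rw [Par.Q, if_neg (by omega), if_neg (by omega), mul_div_cancel₀ _ hcard]
    exact Tower.ov_of_ge _ Jb (fun i _ => measurable_sO i) le_rfl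
  have mean : ∀ {φ : MS X.n N → ℝ}, (mT X N).Gr φ → ∀ z : ℝ,
      |∫ x, φ x ∂(p.PP X) - z| ≤ ∫ x, |φ x - z| ∂(p.PP X) := fun {φ} hφ z => by
    have i1 : Integrable φ (p.PP X) := Tower.Gr.integrable_PP hH hφ
    have := abs_integral_le_integral_abs (μ := p.PP X) (f := fun x => φ x - z)
    rwa [integral_sub i1 (integrable_const _), integral_const, probReal_univ, one_smul] at this
  have tri : ∀ {φ : MS X.n N → ℝ}, (mT X N).Gr φ → ∀ z z' : ℝ,
      ∫ x, |φ x - z| ∂(p.PP X) ≤ ∫ x, |φ x - z'| ∂(p.PP X) + |z - z'| := fun {φ} hφ z z' => by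
    have i1 : Integrable (fun x => |φ x - z|) (p.PP X) :=
      Tower.Gr.integrable_PP hH (hφ.sub (Tower.Gr.const z)).abs
    have i2 : Integrable (fun x => |φ x - z'|) (p.PP X) :=
      Tower.Gr.integrable_PP hH (hφ.sub (Tower.Gr.const z')).abs
    have := integral_mono i1 (i2.add (integrable_const |z - z'|)) fun x => by
      simp only [Pi.add_apply]
      rw [abs_sub_comm z z']
      exact abs_sub_le _ _ _
    simp only [Pi.add_apply] at this
    rwa [integral_add i2 (integrable_const _), integral_const, probReal_univ, one_smul] at this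
  have K1 : ∀ r, 2 ≤ r → r ≤ X.n → |p.ov X Jb r - Qc X π' c b r| ≤ D := fun r h2 hn => by
    refine le_trans ?_ (K r h2 hn)
    have := mean ((gA r).E hH (r - 1)) (Qc X π' c b r)
    rwa [show ∫ x, (mT X N).E (Ham p) (r - 1)
      (fun y => ∑ i ∈ Jb, ((mT X N).E (Ham p) r (sO i) y) ^ 2) x ∂(p.PP X) = p.ov X Jb r from
      Tower.integral_E hH (r - 1) (gA r)] at this
  have K2 := (mean gS (2 * c (Sum.inl b))).trans c0
  refine ⟨fun r h2 hn => ?_, ?_⟩
  · rcases hn.eq_or_lt with rfl | hn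
    · rw [hQ', Qc, if_neg (by omega)]
      linarith
    · rw [hQ r h2 (by omega)]
      exact K1 r h2 (by omega)
  have E0 : p.Err2 X Jb (X.n + 2) (Jb.card * p.Q X Jb (X.n + 1)) ≤ D := by
    rw [hQ', Par.Err2, Tower.Err2_of_ge _ Jb (fun i _ => measurable_sO i) mT_L.le]
    have := tri gS (∫ x, ∑ i ∈ Jb, sO i x ^ 2 ∂(p.PP X)) (2 * c (Sum.inl b))
    exact this.trans (by linarith)
  set o := p.ovσ X Finset.univ with ho
  have omono : Monotone o := Tower.ov_mono _ hH fun i _ => gr_σO i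
  have ole : ∀ r, o r ≤ N := ovσ_le p
  have o0 : ∀ r, 0 ≤ o r := fun r => Tower.ov_nonneg _ _ _ r
  have hN : (0 : ℝ) ≤ N := Nat.cast_nonneg _
  have E1 : ∀ r ∈ Finset.Icc (1 + 1) X.n, X.W r * p.Err2 X Jb r (Jb.card * p.Q X Jb r) ≤
      X.W r * (2 * D + 2 * √(N * √N / (η * X.m))) + 4 * (X.W r * √(N * (o r - o (r - 1)))) +
        2 * (X.W r * √(N / X.m * (o (r + 1) - o r))) := by
    intro r hr
    obtain ⟨h2, hn⟩ := Finset.mem_Icc.1 hr
    have hθr := hθ r (by omega) hn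
    have hθ0 : 0 < θ r := hη.trans_le hθr
    have h3 := Err2_le p Jb h2 hn hθ0 (fun _ => rfl) (p.ov X Jb r)
    have h4 := tri ((gA r).E hH (r - 1)) (p.ov X Jb r) (Qc X π' c b r)
    have h5 := K r h2 hn
    have h6 := K1 r h2 hn
    have hT : 0 ≤ o (r + 1) - o r := sub_nonneg.2 (omono (Nat.le_succ r))
    have hT' : o (r + 1) - o r ≤ N := by linarith [ole (r + 1), o0 r]
    have h7 : √(N * ((o (r + 1) - o r) + √(o (r + 1) - o r) / θ r) / X.m) ≤
        √(N / X.m * (o (r + 1) - o r)) + √(N * √N / (η * X.m)) := by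
      refine le_trans (sqrt_le_sqrt ?_) (m3_sqrt_add (mul_nonneg (div_nonneg hN hm.le) hT)
        (by positivity))
      have h8 : √(o (r + 1) - o r) / θ r ≤ √N / η :=
        div_le_div₀ (sqrt_nonneg _) (sqrt_le_sqrt hT') hη hθr
      calc N * ((o (r + 1) - o r) + √(o (r + 1) - o r) / θ r) / X.m
          ≤ N * ((o (r + 1) - o r) + √N / η) / X.m := by gcongr
        _ = _ := by field_simp
    rw [hQ r h2 hn]
    have h9 : p.Err2 X Jb r (p.ov X Jb r) ≤ (2 * D + 2 * √(N * √N / (η * X.m))) +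
        4 * √(N * (o r - o (r - 1))) + 2 * √(N / X.m * (o (r + 1) - o r)) := by linarith
    have := mul_le_mul_of_nonneg_left h9 (X.W_nonneg r)
    linarith
  have sW : ∑ r ∈ Finset.Icc (1 + 1) X.n, X.W r ≤ 1 := by
    rw [X.sum_W X.n_pos]
    linarith [X.e_pos 1]
  have hWμ : ∀ r ∈ Finset.Icc (1 + 1) X.n, 0 ≤ X.W r ∧ X.W r ≤ μ := fun r hr =>
    ⟨X.W_nonneg r, (hW r (Finset.mem_Icc.1 hr).1 (Finset.mem_Icc.1 hr).2).2⟩
  have tel : ∀ (f : ℕ → ℝ) (k : ℕ), 1 ≤ k →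
      ∑ r ∈ Finset.Icc (1 + 1) k, (f r - f (r - 1)) = f k - f 1 := fun f k hk => by
    induction k, hk using Nat.le_induction with
    | base => simp
    | succ k hk ih => rw [Finset.sum_Icc_succ_top (by omega), ih]; simp
  have S1 : ∑ r ∈ Finset.Icc (1 + 1) X.n, X.W r * √(N * (o r - o (r - 1))) ≤ N * √μ := by
    refine (m3_cs _ hWμ hμ sW (K := N ^ 2)
      (fun r _ => mul_nonneg hN (sub_nonneg.2 (omono (Nat.sub_le r 1)))) ?_).trans (le_of_eq ?_)
    · rw [← Finset.mul_sum, tel o _ X.n_pos, sq]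
      exact mul_le_mul_of_nonneg_left (by linarith [ole X.n, o0 1]) hN
    · rw [Real.sqrt_mul hμ, Real.sqrt_sq hN, mul_comm]
  have S2 : ∑ r ∈ Finset.Icc (1 + 1) X.n, X.W r * √(N / X.m * (o (r + 1) - o r)) ≤
      N * √(μ / X.m) := by
    refine (m3_cs _ hWμ hμ sW (K := N / X.m * N) (fun r _ => mul_nonneg (div_nonneg hN hm.le)
      (sub_nonneg.2 (omono (Nat.le_succ r)))) ?_).trans (le_of_eq ?_)
    · have h1 := tel (fun r => o (r + 1)) _ X.n_pos
      have h2 : ∑ r ∈ Finset.Icc (1 + 1) X.n, (o (r + 1) - o r) =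
          ∑ r ∈ Finset.Icc (1 + 1) X.n, (o (r + 1) - o (r - 1 + 1)) :=
        Finset.sum_congr rfl fun r hr => by
          rw [Nat.sub_add_cancel (by have := (Finset.mem_Icc.1 hr).1; omega)]
      rw [← Finset.mul_sum, h2, h1]
      exact mul_le_mul_of_nonneg_left (by linarith [ole (X.n + 1), o0 (1 + 1)])
        (div_nonneg hN hm.le)
    · rw [show μ * (N / X.m * N) = μ / X.m * N ^ 2 by ring, Real.sqrt_mul (div_nonneg hμ hm.le),
        Real.sqrt_sq hN, mul_comm]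
  have S0 : ∑ r ∈ Finset.Icc (1 + 1) X.n, X.W r * (2 * D + 2 * √(N * √N / (η * X.m))) ≤
      2 * D + 2 * √(N * √N / (η * X.m)) := by
    rw [← Finset.sum_mul]
    have : 0 ≤ 2 * D + 2 * √(N * √N / (η * X.m)) := by
      have := sqrt_nonneg (N * √N / (η * X.m))
      linarith
    nlinarith
  have E2 := Finset.sum_le_sum E1
  rw [Finset.sum_add_distrib, Finset.sum_add_distrib, ← Finset.mul_sum, ← Finset.mul_sum] at E2
  have e12 : 12 * ε * (1 + η⁻¹) / w = 3 * D := by rw [hD]; ring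
  rw [Par.ErrQ, Expo.tau, e12]
  linarith

end Crest.Agent.R164
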