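import Crest.Agent.R164.M1

/-! # The model: the rotation (Ward) identity -/

set_option autoImplicit false
set_option linter.unusedVariables false
set_option linter.unusedSectionVars false

open MeasureTheory ProbabilityTheory Real Crest.ProbabilityR.InvariantGlass
open scoped ENNReal

namespace Crest.Agent.R164

variable {N : ℕ} {X : Expo}

/-- the total row field on the row `i` -/
noncomputable def zO {n : ℕ} (p : Par N) (i : Fin N) (x : MS n N) : ℝ :=
  ∑ l : Fin n, p.vt (l + 1) i * x.2.1 (1, l, i)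

/-- derivative of the Hamiltonian under the rotation `s_i ↦ cos t s_i + sin t s_j`,
`s_j ↦ - sin t s_i + cos t s_j` -/
noncomputable def Vrot {n : ℕ} (p : Par N) (i j : Fin N) (x : MS n N) : ℝ :=
  (p.lam i - p.lam j) * (sO i x * sO j x) + (zO p i x * sO j x - zO p j x * sO i x)

theorem lg_zO (p : Par N) (i : Fin N) : (mT X N).LG (zO p i) := by
  exact Tower.LG.sum Finset.univ fun l _ => (lg_coord ((1, l, i) : MI X.n N)).const_mul _

theorem lg_Vrot (p : Par N) (i j : Fin N) : (mT X N).LG (Vrot p i j) := by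
  have h1 : (mT X N).LG (fun x => sO i x * sO j x) :=
    (Tower.LG.of_bdd (measurable_sO i) (abs_sO i)).mul_bdd (measurable_sO j) (abs_sO j)
  exact (h1.const_mul _).add (((lg_zO p i).mul_bdd (measurable_sO j) (abs_sO j)).sub
    ((lg_zO p j).mul_bdd (measurable_sO i) (abs_sO i)))

theorem field_moment_row (p : Par N) {Θ : ℝ} (hΘ : 0 ≤ Θ)
    (h : ∀ i, ∑ a ∈ Finset.Icc 1 X.n, p.vt a i ^ 2 ≤ Θ) :
    √(∫ x, ∑ i, zO p i x ^ 2 ∂(p.PP X)) ≤ (2 * Θ + √Θ) * √N := by
  refine field_moment (X := X) (P := haar N) (lev := mlev) (A := Fin N → Bool)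
    (fun q : Fin X.n × Fin N => ((1, q.1, q.2) : MI X.n N)) (fun q q' hq => ?_) (lg_Ham p)
    (s := fun i => sO i) measurable_sO (fun x => (sum_sO_sq x).le) (by simp)
    (fun l i => p.vt (l + 1) i) (fun i => le_of_eq_of_le ?_ (h i)) hΘ
    (fun l i => pd_Ham1 p l i)
  · exact (Prod.ext_iff.1 hq).2
  · rw [Fin.sum_univ_eq_sum_range (fun l => p.vt (l + 1) i ^ 2), Finset.range_eq_Ico,
      Finset.sum_Ico_add' (fun a => p.vt a i ^ 2)]
    rfl

/-- the rotation matrix -/
def m4M (i j : Fin N) (c s : ℝ) : Matrix (Fin N) (Fin N) ℝ :=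
  1 + (c - 1) • (Matrix.single i i 1 + Matrix.single j j 1) +
    s • (Matrix.single i j 1 - Matrix.single j i 1)

theorem m4M_mulVec {i j : Fin N} (hij : i ≠ j) (c s : ℝ) (v : Fin N → ℝ) (k : Fin N) :
    (m4M i j c s).mulVec v k =
      if k = i then c * v i + s * v j else if k = j then -s * v i + c * v j else v k := by
  simp only [m4M, Matrix.add_mulVec, Matrix.sub_mulVec, Matrix.smul_mulVec, Matrix.one_mulVec,
    Matrix.single_mulVec, Pi.add_apply, Pi.sub_apply, Pi.smul_apply, Function.update_apply,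
    Pi.zero_apply, smul_eq_mul]
  split_ifs with h1 h2 h2
  · exact absurd (h1.symm.trans h2) hij
  · rw [h1]; ring
  · rw [h2]; ring
  · ring

theorem m4M_transpose (i j : Fin N) (c s : ℝ) : (m4M i j c s).transpose = m4M i j c (-s) := by
  simp only [m4M, Matrix.transpose_add, Matrix.transpose_sub, Matrix.transpose_smul,
    Matrix.transpose_one, Matrix.transpose_single]
  rw [neg_smul, ← smul_neg, neg_sub]

/-- the rotation -/
noncomputable def m4R {i j : Fin N} (hij : i ≠ j) (t : ℝ) : Orth N :=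
  ⟨m4M i j (cos t) (sin t), by
    rw [Matrix.mem_orthogonalGroup_iff, m4M_transpose, Matrix.ext_iff_mulVec]
    intro v
    ext k
    rw [← Matrix.mulVec_mulVec, Matrix.one_mulVec]
    simp only [m4M_mulVec hij, if_true, if_neg hij.symm]
    split_ifs with h1 h2
    · rw [h1]; linear_combination (v i) * cos_sq_add_sin_sq t
    · rw [h2]; linear_combination (v j) * cos_sq_add_sin_sq t
    · rfl⟩

/-- the rotation of the states -/
noncomputable def m4π {n : ℕ} {i j : Fin N} (hij : i ≠ j) (t : ℝ) (x : MS n N) : MS n N :=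
  (m4R hij t * x.1, x.2.1, x.2.2)

theorem m4π_zero {n : ℕ} {i j : Fin N} (hij : i ≠ j) (x : MS n N) : m4π hij 0 x = x := by
  have h : m4R hij 0 = 1 := Subtype.ext (by simp [m4R, m4M])
  rw [m4π, h, one_mul]

theorem m4_mor {i j : Fin N} (hij : i ≠ j) (t : ℝ) : (mT X N).Mor (mT X N) (m4π hij t) 0 :=
  mor_inj (X := X) (P := haar N) (P' := haar N) (lev := mlev) (lev' := mlev)
    (measurable_orth_mul_left (m4R hij t)) (fun _ => haar_map_mul_left _) id
    Function.injective_id (fun _ => rfl) (ς := id) Measure.map_id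

theorem m4_sO {n : ℕ} {i j : Fin N} (hij : i ≠ j) (t : ℝ) (x : MS n N) (k : Fin N) :
    sO k (m4π hij t x) = if k = i then cos t * sO i x + sin t * sO j x
      else if k = j then -sin t * sO i x + cos t * sO j x else sO k x := by
  change sv (m4R hij t * x.1) x.2.2 k = _
  rw [sv_mul]
  exact m4M_mulVec hij _ _ _ k

/-- the generator of the rotation -/
noncomputable def m4d {n : ℕ} (i j k : Fin N) (y : MS n N) : ℝ :=
  if k = i then sO j y else if k = j then -sO i y else 0

theorem m4_der {n : ℕ} {i j : Fin N} (hij : i ≠ j) (x : MS n N) (k : Fin N) (t : ℝ) :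
    HasDerivAt (fun t => sO k (m4π hij t x)) (m4d i j k (m4π hij t x)) t := by
  simp only [m4d, m4_sO hij, if_true, if_neg hij.symm]
  split_ifs with h1 h2
  · exact ((hasDerivAt_cos t).mul_const _).add ((hasDerivAt_sin t).mul_const _)
  · refine (((hasDerivAt_sin t).neg.mul_const _).add ((hasDerivAt_cos t).mul_const _)).congr_deriv ?_
    ring
  · exact hasDerivAt_const _ _

theorem m4_sum {n : ℕ} {i j : Fin N} (hij : i ≠ j) (a : Fin N → ℝ) (y : MS n N) :
    ∑ k, a k * m4d i j k y = a i * sO j y - a j * sO i y := by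
  have h : ∀ k, a k * m4d i j k y =
      (if k = i then a i * sO j y else 0) - if k = j then a j * sO i y else 0 := by
    intro k
    unfold m4d
    split_ifs with h1 h2 h2
    · exact absurd (h1.symm.trans h2) hij
    · rw [h1]; ring
    · rw [h2]; ring
    · ring
  simp only [h, Finset.sum_sub_distrib, Finset.sum_ite_eq', Finset.mem_univ, if_true]

theorem m4_derH {n : ℕ} (p : Par N) {i j : Fin N} (hij : i ≠ j) (x : MS n N) (t : ℝ) :
    HasDerivAt (fun t => Ham p (m4π hij t x)) (Vrot p i j (m4π hij t x)) t := by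
  have h1 : HasDerivAt (fun t => ∑ k, p.lam k * sO k (m4π hij t x) ^ 2)
      (∑ k, p.lam k * (2 * sO k (m4π hij t x) * m4d i j k (m4π hij t x))) t :=
    HasDerivAt.fun_sum fun k _ => by
      simpa using ((m4_der hij x k t).pow 2).const_mul (p.lam k)
  have h2 : HasDerivAt
      (fun t => ∑ l : Fin n, ∑ k, p.vt (l + 1) k * (x.2.1 (1, l, k) * sO k (m4π hij t x)))
      (∑ l : Fin n, ∑ k, p.vt (l + 1) k * (x.2.1 (1, l, k) * m4d i j k (m4π hij t x))) t :=
    HasDerivAt.fun_sum fun l _ => HasDerivAt.fun_sum fun k _ =>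
      ((m4_der hij x k t).const_mul _).const_mul _
  refine ((((((h1.const_mul (1 / 2)).add_const
    (∑ l : Fin n, ∑ r, p.th (l + 1) r * (x.2.1 (0, l, r) * σO r x))).add h2).add_const
    (∑ l : Fin n, ∑ r, p.tx (l + 1) r * (x.2.1 (2, l, r) * σO r x))).add_const
    (p.f x.2.2))).congr_deriv ?_
  have e1 := m4_sum hij (fun k => p.lam k * (2 * sO k (m4π hij t x))) (m4π hij t x)
  have e2 : ∀ l : Fin n, ∑ k, p.vt (l + 1) k * (x.2.1 (1, l, k) * m4d i j k (m4π hij t x)) = _ :=
    fun l => (Finset.sum_congr rfl fun k _ => (mul_assoc _ _ _).symm).trans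
      (m4_sum hij (fun k => p.vt (l + 1) k * x.2.1 (1, l, k)) (m4π hij t x))
  simp only [← mul_assoc] at e1 ⊢
  simp only [← mul_assoc] at e2
  rw [e1, Finset.sum_congr rfl fun l _ => e2 l, Finset.sum_sub_distrib, ← Finset.sum_mul,
    ← Finset.sum_mul]
  unfold Vrot zO
  change _ = _ + ((∑ l : Fin n, p.vt (l + 1) i * x.2.1 (1, l, i)) * _ -
    (∑ l : Fin n, p.vt (l + 1) j * x.2.1 (1, l, j)) * _)
  ring

theorem m4_derL (p : Par N) {i j : Fin N} (hij : i ≠ j) :
    (mT X N).DerL Set.univ (fun t x => Ham p (m4π hij t x))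
      (fun t x => Vrot p i j (m4π hij t x)) := by
  obtain ⟨h1, C, hC⟩ := lg_Ham (X := X) p
  obtain ⟨h2, D, hD⟩ := (lg_Vrot (X := X) p i j).gr
  refine ⟨fun t _ => h1.comp (m4_mor hij t).meas, fun t _ => h2.comp (m4_mor hij t).meas,
    ⟨max C D, fun t _ x => ⟨(hC _).trans ?_, (hD _).trans (exp_le_exp.2 ?_)⟩⟩,
    fun t _ x => m4_derH p hij x t⟩
  · exact (mT X N).T1_mono (le_max_left _ _) x
  · exact (mT X N).T1_mono (le_max_right _ _) x

theorem m4_derG {i j : Fin N} (hij : i ≠ j) (k : Fin N) {ψ : MS X.n N → ℝ} (hψ : (mT X N).Gr ψ)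
    (e : ∀ y, m4d i j k y = ψ y) :
    (mT X N).DerG Set.univ (fun t x => sO k (m4π hij t x)) (fun t x => ψ (m4π hij t x)) := by
  obtain ⟨h1, C, hC⟩ := gr_sO (X := X) k
  obtain ⟨h2, D, hD⟩ := hψ
  refine ⟨fun t _ => h1.comp (m4_mor hij t).meas, fun t _ => h2.comp (m4_mor hij t).meas,
    ⟨max C D, fun t _ x => ⟨(hC _).trans (exp_le_exp.2 ?_), (hD _).trans (exp_le_exp.2 ?_)⟩⟩,
    fun t _ x => e _ ▸ m4_der hij x k t⟩
  · exact (mT X N).T1_mono (le_max_left _ _) x
  · exact (mT X N).T1_mono (le_max_right _ _) x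

/-- Let `R t : Orth N` be the rotation, `π t (U, g, σ) = (R t * U, g, σ)`: a morphism of the tower
to itself (`mor_inj`, left invariance).  So `A (H ∘ π t)` is constant; differentiate
(`DerL.hasDerivAt_A` on `Ioo (-1) 1`). -/
theorem rot_mean (p : Par N) {i j : Fin N} (hij : i ≠ j) :
    ∫ x, Vrot p i j x ∂(p.PP X) = 0 := by
  have h1 := (m4_derL (X := X) p hij).hasDerivAt_A isOpen_univ (Set.mem_univ 0)
  simp only [(m4_mor hij _).A (measurable_Ham p), m4π_zero] at h1
  exact h1.unique (hasDerivAt_const _ _)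

/-- `∫ E_l (s_i ∘ π t) · E_l (s_j ∘ π t) dℙ_{H ∘ π t}` does not depend on `t` (`Mor.E`,
`Mor.integral`); differentiate with `DerG.E`, `DerG.mul`, `DerG.hasDerivAt_integral`. -/
theorem rot_id (p : Par N) {i j : Fin N} (hij : i ≠ j) (l : ℕ) :
    ∫ x, (((mT X N).E (Ham p) l (sO j) x + (mT X N).resp (Ham p) (Vrot p i j) (sO i) l x) *
        (mT X N).E (Ham p) l (sO j) x +
      (mT X N).E (Ham p) l (sO i) x *
        (-(mT X N).E (Ham p) l (sO i) x + (mT X N).resp (Ham p) (Vrot p i j) (sO j) l x))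
      ∂(p.PP X) +
    (mT X N).resp (Ham p) (Vrot p i j)
      (fun x => (mT X N).E (Ham p) l (sO i) x * (mT X N).E (Ham p) l (sO j) x) 0 (mT X N).x0 = 0 := by
  have hL := m4_derL (X := X) p hij
  have g1 := (m4_derG hij i (gr_sO (X := X) j) fun y => if_pos rfl).E isOpen_univ hL l
  have g2 := (m4_derG hij j ((gr_sO (X := X) i).const_mul (-1)) fun y => by
    simp [m4d, hij.symm]).E isOpen_univ hL l
  have h1 := (g1.mul g2).hasDerivAt_integral isOpen_univ hL (Set.mem_univ 0)
  have hU := (lg_Ham (X := X) p).ub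
  have h2 : ∀ t, ∫ y, (mT X N).E (fun x => Ham p (m4π hij t x)) l (fun x => sO i (m4π hij t x)) y *
      (mT X N).E (fun x => Ham p (m4π hij t x)) l (fun x => sO j (m4π hij t x)) y
      ∂((mT X N).PP fun x => Ham p (m4π hij t x)) =
      ∫ y, (mT X N).E (Ham p) l (sO i) y * (mT X N).E (Ham p) l (sO j) y ∂((mT X N).PP (Ham p)) := by
    intro t
    simp only [(m4_mor hij t).E hU (measurable_sO _) (Nat.zero_le l)]
    exact (m4_mor hij t).integral (φ := fun y => (mT X N).E (Ham p) l (sO i) y *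
      (mT X N).E (Ham p) l (sO j) y) hU (((mT X N).measurable_E _ l (measurable_sO i)).mul
        ((mT X N).measurable_E _ l (measurable_sO j)))
  simp only [h2, m4π_zero, Tower.E_const_mul] at h1
  simp only [neg_one_mul] at h1
  exact h1.unique (hasDerivAt_const _ _)

/-- the product of two ultrametric overlap sequences -/
noncomputable def Expo.star (X : Expo) (Q Q' : ℕ → ℝ) (l : ℕ) : ℝ :=
  if l ≤ 1 then 0 else if l ≤ X.n then
    Q' l * X.D Q l + Q l * X.D Q' l + X.e (l - 1) * (Q l * Q' l) -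
      ∑ r ∈ Finset.Icc 2 (l - 1), X.W r * (Q r * Q' r)
  else Q (X.n + 1) * Q' (X.n + 1) - X.tau (fun r => Q r * Q' r) 1

/-- eigenvalues multiply (downward induction on `l` with `D_step`) -/
theorem Expo.D_star (X : Expo) {Q Q' : ℕ → ℝ} (h : Q 1 = 0) (h' : Q' 1 = 0) {l : ℕ} (h1 : 1 ≤ l)
    (h2 : l ≤ X.n) : X.D (X.star Q Q') l = X.D Q l * X.D Q' l := by
  obtain ⟨S, hS⟩ : ∃ S : ℕ → ℝ, ∀ l, S l = Q' l * X.D Q l + Q l * X.D Q' l +
      X.e (l - 1) * (Q l * Q' l) - ∑ r ∈ Finset.Icc 2 (l - 1), X.W r * (Q r * Q' r) :=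
    ⟨_, fun _ => rfl⟩
  have e1 : ∀ l, 1 ≤ l → l ≤ X.n + 1 → X.star Q Q' l = S l := by
    intro l h1 h2
    rw [hS, Expo.star]
    split_ifs with h3 h4
    · obtain rfl : l = 1 := by omega
      simp [h, h']
    · rfl
    · obtain rfl : l = X.n + 1 := by omega
      rw [X.D_top, X.D_top, Nat.add_sub_cancel, X.en, Expo.tau]
      ring
  have e2 : ∀ l, 1 ≤ l → ∑ r ∈ Finset.Icc 2 l, X.W r * (Q r * Q' r) =
      ∑ r ∈ Finset.Icc 2 (l - 1), X.W r * (Q r * Q' r) + X.W l * (Q l * Q' l) := by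
    intro l h1
    obtain ⟨k, rfl⟩ : ∃ k, l = k + 1 := ⟨l - 1, by omega⟩
    rcases Nat.eq_zero_or_pos k with rfl | hk
    · simp [h]
    · rw [Finset.sum_Icc_succ_top (by omega), Nat.add_sub_cancel]
  have key : ∀ k l, 1 ≤ l → l + k = X.n + 1 → X.D (X.star Q Q') l = X.D Q l * X.D Q' l := by
    intro k
    induction k with
    | zero =>
      intro l _ h2
      obtain rfl : l = X.n + 1 := h2
      rw [X.D_top, X.D_top, zero_mul]
    | succ k ih =>
      intro l h1 h2
      have hl : l ≤ X.n := by omega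
      rw [X.D_step _ hl, ih (l + 1) (by omega) (by omega), e1 l h1 (by omega),
        e1 (l + 1) (by omega) (by omega), hS, hS, Nat.add_sub_cancel, e2 l h1, X.D_step Q hl,
        X.D_step Q' hl, Expo.W]
      ring
  exact key (X.n + 1 - l) l h1 (by omega)

/-- from approximate identities for the overlaps to approximate identities for the eigenvalues
(`D_eq`, linearity of `D`) -/
theorem Expo.wn_D_le (X : Expo) {z : ℕ → ℝ} (h : z 1 = 0) :
    X.wn (fun l => |X.D z l|) ≤ 2 * |z (X.n + 1)| + 3 * X.tau (fun r => |z r|) 1 := by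
  have hτ : ∀ l, 0 ≤ X.tau (fun r => |z r|) l := fun l =>
    Finset.sum_nonneg fun r _ => mul_nonneg (X.W_nonneg r) (abs_nonneg _)
  have h1 : X.wn (fun l => |X.D z l|) ≤
      X.wn fun l => (|z (X.n + 1)| + X.tau (fun r => |z r|) 1) + |z l| := by
    refine X.wn_mono fun l h1 h2 => ?_
    have h3 : |X.tau z l| ≤ X.tau (fun r => |z r|) 1 := by
      refine (Finset.abs_sum_le_sum_abs _ _).trans ?_
      simp only [abs_mul, abs_of_nonneg (X.W_nonneg _)]
      exact Finset.sum_le_sum_of_subset_of_nonneg (Finset.Icc_subset_Icc_left (by omega))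
        fun r _ _ => mul_nonneg (X.W_nonneg r) (abs_nonneg _)
    have h4 : |X.e l * z l| ≤ |z l| := by
      rw [abs_mul, abs_of_pos (X.e_pos l)]
      exact mul_le_of_le_one_left (abs_nonneg _) (X.le_one l)
    rw [X.D_eq z h2]
    exact (abs_sub _ _).trans (add_le_add ((abs_sub _ _).trans (add_le_add le_rfl h3)) h4)
  have h2 := X.wn_const_le (add_nonneg (abs_nonneg (z (X.n + 1))) (hτ 1))
  have h3 : X.wn (fun l => |z l|) = X.tau (fun r => |z r|) 1 := by
    rw [Expo.wn, h, abs_zero, zero_add, Expo.tau]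
  rw [X.wn_add (fun _ => |z (X.n + 1)| + X.tau (fun r => |z r|) 1) fun l => |z l|] at h1
  linarith

end Crest.Agent.R164
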