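import Crest.Agent.R164.T2

/-! # Abstract estimates for the terms of the Ward identity -/

set_option autoImplicit false
set_option linter.unusedVariables false
set_option linter.unusedSectionVars false

open MeasureTheory ProbabilityTheory Real
open scoped ENNReal

namespace Crest.Agent.R164

theorem m5_cs {ι : Type} (J : Finset ι) (u v : ι → ℝ) {a b : ℝ} (ha0 : 0 ≤ a) (hb0 : 0 ≤ b)
    (ha : ∑ i ∈ J, u i ^ 2 ≤ a ^ 2) (hb : ∑ i ∈ J, v i ^ 2 ≤ b ^ 2) :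
    |∑ i ∈ J, u i * v i| ≤ a * b := by
  refine abs_le_of_sq_le_sq ((Finset.sum_mul_sq_le_sq_mul_sq J u v).trans ?_) (by positivity)
  rw [mul_pow]
  exact mul_le_mul ha hb (Finset.sum_nonneg fun _ _ => sq_nonneg _) (sq_nonneg _)

theorem m5_alg {ι : Type} (J J' : Finset ι) (u w s z : ι → ℝ) {R ζ Δ c c' : ℝ} (hR : 0 ≤ R)
    (hζ : 0 ≤ ζ) (hu : ∑ i ∈ J, u i ^ 2 ≤ R ^ 2) (hw : ∑ j ∈ J', w j ^ 2 ≤ R ^ 2)
    (hs : ∑ i ∈ J, s i ^ 2 ≤ R ^ 2) (hs' : ∑ j ∈ J', s j ^ 2 ≤ R ^ 2)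
    (hz : ∑ i ∈ J, z i ^ 2 ≤ ζ ^ 2) (hz' : ∑ j ∈ J', z j ^ 2 ≤ ζ ^ 2) (hc' : |c'| ≤ R ^ 2) :
    |∑ i ∈ J, ∑ j ∈ J', u i * w j * (Δ * (s i * s j) + (z i * s j - z j * s i)) - Δ * (c * c')| ≤
      |Δ| * R ^ 2 * (|∑ i ∈ J, s i * u i - c| + |∑ j ∈ J', s j * w j - c'|) + 2 * R ^ 3 * ζ := by
  set A := ∑ i ∈ J, s i * u i with hA
  set B := ∑ j ∈ J', s j * w j with hB
  set P := ∑ i ∈ J, z i * u i with hP
  set P' := ∑ j ∈ J', z j * w j with hP'
  have e : ∑ i ∈ J, ∑ j ∈ J', u i * w j * (Δ * (s i * s j) + (z i * s j - z j * s i)) =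
      Δ * (A * B) + (P * B - A * P') := by
    rw [hA, hB, hP, hP', Finset.sum_mul_sum, Finset.sum_mul_sum, Finset.sum_mul_sum,
      Finset.mul_sum, ← Finset.sum_sub_distrib, ← Finset.sum_add_distrib]
    refine Finset.sum_congr rfl fun i _ => ?_
    rw [Finset.mul_sum, ← Finset.sum_sub_distrib, ← Finset.sum_add_distrib]
    exact Finset.sum_congr rfl fun j _ => by ring
  have bA : |A| ≤ R * R := m5_cs J s u hR hR hs hu
  have bB : |B| ≤ R * R := m5_cs J' s w hR hR hs' hw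
  have bP : |P| ≤ ζ * R := m5_cs J z u hζ hR hz hu
  have bP' : |P'| ≤ ζ * R := m5_cs J' z w hζ hR hz' hw
  have h1 : |A * B - c * c'| ≤ R ^ 2 * (|A - c| + |B - c'|) := by
    have e1 : A * B - c * c' = c' * (A - c) + A * (B - c') := by ring
    rw [e1]
    refine (abs_add_le _ _).trans ?_
    rw [abs_mul, abs_mul, mul_add]
    exact add_le_add (mul_le_mul_of_nonneg_right hc' (abs_nonneg _))
      (mul_le_mul_of_nonneg_right (by rw [sq]; exact bA) (abs_nonneg _))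
  have h2 : |P * B| ≤ ζ * R * (R * R) := by
    rw [abs_mul]; exact mul_le_mul bP bB (abs_nonneg _) (by positivity)
  have h3 : |A * P'| ≤ R * R * (ζ * R) := by
    rw [abs_mul]; exact mul_le_mul bA bP' (abs_nonneg _) (by positivity)
  have e2 : Δ * (A * B) + (P * B - A * P') - Δ * (c * c') =
      Δ * (A * B - c * c') + (P * B - A * P') := by ring
  rw [e, e2]
  refine (abs_add_le _ _).trans (add_le_add ?_ ((abs_sub _ _).trans ?_))
  · rw [abs_mul, mul_assoc]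
    exact mul_le_mul_of_nonneg_left h1 (abs_nonneg _)
  · linarith

namespace Tower

variable {S : Type} [MeasurableSpace S] {T : Tower S} {ι : Type} {H : S → ℝ}

/-- real version of `t2_diag` -/
theorem m5_diag (h : T.UB H) (a : ℕ) {F : S → S → ℝ} (hF : Measurable (Function.uncurry F))
    (h0 : ∀ y z, 0 ≤ F y z) (hd : ∀ y y' z, T.agree a y y' → F y z = F y' z) (x : S) :
    ∫ z, F x z ∂(T.K H a x) = ∫ z, F z z ∂(T.K H a x) := by
  have m1 : Measurable (F x) := hF.of_uncurry_left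
  have m2 : Measurable fun z => F z z := hF.comp (measurable_id.prodMk measurable_id)
  rw [integral_eq_lintegral_of_nonneg_ae (Filter.Eventually.of_forall fun z => h0 x z)
      m1.aestronglyMeasurable,
    integral_eq_lintegral_of_nonneg_ae (Filter.Eventually.of_forall fun z => h0 z z)
      m2.aestronglyMeasurable]
  congr 1
  exact t2_diag h a (F := fun y z => ENNReal.ofReal (F y z))
    (ENNReal.measurable_ofReal.comp hF) (fun y y' z hy => by simp only [hd y y' z hy]) x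

/-- conditional distance of the overlap to a constant -/
noncomputable def m5G (T : Tower S) (H : S → ℝ) (s : ι → S → ℝ) (J : Finset ι) (r : ℕ) (c : ℝ)
    (x : S) : ℝ := T.E H r (fun y => |∑ i ∈ J, s i x * s i y - c|) x

section G

variable {s : ι → S → ℝ} {J : Finset ι} {R : ℝ}

theorem m5_bd (hR : 0 ≤ R) (hb : ∀ x, ∑ i ∈ J, s i x ^ 2 ≤ R ^ 2) (c : ℝ) (x y : S) :
    |(|∑ i ∈ J, s i x * s i y - c|)| ≤ R * R + |c| := by
  rw [abs_abs]
  exact (abs_sub _ _).trans (add_le_add_left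
    (m5_cs J (fun i => s i x) (fun i => s i y) hR hR (hb x) (hb y)) _)

theorem m5_m1 (hs : ∀ i ∈ J, T.Gr (s i)) (r : ℕ) (c : ℝ) :
    Measurable fun q : S × S => ∫ y', |∑ i ∈ J, s i q.2 * s i y' - c| ∂(T.K H r q.1) := by
  have m0 : Measurable fun q : S × S => |∑ i ∈ J, s i q.1 * s i q.2 - c| :=
    ((Finset.measurable_sum J fun i hi => ((hs i hi).1.comp measurable_fst).mul
      ((hs i hi).1.comp measurable_snd)).sub_const c).abs
  exact (StronglyMeasurable.integral_kernel_prod_right'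
    (κ := (T.K H r).comap Prod.fst measurable_fst)
    (m0.comp (measurable_fst.snd.prodMk measurable_snd)).stronglyMeasurable).measurable

theorem m5G_gr (hs : ∀ i ∈ J, T.Gr (s i)) (hR : 0 ≤ R) (hb : ∀ x, ∑ i ∈ J, s i x ^ 2 ≤ R ^ 2)
    (r : ℕ) (c : ℝ) : T.Gr (T.m5G H s J r c) :=
  Gr.of_bdd ((m5_m1 (H := H) hs r c).comp (measurable_id.prodMk measurable_id))
    fun x => abs_E_le H (m5_bd hR hb c x) r x

theorem integral_m5G (h : T.LG H) (hs : ∀ i ∈ J, T.Gr (s i)) (hR : 0 ≤ R)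
    (hb : ∀ x, ∑ i ∈ J, s i x ^ 2 ≤ R ^ 2) (r : ℕ) (c : ℝ) :
    ∫ x, T.m5G H s J r c x ∂(T.PP H) = T.Err2 H s J r c := by
  rw [← integral_E h r (m5G_gr hs hR hb r c)]
  unfold Err2
  congr 1
  funext x
  exact (m5_diag h.ub r (F := fun x y => ∫ y', |∑ i ∈ J, s i y * s i y' - c| ∂(T.K H r x))
    (m5_m1 hs r c) (fun _ _ => integral_nonneg fun _ => abs_nonneg _)
    (fun y y' z hy => by simp only [K_congr h.ub r hy]) x).symm

theorem m5_gr_fix (hs : ∀ i ∈ J, T.Gr (s i)) (v : ι → ℝ) (c : ℝ) :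
    T.Gr (fun y => ∑ i ∈ J, v i * s i y - c) :=
  (Gr.sum J fun i hi => (hs i hi).const_mul (v i)).sub (Gr.const c)

theorem m5_jensen (h : T.LG H) (hs : ∀ i ∈ J, T.Gr (s i)) (v : ι → ℝ) (c : ℝ) (l : ℕ) (y : S) :
    |∑ i ∈ J, v i * T.E H l (s i) y - c| ≤ T.E H l (fun y' => |∑ i ∈ J, v i * s i y' - c|) y := by
  have e : ∑ i ∈ J, v i * T.E H l (s i) y - c = T.E H l (fun y' => ∑ i ∈ J, v i * s i y' - c) y := by
    rw [E_sub h (Gr.sum J fun i hi => (hs i hi).const_mul (v i)) (Gr.const c), E_const,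
      E_sum J h fun i hi => (hs i hi).const_mul (v i)]
    simp only [E_const_mul]
  rw [e]
  exact abs_integral_le_integral_abs

theorem m5_E_sq (h : T.LG H) (hs : ∀ i ∈ J, T.Gr (s i)) (hb : ∀ x, ∑ i ∈ J, s i x ^ 2 ≤ R ^ 2)
    (r : ℕ) (x : S) : ∑ i ∈ J, T.E H r (s i) x ^ 2 ≤ R ^ 2 := by
  calc _ ≤ ∑ i ∈ J, T.E H r (fun y => s i y ^ 2) x :=
        Finset.sum_le_sum fun i hi => sq_E_le h (hs i hi) r x
    _ = T.E H r (fun y => ∑ i ∈ J, s i y ^ 2) x := (E_sum J h (fun i hi => (hs i hi).pow 2) r x).symm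
    _ ≤ T.E H r (fun _ => R ^ 2) x :=
        E_mono h (Gr.sum J fun i hi => (hs i hi).pow 2) (Gr.const _) hb r x
    _ = _ := E_const H _ r x

end G

theorem m5_int {μ : Measure S} [IsProbabilityMeasure μ] {Φ Ψ : S → ℝ} {k : ℝ}
    (h1 : Integrable Φ μ) (h2 : Integrable Ψ μ) (h : ∀ x, |Φ x - k| ≤ Ψ x) :
    |∫ x, Φ x ∂μ - k| ≤ ∫ x, Ψ x ∂μ := by
  have e : ∫ x, Φ x ∂μ - k = ∫ x, (Φ x - k) ∂μ := by
    rw [integral_sub h1 (integrable_const k)]; simp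
  rw [e]
  exact abs_integral_le_integral_abs.trans
    (integral_mono (h1.sub (integrable_const k)).abs h2 h)

/-- the data of the abstract Ward estimate -/
structure M5 (T : Tower S) (H : S → ℝ) (s z : ι → S → ℝ) (J J' : Finset ι) (R : ℝ) (ζ : S → ℝ) :
    Prop where
  h : T.LG H
  gs : ∀ i, T.Gr (s i)
  gz : ∀ i, T.Gr (z i)
  gζ : T.Gr ζ
  R0 : 0 ≤ R
  ζ0 : ∀ x, 0 ≤ ζ x
  bs : ∀ x, ∑ i ∈ J, s i x ^ 2 ≤ R ^ 2
  bs' : ∀ x, ∑ i ∈ J', s i x ^ 2 ≤ R ^ 2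
  bz : ∀ x, ∑ i ∈ J, z i x ^ 2 ≤ ζ x ^ 2
  bz' : ∀ x, ∑ i ∈ J', z i x ^ 2 ≤ ζ x ^ 2

def m5V (s z : ι → S → ℝ) (Δ : ℝ) (i j : ι) (x : S) : ℝ :=
  Δ * (s i x * s j x) + (z i x * s j x - z j x * s i x)

noncomputable def m5T1 (T : Tower S) (H : S → ℝ) (s z : ι → S → ℝ) (J J' : Finset ι) (Δ : ℝ)
    (r r' : ℕ) : ℝ :=
  ∑ i ∈ J, ∑ j ∈ J', ∫ x, T.E H r (s i) x * T.E H r' (s j) x * m5V s z Δ i j x ∂(T.PP H)

noncomputable def m5T2 (T : Tower S) (H : S → ℝ) (s z : ι → S → ℝ) (J J' : Finset ι) (Δ : ℝ)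
    (r l : ℕ) : ℝ :=
  ∑ i ∈ J, ∑ j ∈ J', ∫ x, T.E H r (fun y => T.E H l (s i) y * T.E H l (s j) y) x *
    m5V s z Δ i j x ∂(T.PP H)

section M

variable {s z : ι → S → ℝ} {J J' : Finset ι} {R : ℝ} {ζ : S → ℝ}

theorem M5.gV (m : T.M5 H s z J J' R ζ) (Δ : ℝ) (i j : ι) : T.Gr (m5V s z Δ i j) :=
  (((m.gs i).mul (m.gs j)).const_mul Δ).add (((m.gz i).mul (m.gs j)).sub ((m.gz j).mul (m.gs i)))

theorem M5.fin (m : T.M5 H s z J J' R ζ) {ψ : ι → ι → S → ℝ} (hψ : ∀ i j, T.Gr (ψ i j))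
    {k a b c c' : ℝ} {r r' : ℕ}
    (hp : ∀ x, |∑ i ∈ J, ∑ j ∈ J', ψ i j x - k| ≤
      a * (T.m5G H s J r c x + T.m5G H s J' r' c' x) + b * ζ x) :
    |∑ i ∈ J, ∑ j ∈ J', ∫ x, ψ i j x ∂(T.PP H) - k| ≤
      a * (T.Err2 H s J r c + T.Err2 H s J' r' c') + b * ∫ x, ζ x ∂(T.PP H) := by
  have g1 := m5G_gr (H := H) (fun i _ => m.gs i) m.R0 m.bs r c
  have g2 := m5G_gr (H := H) (fun i _ => m.gs i) m.R0 m.bs' r' c'
  have e : ∑ i ∈ J, ∑ j ∈ J', ∫ x, ψ i j x ∂(T.PP H) =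
      ∫ x, ∑ i ∈ J, ∑ j ∈ J', ψ i j x ∂(T.PP H) := by
    rw [integral_finsetSum J fun i _ => (Gr.sum J' fun j _ => hψ i j).integrable_PP m.h]
    exact Finset.sum_congr rfl fun i _ =>
      (integral_finsetSum J' fun j _ => (hψ i j).integrable_PP m.h).symm
  rw [e]
  refine (m5_int ((Gr.sum J fun i _ => Gr.sum J' fun j _ => hψ i j).integrable_PP m.h)
    ((((g1.add g2).const_mul a).add (m.gζ.const_mul b)).integrable_PP m.h) hp).trans_eq ?_
  rw [integral_add (((g1.add g2).const_mul a).integrable_PP m.h)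
      ((m.gζ.const_mul b).integrable_PP m.h), integral_const_mul, integral_const_mul,
    integral_add (g1.integrable_PP m.h) (g2.integrable_PP m.h),
    integral_m5G m.h (fun i _ => m.gs i) m.R0 m.bs, integral_m5G m.h (fun i _ => m.gs i) m.R0 m.bs']

theorem M5.T1 (m : T.M5 H s z J J' R ζ) (Δ : ℝ) (r r' : ℕ) (c : ℝ) {c' : ℝ} (hc' : |c'| ≤ R ^ 2) :
    |T.m5T1 H s z J J' Δ r r' - Δ * (c * c')| ≤
      |Δ| * R ^ 2 * (T.Err2 H s J r c + T.Err2 H s J' r' c') +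
        2 * R ^ 3 * ∫ x, ζ x ∂(T.PP H) := by
  refine m.fin (fun i j => (((m.gs i).E m.h r).mul ((m.gs j).E m.h r')).mul (m.gV Δ i j))
    fun x => ?_
  refine (m5_alg J J' (fun i => T.E H r (s i) x) (fun j => T.E H r' (s j) x) (fun i => s i x)
    (fun i => z i x) m.R0 (m.ζ0 x) (m5_E_sq m.h (fun i _ => m.gs i) m.bs r x)
    (m5_E_sq m.h (fun i _ => m.gs i) m.bs' r' x) (m.bs x) (m.bs' x) (m.bz x) (m.bz' x)
    hc').trans ?_
  refine add_le_add_left (mul_le_mul_of_nonneg_left (add_le_add ?_ ?_) (by positivity)) _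
  · exact m5_jensen m.h (fun i _ => m.gs i) _ c r x
  · exact m5_jensen m.h (fun i _ => m.gs i) _ c' r' x

theorem M5.T2 (m : T.M5 H s z J J' R ζ) (Δ : ℝ) {r l : ℕ} (hrl : r ≤ l) (c : ℝ) {c' : ℝ}
    (hc' : |c'| ≤ R ^ 2) :
    |T.m5T2 H s z J J' Δ r l - Δ * (c * c')| ≤
      |Δ| * R ^ 2 * (T.Err2 H s J r c + T.Err2 H s J' r c') +
        2 * R ^ 3 * ∫ x, ζ x ∂(T.PP H) := by
  have gm : ∀ i j, T.Gr fun y => T.E H l (s i) y * T.E H l (s j) y := fun i j =>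
    ((m.gs i).E m.h l).mul ((m.gs j).E m.h l)
  refine m.fin (fun i j => ((gm i j).E m.h r).mul (m.gV Δ i j)) fun x => ?_
  have gm' : ∀ i j, T.Gr fun y => T.E H l (s i) y * T.E H l (s j) y * m5V s z Δ i j x :=
    fun i j => (gm i j).mul (Gr.const _)
  have e : ∑ i ∈ J, ∑ j ∈ J', T.E H r (fun y => T.E H l (s i) y * T.E H l (s j) y) x *
      m5V s z Δ i j x = ∫ y, ∑ i ∈ J, ∑ j ∈ J', T.E H l (s i) y * T.E H l (s j) y *
        m5V s z Δ i j x ∂(T.K H r x) := by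
    rw [integral_finsetSum J fun i _ => (Gr.sum J' fun j _ => gm' i j).integrable_K m.h r x]
    refine Finset.sum_congr rfl fun i _ => ?_
    rw [integral_finsetSum J' fun j _ => (gm' i j).integrable_K m.h r x]
    exact Finset.sum_congr rfl fun j _ => (integral_mul_const _ _).symm
  have g1 := (m5_gr_fix (T := T) (J := J) (fun i _ => m.gs i) (fun i => s i x) c).abs
  have g2 := (m5_gr_fix (T := T) (J := J') (fun i _ => m.gs i) (fun i => s i x) c').abs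
  have g3 := (((g1.E m.h l).add (g2.E m.h l)).const_mul (|Δ| * R ^ 2)).add
    (Gr.const (2 * R ^ 3 * ζ x))
  rw [e]
  refine (m5_int ((Gr.sum J fun i _ => Gr.sum J' fun j _ => gm' i j).integrable_K m.h r x)
    (g3.integrable_K m.h r x) fun y => ?_).trans_eq ?_
  · refine (m5_alg J J' (fun i => T.E H l (s i) y) (fun j => T.E H l (s j) y) (fun i => s i x)
      (fun i => z i x) m.R0 (m.ζ0 x) (m5_E_sq m.h (fun i _ => m.gs i) m.bs l y)
      (m5_E_sq m.h (fun i _ => m.gs i) m.bs' l y) (m.bs x) (m.bs' x) (m.bz x) (m.bz' x)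
      hc').trans ?_
    refine add_le_add_left (mul_le_mul_of_nonneg_left (add_le_add ?_ ?_) (by positivity)) _
    · exact m5_jensen m.h (fun i _ => m.gs i) _ c l y
    · exact m5_jensen m.h (fun i _ => m.gs i) _ c' l y
  · change T.E H r _ x = _
    rw [E_add m.h (((g1.E m.h l).add (g2.E m.h l)).const_mul _) (Gr.const _), E_const,
      E_const_mul, E_add m.h (g1.E m.h l) (g2.E m.h l), E_E m.h hrl g1, E_E m.h hrl g2]
    rfl

theorem M5.T2_of_ge (m : T.M5 H s z J J' R ζ) (Δ : ℝ) {r l : ℕ} (hrl : l ≤ r) :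
    T.m5T2 H s z J J' Δ r l = T.m5T1 H s z J J' Δ l l := by
  refine Finset.sum_congr rfl fun i _ => Finset.sum_congr rfl fun j _ => ?_
  congr 1
  funext x
  rw [E_of_dep m.h.ub (((m.gs i).E m.h l).mul ((m.gs j).E m.h l)).1
    (((dep_E m.h.ub _ l).mul (dep_E m.h.ub _ l)).mono hrl)]

end M

theorem m5_resp (h : T.LG H) {V φ ψ : S → ℝ} (hV : T.Gr V) (hφ : T.Gr φ) (hψ : T.Gr ψ) {l : ℕ}
    (hd : T.Dep l ψ) :
    ∫ x, ψ x * T.resp H V φ l x ∂(T.PP H) = ∫ x, T.E H T.L φ x * ψ x * V x ∂(T.PP H) -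
      ∑ r ∈ Finset.Ioo l T.L, T.W r * ∫ x, T.E H r φ x * ψ x * V x ∂(T.PP H) -
      T.e l * ∫ x, T.E H l φ x * ψ x * V x ∂(T.PP H) := by
  have g1 : T.Gr fun x => ψ x * T.E H l (fun y => φ y * V y) x := hψ.mul ((hφ.mul hV).E h l)
  have g2 : ∀ r, T.Gr fun x =>
      T.W r * (ψ x * T.E H l (fun y => T.E H r φ y * T.E H r V y) x) := fun r =>
    (hψ.mul (((hφ.E h r).mul (hV.E h r)).E h l)).const_mul _
  have g3 : T.Gr fun x => T.e l * (T.E H l φ x * ψ x * T.E H l V x) :=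
    (((hφ.E h l).mul hψ).mul (hV.E h l)).const_mul _
  have e : ∀ x, ψ x * T.resp H V φ l x = ψ x * T.E H l (fun y => φ y * V y) x -
      ∑ r ∈ Finset.Ioo l T.L, T.W r * (ψ x * T.E H l (fun y => T.E H r φ y * T.E H r V y) x) -
      T.e l * (T.E H l φ x * ψ x * T.E H l V x) := fun x => by
    rw [resp, mul_sub, mul_sub, Finset.mul_sum]
    congr 1
    · congr 1
      exact Finset.sum_congr rfl fun r _ => by ring
    · ring
  simp only [e]
  rw [integral_sub ((g1.sub (Gr.sum _ fun r _ => g2 r)).integrable_PP h) (g3.integrable_PP h),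
    integral_sub (g1.integrable_PP h) ((Gr.sum _ fun r _ => g2 r).integrable_PP h),
    integral_finsetSum _ fun r _ => (g2 r).integrable_PP h, integral_const_mul,
    integral_mul_E h l hψ hd (hφ.mul hV),
    integral_mul_E h l ((hφ.E h l).mul hψ) ((dep_E h.ub _ l).mul hd) hV,
    T.E_of_ge H le_rfl hφ.1]
  congr 2
  · congr 1
    funext x
    ring
  · refine Finset.sum_congr rfl fun r hr => ?_
    rw [integral_const_mul, integral_mul_E h l hψ hd ((hφ.E h r).mul (hV.E h r)),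
      ← integral_mul_E h r ((hφ.E h r).mul hψ)
        ((dep_E h.ub _ r).mul (hd.mono (Finset.mem_Ioo.1 hr).1.le)) hV]
    congr 2
    funext x
    ring

theorem m5_resp0 (h : T.LG H) {V φ : S → ℝ} (hV : T.Gr V) (hφ : T.Gr φ)
    (h0 : ∫ x, V x ∂(T.PP H) = 0) :
    T.resp H V φ 0 T.x0 = ∫ x, φ x * V x ∂(T.PP H) -
      ∑ r ∈ Finset.Ioo 0 T.L, T.W r * ∫ x, T.E H r φ x * V x ∂(T.PP H) := by
  rw [resp]
  simp only [E_zero_eq]
  rw [h0, mul_zero, mul_zero, sub_zero]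
  congr 1
  refine Finset.sum_congr rfl fun r _ => ?_
  rw [integral_mul_E h r (hφ.E h r) (dep_E h.ub _ r) hV]

theorem m5_one (h : T.LG H) {V a b : S → ℝ} (hV : T.Gr V) (ha : T.Gr a) (hb : T.Gr b) {l : ℕ}
    (h0 : ∫ x, V x ∂(T.PP H) = 0)
    (hid : ∫ x, ((T.E H l b x + T.resp H V a l x) * T.E H l b x +
      T.E H l a x * (-T.E H l a x + T.resp H V b l x)) ∂(T.PP H) +
      T.resp H V (fun x => T.E H l a x * T.E H l b x) 0 T.x0 = 0) :
    ∫ x, T.E H l b x ^ 2 ∂(T.PP H) - ∫ x, T.E H l a x ^ 2 ∂(T.PP H) +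
      (∫ x, T.E H T.L a x * T.E H l b x * V x ∂(T.PP H) -
        ∑ r ∈ Finset.Ioo l T.L, T.W r * ∫ x, T.E H r a x * T.E H l b x * V x ∂(T.PP H) -
        T.e l * ∫ x, T.E H l a x * T.E H l b x * V x ∂(T.PP H)) +
      (∫ x, T.E H l a x * T.E H T.L b x * V x ∂(T.PP H) -
        ∑ r ∈ Finset.Ioo l T.L, T.W r * ∫ x, T.E H l a x * T.E H r b x * V x ∂(T.PP H) -
        T.e l * ∫ x, T.E H l a x * T.E H l b x * V x ∂(T.PP H)) +
      (∫ x, T.E H l a x * T.E H l b x * V x ∂(T.PP H) -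
        ∑ r ∈ Finset.Ioo 0 T.L, T.W r *
          ∫ x, T.E H r (fun y => T.E H l a y * T.E H l b y) x * V x ∂(T.PP H)) = 0 := by
  have gr : ∀ {φ : S → ℝ}, T.Gr φ → T.Gr (T.resp H V φ l) := fun {φ} hφ =>
    (((hφ.mul hV).E h l).sub (Gr.sum _ fun r _ =>
      (((hφ.E h r).mul (hV.E h r)).E h l).const_mul _)).sub
      (((hφ.E h l).mul (hV.E h l)).const_mul _)
  have ga := ha.E h l
  have gb := hb.E h l
  have e : ∀ x, (T.E H l b x + T.resp H V a l x) * T.E H l b x +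
      T.E H l a x * (-T.E H l a x + T.resp H V b l x) =
      (T.E H l b x ^ 2 - T.E H l a x ^ 2) +
        (T.E H l b x * T.resp H V a l x + T.E H l a x * T.resp H V b l x) := fun x => by ring
  simp only [e] at hid
  rw [integral_add (((gb.pow 2).sub (ga.pow 2)).integrable_PP h)
      (((gb.mul (gr ha)).add (ga.mul (gr hb))).integrable_PP h),
    integral_sub ((gb.pow 2).integrable_PP h) ((ga.pow 2).integrable_PP h),
    integral_add ((gb.mul (gr ha)).integrable_PP h) ((ga.mul (gr hb)).integrable_PP h),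
    m5_resp h hV ha gb (dep_E h.ub _ l), m5_resp h hV hb ga (dep_E h.ub _ l),
    m5_resp0 h hV (ga.mul gb) h0] at hid
  simp only [mul_comm (T.E H _ b _) (T.E H l a _)] at hid
  linarith

theorem M5.sum_id {s z : ι → S → ℝ} {J J' : Finset ι} {R : ℝ} {ζ : S → ℝ}
    (m : T.M5 H s z J J' R ζ) (Δ : ℝ) (l : ℕ)
    (h0 : ∀ i ∈ J, ∀ j ∈ J', ∫ x, m5V s z Δ i j x ∂(T.PP H) = 0)
    (hid : ∀ i ∈ J, ∀ j ∈ J',
      ∫ x, ((T.E H l (s j) x + T.resp H (m5V s z Δ i j) (s i) l x) * T.E H l (s j) x +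
        T.E H l (s i) x * (-T.E H l (s i) x + T.resp H (m5V s z Δ i j) (s j) l x)) ∂(T.PP H) +
      T.resp H (m5V s z Δ i j) (fun x => T.E H l (s i) x * T.E H l (s j) x) 0 T.x0 = 0) :
    J.card * T.ov H s J' l - J'.card * T.ov H s J l +
      (T.m5T1 H s z J J' Δ T.L l - ∑ r ∈ Finset.Ioo l T.L, T.W r * T.m5T1 H s z J J' Δ r l -
        T.e l * T.m5T1 H s z J J' Δ l l) +
      (T.m5T1 H s z J J' Δ l T.L - ∑ r ∈ Finset.Ioo l T.L, T.W r * T.m5T1 H s z J J' Δ l r -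
        T.e l * T.m5T1 H s z J J' Δ l l) +
      (T.m5T1 H s z J J' Δ l l - ∑ r ∈ Finset.Ioo 0 T.L, T.W r * T.m5T2 H s z J J' Δ r l) = 0 := by
  have key := Finset.sum_eq_zero fun i hi => Finset.sum_eq_zero fun j hj =>
    m5_one m.h (m.gV Δ i j) (m.gs i) (m.gs j) (h0 i hi j hj) (hid i hi j hj)
  have sw : ∀ (I : Finset ℕ) (f : ℕ → ι → ι → ℝ), ∑ r ∈ I, T.W r * ∑ i ∈ J, ∑ j ∈ J', f r i j =
      ∑ i ∈ J, ∑ j ∈ J', ∑ r ∈ I, T.W r * f r i j := fun I f => by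
    simp only [Finset.mul_sum]
    rw [Finset.sum_comm]
    exact Finset.sum_congr rfl fun i _ => Finset.sum_comm
  have o1 : J.card * T.ov H s J' l = ∑ i ∈ J, ∑ j ∈ J', ∫ x, T.E H l (s j) x ^ 2 ∂(T.PP H) := by
    rw [Finset.sum_const, nsmul_eq_mul, ov,
      integral_finsetSum J' fun j _ => (((m.gs j).E m.h l).pow 2).integrable_PP m.h]
  have o2 : J'.card * T.ov H s J l = ∑ i ∈ J, ∑ j ∈ J', ∫ x, T.E H l (s i) x ^ 2 ∂(T.PP H) := by
    rw [Finset.sum_comm, Finset.sum_const, nsmul_eq_mul, ov,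
      integral_finsetSum J fun j _ => (((m.gs j).E m.h l).pow 2).integrable_PP m.h]
  rw [o1, o2]
  unfold m5T1 m5T2
  rw [sw, sw, sw]
  simp only [Finset.mul_sum, ← Finset.sum_sub_distrib, ← Finset.sum_add_distrib]
  exact key

end Tower

end Crest.Agent.R164
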