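import Crest.Agent.R164.M4
import Crest.Agent.R164.M5Aux

/-! # The model: estimating the terms of the Ward identity

Sum `rot_id` over `i ∈ J`, `j ∈ J'` and divide by `|J| |J'|`.  Every term is a Gibbs average of a
product `ρ^J_{ab} ρ^{J'}_{cd}` of normalised overlaps of replicas (each bounded by `ρ`), or of a
field term bounded by `ρ² |z|/√N`.  For instance, for `r < l`,
`Σ_{ij} ∫ E_r (m_i m_j) E_r (s_i s_j) = ∫ E_r^{y} [(m·s(y))_J (m·s(y))_{J'}]` and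
`|(m·s(y))_J - c| ≤ E_l^{y'} |(s(y')·s(y))_J - c|`, whose average is `Err2 J r c` by the tower
property (`lintegral_K_K`, `K_comp`, `integral_mul_E`).  Use `|ab - QQ'| ≤ ρ |a - Q| + ρ |b - Q'|`.
The terms: `E_l[s_i V] m_j → Q(n+1) Q'(l)`; `E_l[E_r s_i E_r V] m_j → Q(r) Q'(l)` (`r > l`);
`m_i E_l V m_j → Q(l) Q'(l)`; symmetrically for `j`; in the last `resp` the levels `r ≥ l` merge
to `e (l-1) ∫ m_i m_j E_l V`, the levels `r < l` give `Q(r) Q'(r)`, and the term with `E_0 V`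
vanishes by `rot_mean`.  For `l = n + 2` (`E_l = id`, `resp … l = 0`) one gets the self identity.
It is convenient to prove first an abstract lemma for a tower `T`, bounded vector observables
`s^J, s^{J'}` and the three replica configurations. -/

set_option autoImplicit false
set_option linter.unusedVariables false
set_option linter.unusedSectionVars false

open MeasureTheory ProbabilityTheory Real Crest.ProbabilityR.InvariantGlass
open scoped ENNReal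

namespace Crest.Agent.R164

variable {N : ℕ} {X : Expo}

theorem Expo.m5_sum (X : Expo) (I : Finset ℕ) {A x y : ℕ → ℝ} {K F : ℝ}
    (h : ∀ r ∈ I, |A r| ≤ K * (x r + y r) + F) :
    |∑ r ∈ I, X.W r * A r| ≤ K * (∑ r ∈ I, X.W r * x r + ∑ r ∈ I, X.W r * y r) +
      (∑ r ∈ I, X.W r) * F := by
  refine (Finset.abs_sum_le_sum_abs _ _).trans ?_
  rw [← Finset.sum_add_distrib, Finset.mul_sum, Finset.sum_mul, ← Finset.sum_add_distrib]
  refine Finset.sum_le_sum fun r hr => ?_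
  rw [abs_mul, abs_of_nonneg (X.W_nonneg r)]
  refine (mul_le_mul_of_nonneg_left (h r hr) (X.W_nonneg r)).trans_eq (by ring)

theorem Expo.m5_sub (X : Expo) {I : Finset ℕ} (hI : I ⊆ Finset.Icc 2 X.n) {x : ℕ → ℝ}
    (hx : ∀ r, 0 ≤ x r) : ∑ r ∈ I, X.W r * x r ≤ X.tau x 1 :=
  Finset.sum_le_sum_of_subset_of_nonneg hI fun r _ _ => mul_nonneg (X.W_nonneg r) (hx r)

theorem Expo.m5_mid (X : Expo) {l : ℕ} (hl : 2 ≤ l) (hn : l ≤ X.n) {A B C x y : ℕ → ℝ}
    {AT BT D xT yT K F : ℝ} (hK : 0 ≤ K) (hF : 0 ≤ F) (hx : ∀ r, 0 ≤ x r) (hy : ∀ r, 0 ≤ y r)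
    (hxT : 0 ≤ xT) (hyT : 0 ≤ yT)
    (hA : ∀ r, |A r| ≤ K * (x r + y l) + F) (hB : ∀ r, |B r| ≤ K * (x l + y r) + F)
    (hC : ∀ r, r ≤ l → |C r| ≤ K * (x r + y r) + F) (hAT : |AT| ≤ K * (xT + y l) + F)
    (hBT : |BT| ≤ K * (x l + yT) + F) (hD : |D| ≤ K * (x l + y l) + F) :
    |(AT - X.tau A l - X.e l * D) + (BT - X.tau B l - X.e l * D) +
        (X.e (l - 1) * D - ∑ r ∈ Finset.Icc 2 (l - 1), X.W r * C r)| ≤
      K * (2 * ((xT + X.tau x 1) + (yT + X.tau y 1)) + 4 * (x l + y l)) + 6 * F := by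
  have s1 : Finset.Icc (l + 1) X.n ⊆ Finset.Icc 2 X.n := Finset.Icc_subset_Icc_left (by omega)
  have s2 : Finset.Icc 2 (l - 1) ⊆ Finset.Icc 2 X.n := Finset.Icc_subset_Icc_right (by omega)
  have a1 := X.m5_sum (Finset.Icc (l + 1) X.n) (A := A) (x := x) (y := fun _ => y l)
    fun r _ => hA r
  have a2 := X.m5_sum (Finset.Icc (l + 1) X.n) (A := B) (x := fun _ => x l) (y := y)
    fun r _ => hB r
  have a3 := X.m5_sum (Finset.Icc 2 (l - 1)) (A := C) (x := x) (y := y)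
    fun r hr => hC r (by have := (Finset.mem_Icc.1 hr).2; omega)
  rw [← Finset.sum_mul, X.sum_W hn] at a1 a2
  have b1 := X.m5_sub s1 hx
  have b2 := X.m5_sub s1 hy
  have b3 := X.m5_sub s2 hx
  have b4 := X.m5_sub s2 hy
  have b5 : ∑ r ∈ Finset.Icc 2 (l - 1), X.W r ≤ 1 := by
    have := Finset.sum_le_sum_of_subset_of_nonneg (f := X.W) s2 fun r _ _ => X.W_nonneg r
    have h2 := X.sum_W X.n_pos
    have := X.e_pos 1
    simp only [Nat.reduceAdd] at h2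
    linarith
  have c1 : |X.e l * D| ≤ X.e l * (K * (x l + y l) + F) := by
    rw [abs_mul, abs_of_pos (X.e_pos l)]
    exact mul_le_mul_of_nonneg_left hD (X.e_pos l).le
  have c2 : |X.e (l - 1) * D| ≤ K * (x l + y l) + F := by
    rw [abs_mul, abs_of_pos (X.e_pos _)]
    exact (mul_le_of_le_one_left (abs_nonneg _) (X.le_one _)).trans hD
  have d1 := mul_le_mul_of_nonneg_left (add_le_add b1 b2) hK
  have d2 := mul_le_mul_of_nonneg_left (add_le_add b3 b4) hK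
  have d3 := mul_le_mul_of_nonneg_right b5 hF
  have d4 := mul_le_mul_of_nonneg_right (X.le_one l) (mul_nonneg hK (add_nonneg (hx l) (hy l)))
  have d5 := mul_nonneg hK (add_nonneg hxT hyT)
  unfold Expo.tau at *
  rw [abs_le] at *
  constructor <;> nlinarith [a1.1, a1.2, a2.1, a2.2, a3.1, a3.2, c1.1, c1.2, c2.1, c2.2, hAT.1,
    hAT.2, hBT.1, hBT.2]

theorem m5_data (p : Par N) (J J' : Finset (Fin N)) :
    (mT X N).M5 (Ham p) sO (zO p) J J' √N (fun x => √(∑ i, zO p i x ^ 2)) := by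
  have g : (mT X N).Gr fun x => ∑ i, zO p i x ^ 2 :=
    Tower.Gr.sum _ fun i _ => (lg_zO p i).gr.pow 2
  have b1 : ∀ (I : Finset (Fin N)) (x : MS X.n N), ∑ i ∈ I, sO i x ^ 2 ≤ √N ^ 2 := fun I x => by
    rw [sq_sqrt (Nat.cast_nonneg N), ← sum_sO_sq x]
    exact Finset.sum_le_sum_of_subset_of_nonneg (Finset.subset_univ I) fun _ _ _ => sq_nonneg _
  have b2 : ∀ (I : Finset (Fin N)) (x : MS X.n N),
      ∑ i ∈ I, zO p i x ^ 2 ≤ √(∑ i, zO p i x ^ 2) ^ 2 := fun I x => by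
    rw [sq_sqrt (Finset.sum_nonneg fun _ _ => sq_nonneg _)]
    exact Finset.sum_le_sum_of_subset_of_nonneg (Finset.subset_univ I) fun _ _ _ => sq_nonneg _
  refine ⟨lg_Ham p, gr_sO, fun i => (lg_zO p i).gr,
    Tower.Gr.of_le (continuous_sqrt.measurable.comp g.1) (g.add (Tower.Gr.const 1)) fun x => ?_,
    sqrt_nonneg _, fun _ => sqrt_nonneg _, b1 J, b1 J', b2 J, b2 J'⟩
  have h0 : 0 ≤ ∑ i, zO p i x ^ 2 := Finset.sum_nonneg fun _ _ => sq_nonneg _
  rw [abs_of_nonneg (sqrt_nonneg _)]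
  nlinarith [sq_sqrt h0, sq_nonneg (√(∑ i, zO p i x ^ 2) - 1)]

theorem m5_field (p : Par N) {Θ : ℝ} (hΘ : 0 ≤ Θ)
    (hv : ∀ i, ∑ a ∈ Finset.Icc 1 X.n, p.vt a i ^ 2 ≤ Θ) :
    2 * √N ^ 3 * ∫ x, √(∑ i, zO p i x ^ 2) ∂(p.PP X) ≤ 2 * N ^ 2 * (2 * Θ + √Θ) := by
  have m := m5_data (X := X) p ∅ ∅
  have h1 := Tower.sq_E_le m.h m.gζ 0 (mT X N).x0
  simp only [Tower.E_zero_eq, sq_sqrt (Finset.sum_nonneg fun _ _ => sq_nonneg _)] at h1
  have h2 : ∫ x, √(∑ i, zO p i x ^ 2) ∂(p.PP X) ≤ (2 * Θ + √Θ) * √N :=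
    (le_sqrt_of_sq_le h1).trans (field_moment_row p hΘ hv)
  have h3 : (N : ℝ) ^ 2 = √N ^ 3 * √N := by
    rw [← pow_succ, show 3 + 1 = 2 * 2 from rfl, pow_mul, sq_sqrt (Nat.cast_nonneg N)]
  refine (mul_le_mul_of_nonneg_left h2 (by positivity)).trans_eq ?_
  rw [h3]; ring

theorem m5_card_Q (p : Par N) {J : Finset (Fin N)} (hJ : J.Nonempty) (r : ℕ) :
    |J.card * p.Q X J r| ≤ √N ^ 2 := by
  have hc : (J.card : ℝ) ≠ 0 := Nat.cast_ne_zero.2 hJ.card_pos.ne'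
  have h : ∀ r, |J.card * (p.ov X J r / J.card)| ≤ N := fun r => by
    rw [mul_div_cancel₀ _ hc, abs_of_nonneg (show 0 ≤ p.ov X J r from Tower.ov_nonneg _ _ _ _)]
    exact ov_le p J r
  rw [sq_sqrt (Nat.cast_nonneg N), Par.Q]
  split_ifs
  · simp
  · exact h _
  · exact h _

theorem m5_id (p : Par N) {J J' : Finset (Fin N)} (hd : Disjoint J J') {lam lam' : ℝ}
    (h1 : ∀ i ∈ J, p.lam i = lam) (h2 : ∀ i ∈ J', p.lam i = lam') (l : ℕ) :
    J.card * p.ov X J' l - J'.card * p.ov X J l +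
      ((mT X N).m5T1 (Ham p) sO (zO p) J J' (lam - lam') (X.n + 2) l -
        X.tau (fun r => (mT X N).m5T1 (Ham p) sO (zO p) J J' (lam - lam') r l) l -
        X.e l * (mT X N).m5T1 (Ham p) sO (zO p) J J' (lam - lam') l l) +
      ((mT X N).m5T1 (Ham p) sO (zO p) J J' (lam - lam') l (X.n + 2) -
        X.tau (fun r => (mT X N).m5T1 (Ham p) sO (zO p) J J' (lam - lam') l r) l -
        X.e l * (mT X N).m5T1 (Ham p) sO (zO p) J J' (lam - lam') l l) +
      ((mT X N).m5T1 (Ham p) sO (zO p) J J' (lam - lam') l l -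
        X.tau (fun r => (mT X N).m5T2 (Ham p) sO (zO p) J J' (lam - lam') r l) 1) = 0 := by
  have eV : ∀ i ∈ J, ∀ j ∈ J', Tower.m5V (sO (n := X.n)) (zO p) (lam - lam') i j = Vrot p i j :=
    fun i hi j hj => by
      funext x
      rw [Tower.m5V, Vrot, h1 i hi, h2 j hj]
  have hne : ∀ i ∈ J, ∀ j ∈ J', i ≠ j := fun i hi j hj e =>
    Finset.disjoint_left.1 hd hi (e ▸ hj)
  have key := (m5_data (X := X) p J J').sum_id (lam - lam') l
    (fun i hi j hj => by rw [eV i hi j hj]; exact rot_mean p (hne i hi j hj))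
    (fun i hi j hj => by rw [eV i hi j hj]; exact rot_id p (hne i hi j hj) l)
  simp only [mT_L, mT_e, mT_W, Expo.sum_Ioo, Expo.tau_zero] at key
  exact key

theorem m5_div {a b n ρ u K E Z k : ℝ} (ha : 0 < a) (hb : 0 < b) (hn : 0 < n) (h1 : n ≤ ρ * a)
    (h2 : n ≤ ρ * b) (hK : 0 ≤ K) (hE : 0 ≤ E) (hZ : 0 ≤ Z) (hk : 0 ≤ k)
    (h : |a * b * u| ≤ K * n * E + k * (n ^ 2 * Z)) : |u| ≤ K * ρ ^ 2 / n * E + k * ρ ^ 2 * Z := by
  have h3 : n ^ 2 ≤ ρ ^ 2 * (a * b) := by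
    have := mul_le_mul h1 h2 hn.le (hn.le.trans h1)
    nlinarith
  rw [abs_mul, abs_of_pos (mul_pos ha hb)] at h
  refine le_of_mul_le_mul_left (h.trans ?_) (mul_pos ha hb)
  have h4 : n ≤ ρ ^ 2 * (a * b) / n := by
    rw [le_div_iff₀ hn, ← sq]; exact h3
  have h5 := mul_le_mul_of_nonneg_left h4 (mul_nonneg hK hE)
  have h6 := mul_le_mul_of_nonneg_left h3 (mul_nonneg hk hZ)
  have e : a * b * (K * ρ ^ 2 / n * E + k * ρ ^ 2 * Z) =
      K * E * (ρ ^ 2 * (a * b) / n) + k * Z * (ρ ^ 2 * (a * b)) := by ring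
  rw [e]
  linarith

theorem ward_mid (p : Par N) {J J' : Finset (Fin N)} (hd : Disjoint J J') (hJ : J.Nonempty)
    (hJ' : J'.Nonempty) {lam lam' ρ Θ : ℝ} (h1 : ∀ i ∈ J, p.lam i = lam)
    (h2 : ∀ i ∈ J', p.lam i = lam') (hρ : (N : ℝ) ≤ ρ * J.card) (hρ' : (N : ℝ) ≤ ρ * J'.card)
    (hΘ : 0 ≤ Θ) (hv : ∀ i, ∑ a ∈ Finset.Icc 1 X.n, p.vt a i ^ 2 ≤ Θ) {l : ℕ} (hl : 2 ≤ l)
    (hn : l ≤ X.n) :
    |p.Q X J' l - p.Q X J l + (lam - lam') * X.star (p.Q X J) (p.Q X J') l| ≤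
      |lam - lam'| * ρ ^ 2 / N * (2 * (p.ErrQ X J (p.Q X J) + p.ErrQ X J' (p.Q X J')) +
        4 * (p.Err2 X J l (J.card * p.Q X J l) + p.Err2 X J' l (J'.card * p.Q X J' l))) +
      12 * ρ ^ 2 * (2 * Θ + √Θ) := by
  have m := m5_data (X := X) p J J'
  have ha : (0 : ℝ) < J.card := Nat.cast_pos.2 hJ.card_pos
  have hb : (0 : ℝ) < J'.card := Nat.cast_pos.2 hJ'.card_pos
  have hN : (0 : ℝ) < N := Nat.cast_pos.2 (Fin.pos hJ.choose)
  have hf := m5_field (X := X) p hΘ hv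
  have hid := m5_id (X := X) p hd h1 h2 l
  set Δ := lam - lam' with hΔ
  set T1 := (mT X N).m5T1 (Ham p) sO (zO p) J J' Δ with hT1
  set T2 := (mT X N).m5T2 (Ham p) sO (zO p) J J' Δ with hT2
  set Q := p.Q X J with hQ
  set Q' := p.Q X J' with hQ'
  have t1 : ∀ r r' k k', |T1 r r' - Δ * (J.card * Q k * (J'.card * Q' k'))| ≤
      |Δ| * N * (p.Err2 X J r (J.card * Q k) + p.Err2 X J' r' (J'.card * Q' k')) +
        2 * (N ^ 2 * (2 * Θ + √Θ)) := fun r r' k k' => by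
    have := m.T1 Δ r r' (J.card * Q k) (m5_card_Q (X := X) p hJ' k')
    rw [sq_sqrt (Nat.cast_nonneg N)] at this
    exact this.trans (add_le_add_right (hf.trans_eq (by ring)) _)
  have t2 : ∀ r, r ≤ l → |T2 r l - Δ * (J.card * Q r * (J'.card * Q' r))| ≤
      |Δ| * N * (p.Err2 X J r (J.card * Q r) + p.Err2 X J' r (J'.card * Q' r)) +
        2 * (N ^ 2 * (2 * Θ + √Θ)) := fun r hr => by
    have := m.T2 Δ hr (J.card * Q r) (m5_card_Q (X := X) p hJ' r)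
    rw [sq_sqrt (Nat.cast_nonneg N)] at this
    exact this.trans (add_le_add_right (hf.trans_eq (by ring)) _)
  have e0 : ∀ (I : Finset (Fin N)) r c, 0 ≤ p.Err2 X I r c := fun I r c =>
    Tower.Err2_nonneg _ _ _ _ _
  have key := X.m5_mid hl hn (by positivity) (by positivity)
    (x := fun r => p.Err2 X J r (J.card * Q r)) (y := fun r => p.Err2 X J' r (J'.card * Q' r))
    (fun r => e0 _ _ _) (fun r => e0 _ _ _) (e0 _ _ _) (e0 _ _ _)
    (fun r => t1 r l r l) (fun r => t1 l r l r) t2 (t1 (X.n + 2) l (X.n + 1) l)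
    (t1 l (X.n + 2) l (X.n + 1)) (t1 l l l l)
  have sp : X.tau (fun r => T2 r l) 1 =
      ∑ r ∈ Finset.Icc 2 (l - 1), X.W r * T2 r l + (1 - X.e (l - 1)) * T1 l l := by
    have u : Finset.Icc (1 + 1) X.n = Finset.Icc 2 (l - 1) ∪ Finset.Icc (l - 1 + 1) X.n := by
      ext r
      simp only [Finset.mem_union, Finset.mem_Icc]
      omega
    rw [Expo.tau, u, Finset.sum_union (Finset.disjoint_left.2 fun r a b => by
      simp only [Finset.mem_Icc] at a b; omega), ← X.sum_W (by omega), Finset.sum_mul]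
    congr 1
    refine Finset.sum_congr rfl fun r hr => ?_
    rw [hT2, m.T2_of_ge Δ (by have := (Finset.mem_Icc.1 hr).1; omega)]
  have o1 : p.ov X J l = J.card * Q l := by
    rw [hQ, Par.Q, if_neg (by omega), if_pos hn, mul_div_cancel₀ _ ha.ne']
  have o2 : p.ov X J' l = J'.card * Q' l := by
    rw [hQ', Par.Q, if_neg (by omega), if_pos hn, mul_div_cancel₀ _ hb.ne']
  have u1 : X.tau (fun r => T1 r l - Δ * (J.card * Q r * (J'.card * Q' l))) l =
      X.tau (fun r => T1 r l) l - Δ * J.card * J'.card * Q' l * X.tau Q l := by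
    rw [← X.g3_tau_mul, ← X.g3_tau_sub]
    congr 1
    funext r
    ring
  have u2 : X.tau (fun r => T1 l r - Δ * (J.card * Q l * (J'.card * Q' r))) l =
      X.tau (fun r => T1 l r) l - Δ * J.card * J'.card * Q l * X.tau Q' l := by
    rw [← X.g3_tau_mul, ← X.g3_tau_sub]
    congr 1
    funext r
    ring
  have u3 : ∑ r ∈ Finset.Icc 2 (l - 1), X.W r * (T2 r l - Δ * (J.card * Q r * (J'.card * Q' r))) =
      ∑ r ∈ Finset.Icc 2 (l - 1), X.W r * T2 r l -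
        Δ * J.card * J'.card * ∑ r ∈ Finset.Icc 2 (l - 1), X.W r * (Q r * Q' r) := by
    rw [Finset.mul_sum, ← Finset.sum_sub_distrib]
    exact Finset.sum_congr rfl fun r _ => by ring
  rw [u1, u2, u3] at key
  rw [sp, o1, o2] at hid
  refine m5_div ha hb hN hρ hρ' (abs_nonneg _) (by
    have := ErrQ_nonneg (X := X) p J Q
    have := ErrQ_nonneg (X := X) p J' Q'
    have := e0 J l (J.card * Q l)
    have := e0 J' l (J'.card * Q' l)
    positivity) (by positivity) (by norm_num) ?_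
  rw [← abs_neg]
  refine (le_of_eq ?_).trans (key.trans_eq ?_)
  · congr 1
    rw [Expo.star, if_neg (by omega), if_pos hn, X.D_eq Q hn, X.D_eq Q' hn]
    linear_combination -hid
  · simp only [Par.ErrQ]
    ring

theorem ward_self (p : Par N) {J J' : Finset (Fin N)} (hd : Disjoint J J') (hJ : J.Nonempty)
    (hJ' : J'.Nonempty) {lam lam' ρ Θ : ℝ} (h1 : ∀ i ∈ J, p.lam i = lam)
    (h2 : ∀ i ∈ J', p.lam i = lam') (hρ : (N : ℝ) ≤ ρ * J.card) (hρ' : (N : ℝ) ≤ ρ * J'.card)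
    (hΘ : 0 ≤ Θ) (hv : ∀ i, ∑ a ∈ Finset.Icc 1 X.n, p.vt a i ^ 2 ≤ Θ) :
    |p.Q X J' (X.n + 1) - p.Q X J (X.n + 1) +
        (lam - lam') * X.star (p.Q X J) (p.Q X J') (X.n + 1)| ≤
      |lam - lam'| * ρ ^ 2 / N * (p.ErrQ X J (p.Q X J) + p.ErrQ X J' (p.Q X J')) +
      4 * ρ ^ 2 * (2 * Θ + √Θ) := by
  have m := m5_data (X := X) p J J'
  have ha : (0 : ℝ) < J.card := Nat.cast_pos.2 hJ.card_pos
  have hb : (0 : ℝ) < J'.card := Nat.cast_pos.2 hJ'.card_pos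
  have hN : (0 : ℝ) < N := Nat.cast_pos.2 (Fin.pos hJ.choose)
  have hf := m5_field (X := X) p hΘ hv
  have hid := m5_id (X := X) p hd h1 h2 (X.n + 2)
  have hn := X.n_pos
  set Δ := lam - lam' with hΔ
  set T1 := (mT X N).m5T1 (Ham p) sO (zO p) J J' Δ with hT1
  set T2 := (mT X N).m5T2 (Ham p) sO (zO p) J J' Δ with hT2
  set Q := p.Q X J with hQ
  set Q' := p.Q X J' with hQ'
  have t1 : |T1 (X.n + 2) (X.n + 2) - Δ * (J.card * Q (X.n + 1) * (J'.card * Q' (X.n + 1)))| ≤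
      |Δ| * N * (p.Err2 X J (X.n + 2) (J.card * Q (X.n + 1)) +
        p.Err2 X J' (X.n + 2) (J'.card * Q' (X.n + 1))) + 2 * (N ^ 2 * (2 * Θ + √Θ)) := by
    have := m.T1 Δ (X.n + 2) (X.n + 2) (J.card * Q (X.n + 1)) (m5_card_Q (X := X) p hJ' (X.n + 1))
    rw [sq_sqrt (Nat.cast_nonneg N)] at this
    exact this.trans (add_le_add_right (hf.trans_eq (by ring)) _)
  have t2 : ∀ r, r ≤ X.n + 2 → |T2 r (X.n + 2) - Δ * (J.card * Q r * (J'.card * Q' r))| ≤
      |Δ| * N * (p.Err2 X J r (J.card * Q r) + p.Err2 X J' r (J'.card * Q' r)) +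
        2 * (N ^ 2 * (2 * Θ + √Θ)) := fun r hr => by
    have := m.T2 Δ hr (J.card * Q r) (m5_card_Q (X := X) p hJ' r)
    rw [sq_sqrt (Nat.cast_nonneg N)] at this
    exact this.trans (add_le_add_right (hf.trans_eq (by ring)) _)
  have a3 := X.m5_sum (Finset.Icc (1 + 1) X.n)
    (x := fun r => p.Err2 X J r (J.card * Q r)) (y := fun r => p.Err2 X J' r (J'.card * Q' r))
    fun r hr => t2 r (by have := (Finset.mem_Icc.1 hr).2; omega)
  have u3 : ∑ r ∈ Finset.Icc (1 + 1) X.n,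
      X.W r * (T2 r (X.n + 2) - Δ * (J.card * Q r * (J'.card * Q' r))) =
      X.tau (fun r => T2 r (X.n + 2)) 1 -
        Δ * J.card * J'.card * X.tau (fun r => Q r * Q' r) 1 := by
    rw [Expo.tau, Expo.tau, Finset.mul_sum, ← Finset.sum_sub_distrib]
    exact Finset.sum_congr rfl fun r _ => by ring
  have o1 : p.ov X J (X.n + 2) = J.card * Q (X.n + 1) := by
    rw [hQ, Par.Q, if_neg (by omega), if_neg (by omega), mul_div_cancel₀ _ ha.ne']
  have o2 : p.ov X J' (X.n + 2) = J'.card * Q' (X.n + 1) := by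
    rw [hQ', Par.Q, if_neg (by omega), if_neg (by omega), mul_div_cancel₀ _ hb.ne']
  have z : ∀ f : ℕ → ℝ, X.tau f (X.n + 2) = 0 := fun f => by
    rw [Expo.tau, Finset.Icc_eq_empty (by omega), Finset.sum_empty]
  rw [u3, X.sum_W hn] at a3
  rw [o1, o2, z, z, X.e_of_ge (by omega)] at hid
  refine m5_div ha hb hN hρ hρ' (abs_nonneg _)
    (add_nonneg (ErrQ_nonneg (X := X) p J Q) (ErrQ_nonneg (X := X) p J' Q'))
    (by positivity) (by norm_num) ?_
  have e : J.card * J'.card * (Q' (X.n + 1) - Q (X.n + 1) + Δ * X.star Q Q' (X.n + 1)) =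
      (X.tau (fun r => T2 r (X.n + 2)) 1 - Δ * J.card * J'.card * X.tau (fun r => Q r * Q' r) 1) -
      (T1 (X.n + 2) (X.n + 2) - Δ * (J.card * Q (X.n + 1) * (J'.card * Q' (X.n + 1)))) := by
    rw [Expo.star, if_neg (by omega), if_neg (by omega)]
    linear_combination hid
  rw [e]
  refine (abs_sub _ _).trans ((add_le_add a3 t1).trans ?_)
  have := mul_nonneg (X.e_pos 1).le (show 0 ≤ 2 * ((N : ℝ) ^ 2 * (2 * Θ + √Θ)) by positivity)
  simp only [Par.ErrQ, Expo.tau]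
  linarith

end Crest.Agent.R164
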