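import Crest.Agent.R164.M5
import Crest.Agent.R164.M3
import Crest.Agent.R164.M2
import Crest.Agent.R164.S1

/-! # The model: the resolvent relation between the blocks; contact points -/

set_option autoImplicit false
set_option linter.unusedVariables false
set_option linter.unusedSectionVars false

open MeasureTheory ProbabilityTheory Real Crest.ProbabilityR.InvariantGlass
open scoped ENNReal

namespace Crest.Agent.R164

variable {N : ℕ} {X : Expo}

/-- `wn_D_le` for `z = Q' - Q + (lam - lam') star`, `D_star`, `ward_mid`, `ward_self` -/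
theorem ward (p : Par N) {J J' : Finset (Fin N)} (hd : Disjoint J J') (hJ : J.Nonempty)
    (hJ' : J'.Nonempty) {lam lam' ρ Θ : ℝ} (h1 : ∀ i ∈ J, p.lam i = lam)
    (h2 : ∀ i ∈ J', p.lam i = lam') (hρ : (N : ℝ) ≤ ρ * J.card) (hρ' : (N : ℝ) ≤ ρ * J'.card)
    (hΘ : 0 ≤ Θ) (hv : ∀ i, ∑ a ∈ Finset.Icc 1 X.n, p.vt a i ^ 2 ≤ Θ) :
    X.wn (fun l => |X.D (p.Q X J') l - X.D (p.Q X J) l +
        (lam - lam') * (X.D (p.Q X J) l * X.D (p.Q X J') l)|) ≤
      100 * ρ ^ 2 * (|lam - lam'| * (p.ErrQ X J (p.Q X J) + p.ErrQ X J' (p.Q X J')) / N +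
        Θ + √Θ) := by
  set Q := p.Q X J with hQ
  set Q' := p.Q X J' with hQ'
  have q1 : Q 1 = 0 := by simp [hQ, Par.Q]
  have q1' : Q' 1 = 0 := by simp [hQ', Par.Q]
  have hz := X.wn_D_le (z := fun l => Q' l - Q l + (lam - lam') * X.star Q Q' l)
    (by simp [q1, q1', Expo.star])
  have e1 : X.wn (fun l => |X.D Q' l - X.D Q l + (lam - lam') * (X.D Q l * X.D Q' l)|) ≤
      X.wn (fun l => |X.D (fun l => Q' l - Q l + (lam - lam') * X.star Q Q' l) l|) := by
    refine X.wn_mono fun l l1 l2 => le_of_eq ?_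
    rw [← X.D_star q1 q1' l1 l2]
    congr 1
    simp only [Expo.D, Finset.mul_sum, ← Finset.sum_sub_distrib, ← Finset.sum_add_distrib]
    exact Finset.sum_congr rfl fun c _ => by ring
  have s1 := ward_self (X := X) p hd hJ hJ' h1 h2 hρ hρ' hΘ hv
  have s2 := fun l hl hn => ward_mid (X := X) p hd hJ hJ' h1 h2 hρ hρ' hΘ hv (l := l) hl hn
  rw [← hQ, ← hQ'] at s1 s2
  have n1 := ErrQ_nonneg (X := X) p J Q
  have n2 := ErrQ_nonneg (X := X) p J' Q'
  have t1 : X.tau (fun r => p.Err2 X J r (J.card * Q r)) 1 ≤ p.ErrQ X J Q :=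
    le_add_of_nonneg_left (Tower.Err2_nonneg _ _ _ _ _)
  have t2 : X.tau (fun r => p.Err2 X J' r (J'.card * Q' r)) 1 ≤ p.ErrQ X J' Q' :=
    le_add_of_nonneg_left (Tower.Err2_nonneg _ _ _ _ _)
  obtain ⟨a, ha⟩ : ∃ a, a = |lam - lam'| * ρ ^ 2 / N := ⟨_, rfl⟩
  have a0 : 0 ≤ a := by rw [ha]; positivity
  obtain ⟨G, hG⟩ : ∃ G, G = ρ ^ 2 * (2 * Θ + √Θ) := ⟨_, rfl⟩
  have G0 : 0 ≤ G := by rw [hG]; positivity
  have s3 : X.tau (fun r => |Q' r - Q r + (lam - lam') * X.star Q Q' r|) 1 ≤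
      (∑ r ∈ Finset.Icc (1 + 1) X.n, X.W r) * (2 * a * (p.ErrQ X J Q + p.ErrQ X J' Q') + 12 * G) +
      4 * a * (X.tau (fun r => p.Err2 X J r (J.card * Q r)) 1 +
        X.tau (fun r => p.Err2 X J' r (J'.card * Q' r)) 1) := by
    simp only [Expo.tau, Finset.sum_mul, ← Finset.sum_add_distrib, Finset.mul_sum]
    refine Finset.sum_le_sum fun r hr => ?_
    obtain ⟨r1, r2⟩ := Finset.mem_Icc.1 hr
    refine (mul_le_mul_of_nonneg_left (s2 r r1 r2) (X.W_nonneg r)).trans (le_of_eq ?_)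
    rw [ha, hG]
    ring
  have w1 : ∑ r ∈ Finset.Icc (1 + 1) X.n, X.W r ≤ 1 := by
    rw [X.sum_W X.n_pos]
    linarith [X.e_pos 1]
  have s4 := mul_le_mul_of_nonneg_right w1
    (show 0 ≤ 2 * a * (p.ErrQ X J Q + p.ErrQ X J' Q') + 12 * G by positivity)
  have s5 := mul_le_mul_of_nonneg_left (add_le_add t1 t2) (show 0 ≤ 4 * a by positivity)
  have e2 : 100 * ρ ^ 2 * (|lam - lam'| * (p.ErrQ X J Q + p.ErrQ X J' Q') / N + Θ + √Θ) =
      100 * (a * (p.ErrQ X J Q + p.ErrQ X J' Q')) + 50 * G + 50 * (ρ ^ 2 * √Θ) := by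
    rw [ha, hG]; ring
  have e3 : 4 * ρ ^ 2 * (2 * Θ + √Θ) = 4 * G := by rw [hG]; ring
  rw [← ha, e3] at s1
  have := mul_nonneg a0 (add_nonneg n1 n2)
  have : 0 ≤ ρ ^ 2 * √Θ := by positivity
  rw [e2]
  refine e1.trans (hz.trans ?_)
  linarith

/-- smallness of the perturbation -/
structure Small {n k J : ℕ} (π' : PI n k J → ℝ) (δ : ℝ) : Prop where
  a : ∀ b, |π' (Sum.inl b)| ≤ δ
  v : ∀ b, ∑ a ∈ Finset.Icc 1 n, vtOf π' a b ^ 2 ≤ δ
  h : ∀ j, |π' (Sum.inr (Sum.inr j))| ≤ δ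

theorem Small.mono {n k J : ℕ} {π' : PI n k J → ℝ} {δ δ' : ℝ} (h : Small π' δ) (hd : δ ≤ δ') :
    Small π' δ' := ⟨fun b => (h.a b).trans hd, fun b => (h.v b).trans hd, fun j => (h.h j).trans hd⟩

theorem small_of_mem {n k J : ℕ} {η : ℝ} (hη : 0 ≤ η) {π' : PI n k J → ℝ}
    (h : π' ∈ Metric.closedBall (pc n k J η) η) :
    Small π' (η + 9 * n * η ^ 2) ∧ ∀ a b, 1 ≤ a → a ≤ n → η ≤ vtOf π' a b := by
  have hd : ∀ d, |π' d - pc n k J η d| ≤ η := fun d =>
    (dist_le_pi_dist π' (pc n k J η) d).trans h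
  have hv : ∀ a b, 1 ≤ a → a ≤ n → η ≤ vtOf π' a b ∧ vtOf π' a b ≤ 3 * η := by
    intro a b a1 a2
    rw [vtOf, dif_pos ⟨a1, a2⟩]
    have := abs_le.1 (hd (Sum.inr (Sum.inl (⟨a - 1, by omega⟩, b))))
    simp only [pc] at this
    constructor <;> linarith [this.1, this.2]
  have h9 : 0 ≤ 9 * (n : ℝ) * η ^ 2 := by positivity
  refine ⟨⟨fun b => ?_, fun b => ?_, fun j => ?_⟩, fun a b a1 a2 => (hv a b a1 a2).1⟩
  · have := hd (Sum.inl b)
    simp only [pc, sub_zero] at this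
    linarith
  · have : ∑ a ∈ Finset.Icc 1 n, vtOf π' a b ^ 2 ≤ ∑ a ∈ Finset.Icc 1 n, (3 * η) ^ 2 := by
      refine Finset.sum_le_sum fun a ha => ?_
      obtain ⟨a1, a2⟩ := Finset.mem_Icc.1 ha
      exact pow_le_pow_left₀ (hη.trans (hv a b a1 a2).1) (hv a b a1 a2).2 2
    simp only [Finset.sum_const, Nat.card_Icc, add_tsub_cancel_right, nsmul_eq_mul] at this
    nlinarith
  · have := hd (Sum.inr (Sum.inr j))
    simp only [pc, sub_zero] at this
    linarith

theorem small_zero {n k J : ℕ} {δ : ℝ} (h : 0 ≤ δ) : Small (fun _ : PI n k J => (0 : ℝ)) δ := by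
  exact ⟨fun b => by simpa using h, fun b => by simpa [vtOf] using h, fun j => by simpa using h⟩

/-- `|D - β/(1+κβ)| ≤ |β - D - κ D β|` for `κ, β ≥ 0`; the shifts `α` cost `2 δ ρ²` -/
theorem resolvent_rel (S : Spec) {J : ℕ} {t : ℝ} (ht0 : 0 ≤ t) (ht1 : t ≤ 1) (θ : ℕ → ℝ)
    (blk : Fin N → Fin (S.k + 1)) (lab : Fin N → Fin J) (mag : Fin J → ℝ) (Kp : ℝ)
    (f0 : (Fin N → Bool) → ℝ) (tx : ℕ → Fin N → ℝ) (π' : PI X.n S.k J → ℝ) {ρ δ E : ℝ}
    (hδ : 0 ≤ δ) (hδ1 : δ ≤ 1) (hs : Small π' δ) (hN : 0 < N)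
    (hρ : ∀ b, (N : ℝ) ≤ ρ * (fib blk b).card)
    (hE : ∀ b, (sys S t θ blk lab mag Kp f0 tx π').ErrQ X (fib blk b)
      ((sys S t θ blk lab mag Kp f0 tx π').Q X (fib blk b)) ≤ E * N) (b : Fin (S.k + 1)) :
    X.wn (fun l => |X.D ((sys S t θ blk lab mag Kp f0 tx π').Q X (fib blk b)) l -
      X.D ((sys S t θ blk lab mag Kp f0 tx π').Q X (fib blk S.top)) l /
        (1 + t * S.κ b * X.D ((sys S t θ blk lab mag Kp f0 tx π').Q X (fib blk S.top)) l)|) ≤
      400 * ρ ^ 2 * ((S.Λ + 1) * E + √δ) := by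
  set p := sys S t θ blk lab mag Kp f0 tx π' with hp
  have hN' : (0 : ℝ) < N := by exact_mod_cast hN
  have hE0 : 0 ≤ E := by
    have := (ErrQ_nonneg (X := X) p _ _).trans (hE b)
    exact nonneg_of_mul_nonneg_left this hN'
  have hΛ := S.Λ_nonneg
  by_cases hb : b = S.top
  · subst hb
    have := X.wn_const_le (c := 0) le_rfl
    simp only [S.κ_top, mul_zero, zero_mul, add_zero, div_one, sub_self, abs_zero] at this ⊢
    exact this.trans (by positivity)
  have ne : ∀ b, (fib blk b).Nonempty := fun b => by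
    rw [Finset.nonempty_iff_ne_empty]
    intro h
    have := hρ b
    rw [h] at this
    simp only [Finset.card_empty, Nat.cast_zero, mul_zero] at this
    linarith
  have hd : Disjoint (fib blk b) (fib blk S.top) := by
    rw [Finset.disjoint_left]
    intro i h1 h2
    exact hb ((Finset.mem_filter.1 h1).2.symm.trans (Finset.mem_filter.1 h2).2)
  have hl : ∀ b, ∀ i ∈ fib blk b, p.lam i = t * S.lam b + π' (Sum.inl b) := fun b i hi => by
    have := (Finset.mem_filter.1 hi).2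
    simp only [hp, sys, this]
  have hw := ward (X := X) p hd (ne b) (ne S.top) (hl b) (hl S.top) (hρ b) (hρ S.top) hδ
    (fun i => hs.v (blk i))
  have q1 := Q_seq (X := X) p (ne b) (hρ b)
  have q2 := Q_seq (X := X) p (ne S.top) (hρ S.top)
  have hκ := S.κ_nonneg b
  have hκ' := S.κ_le b
  have hα : |π' (Sum.inl b) - π' (Sum.inl S.top)| ≤ 2 * δ :=
    (abs_sub _ _).trans (by linarith [hs.a b, hs.a S.top])
  have e : t * S.lam b + π' (Sum.inl b) - (t * S.lam S.top + π' (Sum.inl S.top)) =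
      -(t * S.κ b) + (π' (Sum.inl b) - π' (Sum.inl S.top)) := by
    unfold Spec.κ; ring
  rw [e] at hw
  generalize π' (Sum.inl b) - π' (Sum.inl S.top) = α at hw hα
  have htκ : 0 ≤ t * S.κ b := by positivity
  have hΔ : |-(t * S.κ b) + α| ≤ 2 * (S.Λ + 1) := by
    refine (abs_add_le _ _).trans ?_
    rw [abs_neg, abs_of_nonneg htκ]
    nlinarith
  have pt : X.wn (fun l => |X.D (p.Q X (fib blk b)) l - X.D (p.Q X (fib blk S.top)) l /
        (1 + t * S.κ b * X.D (p.Q X (fib blk S.top)) l)|) ≤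
      X.wn (fun l => |X.D (p.Q X (fib blk S.top)) l - X.D (p.Q X (fib blk b)) l +
        (-(t * S.κ b) + α) * (X.D (p.Q X (fib blk b)) l * X.D (p.Q X (fib blk S.top)) l)| +
        2 * δ * ρ ^ 2) := by
    refine X.wn_mono fun l l1 _ => ?_
    obtain ⟨d0, d1⟩ := q1.D_nonneg l1
    obtain ⟨β0, β1⟩ := q2.D_nonneg l1
    generalize X.D (p.Q X (fib blk b)) l = D at *
    generalize X.D (p.Q X (fib blk S.top)) l = β at *
    have hden : 1 ≤ 1 + t * S.κ b * β := le_add_of_nonneg_right (by positivity)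
    have e1 : D - β / (1 + t * S.κ b * β) =
        (α * (D * β) - (β - D + (-(t * S.κ b) + α) * (D * β))) / (1 + t * S.κ b * β) := by
      field_simp
      ring
    rw [e1, abs_div, abs_of_pos (by linarith : 0 < 1 + t * S.κ b * β)]
    refine (div_le_self (abs_nonneg _) hden).trans ((abs_sub _ _).trans ?_)
    have : |α * (D * β)| ≤ 2 * δ * ρ ^ 2 := by
      rw [abs_mul, abs_of_nonneg (mul_nonneg d0 β0), sq]
      gcongr
      exact d0.trans d1
    linarith
  rw [X.wn_add] at pt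
  have c1 := X.wn_const_le (c := 2 * δ * ρ ^ 2) (by positivity)
  have hsq : δ ≤ √δ := by
    rw [Real.le_sqrt hδ hδ]
    nlinarith
  have c2 : |-(t * S.κ b) + α| * (p.ErrQ X (fib blk b) (p.Q X (fib blk b)) +
      p.ErrQ X (fib blk S.top) (p.Q X (fib blk S.top))) / N ≤ 2 * (S.Λ + 1) * (2 * E) := by
    rw [div_le_iff₀ hN', mul_assoc (2 * (S.Λ + 1))]
    exact mul_le_mul hΔ (by linarith [hE b, hE S.top])
      (add_nonneg (ErrQ_nonneg p _ _) (ErrQ_nonneg p _ _)) (by positivity)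
  have hρ2 : 0 ≤ ρ ^ 2 := sq_nonneg ρ
  have c3 := mul_le_mul_of_nonneg_left c2 hρ2
  have c4 := mul_le_mul_of_nonneg_left hsq hρ2
  have c5 : 0 ≤ ρ ^ 2 * √δ := by positivity
  nlinarith

/-- oscillation of the value on the box of perturbations (`A_le_of_le`, `A_noRow`) -/
theorem osc_le (S : Spec) {J : ℕ} (t : ℝ) (θ : ℕ → ℝ) (blk : Fin N → Fin (S.k + 1))
    (lab : Fin N → Fin J) (mag : Fin J → ℝ) (hm : ∀ j, |mag j| ≤ 1) (Kp : ℝ)
    (f0 : (Fin N → Bool) → ℝ) (tx : ℕ → Fin N → ℝ) {π' π'' : PI X.n S.k J → ℝ} {δ : ℝ}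
    (h1 : Small π' δ) (h2 : Small π'' δ) :
    (sys S t θ blk lab mag Kp f0 tx π').A X ≤ (sys S t θ blk lab mag Kp f0 tx π'').A X +
      6 * δ * N := by
  have hδ : 0 ≤ δ := (abs_nonneg _).trans (h1.a 0)
  have a1 := (A_noRow (X := X) (sys S t θ blk lab mag Kp f0 tx π') (fun i => h1.v (blk i))).2
  have a2 := (A_noRow (X := X) (sys S t θ blk lab mag Kp f0 tx π'') (fun i => h2.v (blk i))).1
  have a3 := A_le_of_le (X := X)
    ({ sys S t θ blk lab mag Kp f0 tx π' with vt := fun _ _ => 0 } : Par N)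
    ({ sys S t θ blk lab mag Kp f0 tx π'' with vt := fun _ _ => 0 } : Par N) rfl rfl rfl
    (δ := 2 * δ) (D := 2 * δ * (2 * N))
    (fun i => by
      have := abs_le.1 (h1.a (blk i))
      have := abs_le.1 (h2.a (blk i))
      simp only [sys]
      linarith)
    (fun σ => by
      have b1 := mul_le_mul_of_nonneg_left (sum_abs_yv_le lab mag hm σ)
        (show 0 ≤ 2 * δ by positivity)
      have b2 : ∑ j, (π' (Sum.inr (Sum.inr j)) * yv lab mag j σ - Kp * yv lab mag j σ ^ 2) ≤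
          ∑ j, ((π'' (Sum.inr (Sum.inr j)) * yv lab mag j σ - Kp * yv lab mag j σ ^ 2) +
            2 * δ * |yv lab mag j σ|) := by
        refine Finset.sum_le_sum fun j _ => ?_
        have c1 : |π' (Sum.inr (Sum.inr j)) - π'' (Sum.inr (Sum.inr j))| ≤ 2 * δ :=
          (abs_sub _ _).trans (by linarith [h1.h j, h2.h j])
        have c2 := le_abs_self ((π' (Sum.inr (Sum.inr j)) - π'' (Sum.inr (Sum.inr j))) *
          yv lab mag j σ)
        rw [abs_mul] at c2
        have c3 := mul_le_mul_of_nonneg_right c1 (abs_nonneg (yv lab mag j σ))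
        linarith
      rw [Finset.sum_add_distrib, ← Finset.mul_sum] at b2
      simp only [sys]
      linarith)
  have : 0 ≤ δ * N := by positivity
  linarith

/-- Concentration in every system that is `C`-close to a function with a contact point
(`contact_conc` with `ρ = √M`, `Ham_sys_update`). -/
theorem conc_of_contact (S : Spec) {J : ℕ} (t : ℝ) (θ : ℕ → ℝ) (blk : Fin N → Fin (S.k + 1))
    (lab : Fin N → Fin J) (mag : Fin J → ℝ) (Kp : ℝ) (f0 : (Fin N → Bool) → ℝ)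
    (tx : ℕ → Fin N → ℝ) (F : (PI X.n S.k J → ℝ) → ℝ) (c π' : PI X.n S.k J → ℝ) {η Lp M C : ℝ}
    (hM : 0 < M) (hMη : 2 / η ≤ √M) (hη : 0 < η) (hπ : π' ∈ Metric.closedBall c (η / 2))
    (hmax : ∀ π'' ∈ Metric.closedBall c η,
      F π'' - M * Lp * ∑ d, (π'' d - c d) ^ 2 ≤ F π' - M * Lp * ∑ d, (π' d - c d) ^ 2)
    (hC : ∀ π'' ∈ Metric.closedBall c η,
      |(sys S t θ blk lab mag Kp f0 tx π'').A X - F π''| ≤ C) (d : PI X.n S.k J) :
    ∫ x, |Yd blk lab mag d x - 2 * M * Lp * (π' d - c d)|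
      ∂((sys S t θ blk lab mag Kp f0 tx π').PP X) ≤
      2 * √M * exp (X.m * (Lp + 2 * C)) / X.m := by
  have hρ : 0 < √M := Real.sqrt_pos.2 hM
  have hρη : (√M)⁻¹ ≤ η / 2 := by
    rw [inv_le_comm₀ hρ (by positivity), inv_div]
    exact hMη
  have hπ' : π' ∈ Metric.closedBall c η := Metric.closedBall_subset_closedBall (by linarith) hπ
  have key : ∀ s : ℝ, |s| = (√M)⁻¹ →
      (mT X N).A (fun y => Ham (sys S t θ blk lab mag Kp f0 tx π') y + s * Yd blk lab mag d y) ≤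
      (mT X N).A (Ham (sys S t θ blk lab mag Kp f0 tx π')) + s * (2 * M * Lp * (π' d - c d)) +
        (Lp + 2 * C) := by
    intro s hs
    have hs2 : M * s ^ 2 = 1 := by
      rw [← sq_abs, hs, inv_pow, Real.sq_sqrt hM.le]
      field_simp
    have hm : Function.update π' d (π' d + s) ∈ Metric.closedBall c η := by
      rw [Metric.mem_closedBall, dist_pi_le_iff hη.le]
      intro d'
      have h1 : dist (π' d') (c d') ≤ η / 2 := (dist_le_pi_dist π' c d').trans hπ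
      by_cases h : d' = d
      · subst h
        rw [Function.update_self, Real.dist_eq, add_sub_right_comm]
        rw [Real.dist_eq] at h1
        exact (abs_add_le _ _).trans (by linarith)
      · rw [Function.update_of_ne h]
        linarith
    have e1 : (fun y => Ham (sys S t θ blk lab mag Kp f0 tx π') y + s * Yd blk lab mag d y) =
        Ham (sys S t θ blk lab mag Kp f0 tx (Function.update π' d (π' d + s))) :=
      funext fun y => (Ham_sys_update S t θ blk lab mag Kp f0 tx π' d s y).symm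
    have e2 : ∑ d', (Function.update π' d (π' d + s) d' - c d') ^ 2 =
        ∑ d', (π' d' - c d') ^ 2 + (2 * (π' d - c d) * s + s ^ 2) := by
      rw [← Finset.add_sum_erase _ _ (Finset.mem_univ d),
        ← Finset.add_sum_erase _ _ (Finset.mem_univ d), Function.update_self,
        Finset.sum_congr rfl fun d' hd' => by
          rw [Function.update_of_ne (Finset.ne_of_mem_erase hd')]]
      ring
    have b1 := hmax _ hm
    have b2 := abs_le.1 (hC _ hm)
    have b3 := abs_le.1 (hC _ hπ')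
    rw [e2] at b1
    rw [e1]
    have e3 : M * Lp * (∑ d', (π' d' - c d') ^ 2 + (2 * (π' d - c d) * s + s ^ 2)) =
        M * Lp * ∑ d', (π' d' - c d') ^ 2 + s * (2 * M * Lp * (π' d - c d)) +
          Lp * (M * s ^ 2) := by ring
    rw [e3, hs2] at b1
    unfold Par.A at b2 b3
    linarith [b2.2, b3.1]
  exact Tower.contact_conc (lg_Ham _) (lg_Yd blk lab mag d) hρ
    (key _ (abs_of_pos (inv_pos.2 hρ))) (key _ (by rw [abs_neg, abs_of_pos (inv_pos.2 hρ)]))

end Crest.Agent.R164
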