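import Crest.Agent.R164.SDefs

/-! # The model: Haar measure, Hamiltonians with hierarchical fields (definitions) -/

set_option autoImplicit false
set_option linter.unusedVariables false
set_option linter.unusedSectionVars false

open MeasureTheory ProbabilityTheory Real Crest.ProbabilityR.InvariantGlass
open scoped ENNReal

namespace Crest.Agent.R164

/-- the orthogonal group -/
abbrev Orth (N : ℕ) : Type := ↥(Matrix.orthogonalGroup (Fin N) ℝ)

instance (N : ℕ) : MeasurableSpace (Orth N) :=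
  MeasurableSpace.comap (fun (U : Orth N) (i j : Fin N) => U.1 i j) inferInstance

/-- right-invariant probability measure -/
def IsHaar {N : ℕ} (P : Measure (Orth N)) : Prop :=
  IsProbabilityMeasure P ∧ ∀ O : Orth N, P.map (fun U => U * O) = P

open Classical in
/-- Haar probability measure (existence and bi-invariance are in `H1`) -/
noncomputable def haar (N : ℕ) : Measure (Orth N) :=
  if h : ∃ P : Measure (Orth N), IsHaar P then h.choose else Measure.dirac 1

instance (N : ℕ) : IsProbabilityMeasure (haar N) := by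
  unfold haar
  split_ifs with h
  · exact h.choose_spec.1
  · infer_instance

/-- the rotated spin vector `s = U σ` -/
noncomputable def sv {N : ℕ} (U : Orth N) (σ : Fin N → Bool) : Fin N → ℝ := U.1.mulVec (spinVec σ)

/-- `log` of the partition function with spectrum `lam` and an arbitrary spin term `f` -/
noncomputable def logZ {N : ℕ} (lam : Fin N → ℝ) (f : (Fin N → Bool) → ℝ) (U : Orth N) : ℝ :=
  log ((1 / 2) ^ N * ∑ σ : Fin N → Bool, exp ((1 / 2) * (∑ i, lam i * sv U σ i ^ 2) + f σ))

/-- its fractional moment `m⁻¹ log E Z^m` -/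
noncomputable def fm {N : ℕ} (m : ℝ) (lam : Fin N → ℝ) (f : (Fin N → Bool) → ℝ) : ℝ :=
  m⁻¹ * log (∫ U, exp (m * logZ lam f U) ∂(haar N))

/-- Gaussian coordinates: three families (`0`: site fields, `1`: row fields, `2`: extra site
fields), level `l + 1`, position -/
abbrev MI (n N : ℕ) : Type := Fin 3 × Fin n × Fin N

def mlev {n N : ℕ} (q : MI n N) : Fin (n + 1) := q.2.1.succ

abbrev MS (n N : ℕ) : Type := Orth N × (MI n N → ℝ) × (Fin N → Bool)

/-- the tower of the model of size `N` -/
noncomputable def mT (X : Expo) (N : ℕ) : Tower (MS X.n N) :=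
  gT X (haar N) mlev (Fin N → Bool)

/-- parameters of a Hamiltonian; the field strengths are indexed by the level `1 ≤ a ≤ n` -/
structure Par (N : ℕ) where
  lam : Fin N → ℝ
  th : ℕ → Fin N → ℝ
  vt : ℕ → Fin N → ℝ
  tx : ℕ → Fin N → ℝ
  f : (Fin N → Bool) → ℝ

def σO {n N : ℕ} (r : Fin N) (x : MS n N) : ℝ := spinVec x.2.2 r

noncomputable def sO {n N : ℕ} (i : Fin N) (x : MS n N) : ℝ := sv x.1 x.2.2 i

noncomputable def Ham {n N : ℕ} (p : Par N) (x : MS n N) : ℝ :=
  (1 / 2) * (∑ i, p.lam i * sO i x ^ 2) +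
    (∑ l : Fin n, ∑ r, p.th (l + 1) r * (x.2.1 (0, l, r) * σO r x)) +
    (∑ l : Fin n, ∑ i, p.vt (l + 1) i * (x.2.1 (1, l, i) * sO i x)) +
    (∑ l : Fin n, ∑ r, p.tx (l + 1) r * (x.2.1 (2, l, r) * σO r x)) + p.f x.2.2

/-- the value of the model -/
noncomputable def Par.A {N : ℕ} (p : Par N) (X : Expo) : ℝ := (mT X N).A (Ham p)

/-- its Gibbs law -/
noncomputable def Par.PP {N : ℕ} (p : Par N) (X : Expo) : Measure (MS X.n N) := (mT X N).PP (Ham p)

instance {N : ℕ} (p : Par N) (X : Expo) : IsProbabilityMeasure (p.PP X) := by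
  unfold Par.PP; infer_instance

/-- block overlap (not normalised) at level `r`; `r = n + 2` is the self-overlap -/
noncomputable def Par.ov {N : ℕ} (p : Par N) (X : Expo) (J : Finset (Fin N)) (r : ℕ) : ℝ :=
  (mT X N).ov (Ham p) sO J r

/-- site overlap -/
noncomputable def Par.ovσ {N : ℕ} (p : Par N) (X : Expo) (J : Finset (Fin N)) (r : ℕ) : ℝ :=
  (mT X N).ov (Ham p) σO J r

noncomputable def Par.Err2 {N : ℕ} (p : Par N) (X : Expo) (J : Finset (Fin N)) (r : ℕ) (c : ℝ) : ℝ :=
  (mT X N).Err2 (Ham p) sO J r c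

/-- total synchronisation error of the block `J` with respect to the normalised constants `Q` -/
noncomputable def Par.ErrQ {N : ℕ} (p : Par N) (X : Expo) (J : Finset (Fin N)) (Q : ℕ → ℝ) : ℝ :=
  p.Err2 X J (X.n + 2) (J.card * Q (X.n + 1)) + X.tau (fun r => p.Err2 X J r (J.card * Q r)) 1

/-- the normalised overlap sequence of a block: `0` at level `1`, the overlaps at the levels
`2..n`, the self-overlap at `n + 1` -/
noncomputable def Par.Q {N : ℕ} (p : Par N) (X : Expo) (J : Finset (Fin N)) (r : ℕ) : ℝ :=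
  if r ≤ 1 then 0 else if r ≤ X.n then p.ov X J r / J.card else p.ov X J (X.n + 2) / J.card

/-- fibre of a labelling -/
def fib {N : ℕ} {β : Type} [DecidableEq β] (blk : Fin N → β) (b : β) : Finset (Fin N) :=
  Finset.univ.filter fun i => blk i = b

/-- deviation of the magnetisation of the class `j` -/
noncomputable def yv {N J : ℕ} (lab : Fin N → Fin J) (mag : Fin J → ℝ) (j : Fin J)
    (σ : Fin N → Bool) : ℝ := ∑ r ∈ fib lab j, (spinVec σ r - mag j)

/-- perturbation parameters: eigenvalue shifts, row fields, magnetisation fields -/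
abbrev PI (n k J : ℕ) : Type := Fin (k + 1) ⊕ (Fin n × Fin (k + 1)) ⊕ Fin J

/-- the row field strength at level `a` (zero outside `1 ≤ a ≤ n`) -/
def vtOf {n k J : ℕ} (π' : PI n k J → ℝ) (a : ℕ) (b : Fin (k + 1)) : ℝ :=
  if h : 1 ≤ a ∧ a ≤ n then π' (Sum.inr (Sum.inl (⟨a - 1, by omega⟩, b))) else 0

/-- The perturbed system: spectrum `t lam + α` on the blocks `blk`, site fields `θ`, row fields,
extra site fields `tx`, spin term `f0 + Σ_j (h_j y_j - Kp y_j²)`. -/
noncomputable def sys (S : Spec) {n N J : ℕ} (t : ℝ) (θ : ℕ → ℝ) (blk : Fin N → Fin (S.k + 1))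
    (lab : Fin N → Fin J) (mag : Fin J → ℝ) (Kp : ℝ) (f0 : (Fin N → Bool) → ℝ)
    (tx : ℕ → Fin N → ℝ) (π' : PI n S.k J → ℝ) : Par N where
  lam := fun i => t * S.lam (blk i) + π' (Sum.inl (blk i))
  th := fun a _ => θ a
  vt := fun a i => vtOf π' a (blk i)
  tx := tx
  f := fun σ => f0 σ + ∑ j, (π' (Sum.inr (Sum.inr j)) * yv lab mag j σ - Kp * yv lab mag j σ ^ 2)

/-- the derivative of the Hamiltonian of `sys` in the perturbation parameter `d` -/
noncomputable def Yd {n N k J : ℕ} (blk : Fin N → Fin (k + 1)) (lab : Fin N → Fin J)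
    (mag : Fin J → ℝ) : PI n k J → MS n N → ℝ
  | Sum.inl b => fun x => (1 / 2) * ∑ i ∈ fib blk b, sO i x ^ 2
  | Sum.inr (Sum.inl q) => fun x => ∑ i ∈ fib blk q.2, x.2.1 (1, q.1, i) * sO i x
  | Sum.inr (Sum.inr j) => fun x => yv lab mag j x.2.2

/-- centre of the box of perturbation parameters -/
def pc (n k J : ℕ) (η : ℝ) : PI n k J → ℝ
  | Sum.inl _ => 0
  | Sum.inr (Sum.inl _) => 2 * η
  | Sum.inr (Sum.inr _) => 0

end Crest.Agent.R164
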