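import Crest.Agent.R164.ODefs

/-! # One-site recursion: log-mean-exp for the standard Gaussian -/

set_option autoImplicit false
set_option linter.unusedVariables false
set_option linter.unusedSectionVars false

open MeasureTheory ProbabilityTheory Real Crest.ProbabilityR.InvariantGlass
open scoped ENNReal

namespace Crest.Agent.R164

/-- log-mean-exp -/
noncomputable def lme (e : ℝ) (F : ℝ → ℝ) : ℝ :=
  if e = 0 then ∫ z, F z ∂(gaussianReal 0 1) else e⁻¹ * log (∫ z, exp (e * F z) ∂(gaussianReal 0 1))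

theorem gaussOp_eq_lme (e v : ℝ) (g : ℝ → ℝ) (x : ℝ) :
    gaussOp e v g x = lme e (fun z => g (x + √v * z)) := rfl

/-- measurable with linear growth -/
def O1G (F : ℝ → ℝ) : Prop := Measurable F ∧ ∃ C : ℝ, ∀ z, |F z| ≤ C * (1 + |z|)

theorem o1_int_exp_abs (c : ℝ) : Integrable (fun x : ℝ => exp (c * |x|)) (gaussianReal 0 1) := by
  have ha := integrable_exp_mul_gaussianReal (μ := 0) (v := 1) c
  have hb := integrable_exp_mul_gaussianReal (μ := 0) (v := 1) (-c)
  refine (ha.add hb).mono' (by fun_prop) (Filter.Eventually.of_forall fun x => ?_)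
  rw [Real.norm_eq_abs, abs_of_pos (exp_pos _)]
  have := exp_pos (c * x)
  have := exp_pos (-c * x)
  rcases abs_cases x with h | h
  · simp only [Pi.add_apply, h.1]; linarith
  · simp only [Pi.add_apply, h.1]
    have : c * -x = -c * x := by ring
    rw [this]; linarith

theorem o1_int_of_le {F : ℝ → ℝ} (hF : Measurable F) {A C : ℝ}
    (h : ∀ z, |F z| ≤ A * exp (C * |z|)) : Integrable F (gaussianReal 0 1) :=
  ((o1_int_exp_abs C).const_mul A).mono' hF.aestronglyMeasurable (Filter.Eventually.of_forall h)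

theorem O1G.exp_le {F : ℝ → ℝ} (h : O1G F) (e : ℝ) :
    ∃ C : ℝ, ∀ z, exp (e * F z) ≤ exp C * exp (C * |z|) := by
  obtain ⟨C, hC⟩ := h.2
  refine ⟨|e| * C, fun z => ?_⟩
  rw [← exp_add]
  refine exp_le_exp.2 ((le_abs_self _).trans ?_)
  rw [abs_mul]
  have := mul_le_mul_of_nonneg_left (hC z) (abs_nonneg e)
  linarith

theorem O1G.int_exp {F : ℝ → ℝ} (h : O1G F) (e : ℝ) :
    Integrable (fun z => exp (e * F z)) (gaussianReal 0 1) := by
  obtain ⟨C, hC⟩ := h.exp_le e
  have := h.1
  exact o1_int_of_le (by fun_prop) fun z => by rw [abs_of_pos (exp_pos _)]; exact hC z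

theorem O1G.int {F : ℝ → ℝ} (h : O1G F) : Integrable F (gaussianReal 0 1) := by
  obtain ⟨C, hC⟩ := h.2
  refine o1_int_of_le h.1 (A := |C|) (C := 1) fun z => (hC z).trans ?_
  rw [one_mul]
  exact mul_le_mul (le_abs_self C) (by linarith [add_one_le_exp |z|]) (by positivity)
    (abs_nonneg C)

theorem O1G.add {F G : ℝ → ℝ} (h : O1G F) (h' : O1G G) : O1G fun z => F z + G z := by
  obtain ⟨C, hC⟩ := h.2
  obtain ⟨D, hD⟩ := h'.2
  exact ⟨h.1.add h'.1, C + D, fun z => (abs_add_le _ _).trans (by linarith [hC z, hD z])⟩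

theorem O1G.const_mul {F : ℝ → ℝ} (h : O1G F) (a : ℝ) : O1G fun z => a * F z := by
  obtain ⟨C, hC⟩ := h.2
  refine ⟨h.1.const_mul a, |a| * C, fun z => ?_⟩
  rw [abs_mul, mul_assoc]
  exact mul_le_mul_of_nonneg_left (hC z) (abs_nonneg a)

theorem o1g_const (c : ℝ) : O1G fun _ => c :=
  ⟨measurable_const, |c|, fun z => le_mul_of_one_le_right (abs_nonneg c)
    (by linarith [abs_nonneg z])⟩

theorem O1G.exp_lme {F : ℝ → ℝ} (h : O1G F) {e : ℝ} (he : e ≠ 0) :
    exp (e * lme e F) = ∫ z, exp (e * F z) ∂(gaussianReal 0 1) := by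
  rw [lme, if_neg he, mul_inv_cancel_left₀ he, exp_log (integral_exp_pos (h.int_exp e))]

theorem O1G.lme_le {F : ℝ → ℝ} (h : O1G F) {e A : ℝ} (he : 0 < e)
    (hA : ∫ z, exp (e * F z) ∂(gaussianReal 0 1) ≤ exp (e * A)) : lme e F ≤ A := by
  rw [← h.exp_lme he.ne', exp_le_exp] at hA
  exact le_of_mul_le_mul_left hA he

theorem O1G.le_lme {F : ℝ → ℝ} (h : O1G F) {e A : ℝ} (he : 0 < e)
    (hA : exp (e * A) ≤ ∫ z, exp (e * F z) ∂(gaussianReal 0 1)) : A ≤ lme e F := by
  rw [← h.exp_lme he.ne', exp_le_exp] at hA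
  exact le_of_mul_le_mul_left hA he

theorem lme_zero (F : ℝ → ℝ) : lme 0 F = ∫ z, F z ∂(gaussianReal 0 1) := if_pos rfl

theorem lme_mono {F G : ℝ → ℝ} (h : O1G F) (h' : O1G G) (hle : ∀ z, F z ≤ G z) {e : ℝ}
    (he : 0 ≤ e) : lme e F ≤ lme e G := by
  rcases he.eq_or_lt with rfl | he
  · rw [lme_zero, lme_zero]
    exact integral_mono h.int h'.int hle
  · refine h.lme_le he ?_
    rw [h'.exp_lme he.ne']
    exact integral_mono (h.int_exp e) (h'.int_exp e) fun z =>
      exp_le_exp.2 (mul_le_mul_of_nonneg_left (hle z) he.le)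

theorem lme_add_const {F : ℝ → ℝ} (h : O1G F) (e c : ℝ) :
    lme e (fun z => F z + c) = lme e F + c := by
  rcases eq_or_ne e 0 with rfl | he
  · rw [lme_zero, lme_zero, integral_add h.int (integrable_const c)]
    simp
  · apply mul_left_cancel₀ he
    apply exp_injective
    rw [(h.add (o1g_const c)).exp_lme he, mul_add, exp_add, h.exp_lme he, ← integral_mul_const]
    simp only [mul_add, exp_add]

theorem lme_const (e c : ℝ) : lme e (fun _ => c) = c := by
  unfold lme
  split_ifs with he
  · simp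
  · simp [he]

theorem lme_neg (e : ℝ) (F : ℝ → ℝ) : lme e (fun z => F (-z)) = lme e F := by
  have key : ∀ G : ℝ → ℝ, ∫ z, G (-z) ∂(gaussianReal 0 1) = ∫ z, G z ∂(gaussianReal 0 1) := by
    intro G
    have h1 := integral_map_equiv (μ := gaussianReal 0 1) (MeasurableEquiv.neg ℝ) G
    have h2 : Measure.map (MeasurableEquiv.neg ℝ) (gaussianReal 0 1) = gaussianReal 0 1 := by
      have := gaussianReal_map_neg (μ := 0) (v := 1)
      rw [neg_zero] at this
      exact this
    rw [h2] at h1
    exact h1.symm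
  unfold lme
  rw [key F, key fun z => exp (e * F z)]

theorem lme_mono_exp {F : ℝ → ℝ} (h : O1G F) {e e' : ℝ} (he : 0 ≤ e) (hee : e ≤ e') :
    lme e F ≤ lme e' F := by
  rcases hee.eq_or_lt with rfl | hee
  · exact le_rfl
  have he' : 0 < e' := he.trans_lt hee
  refine h.le_lme he' ?_
  obtain ⟨A, hA⟩ : ∃ A, A = lme e F := ⟨_, rfl⟩
  rw [← hA]
  rcases he.eq_or_lt with rfl | he
  · rw [lme_zero] at hA
    have hi : Integrable (fun z => e' * (F z - A)) (gaussianReal 0 1) :=
      (h.int.sub (integrable_const A)).const_mul e'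
    have h1 : ∫ z, exp (e' * A) * (1 + e' * (F z - A)) ∂(gaussianReal 0 1) = exp (e' * A) := by
      rw [integral_const_mul, integral_add (integrable_const _) hi, integral_const_mul,
        integral_sub h.int (integrable_const A), ← hA]
      simp
    rw [← h1]
    refine integral_mono (((integrable_const _).add hi).const_mul _) (h.int_exp e') fun z => ?_
    have h2 : exp (e' * F z) = exp (e' * A) * exp (e' * (F z - A)) := by
      rw [← exp_add]; congr 1; ring
    show _ ≤ exp (e' * F z)
    rw [h2]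
    exact mul_le_mul_of_nonneg_left (by linarith [add_one_le_exp (e' * (F z - A))]) (exp_pos _).le
  · have h0 := h.exp_lme he.ne'
    rw [← hA] at h0
    have hi : Integrable (fun z => e' / e * (exp (e * F z) / exp (e * A) - 1)) (gaussianReal 0 1) :=
      (((h.int_exp e).div_const _).sub (integrable_const _)).const_mul _
    have h1 : ∫ z, exp (e' * A) * (1 + e' / e * (exp (e * F z) / exp (e * A) - 1))
        ∂(gaussianReal 0 1) = exp (e' * A) := by
      rw [integral_const_mul, integral_add (integrable_const _) hi, integral_const_mul,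
        integral_sub ((h.int_exp e).div_const _) (integrable_const _), integral_div, ← h0,
        div_self (exp_pos _).ne']
      simp
    rw [← h1]
    refine integral_mono (((integrable_const _).add hi).const_mul _) (h.int_exp e') fun z => ?_
    have h2 : exp (e' * F z) = exp (e' * A) * (exp (e * F z) / exp (e * A)) ^ (e' / e) := by
      rw [← exp_sub, ← exp_mul, ← exp_add]; congr 1; field_simp; ring
    have h3 := one_add_mul_self_le_rpow_one_add (s := exp (e * F z) / exp (e * A) - 1)
      (by have : 0 < exp (e * F z) / exp (e * A) := by positivity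
          linarith) (p := e' / e) ((one_le_div he).2 hee.le)
    rw [add_sub_cancel] at h3
    show _ ≤ exp (e' * F z)
    rw [h2]
    exact mul_le_mul_of_nonneg_left h3 (exp_pos _).le

theorem lme_convex {F G : ℝ → ℝ} (h : O1G F) (h' : O1G G) {e a b : ℝ} (he : 0 ≤ e) (ha : 0 ≤ a)
    (hb : 0 ≤ b) (hab : a + b = 1) :
    lme e (fun z => a * F z + b * G z) ≤ a * lme e F + b * lme e G := by
  rcases he.eq_or_lt with rfl | he
  · rw [lme_zero, lme_zero, lme_zero, integral_add (h.int.const_mul a) (h'.int.const_mul b),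
      integral_const_mul, integral_const_mul]
  have hFG := (h.const_mul a).add (h'.const_mul b)
  refine hFG.lme_le he ?_
  have h0 := h.exp_lme he.ne'
  have h0' := h'.exp_lme he.ne'
  generalize lme e F = A at h0 ⊢
  generalize lme e G = B at h0' ⊢
  have i1 : Integrable (fun z => a * (exp (e * F z) / exp (e * A))) (gaussianReal 0 1) :=
    ((h.int_exp e).div_const _).const_mul _
  have i2 : Integrable (fun z => b * (exp (e * G z) / exp (e * B))) (gaussianReal 0 1) :=
    ((h'.int_exp e).div_const _).const_mul _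
  have h1 : ∫ z, exp (e * (a * A + b * B)) * (a * (exp (e * F z) / exp (e * A)) +
      b * (exp (e * G z) / exp (e * B))) ∂(gaussianReal 0 1) = exp (e * (a * A + b * B)) := by
    rw [integral_const_mul, integral_add i1 i2, integral_const_mul, integral_const_mul,
      integral_div, integral_div, ← h0, ← h0', div_self (exp_pos _).ne', div_self (exp_pos _).ne',
      mul_one, mul_one, hab, mul_one]
  rw [← h1]
  refine integral_mono (hFG.int_exp e) ((i1.add i2).const_mul _) fun z => ?_
  have h2 : exp (e * (a * F z + b * G z)) = exp (e * (a * A + b * B)) *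
      exp (a * (e * F z - e * A) + b * (e * G z - e * B)) := by
    rw [← exp_add]; congr 1; ring
  have h3 := convexOn_exp.2 (Set.mem_univ (e * F z - e * A)) (Set.mem_univ (e * G z - e * B))
    ha hb hab
  simp only [smul_eq_mul] at h3
  rw [exp_sub (e * F z), exp_sub (e * G z)] at h3
  show exp (e * (a * F z + b * G z)) ≤ _
  rw [h2]
  exact mul_le_mul_of_nonneg_left h3 (exp_pos _).le

theorem o1_mgf (t : ℝ) : ∫ z, exp (t * z) ∂(gaussianReal 0 1) = exp (t ^ 2 / 2) := by
  have := congrFun (mgf_id_gaussianReal (μ := 0) (v := 1)) t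
  simpa [mgf] using this

/-- `∫ (p e^{t z} + q e^{-t z}) = (p + q) e^{t²/2}` -/
theorem o1_mgf2 (p q t : ℝ) :
    Integrable (fun z => p * exp (t * z) + q * exp (-t * z)) (gaussianReal 0 1) ∧
    ∫ z, p * exp (t * z) + q * exp (-t * z) ∂(gaussianReal 0 1) = (p + q) * exp (t ^ 2 / 2) := by
  have i1 := (integrable_exp_mul_gaussianReal (μ := 0) (v := 1) t).const_mul p
  have i2 := (integrable_exp_mul_gaussianReal (μ := 0) (v := 1) (-t)).const_mul q
  refine ⟨i1.add i2, ?_⟩
  rw [integral_add i1 i2, integral_const_mul, integral_const_mul, o1_mgf, o1_mgf, neg_sq]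
  ring

theorem o1_logcosh_le (x y : ℝ) : log (cosh x) ≤ log (cosh y) + |x - y| := by
  rw [← log_exp |x - y|, ← log_mul (cosh_pos y).ne' (exp_pos _).ne']
  refine log_le_log (cosh_pos x) ?_
  have h1 : exp x ≤ exp y * exp |x - y| := by
    rw [← exp_add]; exact exp_le_exp.2 (by linarith [le_abs_self (x - y)])
  have h2 : exp (-x) ≤ exp (-y) * exp |x - y| := by
    rw [← exp_add]; exact exp_le_exp.2 (by linarith [neg_abs_le (x - y)])
  rw [cosh_eq, cosh_eq]
  linarith

theorem o1_le_logcosh (x : ℝ) : |x| - log 2 ≤ log (cosh x) := by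
  rw [← log_exp |x|, ← log_div (exp_pos _).ne' two_ne_zero]
  refine log_le_log (by positivity) ?_
  rw [← cosh_abs, cosh_eq]
  linarith [exp_pos (-|x|)]

theorem o1_logcosh_deriv (x : ℝ) : HasDerivAt (fun z => log (cosh z)) (tanh x) x := by
  rw [tanh_eq_sinh_div_cosh]
  exact (hasDerivAt_cosh x).log (cosh_pos x).ne'

theorem o1_tanh_mono : Monotone tanh := by
  intro x y hxy
  rw [tanh_eq_sinh_div_cosh, tanh_eq_sinh_div_cosh, div_le_div_iff₀ (cosh_pos x) (cosh_pos y)]
  have h := sinh_nonneg_iff.2 (sub_nonneg.2 hxy)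
  rw [sinh_sub] at h
  linarith

theorem o1_logcosh_convex : ConvexOn ℝ Set.univ fun z => log (cosh z) := by
  refine Monotone.convexOn_univ_of_deriv (fun x => (o1_logcosh_deriv x).differentiableAt) ?_
  have : deriv (fun z => log (cosh z)) = tanh := funext fun x => (o1_logcosh_deriv x).deriv
  rw [this]
  exact o1_tanh_mono

theorem o1_tangent {f : ℝ → ℝ} (hc : ConvexOn ℝ Set.univ f) {x d : ℝ} (hd : HasDerivAt f d x)
    (y : ℝ) : f x + d * (y - x) ≤ f y := by
  rcases lt_trichotomy x y with h | rfl | h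
  · have h1 := hc.le_slope_of_hasDerivAt (Set.mem_univ x) (Set.mem_univ y) h hd
    rw [slope_def_field, le_div_iff₀ (sub_pos.2 h)] at h1
    linarith
  · simp
  · have h1 := hc.slope_le_of_hasDerivAt (Set.mem_univ y) (Set.mem_univ x) h hd
    rw [slope_def_field, div_le_iff₀ (sub_pos.2 h)] at h1
    linarith

/-- the pointwise bound behind `fL_le_coer` -/
theorem o1_coer_pt {a m : ℝ} (ha : 0 < a) (ham : a ≤ m) (x u : ℝ) :
    exp (m * (a⁻¹ * log (cosh (a * (x + u))))) ≤ exp (m * (a⁻¹ * log (cosh (a * x)))) *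
      (exp (a * x) / (2 * cosh (a * x)) * exp (m * u) +
        exp (-(a * x)) / (2 * cosh (a * x)) * exp (-m * u)) := by
  have hc := cosh_pos (a * x)
  have hp : 0 ≤ exp (a * x) / (2 * cosh (a * x)) := by positivity
  have hq : 0 ≤ exp (-(a * x)) / (2 * cosh (a * x)) := by positivity
  have hpq : exp (a * x) / (2 * cosh (a * x)) + exp (-(a * x)) / (2 * cosh (a * x)) = 1 := by
    rw [← add_div, div_eq_one_iff_eq (by positivity), cosh_eq]; ring
  have h1 : cosh (a * (x + u)) = cosh (a * x) * (exp (a * x) / (2 * cosh (a * x)) * exp (a * u) +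
      exp (-(a * x)) / (2 * cosh (a * x)) * exp (-a * u)) := by
    rw [cosh_eq (a * (x + u)), mul_add a, neg_add, exp_add, exp_add, neg_mul]
    field_simp
  have h2 := (convexOn_rpow ((one_le_div ha).2 ham)).2 (Set.mem_Ici.2 (exp_pos (a * u)).le)
    (Set.mem_Ici.2 (exp_pos (-a * u)).le) hp hq hpq
  simp only [smul_eq_mul] at h2
  rw [← exp_mul, ← exp_mul, show a * u * (m / a) = m * u by field_simp,
    show -a * u * (m / a) = -m * u by field_simp] at h2
  have hw : 0 < exp (a * x) / (2 * cosh (a * x)) * exp (a * u) +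
      exp (-(a * x)) / (2 * cosh (a * x)) * exp (-a * u) := by positivity
  rw [h1, log_mul hc.ne' hw.ne', mul_add, mul_add, exp_add]
  refine mul_le_mul_of_nonneg_left (le_of_eq_of_le ?_ h2) (exp_pos _).le
  rw [rpow_def_of_pos hw]
  congr 1
  field_simp

end Crest.Agent.R164
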