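import Crest.Agent.R164.O1

/-! # One-site recursion: auxiliary lemmas for `O3` -/

set_option autoImplicit false
set_option linter.unusedVariables false
set_option linter.unusedSectionVars false

open MeasureTheory ProbabilityTheory Real Crest.ProbabilityR.InvariantGlass
open scoped ENNReal NNReal

namespace Crest.Agent.R164

/-- measurable functions of exponential growth -/
def o3G (φ : ℝ → ℝ) : Prop :=
  Measurable φ ∧ ∃ a b : ℝ, 0 ≤ a ∧ 0 ≤ b ∧ ∀ y, |φ y| ≤ a * exp (b * |y|)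

namespace o3G

theorem const (c : ℝ) : o3G fun _ => c :=
  ⟨measurable_const, |c|, 0, abs_nonneg _, le_rfl, fun y => by simp⟩

theorem id' : o3G fun y => y :=
  ⟨measurable_id, 1, 1, zero_le_one, zero_le_one, fun y => by
    have := add_one_le_exp |y|
    simp only [one_mul]
    linarith⟩

theorem add {f g : ℝ → ℝ} (hf : o3G f) (hg : o3G g) : o3G fun y => f y + g y := by
  obtain ⟨mf, a, b, ha, hb, h⟩ := hf
  obtain ⟨mg, a', b', ha', hb', h'⟩ := hg
  refine ⟨mf.add mg, a + a', b + b', by positivity, by positivity, fun y => ?_⟩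
  have h1 : exp (b * |y|) ≤ exp ((b + b') * |y|) :=
    exp_le_exp.2 (by have := abs_nonneg y; nlinarith)
  have h2 : exp (b' * |y|) ≤ exp ((b + b') * |y|) :=
    exp_le_exp.2 (by have := abs_nonneg y; nlinarith)
  calc |f y + g y| ≤ |f y| + |g y| := abs_add_le _ _
    _ ≤ a * exp ((b + b') * |y|) + a' * exp ((b + b') * |y|) :=
        add_le_add ((h y).trans (mul_le_mul_of_nonneg_left h1 ha))
          ((h' y).trans (mul_le_mul_of_nonneg_left h2 ha'))
    _ = _ := by ring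

theorem mul {f g : ℝ → ℝ} (hf : o3G f) (hg : o3G g) : o3G fun y => f y * g y := by
  obtain ⟨mf, a, b, ha, hb, h⟩ := hf
  obtain ⟨mg, a', b', ha', hb', h'⟩ := hg
  refine ⟨mf.mul mg, a * a', b + b', by positivity, by positivity, fun y => ?_⟩
  rw [abs_mul, add_mul, exp_add]
  calc |f y| * |g y| ≤ (a * exp (b * |y|)) * (a' * exp (b' * |y|)) :=
        mul_le_mul (h y) (h' y) (abs_nonneg _) (by positivity)
    _ = _ := by ring

theorem neg {f : ℝ → ℝ} (hf : o3G f) : o3G fun y => -f y := by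
  obtain ⟨mf, a, b, ha, hb, h⟩ := hf
  exact ⟨mf.neg, a, b, ha, hb, fun y => by rw [abs_neg]; exact h y⟩

theorem sub {f g : ℝ → ℝ} (hf : o3G f) (hg : o3G g) : o3G fun y => f y - g y := by
  simpa only [sub_eq_add_neg] using hf.add hg.neg

theorem div_const {f : ℝ → ℝ} (hf : o3G f) (c : ℝ) : o3G fun y => f y / c := by
  simpa only [div_eq_mul_inv] using hf.mul (const c⁻¹)

theorem sq {f : ℝ → ℝ} (hf : o3G f) : o3G fun y => f y ^ 2 := by
  simpa only [pow_two] using hf.mul hf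

theorem abs {f : ℝ → ℝ} (hf : o3G f) : o3G fun y => |f y| := by
  obtain ⟨mf, a, b, ha, hb, h⟩ := hf
  exact ⟨mf.abs, a, b, ha, hb, fun y => by rw [abs_abs]; exact h y⟩

theorem mono {f g : ℝ → ℝ} (hg : o3G g) (mf : Measurable f) (h : ∀ y, |f y| ≤ g y) : o3G f := by
  obtain ⟨mg, a, b, ha, hb, h'⟩ := hg
  exact ⟨mf, a, b, ha, hb, fun y => (h y).trans ((le_abs_self _).trans (h' y))⟩

theorem of_bdd {f : ℝ → ℝ} (mf : Measurable f) {B : ℝ} (h : ∀ y, |f y| ≤ B) : o3G f :=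
  (const B).mono mf h

theorem of_quad {f : ℝ → ℝ} (mf : Measurable f) {B : ℝ} (h : ∀ y, |f y| ≤ B * (1 + y ^ 2)) :
    o3G f :=
  ((const B).mul ((const 1).add id'.sq)).mono mf h

theorem exp_lin {f : ℝ → ℝ} (mf : Measurable f) {a b : ℝ} (hb : 0 ≤ b)
    (h : ∀ y, f y ≤ a + b * |y|) : o3G fun y => exp (f y) :=
  ⟨mf.exp, exp a, b, (exp_pos _).le, hb, fun y => by
    rw [abs_of_pos (exp_pos _), ← exp_add]
    exact exp_le_exp.2 (h y)⟩

theorem integrable_gauss {f : ℝ → ℝ} (hf : o3G f) {c : ℝ} (hc : 0 < c) :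
    Integrable fun y => f y * exp (-c * y ^ 2) := by
  obtain ⟨mf, a, b, ha, hb, h⟩ := hf
  have h1 : Integrable fun y : ℝ => (a * exp (b ^ 2 / (2 * c))) * exp (-(c / 2) * y ^ 2) :=
    (integrable_exp_neg_mul_sq (half_pos hc)).const_mul _
  refine h1.mono' (by fun_prop) (ae_of_all _ fun y => ?_)
  rw [norm_mul, Real.norm_eq_abs, Real.norm_eq_abs, abs_of_pos (exp_pos _)]
  calc |f y| * exp (-c * y ^ 2) ≤ (a * exp (b * |y|)) * exp (-c * y ^ 2) :=
        mul_le_mul_of_nonneg_right (h y) (exp_pos _).le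
    _ ≤ _ := by
        rw [mul_assoc, mul_assoc, ← exp_add, ← exp_add]
        refine mul_le_mul_of_nonneg_left (exp_le_exp.2 ?_) ha
        have h2 : b * |y| ≤ b ^ 2 / (2 * c) + c / 2 * y ^ 2 := by
          have h3 : b ^ 2 / (2 * c) + c / 2 * y ^ 2 - b * |y| = (b - c * |y|) ^ 2 / (2 * c) := by
            rw [← sq_abs y]
            field_simp
            ring
          have h4 : 0 ≤ (b - c * |y|) ^ 2 / (2 * c) := by positivity
          linarith
        linarith

theorem integrable_tm {g f : ℝ → ℝ} (hf : o3G f) (h : Lip1 g) (e v x : ℝ) :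
    Integrable f (tm e v g x) := by
  obtain ⟨mf, a, b, ha, hb, h'⟩ := hf
  refine h.integrable_tm mf (C := a + b) (fun y => (h' y).trans ?_) e v x
  have h1 : exp (b * |y|) ≤ exp ((a + b) * |y|) :=
    exp_le_exp.2 (by have := abs_nonneg y; nlinarith)
  exact mul_le_mul (by linarith) h1 (exp_pos _).le (by positivity)

end o3G

/-- closure properties of `o3G` -/
macro "o3g" : tactic => `(tactic| repeat' with_reducible first
  | assumption
  | exact o3G.const _
  | exact o3G.id'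
  | apply o3G.add
  | apply o3G.sub
  | apply o3G.mul
  | apply o3G.div_const
  | apply o3G.sq
  | apply o3G.neg
  | apply o3G.abs)

theorem o3_meas_deriv {φ φ' : ℝ → ℝ} (h : ∀ y, HasDerivAt φ (φ' y) y) : Measurable φ' := by
  have : φ' = deriv φ := funext fun y => (h y).deriv.symm
  rw [this]
  exact measurable_deriv φ

theorem o3_meas_fun {φ φ' : ℝ → ℝ} (h : ∀ y, HasDerivAt φ (φ' y) y) : Measurable φ :=
  (continuous_iff_continuousAt.2 fun y => (h y).continuousAt).measurable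

theorem o3_abs_M {g M : ℝ → ℝ} (h : Lip1 g) (hg : ∀ y, HasDerivAt g (M y) y) (y : ℝ) :
    |M y| ≤ 1 :=
  (hg y).le_of_lip' zero_le_one (Filter.Eventually.of_forall fun z => by
    rw [one_mul]; exact h z y)

theorem o3G_M {g M : ℝ → ℝ} (h : Lip1 g) (hg : ∀ y, HasDerivAt g (M y) y) : o3G M :=
  o3G.of_bdd (o3_meas_deriv hg) (o3_abs_M h hg)

theorem o3_lip_le {g : ℝ → ℝ} (h : Lip1 g) (y : ℝ) : |g y| ≤ |g 0| + |y| := by
  have h1 := h y 0
  rw [sub_zero] at h1
  have h2 := abs_sub_abs_le_abs_sub (g y) (g 0)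
  linarith

/-- the unnormalised density -/
noncomputable def o3k (e v : ℝ) (g : ℝ → ℝ) (x y : ℝ) : ℝ := exp (e * g y - (y - x) ^ 2 / (2 * v))

/-- the normalisation -/
noncomputable def o3Z (e v : ℝ) (g : ℝ → ℝ) (x : ℝ) : ℝ := ∫ y, o3k e v g x y

theorem o3k_pos (e v : ℝ) (g : ℝ → ℝ) (x y : ℝ) : 0 < o3k e v g x y := exp_pos _

theorem o3k_meas {g : ℝ → ℝ} (h : Lip1 g) (e v x : ℝ) : Measurable (o3k e v g x) := by
  have := h.continuous.measurable
  unfold o3k
  fun_prop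

theorem o3G.integrable_k {g f : ℝ → ℝ} (hf : o3G f) (h : Lip1 g) (e : ℝ) {v : ℝ} (hv : 0 < v)
    (x : ℝ) : Integrable fun y => f y * o3k e v g x y := by
  have hm := h.continuous.measurable
  have h1 : o3G fun y => exp (e * g y + x * y / v - x ^ 2 / (2 * v)) := by
    refine o3G.exp_lin (by fun_prop) (a := |e| * |g 0|) (b := |e| + |x| / v) (by positivity)
      fun y => ?_
    have h2 : e * g y ≤ |e| * (|g 0| + |y|) := by
      calc e * g y ≤ |e * g y| := le_abs_self _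
        _ = |e| * |g y| := abs_mul _ _
        _ ≤ _ := mul_le_mul_of_nonneg_left (o3_lip_le h y) (abs_nonneg _)
    have h3 : x * y / v ≤ |x| / v * |y| := by
      rw [div_mul_eq_mul_div, ← abs_mul]
      exact div_le_div_of_nonneg_right (le_abs_self _) hv.le
    have h4 : 0 ≤ x ^ 2 / (2 * v) := by positivity
    linarith
  have h5 := (hf.mul h1).integrable_gauss (c := 1 / (2 * v)) (by positivity)
  refine h5.congr (ae_of_all _ fun y => ?_)
  simp only [o3k]
  rw [mul_assoc, ← exp_add]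
  congr 2
  field_simp
  ring

theorem o3Z_pos {g : ℝ → ℝ} (h : Lip1 g) (e : ℝ) {v : ℝ} (hv : 0 < v) (x : ℝ) :
    0 < o3Z e v g x := by
  have h1 := (o3G.const 1).integrable_k h e hv x
  simp only [one_mul] at h1
  exact integral_exp_pos h1

theorem o3_map {v : ℝ} (hv : 0 < v) (x : ℝ) :
    (gaussianReal 0 1).map (fun z => x + √v * z) = gaussianReal x ⟨v, hv.le⟩ := by
  have h1 : (fun z => x + √v * z) = (fun z => x + z) ∘ (fun z => √v * z) := rfl
  rw [h1, ← Measure.map_map (by fun_prop) (by fun_prop), gaussianReal_map_const_mul,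
    gaussianReal_map_const_add]
  congr 1
  · simp
  · ext
    simp only [NNReal.coe_mk, mul_one]
    exact sq_sqrt hv.le

theorem o3_ne {v : ℝ} (hv : 0 < v) : (⟨v, hv.le⟩ : ℝ≥0) ≠ 0 := fun h => hv.ne' (congrArg NNReal.toReal h)

theorem o3_pdf (e : ℝ) {v : ℝ} (hv : 0 < v) (g : ℝ → ℝ) (x y : ℝ) :
    gaussianPDFReal x ⟨v, hv.le⟩ y * exp (e * g y) = (√(2 * π * v))⁻¹ * o3k e v g x y := by
  show (√(2 * π * v))⁻¹ * exp (-(y - x) ^ 2 / (2 * v)) * exp (e * g y) = _
  rw [mul_assoc, ← exp_add, o3k]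
  congr 2
  ring

theorem o3_norm (e : ℝ) {v : ℝ} (hv : 0 < v) (g : ℝ → ℝ) (x : ℝ) :
    ∫ y, exp (e * g y) ∂(gaussianReal x ⟨v, hv.le⟩) = (√(2 * π * v))⁻¹ * o3Z e v g x := by
  rw [integral_gaussianReal_eq_integral_smul (o3_ne hv), o3Z, ← integral_const_mul]
  exact integral_congr_ae (ae_of_all _ fun y => o3_pdf e hv g x y)

theorem o3_tm {g : ℝ → ℝ} (h : Lip1 g) (e : ℝ) {v : ℝ} (hv : 0 < v) (x : ℝ) :
    tm e v g x = volume.withDensity (fun y => ENNReal.ofReal (o3k e v g x y / o3Z e v g x)) := by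
  have hm := h.continuous.measurable
  rw [tm, o3_map hv, Measure.tilted, o3_norm e hv, gaussianReal_of_var_ne_zero _ (o3_ne hv),
    ← withDensity_mul _ (measurable_gaussianPDF _ _) (by fun_prop)]
  congr 1
  funext y
  rw [Pi.mul_apply, gaussianPDF, ← ENNReal.ofReal_mul (gaussianPDFReal_nonneg _ _ _),
    ← mul_div_assoc, o3_pdf e hv]
  congr 1
  have : 0 < √(2 * π * v) := sqrt_pos.2 (by positivity)
  have := o3Z_pos h e hv x
  field_simp

theorem o3_int {g : ℝ → ℝ} (h : Lip1 g) (e : ℝ) {v : ℝ} (hv : 0 < v) (x : ℝ) (φ : ℝ → ℝ) :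
    ∫ y, φ y ∂(tm e v g x) = (∫ y, φ y * o3k e v g x y) / o3Z e v g x := by
  have hm := o3k_meas h e v x
  rw [o3_tm h e hv x, integral_withDensity_eq_integral_toReal_smul (by fun_prop)
    (ae_of_all _ fun y => ENNReal.ofReal_lt_top), ← integral_div]
  refine integral_congr_ae (ae_of_all _ fun y => ?_)
  simp only [smul_eq_mul]
  rw [ENNReal.toReal_ofReal (div_pos (o3k_pos _ _ _ _ _) (o3Z_pos h e hv x)).le]
  ring

theorem o3_gaussOp {g : ℝ → ℝ} (h : Lip1 g) {e : ℝ} (he : e ≠ 0) {v : ℝ} (hv : 0 < v) (x : ℝ) :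
    gaussOp e v g x = e⁻¹ * (log (o3Z e v g x) - log (2 * π * v) / 2) := by
  have hm := h.continuous.measurable
  rw [gaussOp, if_neg he]
  congr 1
  have h1 : ∫ z, exp (e * g (x + √v * z)) ∂(gaussianReal 0 1) =
      ∫ y, exp (e * g y) ∂(gaussianReal x ⟨v, hv.le⟩) := by
    rw [← o3_map hv, integral_map (by fun_prop) (by fun_prop)]
  have h2 : 0 < √(2 * π * v) := sqrt_pos.2 (by positivity)
  rw [h1, o3_norm e hv, log_mul (by positivity) (o3Z_pos h e hv x).ne', log_inv,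
    log_sqrt (by positivity)]
  ring

/-- linearity of the mean -/
theorem o3_lin {g : ℝ → ℝ} (h : Lip1 g) (e v x : ℝ) {F f1 f2 f3 f4 : ℝ → ℝ} (h1 : o3G f1)
    (h2 : o3G f2) (h3 : o3G f3) (h4 : o3G f4) (a0 a1 a2 a3 a4 : ℝ)
    (hF : ∀ y, F y = a0 + a1 * f1 y + a2 * f2 y + a3 * f3 y + a4 * f4 y) :
    ∫ y, F y ∂(tm e v g x) = a0 + a1 * ∫ y, f1 y ∂(tm e v g x) + a2 * ∫ y, f2 y ∂(tm e v g x) +
      a3 * ∫ y, f3 y ∂(tm e v g x) + a4 * ∫ y, f4 y ∂(tm e v g x) := by
  have := h.prob e v x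
  simp only [hF]
  rw [integral_add, integral_add, integral_add, integral_add, integral_const_mul,
    integral_const_mul, integral_const_mul, integral_const_mul]
  · simp
  all_goals
    refine o3G.integrable_tm ?_ h e v x
    o3g

theorem o3_cov {g φ ψ : ℝ → ℝ} (h : Lip1 g) (e v x : ℝ) (h1 : o3G φ) (h2 : o3G ψ) :
    cov[φ, ψ; tm e v g x] = ∫ y, φ y * ψ y ∂(tm e v g x) -
      (∫ y, φ y ∂(tm e v g x)) * ∫ y, ψ y ∂(tm e v g x) := by
  rw [covariance, o3_lin h e v x (h1.mul h2) h1 h2 h2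
    ((∫ y, φ y ∂(tm e v g x)) * ∫ y, ψ y ∂(tm e v g x)) 1 (-∫ y, ψ y ∂(tm e v g x))
    (-∫ y, φ y ∂(tm e v g x)) 0 (fun y => by ring)]
  ring

theorem o3_ibp {g M φ φ' : ℝ → ℝ} (h : Lip1 g) (hg : ∀ y, HasDerivAt g (M y) y)
    (hφ : ∀ y, HasDerivAt φ (φ' y) y) (b1 : o3G φ) (b2 : o3G φ') (e : ℝ) {v : ℝ} (hv : 0 < v)
    (x : ℝ) :
    ∫ y, (y - x) / v * φ y ∂(tm e v g x) = ∫ y, (φ' y + e * M y * φ y) ∂(tm e v g x) := by
  have hM := o3G_M h hg
  have hd : ∀ y, HasDerivAt (fun y => φ y * o3k e v g x y)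
      ((φ' y + e * M y * φ y) * o3k e v g x y - (y - x) / v * φ y * o3k e v g x y) y := by
    intro y
    have h1 : HasDerivAt (fun y => e * g y - (y - x) ^ 2 / (2 * v)) (e * M y - (y - x) / v) y := by
      have h2 := ((hg y).const_mul e).sub ((((hasDerivAt_id y).sub_const x).pow 2).div_const (2 * v))
      refine h2.congr_deriv ?_
      simp only [id]
      field_simp
      ring
    refine ((hφ y).mul h1.exp).congr_deriv ?_
    simp only [o3k]
    ring
  have i1 : Integrable fun y => (φ' y + e * M y * φ y) * o3k e v g x y :=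
    o3G.integrable_k (by o3g) h e hv x
  have i2 : Integrable fun y => (y - x) / v * φ y * o3k e v g x y :=
    o3G.integrable_k (by o3g) h e hv x
  have h3 := integral_eq_zero_of_hasDerivAt_of_integrable hd (i1.sub i2) (b1.integrable_k h e hv x)
  rw [integral_sub i1 i2] at h3
  rw [o3_int h e hv, o3_int h e hv]
  congr 1
  linarith

end Crest.Agent.R164
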