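import Crest.Agent.R164.O1
import Crest.Agent.R164.O3Aux

/-! # One-site recursion: calculus of one tilted Gaussian level

For `v > 0` the law `tm e v g x` has the density `exp (e g y - (y - x)²/(2v))` (up to
normalisation) with respect to Lebesgue measure, so derivatives in `x` and `v` fall on the
Gaussian kernel only.  `u y = (y - x) / v`. -/

set_option autoImplicit false
set_option linter.unusedVariables false
set_option linter.unusedSectionVars false

open MeasureTheory ProbabilityTheory Real Crest.ProbabilityR.InvariantGlass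
open scoped ENNReal

namespace Crest.Agent.R164

theorem tm_eq_withDensity {g : ℝ → ℝ} (h : Lip1 g) (e : ℝ) {v : ℝ} (hv : 0 < v) (x : ℝ) :
    ∃ Z : ℝ, 0 < Z ∧ tm e v g x = volume.withDensity
      (fun y => ENNReal.ofReal (exp (e * g y - (y - x) ^ 2 / (2 * v)) / Z)) := by
  exact ⟨o3Z e v g x, o3Z_pos h e hv x, o3_tm h e hv x⟩

/-- integration by parts -/
theorem tm_ibp {g M φ φ' : ℝ → ℝ} (h : Lip1 g) (hg : ∀ y, HasDerivAt g (M y) y)
    (hφ : ∀ y, HasDerivAt φ (φ' y) y) {B : ℝ} (b1 : ∀ y, |φ y| ≤ B * (1 + y ^ 2))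
    (b2 : ∀ y, |φ' y| ≤ B * (1 + y ^ 2)) (e : ℝ) {v : ℝ} (hv : 0 < v) (x : ℝ) :
    ∫ y, (y - x) / v * φ y ∂(tm e v g x) = ∫ y, (φ' y + e * M y * φ y) ∂(tm e v g x) := by
  exact o3_ibp h hg hφ (o3G.of_quad (o3_meas_fun hφ) b1) (o3G.of_quad (o3_meas_deriv hφ) b2) e hv x

/-- A family of potentials and observables moving with a parameter `t` near `t0`. -/
structure Path (U : Set ℝ) (x x' v v' : ℝ → ℝ) (g g' : ℝ → ℝ → ℝ) (B : ℝ) : Prop where
  dx : ∀ t ∈ U, HasDerivAt x (x' t) t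
  dv : ∀ t ∈ U, HasDerivAt v (v' t) t
  bx : ∀ t ∈ U, |x t| ≤ B ∧ |x' t| ≤ B ∧ |v' t| ≤ B ∧ v t ≤ B ∧ B⁻¹ ≤ v t
  Bpos : 0 < B
  lip : ∀ t ∈ U, Lip1 (g t)
  b0 : ∀ t ∈ U, |g t 0| ≤ B
  mg : ∀ t ∈ U, Measurable (g' t)
  dg : ∀ t ∈ U, ∀ y, HasDerivAt (fun t => g t y) (g' t y) t
  bg : ∀ t ∈ U, ∀ y, |g' t y| ≤ B

theorem Path.o3_vpos {U : Set ℝ} {x x' v v' : ℝ → ℝ} {g g' : ℝ → ℝ → ℝ} {B : ℝ}
    (h : Path U x x' v v' g g' B) {t : ℝ} (ht : t ∈ U) : 0 < v t :=
  (inv_pos.2 h.Bpos).trans_le (h.bx t ht).2.2.2.2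

theorem Path.o3_G {U : Set ℝ} {x x' v v' : ℝ → ℝ} {g g' : ℝ → ℝ → ℝ} {B : ℝ}
    (h : Path U x x' v v' g g' B) {t : ℝ} (ht : t ∈ U) : o3G (g' t) :=
  o3G.of_bdd (h.mg t ht) (h.bg t ht)

theorem Path.o3_num {U : Set ℝ} (hU : IsOpen U) {x x' v v' : ℝ → ℝ} {g g' : ℝ → ℝ → ℝ} {B : ℝ}
    (h : Path U x x' v v' g g' B) {e : ℝ} (he : 0 < e) (he1 : e ≤ 1) {φ φ' : ℝ → ℝ → ℝ}
    (m1 : ∀ t ∈ U, Measurable (φ t)) (m2 : ∀ t ∈ U, Measurable (φ' t))
    (dφ : ∀ t ∈ U, ∀ y, HasDerivAt (fun t => φ t y) (φ' t y) t) {B' : ℝ}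
    (bφ : ∀ t ∈ U, ∀ y, |φ t y| ≤ B' * (1 + y ^ 2) ∧ |φ' t y| ≤ B' * (1 + y ^ 2))
    {t : ℝ} (ht : t ∈ U) :
    HasDerivAt (fun t => ∫ y, φ t y * o3k e (v t) (g t) (x t) y)
      (∫ y, (φ' t y + φ t y * (e * g' t y + x' t * ((y - x t) / v t) +
          v' t / 2 * ((y - x t) / v t) ^ 2)) * o3k e (v t) (g t) (x t) y) t := by
  have hB := h.Bpos
  have G1 : o3G (φ t) := o3G.of_quad (m1 t ht) fun y => (bφ t ht y).1
  have G2 : o3G (φ' t) := o3G.of_quad (m2 t ht) fun y => (bφ t ht y).2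
  have G3 := h.o3_G ht
  have G4 : o3G fun y => exp (B + 2 * |y|) :=
    o3G.exp_lin (by fun_prop) (a := B) (b := 2) (by norm_num) fun y => le_rfl
  have G5 : o3G fun y => (B' * (1 + y ^ 2) + B' * (1 + y ^ 2) *
      (B + B * (B * (|y| + B)) + B / 2 * (B * (|y| + B)) ^ 2)) * exp (B + 2 * |y|) := by o3g
  refine (hasDerivAt_integral_of_dominated_loc_of_deriv_le (μ := volume)
    (F := fun t y => φ t y * o3k e (v t) (g t) (x t) y)
    (F' := fun t y => (φ' t y + φ t y * (e * g' t y + x' t * ((y - x t) / v t) +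
          v' t / 2 * ((y - x t) / v t) ^ 2)) * o3k e (v t) (g t) (x t) y)
    (hU.mem_nhds ht) ?_ ?_ ?_ ?_ (G5.integrable_gauss (c := 1 / (2 * B)) (by positivity)) ?_).2
  · filter_upwards [hU.mem_nhds ht] with s hs
    exact ((m1 s hs).mul (o3k_meas (h.lip s hs) _ _ _)).aestronglyMeasurable
  · exact G1.integrable_k (h.lip t ht) e (h.o3_vpos ht) _
  · exact (o3G.integrable_k (by o3g) (h.lip t ht) e (h.o3_vpos ht) _).aestronglyMeasurable
  · refine ae_of_all _ fun y s hs => ?_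
    obtain ⟨c1, c2, c3, c4, c5⟩ := h.bx s hs
    have hv := h.o3_vpos hs
    obtain ⟨d1, d2⟩ := bφ s hs y
    have hy := abs_nonneg y
    have hu : |(y - x s) / v s| ≤ B * (|y| + B) := by
      rw [abs_div, abs_of_pos hv, div_le_iff₀ hv]
      have h1 : |y - x s| ≤ |y| + B := (abs_sub _ _).trans (by linarith)
      have h2 : 1 ≤ B * v s := by
        have := mul_le_mul_of_nonneg_left c5 hB.le
        rwa [mul_inv_cancel₀ hB.ne'] at this
      nlinarith
    have hψ : |e * g' s y + x' s * ((y - x s) / v s) + v' s / 2 * ((y - x s) / v s) ^ 2| ≤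
        B + B * (B * (|y| + B)) + B / 2 * (B * (|y| + B)) ^ 2 := by
      refine (abs_add_three _ _ _).trans (add_le_add (add_le_add ?_ ?_) ?_)
      · rw [abs_mul, abs_of_pos he]
        have := h.bg s hs y
        have := abs_nonneg (g' s y)
        nlinarith
      · rw [abs_mul]
        exact mul_le_mul c2 hu (abs_nonneg _) hB.le
      · rw [abs_mul, abs_pow, abs_div, abs_two]
        exact mul_le_mul (by linarith) (pow_le_pow_left₀ (abs_nonneg _) hu 2) (by positivity)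
          (by positivity)
    have hk : o3k e (v s) (g s) (x s) y ≤ exp (B + 2 * |y|) * exp (-(1 / (2 * B)) * y ^ 2) := by
      rw [← exp_add, o3k]
      refine exp_le_exp.2 ?_
      have h1 : e * g s y ≤ B + |y| := by
        have h2 := o3_lip_le (h.lip s hs) y
        have h3 := h.b0 s hs
        have h4 := le_abs_self (g s y)
        have h5 := abs_nonneg (g s y)
        nlinarith
      have h2 : (y - x s) ^ 2 / (2 * B) ≤ (y - x s) ^ 2 / (2 * v s) :=
        div_le_div_of_nonneg_left (sq_nonneg _) (by positivity) (by linarith)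
      have h3 : 1 / (2 * B) * y ^ 2 - |y| ≤ (y - x s) ^ 2 / (2 * B) := by
        rw [le_div_iff₀ (by positivity)]
        have h4 : (1 / (2 * B) * y ^ 2 - |y|) * (2 * B) = y ^ 2 - 2 * (B * |y|) := by
          field_simp
        have h5 : x s * y ≤ B * |y| := by
          calc x s * y ≤ |x s * y| := le_abs_self _
            _ = |x s| * |y| := abs_mul _ _
            _ ≤ _ := mul_le_mul_of_nonneg_right c1 hy
        rw [h4]
        nlinarith [sq_nonneg (x s)]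
      linarith
    have hB' : 0 ≤ B' * (1 + y ^ 2) := (abs_nonneg _).trans d1
    rw [Real.norm_eq_abs, abs_mul, abs_of_pos (o3k_pos _ _ _ _ _), mul_assoc]
    refine mul_le_mul ?_ hk (o3k_pos _ _ _ _ _).le (by positivity)
    refine (abs_add_le _ _).trans (add_le_add d2 ?_)
    rw [abs_mul]
    exact mul_le_mul d1 hψ (abs_nonneg _) hB'
  · refine ae_of_all _ fun y s hs => ?_
    have hv := h.o3_vpos hs
    have h1 : HasDerivAt (fun s => e * g s y - (y - x s) ^ 2 / (2 * v s))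
        (e * g' s y + x' s * ((y - x s) / v s) + v' s / 2 * ((y - x s) / v s) ^ 2) s := by
      have h2 := ((h.dg s hs y).const_mul e).sub ((((h.dx s hs).const_sub y).pow 2).div
        ((h.dv s hs).const_mul 2) (by positivity))
      refine h2.congr_deriv ?_
      simp only [Pi.pow_apply]
      field_simp
      ring
    refine ((dφ s hs y).mul h1.exp).congr_deriv ?_
    simp only [o3k]
    ring

theorem Path.o3_Z {U : Set ℝ} (hU : IsOpen U) {x x' v v' : ℝ → ℝ} {g g' : ℝ → ℝ → ℝ} {B : ℝ}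
    (h : Path U x x' v v' g g' B) {e : ℝ} (he : 0 < e) (he1 : e ≤ 1) {t : ℝ} (ht : t ∈ U) :
    HasDerivAt (fun t => o3Z e (v t) (g t) (x t))
      ((∫ y, (e * g' t y + x' t * ((y - x t) / v t) + v' t / 2 * ((y - x t) / v t) ^ 2)
        ∂(tm e (v t) (g t) (x t))) * o3Z e (v t) (g t) (x t)) t := by
  have h1 := h.o3_num hU he he1 (φ := fun _ _ => 1) (φ' := fun _ _ => 0)
    (fun _ _ => measurable_const) (fun _ _ => measurable_const)
    (fun s _ _ => hasDerivAt_const s _) (B' := 1)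
    (fun _ _ y => ⟨by simp; positivity, by simp; positivity⟩) ht
  simp only [one_mul, zero_add] at h1
  rw [o3_int (h.lip t ht) e (h.o3_vpos ht), div_mul_cancel₀ _ (o3Z_pos (h.lip t ht) e
    (h.o3_vpos ht) _).ne']
  exact h1

theorem Path.gaussOp {U : Set ℝ} (hU : IsOpen U) {x x' v v' : ℝ → ℝ} {g g' : ℝ → ℝ → ℝ} {B : ℝ}
    (h : Path U x x' v v' g g' B) {e : ℝ} (he : 0 < e) (he1 : e ≤ 1) {t : ℝ} (ht : t ∈ U) :
    HasDerivAt (fun t => gaussOp e (v t) (g t) (x t))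
      (∫ y, (g' t y + e⁻¹ * (x' t * ((y - x t) / v t) +
        v' t / 2 * (((y - x t) / v t) ^ 2 - (v t)⁻¹))) ∂(tm e (v t) (g t) (x t))) t := by
  have hv := h.o3_vpos ht
  have hZ := o3Z_pos (h.lip t ht) e hv (x t)
  have G3 := h.o3_G ht
  have h1 := ((((h.o3_Z hU he he1 ht).log hZ.ne').sub
    ((((h.dv t ht).const_mul (2 * π)).log (by positivity)).div_const 2))).const_mul e⁻¹
  refine (h1.congr_of_eventuallyEq ?_).congr_deriv ?_
  · filter_upwards [hU.mem_nhds ht] with s hs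
    exact o3_gaussOp (h.lip s hs) he.ne' (h.o3_vpos hs) _
  · have G4 : o3G fun y => e * g' t y + x' t * ((y - x t) / v t) +
        v' t / 2 * ((y - x t) / v t) ^ 2 := by o3g
    rw [o3_lin (h.lip t ht) e (v t) (x t) (F := fun y => g' t y + e⁻¹ * (x' t * ((y - x t) / v t) +
        v' t / 2 * (((y - x t) / v t) ^ 2 - (v t)⁻¹))) G4 G4 G4 G4
        (-(e⁻¹ * (v' t / 2 * (v t)⁻¹))) e⁻¹ 0 0 0 (fun y => by field_simp; ring)]
    generalize ∫ y, (e * g' t y + x' t * ((y - x t) / v t) + v' t / 2 * ((y - x t) / v t) ^ 2)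
      ∂(tm e (v t) (g t) (x t)) = I
    field_simp
    ring

theorem Path.integral {U : Set ℝ} (hU : IsOpen U) {x x' v v' : ℝ → ℝ} {g g' : ℝ → ℝ → ℝ} {B : ℝ}
    (h : Path U x x' v v' g g' B) {e : ℝ} (he : 0 < e) (he1 : e ≤ 1) {φ φ' : ℝ → ℝ → ℝ}
    (m1 : ∀ t ∈ U, Measurable (φ t)) (m2 : ∀ t ∈ U, Measurable (φ' t))
    (dφ : ∀ t ∈ U, ∀ y, HasDerivAt (fun t => φ t y) (φ' t y) t)
    (bφ : ∀ t ∈ U, ∀ y, |φ t y| ≤ B * (1 + y ^ 2) ∧ |φ' t y| ≤ B * (1 + y ^ 2))
    {t : ℝ} (ht : t ∈ U) :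
    HasDerivAt (fun t => ∫ y, φ t y ∂(tm e (v t) (g t) (x t)))
      (∫ y, φ' t y ∂(tm e (v t) (g t) (x t)) +
        cov[φ t, fun y => e * g' t y + x' t * ((y - x t) / v t) +
          v' t / 2 * ((y - x t) / v t) ^ 2; tm e (v t) (g t) (x t)]) t := by
  have hv := h.o3_vpos ht
  have hZ := o3Z_pos (h.lip t ht) e hv (x t)
  have G1 : o3G (φ t) := o3G.of_quad (m1 t ht) fun y => (bφ t ht y).1
  have G2 : o3G (φ' t) := o3G.of_quad (m2 t ht) fun y => (bφ t ht y).2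
  have G3 := h.o3_G ht
  have G4 : o3G fun y => e * g' t y + x' t * ((y - x t) / v t) +
      v' t / 2 * ((y - x t) / v t) ^ 2 := by o3g
  have h1 := (h.o3_num hU he he1 m1 m2 dφ bφ ht).div (h.o3_Z hU he he1 ht) hZ.ne'
  refine (h1.congr_of_eventuallyEq ?_).congr_deriv ?_
  · filter_upwards [hU.mem_nhds ht] with s hs
    exact o3_int (h.lip s hs) e (h.o3_vpos hs) _ _
  · have h2 : ∀ F : ℝ → ℝ, ∫ y, F y * o3k e (v t) (g t) (x t) y =
        (∫ y, F y ∂(tm e (v t) (g t) (x t))) * o3Z e (v t) (g t) (x t) := fun F => by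
      rw [o3_int (h.lip t ht) e hv, div_mul_cancel₀ _ hZ.ne']
    rw [h2, h2, o3_cov (h.lip t ht) e (v t) (x t) G1 G4,
      integral_add (G2.integrable_tm (h.lip t ht) _ _ _)
        ((G1.mul G4).integrable_tm (h.lip t ht) _ _ _)]
    generalize ∫ y, (e * g' t y + x' t * ((y - x t) / v t) + v' t / 2 * ((y - x t) / v t) ^ 2)
      ∂(tm e (v t) (g t) (x t)) = I
    generalize ∫ y, φ t y * (e * g' t y + x' t * ((y - x t) / v t) +
      v' t / 2 * ((y - x t) / v t) ^ 2) ∂(tm e (v t) (g t) (x t)) = J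
    field_simp
    ring

/-- first derivative in the base point -/
theorem hasDerivAt_tm {g φ : ℝ → ℝ} (h : Lip1 g) (hφ : Measurable φ) {B : ℝ}
    (hb : ∀ y, |φ y| ≤ B * (1 + y ^ 2)) {e v : ℝ} (he : 0 < e) (he1 : e ≤ 1) (hv : 0 < v) (x : ℝ) :
    HasDerivAt (fun x => ∫ y, φ y ∂(tm e v g x)) (cov[φ, id; tm e v g x] / v) x := by
  have hB : 0 ≤ B := by have := (abs_nonneg _).trans (hb 0); simpa using this
  have hvi : 0 < v⁻¹ := inv_pos.2 hv
  have hx := abs_nonneg x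
  have hg0 := abs_nonneg (g 0)
  set B' : ℝ := |x| + 1 + v + v⁻¹ + |g 0| + B with hB'
  have hP : Path (Set.Ioo (x - 1) (x + 1)) (fun t => t) (fun _ => 1) (fun _ => v) (fun _ => 0)
      (fun _ => g) (fun _ _ => 0) B' :=
    { dx := fun t _ => hasDerivAt_id t
      dv := fun t _ => hasDerivAt_const t v
      bx := fun t ht => by
        refine ⟨?_, by rw [abs_one]; linarith, by rw [abs_zero]; linarith, by linarith, ?_⟩
        · have h1 := le_abs_self x
          have h2 := neg_abs_le x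
          exact abs_le.2 ⟨by linarith [ht.1], by linarith [ht.2]⟩
        · exact inv_le_of_inv_le₀ hv (by linarith)
      Bpos := by linarith
      lip := fun _ _ => h
      b0 := fun _ _ => by linarith
      mg := fun _ _ => measurable_const
      dg := fun t _ y => hasDerivAt_const t _
      bg := fun _ _ _ => by rw [abs_zero]; linarith }
  have h1 := hP.integral isOpen_Ioo he he1 (φ := fun _ => φ) (φ' := fun _ _ => 0)
    (fun _ _ => hφ) (fun _ _ => measurable_const) (fun t _ y => hasDerivAt_const t _)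
    (fun _ _ y => ⟨(hb y).trans (mul_le_mul_of_nonneg_right (by linarith) (by positivity)),
      by rw [abs_zero]; positivity⟩) (t := x) ⟨by linarith, by linarith⟩
  refine h1.congr_deriv ?_
  have G1 : o3G φ := o3G.of_quad hφ hb
  have := h.prob e v x
  simp only [integral_zero, zero_add, mul_zero, one_mul, zero_div, zero_mul, add_zero]
  rw [covariance_fun_div_right]
  congr 1
  exact covariance_sub_const_right (o3G.id'.integrable_tm h e v x) x

/-- second derivative in the base point -/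
theorem hasDerivAt_cov_tm {g φ : ℝ → ℝ} (h : Lip1 g) (hφ : Measurable φ) {B : ℝ}
    (hb : ∀ y, |φ y| ≤ B) {e v : ℝ} (he : 0 < e) (he1 : e ≤ 1) (hv : 0 < v) (x : ℝ) :
    HasDerivAt (fun x => cov[φ, id; tm e v g x] / v)
      (cov[φ, fun y => (y - ∫ z, z ∂(tm e v g x)) ^ 2; tm e v g x] / v ^ 2) x := by
  have hB : 0 ≤ B := (abs_nonneg _).trans (hb 0)
  have G1 : o3G φ := o3G.of_bdd hφ hb
  have hy : ∀ y : ℝ, |y| ≤ 1 * (1 + y ^ 2) := fun y => by
    rw [← sq_abs y]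
    nlinarith [abs_nonneg y]
  have d1 := hasDerivAt_tm h hφ (B := B) (fun y => (hb y).trans (by nlinarith [sq_nonneg y]))
    he he1 hv x
  have d2 := hasDerivAt_tm h (φ := fun y => y) measurable_id hy he he1 hv x
  have d3 := hasDerivAt_tm h (φ := fun y => φ y * y) (hφ.mul measurable_id) (B := B) (fun y => by
    rw [abs_mul]
    exact mul_le_mul (hb y) (by simpa using hy y) (abs_nonneg _) hB) he he1 hv x
  have h1 := (d3.sub (d1.mul d2)).div_const v
  have e1 : ∀ (f : ℝ → ℝ) (x : ℝ), o3G f → cov[f, id; tm e v g x] =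
      ∫ y, f y * y ∂(tm e v g x) - (∫ y, f y ∂(tm e v g x)) * ∫ y, y ∂(tm e v g x) :=
    fun f x hf => o3_cov h e v x hf o3G.id'
  refine (h1.congr_of_eventuallyEq (Filter.Eventually.of_forall fun s => ?_)).congr_deriv ?_
  · simp only [e1 φ s G1, Pi.sub_apply, Pi.mul_apply]
  · set m := ∫ z, z ∂(tm e v g x) with hm
    rw [e1 _ x (by o3g), e1 _ x G1, e1 _ x o3G.id', o3_cov h e v x G1 (by o3g),
      o3_lin h e v x (F := fun y => φ y * (y - m) ^ 2) (f1 := fun y => φ y * y * y)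
        (f2 := fun y => φ y * y) (f3 := φ) (f4 := φ) (by o3g) (by o3g) G1 G1 0 1 (-2 * m) (m ^ 2) 0
        (fun y => by ring),
      o3_lin h e v x (F := fun y => (y - m) ^ 2) (f1 := fun y => y * y)
        (f2 := fun y => y) (f3 := φ) (f4 := φ) (by o3g) (by o3g) G1 G1 (m ^ 2) 1 (-2 * m) 0 0
        (fun y => by ring), ← hm]
    field_simp
    ring

/-- mean and variance of the position (from `tm_ibp`) -/
theorem tm_mean {g M : ℝ → ℝ} (h : Lip1 g) (hg : ∀ y, HasDerivAt g (M y) y) (e : ℝ) {v : ℝ}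
    (hv : 0 < v) (x : ℝ) : ∫ y, y ∂(tm e v g x) = x + v * e * ∫ y, M y ∂(tm e v g x) := by
  have hM := o3G_M h hg
  have h1 := o3_ibp h hg (φ := fun _ => 1) (φ' := fun _ => 0) (fun y => hasDerivAt_const y _)
    (o3G.const _) (o3G.const _) e hv x
  rw [o3_lin h e v x (F := fun y => (y - x) / v * 1) o3G.id' hM hM hM (-(x / v)) v⁻¹ 0 0 0
      (fun y => by ring),
    o3_lin h e v x (F := fun y => 0 + e * M y * 1) hM hM hM hM 0 e 0 0 0 (fun y => by ring)] at h1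
  field_simp at h1
  linarith

theorem tm_second_moment {g M : ℝ → ℝ} (h : Lip1 g) (hg : ∀ y, HasDerivAt g (M y) y) {e v : ℝ}
    (he : 0 ≤ e) (he1 : e ≤ 1) (hv : 0 < v) (x : ℝ) :
    ∫ y, (y - x) ^ 2 ∂(tm e v g x) ≤ 2 * v + v ^ 2 := by
  have hM := o3G_M h hg
  have h1 := o3_ibp h hg (φ := fun y => y - x) (φ' := fun _ => 1)
    (fun y => (hasDerivAt_id y).sub_const x) (by o3g) (o3G.const _) e hv x
  have G1 : o3G fun y => (y - x) ^ 2 := by o3g
  have h2 : ∫ y, (1 + e * M y * (y - x)) ∂(tm e v g x) ≤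
      ∫ y, (1 + v / 2 + (2 * v)⁻¹ * (y - x) ^ 2) ∂(tm e v g x) := by
    refine integral_mono (o3G.integrable_tm (by o3g) h e v x) (o3G.integrable_tm (by o3g) h e v x)
      fun y => ?_
    have h3 : (e * M y) ^ 2 ≤ 1 := by
      rw [mul_pow]
      have h4 : M y ^ 2 ≤ 1 := (sq_le_one_iff_abs_le_one _).2 (o3_abs_M h hg y)
      have h5 : e ^ 2 ≤ 1 := by nlinarith
      nlinarith [sq_nonneg e, sq_nonneg (M y)]
    have h4 : v / 2 * (e * M y) ^ 2 + (2 * v)⁻¹ * (y - x) ^ 2 - e * M y * (y - x) =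
        (v * (e * M y) - (y - x)) ^ 2 / (2 * v) := by
      field_simp
      ring
    have h5 : 0 ≤ (v * (e * M y) - (y - x)) ^ 2 / (2 * v) := by positivity
    show 1 + e * M y * (y - x) ≤ 1 + v / 2 + (2 * v)⁻¹ * (y - x) ^ 2
    nlinarith
  rw [← h1, o3_lin h e v x (F := fun y => (y - x) / v * (y - x)) G1 G1 G1 G1 0 v⁻¹ 0 0 0
      (fun y => by ring),
    o3_lin h e v x (F := fun y => 1 + v / 2 + (2 * v)⁻¹ * (y - x) ^ 2) G1 G1 G1 G1 (1 + v / 2)
      (2 * v)⁻¹ 0 0 0 (fun y => by ring)] at h2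
  set S := ∫ y, (y - x) ^ 2 ∂(tm e v g x)
  have h3 := mul_le_mul_of_nonneg_left h2 (by positivity : 0 ≤ 2 * v)
  have h4 : 2 * v * (0 + v⁻¹ * S + 0 * S + 0 * S + 0 * S) = 2 * S := by field_simp; ring
  have h5 : 2 * v * (1 + v / 2 + (2 * v)⁻¹ * S + 0 * S + 0 * S + 0 * S) = 2 * v + v ^ 2 + S := by
    field_simp; ring
  linarith

/-- first-order identity: `(E φ)' = E φ' + e Cov(φ, M)` -/
theorem cov_id_eq {g M φ φ' : ℝ → ℝ} (h : Lip1 g) (hg : ∀ y, HasDerivAt g (M y) y)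
    (hφ : ∀ y, HasDerivAt φ (φ' y) y) {B : ℝ} (b1 : ∀ y, |φ y| ≤ B) (b2 : ∀ y, |φ' y| ≤ B)
    (e : ℝ) {v : ℝ} (hv : 0 < v) (x : ℝ) :
    cov[φ, id; tm e v g x] / v = ∫ y, φ' y ∂(tm e v g x) + e * cov[φ, M; tm e v g x] := by
  have hM := o3G_M h hg
  have G1 : o3G φ := o3G.of_bdd (o3_meas_fun hφ) b1
  have G2 : o3G φ' := o3G.of_bdd (o3_meas_deriv hφ) b2
  have h1 := o3_ibp h hg hφ G1 G2 e hv x
  have h2 := tm_mean h hg e hv x
  have e1 : cov[φ, id; tm e v g x] =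
      ∫ y, φ y * y ∂(tm e v g x) - (∫ y, φ y ∂(tm e v g x)) * ∫ y, y ∂(tm e v g x) :=
    o3_cov h e v x G1 o3G.id'
  rw [o3_lin h e v x (F := fun y => (y - x) / v * φ y) (f1 := fun y => φ y * y) (by o3g) G1 G1 G1
      0 v⁻¹ (-(x / v)) 0 0 (fun y => by ring),
    o3_lin h e v x (F := fun y => φ' y + e * M y * φ y) (f2 := fun y => φ y * M y) G2 (by o3g)
      G1 G1 0 1 e 0 0 (fun y => by ring)] at h1
  rw [e1, o3_cov h e v x G1 hM, h2]
  field_simp at h1 ⊢
  linear_combination h1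

/-- second-order identity: `½ Cov(φ, u²) = E [½ φ'' + e M φ'] + e Cov(φ, ½ (A + e M²))`
(apply `tm_ibp` to `u φ` and to `φ' + e M φ`) -/
theorem cov_sq_eq {g M A φ φ' φ'' : ℝ → ℝ} (h : Lip1 g) (hg : ∀ y, HasDerivAt g (M y) y)
    (hM : ∀ y, HasDerivAt M (A y) y) (hφ : ∀ y, HasDerivAt φ (φ' y) y)
    (hφ' : ∀ y, HasDerivAt φ' (φ'' y) y) {B : ℝ} (bA : ∀ y, |A y| ≤ B) (b1 : ∀ y, |φ y| ≤ B)
    (b2 : ∀ y, |φ' y| ≤ B) (b3 : ∀ y, |φ'' y| ≤ B) (e : ℝ) {v : ℝ} (hv : 0 < v) (x : ℝ) :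
    cov[φ, fun y => ((y - x) / v) ^ 2; tm e v g x] / 2 =
      ∫ y, (φ'' y / 2 + e * M y * φ' y) ∂(tm e v g x) +
        e * cov[φ, fun y => (A y + e * M y ^ 2) / 2; tm e v g x] := by
  have GM := o3G_M h hg
  have GA : o3G A := o3G.of_bdd (o3_meas_deriv hM) bA
  have key : ∀ φ φ' φ'' : ℝ → ℝ, (∀ y, HasDerivAt φ (φ' y) y) → (∀ y, HasDerivAt φ' (φ'' y) y) →
      o3G φ → o3G φ' → o3G φ'' → ∫ y, φ y * ((y - x) / v) ^ 2 ∂(tm e v g x) =
        v⁻¹ * ∫ y, φ y ∂(tm e v g x) + 2 * ∫ y, (φ'' y / 2 + e * M y * φ' y) ∂(tm e v g x) +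
          2 * e * ∫ y, φ y * ((A y + e * M y ^ 2) / 2) ∂(tm e v g x) := by
    intro φ φ' φ'' hφ hφ' G1 G2 G3
    have h1 := o3_ibp h hg (φ := fun y => (y - x) / v * φ y)
      (φ' := fun y => 1 / v * φ y + (y - x) / v * φ' y)
      (fun y => (((hasDerivAt_id y).sub_const x).div_const v).mul (hφ y)) (by o3g) (by o3g) e hv x
    have h2 := o3_ibp h hg (φ := fun y => φ' y + e * M y * φ y)
      (φ' := fun y => φ'' y + (e * A y * φ y + e * M y * φ' y))
      (fun y => (hφ' y).add (((hM y).const_mul e).mul (hφ y))) (by o3g) (by o3g) e hv x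
    rw [o3_lin h e v x (F := fun y => (y - x) / v * ((y - x) / v * φ y))
        (f1 := fun y => φ y * ((y - x) / v) ^ 2) (by o3g) G1 G1 G1 0 1 0 0 0 (fun y => by ring),
      o3_lin h e v x (F := fun y => 1 / v * φ y + (y - x) / v * φ' y + e * M y * ((y - x) / v * φ y))
        (f2 := fun y => (y - x) / v * (φ' y + e * M y * φ y)) G1 (by o3g) G1 G1 0 v⁻¹ 1 0 0
        (fun y => by ring), h2,
      o3_lin h e v x (F := fun y => φ'' y + (e * A y * φ y + e * M y * φ' y) +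
          e * M y * (φ' y + e * M y * φ y))
        (f1 := fun y => φ'' y / 2 + e * M y * φ' y)
        (f2 := fun y => φ y * ((A y + e * M y ^ 2) / 2)) (by o3g) (by o3g) G1 G1 0 2 (2 * e) 0 0
        (fun y => by ring)] at h1
    linarith
  have G1 : o3G φ := o3G.of_bdd (o3_meas_fun hφ) b1
  have G2 : o3G φ' := o3G.of_bdd (o3_meas_deriv hφ) b2
  have G3 : o3G φ'' := o3G.of_bdd (o3_meas_deriv hφ') b3
  have k1 := key φ φ' φ'' hφ hφ' G1 G2 G3
  have k2 := key (fun _ => 1) (fun _ => 0) (fun _ => 0) (fun y => hasDerivAt_const y _)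
    (fun y => hasDerivAt_const y _) (o3G.const _) (o3G.const _) (o3G.const _)
  have := h.prob e v x
  simp only [one_mul, zero_div, mul_zero, add_zero, integral_const, probReal_univ,
    smul_eq_mul, mul_one] at k2
  rw [o3_cov h e v x G1 (by o3g), o3_cov h e v x G1 (by o3g), k1, k2]
  ring

end Crest.Agent.R164
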