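import Crest.Agent.R164.O4Aux

/-! # One-site recursion: the two sign lemmas -/

set_option autoImplicit false
set_option linter.unusedVariables false
set_option linter.unusedSectionVars false

open MeasureTheory ProbabilityTheory Real Crest.ProbabilityR.InvariantGlass
open scoped ENNReal

namespace Crest.Agent.R164

theorem o4_den {g : ℝ → ℝ} (h : Lip1 g) (e : ℝ) {v : ℝ} (hv : 0 < v) (x : ℝ) :
    ∃ Z : ℝ, O4Den (tm e v g x) (fun y => exp (e * g y - (y - x) ^ 2 / (2 * v)) / Z) := by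
  obtain ⟨Z, hZ, hν⟩ := tm_eq_withDensity h e hv x
  have := h.continuous
  exact ⟨Z, by fun_prop, fun y => by positivity, hν⟩

theorem o4_int_id {g : ℝ → ℝ} (h : Lip1 g) (e v x : ℝ) :
    Integrable (fun y : ℝ => y) (tm e v g x) :=
  h.integrable_tm (φ := fun y => y) (C := 1) measurable_id (fun y => by
    have := add_one_le_exp |y|
    simp only [one_mul]; linarith) e v x

theorem o4_int_bdd {ν : Measure ℝ} [IsFiniteMeasure ν] {f : ℝ → ℝ} (hc : Continuous f) {B : ℝ}
    (hb : ∀ y, |f y| ≤ B) : Integrable f ν :=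
  Integrable.of_bound hc.aestronglyMeasurable B (Filter.Eventually.of_forall hb)

/-- Chebyshev's covariance inequality -/
theorem cov_nonneg_of_mono (ν : Measure ℝ) [IsProbabilityMeasure ν] {f g : ℝ → ℝ} (hf : Monotone f)
    (hg : Monotone g) (i1 : MemLp f 2 ν) (i2 : MemLp g 2 ν) : 0 ≤ cov[f, g; ν] := by
  have j1 := i1.integrable one_le_two
  have j2 := i2.integrable one_le_two
  have j3 : Integrable (fun y => f y * g y) ν := i1.integrable_mul i2
  have h1 : ∀ y, 0 ≤ 1 * (f y * g y) + (-∫ x, g x ∂ν) * f y +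
      ((-∫ x, f x ∂ν) * g y + ∫ x, f x * g x ∂ν) := by
    intro y
    have h2 : 0 ≤ ∫ x, (1 * (f x * g x) + 1 * ((-g y) * f x + (-f y) * g x + 0) + f y * g y) ∂ν := by
      refine integral_nonneg fun x => ?_
      rcases le_total x y with h | h
      · have := mul_nonneg (sub_nonneg.2 (hf h)) (sub_nonneg.2 (hg h))
        simp only [Pi.zero_apply]; linarith
      · have := mul_nonneg (sub_nonneg.2 (hf h)) (sub_nonneg.2 (hg h))
        simp only [Pi.zero_apply]; linarith
    have j4 : Integrable (fun x => (-g y) * f x + (-f y) * g x + 0) ν :=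
      ((j1.const_mul _).add (j2.const_mul _)).add (integrable_const _)
    rw [o4_aff j3 j4, o4_aff j1 j2] at h2
    simp only [integral_const, probReal_univ, smul_eq_mul, mul_one] at h2
    linarith
  have h3 : 0 ≤ ∫ y, (1 * (f y * g y) + (-∫ x, g x ∂ν) * f y +
      ((-∫ x, f x ∂ν) * g y + ∫ x, f x * g x ∂ν)) ∂ν := integral_nonneg h1
  have j5 : Integrable (fun y => 1 * (f y * g y) + (-∫ x, g x ∂ν) * f y) ν :=
    (j3.const_mul _).add (j1.const_mul _)
  have j6 : Integrable (fun y => (-∫ x, f x ∂ν) * g y + ∫ x, f x * g x ∂ν) ν :=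
    (j2.const_mul _).add (integrable_const _)
  rw [integral_add j5 j6, integral_add (j3.const_mul _) (j1.const_mul _),
    integral_add (j2.const_mul _) (integrable_const _)] at h3
  simp only [integral_const_mul, integral_const, probReal_univ, smul_eq_mul, one_mul] at h3
  rw [covariance_eq_sub i1 i2]
  simp only [Pi.mul_apply]
  linarith

/-- strict version for the tilted Gaussian law (full support) -/
theorem cov_id_pos {g f : ℝ → ℝ} (h : Lip1 g) (hf : Monotone f) (hc : Continuous f) {B : ℝ}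
    (hb : ∀ y, |f y| ≤ B) {a b : ℝ} (hab : f a < f b) (e : ℝ) {v : ℝ} (hv : 0 < v) (x : ℝ) :
    0 < cov[f, id; tm e v g x] := by
  obtain ⟨Z, hd⟩ := o4_den h e hv x
  have iY := o4_int_id h e v x
  have := h.prob e v x
  have := hd.openPos
  generalize tm e v g x = ν at *
  obtain ⟨m, hm⟩ : ∃ m, m = ∫ y, y ∂ν := ⟨_, rfl⟩
  have i1 : Integrable (fun y => y - m) ν := iY.sub (integrable_const _)
  have i2 : ∀ c, Integrable (fun y => (f y - c) * (y - m)) ν := fun c =>
    i1.bdd_mul (c := B + |c|) (hc.sub continuous_const).aestronglyMeasurable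
      (Filter.Eventually.of_forall fun y => (abs_sub _ _).trans (add_le_add_left (hb y) _))
  have h0 : ∫ y, (y - m) ∂ν = 0 := by rw [integral_sub iY (integrable_const _), hm]; simp
  have e1 : cov[f, id; ν] = ∫ y, (f y - f m) * (y - m) ∂ν := by
    have : ∀ y, (f y - ∫ z, f z ∂ν) * (y - m) =
        (f y - f m) * (y - m) + (f m - ∫ z, f z ∂ν) * (y - m) := fun y => by ring
    simp only [covariance, id, ← hm, this]
    rw [integral_add (i2 _) (i1.const_mul _), integral_const_mul, h0, mul_zero, add_zero]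
  obtain ⟨c, hc'⟩ : ∃ c, f c ≠ f m := by
    by_contra hn
    simp only [not_exists, not_not] at hn
    rw [hn a, hn b] at hab
    exact lt_irrefl _ hab
  rw [e1]
  refine integral_pos_of_integrable_nonneg_nonzero (x := c) (by fun_prop) (i2 _) (fun y => ?_)
    (mul_ne_zero (sub_ne_zero.2 hc') (sub_ne_zero.2 fun e => hc' (by rw [e])))
  rcases le_total y m with h | h
  · exact mul_nonneg_of_nonpos_of_nonpos (sub_nonpos.2 (hf h)) (sub_nonpos.2 h)
  · exact mul_nonneg (sub_nonneg.2 (hf h)) (sub_nonneg.2 h)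

theorem o4_tp3 {ν : Measure ℝ} {ψ l q : ℝ → ℝ} {c : ℝ} (h0 : ∫ y, ψ y ∂ν = 0)
    (hl : ∀ y, 0 ≤ ψ y * l y) (hi : Integrable (fun y => ψ y * l y) ν)
    (h1 : ∫ y, ψ y * l y ∂ν = 0) (hq : ∀ y, y ^ 2 = l y * q y + c) :
    0 ≤ ∫ y, ψ y * y ^ 2 ∂ν := by
  have h2 := (integral_eq_zero_iff_of_nonneg hl hi).1 h1
  have h3 : ∫ y, ψ y * y ^ 2 ∂ν = ∫ y, c * ψ y ∂ν := by
    refine integral_congr_ae ?_
    filter_upwards [h2] with y hy
    simp only [Pi.zero_apply] at hy
    rw [hq y]
    linear_combination q y * hy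
  rw [h3, integral_const_mul, h0, mul_zero]

/-- Total positivity of order three: if `{ψ < 0}` is an interval and `ψ` is orthogonal to `1`
and `y`, then `∫ ψ y² ≥ 0` (multiply by `(y - y₁)(y - y₂)` when the interval is bounded; if it is
unbounded or empty, `ψ (y - y₁)` or `ψ` has a sign and zero mean, so `ψ (y - y₁) = 0` a.e.). -/
theorem tp3 (ν : Measure ℝ) [IsProbabilityMeasure ν] {ψ : ℝ → ℝ} (hm : Measurable ψ)
    (hi : Integrable (fun y => ψ y * (1 + y ^ 2)) ν) (hc : Set.OrdConnected {y | ψ y < 0})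
    (h0 : ∫ y, ψ y ∂ν = 0) (h1 : ∫ y, ψ y * y ∂ν = 0) : 0 ≤ ∫ y, ψ y * y ^ 2 ∂ν := by
  have i0 : Integrable ψ ν := hi.mono hm.aestronglyMeasurable (Filter.Eventually.of_forall fun y => by
    rw [norm_mul]
    exact le_mul_of_one_le_right (norm_nonneg _) ((le_add_of_nonneg_right (sq_nonneg y)).trans
      (le_abs_self _)))
  have i1 : Integrable (fun y => ψ y * y) ν :=
    hi.mono (hm.mul measurable_id).aestronglyMeasurable (Filter.Eventually.of_forall fun y => by
      rw [norm_mul, norm_mul]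
      refine mul_le_mul_of_nonneg_left ?_ (norm_nonneg _)
      rw [Real.norm_eq_abs, Real.norm_of_nonneg (by positivity), abs_le]
      constructor <;> nlinarith [sq_nonneg (y + 1), sq_nonneg (y - 1)])
  have i2 : Integrable (fun y => ψ y * y ^ 2) ν := (hi.sub i0).congr
    (Filter.Eventually.of_forall fun y => by simp only [Pi.sub_apply]; ring)
  have lin : ∀ a b : ℝ, Integrable (fun y => ψ y * (a * y + b)) ν ∧
      ∫ y, ψ y * (a * y + b) ∂ν = 0 := by
    intro a b
    have e : (fun y => ψ y * (a * y + b)) = fun y => a * (ψ y * y) + b * ψ y :=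
      funext fun y => by ring
    rw [e, integral_add (i1.const_mul a) (i0.const_mul b), integral_const_mul, integral_const_mul,
      h0, h1]
    exact ⟨(i1.const_mul a).add (i0.const_mul b), by ring⟩
  have sgn : ∀ {l : ℝ → ℝ}, (∀ y, ψ y < 0 → l y ≤ 0) → (∀ y, l y < 0 → ψ y < 0) →
      ∀ y, 0 ≤ ψ y * l y := by
    intro l k1 k2 y
    rcases lt_or_ge (ψ y) 0 with h | h
    · exact mul_nonneg_of_nonpos_of_nonpos h.le (k1 y h)
    · exact mul_nonneg h (not_lt.1 fun h' => absurd (k2 y h') (not_lt.2 h))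
  rcases Set.eq_empty_or_nonempty {y | ψ y < 0} with he | hne
  · refine integral_nonneg fun y => mul_nonneg (not_lt.1 fun h => ?_) (sq_nonneg y)
    exact (Set.eq_empty_iff_forall_notMem.1 he) y h
  by_cases hb : BddBelow {y | ψ y < 0} <;> by_cases ha : BddAbove {y | ψ y < 0}
  · have k : 0 ≤ ∫ y, ψ y * ((y - sInf {y | ψ y < 0}) * (y - sSup {y | ψ y < 0})) ∂ν :=
      integral_nonneg (sgn
      (l := fun y => (y - sInf {y | ψ y < 0}) * (y - sSup {y | ψ y < 0}))
      (fun y hy => mul_nonpos_of_nonneg_of_nonpos (sub_nonneg.2 (csInf_le hb hy))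
        (sub_nonpos.2 (le_csSup ha hy)))
      (fun y hy => by
        have hle := csInf_le_csSup hne hb ha
        have y1 : sInf {y | ψ y < 0} < y := by by_contra h; nlinarith
        have y2 : y < sSup {y | ψ y < 0} := by by_contra h; nlinarith
        obtain ⟨s₁, hs₁, k₁⟩ := exists_lt_of_csInf_lt hne y1
        obtain ⟨s₂, hs₂, k₂⟩ := exists_lt_of_lt_csSup hne y2
        exact hc.out hs₁ hs₂ ⟨k₁.le, k₂.le⟩))
    obtain ⟨l1, l2⟩ := lin (-(sInf {y | ψ y < 0} + sSup {y | ψ y < 0}))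
      (sInf {y | ψ y < 0} * sSup {y | ψ y < 0})
    have l3 := integral_add i2 l1
    rw [l2, add_zero] at l3
    rw [← l3]
    refine k.trans_eq (integral_congr_ae (Filter.Eventually.of_forall fun y => ?_))
    simp only
    ring
  · refine o4_tp3 (l := fun y => (-1) * y + sInf {y | ψ y < 0})
      (q := fun y => -(y + sInf {y | ψ y < 0})) (c := sInf {y | ψ y < 0} ^ 2) h0
      (sgn (fun y hy => by have := csInf_le hb hy; linarith) fun y hy => ?_) (lin _ _).1
      (lin _ _).2 fun y => by ring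
    obtain ⟨s₁, hs₁, k₁⟩ := exists_lt_of_csInf_lt hne (show sInf {y | ψ y < 0} < y by linarith)
    obtain ⟨s₂, hs₂, k₂⟩ := not_bddAbove_iff.1 ha y
    exact hc.out hs₁ hs₂ ⟨k₁.le, k₂.le⟩
  · refine o4_tp3 (l := fun y => 1 * y + -sSup {y | ψ y < 0})
      (q := fun y => y + sSup {y | ψ y < 0}) (c := sSup {y | ψ y < 0} ^ 2) h0
      (sgn (fun y hy => by have := le_csSup ha hy; linarith) fun y hy => ?_) (lin _ _).1
      (lin _ _).2 fun y => by ring
    obtain ⟨s₁, hs₁, k₁⟩ := not_bddBelow_iff.1 hb y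
    obtain ⟨s₂, hs₂, k₂⟩ := exists_lt_of_lt_csSup hne (show y < sSup {y | ψ y < 0} by linarith)
    exact hc.out hs₁ hs₂ ⟨k₁.le, k₂.le⟩
  · refine o4_tp3 (l := fun y => 0 * y + -1) (q := fun y => -y ^ 2) (c := 0) h0
      (sgn (fun y hy => by norm_num) fun y hy => ?_) (lin _ _).1 (lin _ _).2 fun y => by ring
    obtain ⟨s₁, hs₁, k₁⟩ := not_bddBelow_iff.1 hb y
    obtain ⟨s₂, hs₂, k₂⟩ := not_bddAbove_iff.1 ha y
    exact hc.out hs₁ hs₂ ⟨k₁.le, k₂.le⟩

/-- A convex function of `M` minus an affine function of `M` is negative on an interval: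
its derivative `A (D'/A - β)` changes sign once, from `-` to `+`. -/
theorem ordConnected_neg {M A D D' : ℝ → ℝ} (hM : ∀ x, HasDerivAt M (A x) x) (pA : ∀ x, 0 < A x)
    (hD : ∀ x, HasDerivAt D (D' x) x) (mono : Monotone (fun x => D' x / A x)) (α β : ℝ) :
    Set.OrdConnected {y | D y - α - β * M y < 0} := by
  have hd : ∀ s, HasDerivAt (fun s => D s - α - β * M s) (D' s - β * A s) s :=
    fun s => ((hD s).sub_const α).sub ((hM s).const_mul β)
  refine ⟨fun a ha b hb y hy => ?_⟩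
  rcases le_total (D' y / A y) β with h | h
  · exact (o4_ge hd hy.1 fun s hs =>
      sub_nonpos.2 ((div_le_iff₀ (pA s)).1 ((mono hs.2).trans h))).trans_lt ha
  · exact (o4_le hd hy.2 fun s hs =>
      sub_nonneg.2 ((le_div_iff₀ (pA s)).1 (h.trans (mono hs.1)))).trans_lt hb

/-- a convex function of `M` lies above its tangents -/
theorem o4_tangent {M A W W' : ℝ → ℝ} (hM : ∀ x, HasDerivAt M (A x) x) (pA : ∀ x, 0 < A x)
    (hW : ∀ x, HasDerivAt W (W' x) x) (mono : Monotone (fun x => W' x / A x)) (t y : ℝ) :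
    0 ≤ W y - W t - W' t / A t * (M y - M t) := by
  have hd : ∀ s, HasDerivAt (fun s => W s - W' t / A t * M s) (W' s - W' t / A t * A s) s :=
    fun s => (hW s).sub ((hM s).const_mul _)
  rcases le_total t y with h | h
  · have := o4_le hd h fun s hs => sub_nonneg.2 ((le_div_iff₀ (pA s)).1 (mono hs.1))
    linarith
  · have := o4_ge hd h fun s hs => sub_nonpos.2 ((div_le_iff₀ (pA s)).1 (mono hs.2))
    linarith

/-- a monotone function correlates positively with a weight having one sign change -/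
theorem o4_cross {δ Θ : ℝ → ℝ} (hδ : Monotone δ) {B : ℝ} (hb : ∀ t, |δ t| ≤ B) (hΘ : Monotone Θ)
    (β : ℝ) : ∃ c, ∀ t, 0 ≤ (δ t - c) * (Θ t - β) := by
  by_cases h : ∃ t, Θ t < β
  · obtain ⟨t₀, h₀⟩ := h
    have hbd : BddAbove (δ '' {t | Θ t < β}) :=
      ⟨B, by rintro _ ⟨t, -, rfl⟩; exact (abs_le.1 (hb t)).2⟩
    refine ⟨sSup (δ '' {t | Θ t < β}), fun t => ?_⟩
    rcases lt_or_ge (Θ t) β with ht | ht
    · exact mul_nonneg_of_nonpos_of_nonpos (sub_nonpos.2 (le_csSup hbd ⟨t, ht, rfl⟩))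
        (sub_nonpos.2 ht.le)
    · refine mul_nonneg (sub_nonneg.2 (csSup_le ⟨_, t₀, h₀, rfl⟩ ?_)) (sub_nonneg.2 ht)
      rintro _ ⟨s, hs, rfl⟩
      exact hδ (le_of_not_gt fun hts => absurd (ht.trans (hΘ hts.le)) (not_le.2 hs))
  · exact ⟨-B, fun t => mul_nonneg (sub_nonneg.2 (abs_le.1 (hb t)).1)
      (sub_nonneg.2 (not_lt.1 fun ht => h ⟨t, ht⟩))⟩

/-- the conditional mean of `W'/A` is nondecreasing -/
theorem o4_theta {g M A A' W W' W'' : ℝ → ℝ} {B : ℝ} (hg : Pot g M A A' B)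
    (hW : CvxIn A W W' W'' B) {e v : ℝ} (he : 0 < e) (hv : 0 < v) (x : ℝ) {Z : ℝ}
    (hd : O4Den (tm e v g x) (fun y => exp (e * g y - (y - x) ^ 2 / (2 * v)) / Z)) :
    (∀ t, 0 < -o4P (tm e v g x) (fun y => y - ∫ z, z ∂(tm e v g x)) t) ∧
    Monotone (fun t => (W' t / A t * (exp (e * g t - (t - x) ^ 2 / (2 * v)) / Z) -
      e * o4P (tm e v g x) (fun y => W y - ∫ z, W z ∂(tm e v g x)) t) /
        -o4P (tm e v g x) (fun y => y - ∫ z, z ∂(tm e v g x)) t) := by
  have hl := o4_lip hg.d1 hg.bM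
  have hmean := tm_mean hl hg.d1 e hv x
  have iY := o4_int_id hl e v x
  have := hl.prob e v x
  have := hd.openPos
  obtain ⟨ϖ, hϖ⟩ : ∃ ϖ : ℝ → ℝ, ϖ = fun y => exp (e * g y - (y - x) ^ 2 / (2 * v)) / Z := ⟨_, rfl⟩
  have dϖ : ∀ t, HasDerivAt ϖ ((e * M t - (t - x) / v) * ϖ t) t := by
    intro t
    have h0 : HasDerivAt (fun y => e * g y - (y - x) ^ 2 / (2 * v)) (e * M t - (t - x) / v) t := by
      refine (((hg.d1 t).const_mul e).fun_sub
        ((((hasDerivAt_id' t).sub_const x).fun_pow 2).div_const (2 * v))).congr_deriv ?_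
      field_simp
      ring
    rw [hϖ]
    exact (h0.exp.div_const Z).congr_deriv (by ring)
  have hϖ' : ∀ t, exp (e * g t - (t - x) ^ 2 / (2 * v)) / Z = ϖ t := fun t => by rw [hϖ]
  simp only [hϖ'] at hd ⊢
  generalize tm e v g x = ν at *
  have cM : Continuous M := continuous_iff_continuousAt.2 fun t => (hg.d2 t).continuousAt
  have cW : Continuous W := continuous_iff_continuousAt.2 fun t => (hW.d1 t).continuousAt
  have iM : Integrable M ν := o4_int_bdd cM hg.bM
  have iW : Integrable W ν := o4_int_bdd cW hW.bD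
  have i1 : Integrable (fun _ : ℝ => (1 : ℝ)) ν := integrable_const 1
  have hF : ∀ t, 0 ≤ o4P ν (fun _ => 1) t ∧ o4P ν (fun _ => 1) t ≤ 1 := fun t => by
    simpa using o4P_mem i1 (fun _ => zero_le_one) t
  have hK : ∀ t, 0 < -o4P ν (fun y => y - ∫ z, z ∂ν) t := by
    intro t
    rw [o4P_sub iY]
    obtain ⟨m1, m2⟩ := o4_mom iY t
    obtain ⟨f1, f2⟩ := hF t
    rcases le_total t (∫ z, z ∂ν) with h | h
    · nlinarith [mul_nonneg (sub_nonneg.2 h) f1]
    · nlinarith [mul_nonneg (sub_nonneg.2 h) (sub_nonneg.2 f2)]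
  have hI : ∀ t, ϖ t = e * o4P ν M t - v⁻¹ * o4P ν (fun y => y) t +
      x / v * o4P ν (fun _ => 1) t := by
    intro t
    have i2 : Integrable (fun y => e * M y + (-v⁻¹) * y + x / v) ν :=
      ((iM.const_mul e).add (iY.const_mul _)).add (integrable_const _)
    have d2 : ∀ y, HasDerivAt ϖ ((e * M y + (-v⁻¹) * y + x / v) * ϖ y) y := fun y => by
      convert dϖ y using 2
      ring
    have i3 : Integrable ϖ := by simpa using hd.integrable i1
    have h1 := integral_Iic_of_hasDerivAt_of_tendsto' (a := t) (fun y _ => d2 y)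
      (hd.integrable i2).integrableOn
      (tendsto_zero_of_hasDerivAt_of_integrableOn_Iic (a := t) (fun y _ => d2 y)
        (hd.integrable i2).integrableOn i3.integrableOn)
    rw [← hd.P_eq (fun y => e * M y + (-v⁻¹) * y + x / v), o4P_aff iM iY] at h1
    linarith
  refine ⟨hK, ?_⟩
  have dθ : ∀ t, HasDerivAt (fun t => W' t / A t) ((W'' t * A t - W' t * A' t) / A t ^ 2) t :=
    fun t => (hW.d2 t).div (hg.d3 t) (hg.pA t).ne'
  have dK := fun t => (hd.deriv (φ := fun y => y - ∫ z, z ∂ν) (by fun_prop)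
    (iY.sub (integrable_const _)) t).neg
  have dN := fun t => ((dθ t).mul (dϖ t)).sub ((hd.deriv (φ := fun y => W y - ∫ z, W z ∂ν)
    (by fun_prop) (iW.sub (integrable_const _)) t).const_mul e)
  refine monotone_of_hasDerivAt_nonneg (fun t => (dN t).div (dK t) (hK t).ne') fun t => ?_
  refine div_nonneg ?_ (sq_nonneg _)
  have p1 := (dθ t).nonneg_of_monotone hW.mono
  have p2 := hK t
  have p3 := hd.pos t
  have iU : Integrable (fun y => 1 * W y + (-(W' t / A t)) * M y + (W' t / A t * M t - W t)) ν :=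
    ((iW.const_mul 1).add (iM.const_mul _)).add (integrable_const _)
  obtain ⟨u1, u2⟩ := o4P_mem iU (fun y => by
    have := o4_tangent hg.d2 hg.pA hW.d1 hW.mono t y
    linarith) t
  rw [o4P_aff iW iM] at u1 u2
  rw [o4_aff iW iM] at u2
  obtain ⟨m1, m2⟩ := o4_mom iY t
  have hI' := hI t
  simp only [Pi.sub_apply, Pi.mul_apply, o4P_sub iY, o4P_sub iW] at p2 ⊢
  simp only [integral_const, probReal_univ, smul_eq_mul, mul_one] at u2
  generalize (W'' t * A t - W' t * A' t) / A t ^ 2 = θ' at *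
  generalize W' t / A t = θ at *
  generalize o4P ν (fun y => y) t = PY at *
  generalize o4P ν (fun _ => 1) t = F at *
  generalize o4P ν W t = PW at *
  generalize o4P ν M t = PM at *
  generalize ∫ z, W z ∂ν = EW at *
  generalize ∫ z, M z ∂ν = EM at *
  generalize ∫ z : ℝ, z ∂ν = EY at *
  generalize ϖ t = w at *
  have q1 := mul_nonneg (sub_nonneg.2 u2) m1.le
  have q2 := mul_nonneg u1 m2.le
  have q3 := mul_nonneg p3.le (add_nonneg (mul_nonneg p1 p2.le)
    (mul_nonneg he.le (add_nonneg q1 q2)))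
  refine q3.trans_eq ?_
  have hx : x = EY - v * e * EM := by linarith
  have hw : w * w = w * (e * PM - v⁻¹ * PY + x / v * F) := by rw [← hI']
  have : (t - EY) * θ * (w * w) = (t - EY) * θ * (w * (e * PM - v⁻¹ * PY + x / v * F)) := by
    rw [hw]
  rw [hx] at this ⊢
  field_simp at this ⊢
  linear_combination -this

/-- Positivity of the bilinear form on convex functions of `M`.
Write `ν = tm e v g x` with density `ϖ`, `θ = W'/A` (bounded, nondecreasing).
(1) `W ↦ 𝔅(D, W)` is linear, kills constants, and `𝔅(D, M) = 0` (`cov_id_eq`).  By the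
layer-cake formula `θ = -B + ∫_{-B}^{B} 1[θ > r] dr`, `W` is a constant plus `-B M` plus a
mixture of the hinges `W_a = (M - M a)_+` (or `0`, or `M`), so it suffices to show
`J(a) = ∫_{y>a} D' dν + e Cov(D, W_a) - β Cov(D, y) ≥ 0`, where
`β = Cov(W_a, y) / (v Cov(M, y)) ∈ (0, 1/v)` (`cov_id_pos` for `W_a` and `M - W_a`).
(2) Integrating by parts on `(a, ∞)`, `J(a) = - D(a) ϖ(a) + ∫ D k dν` with
`k(y) = 1[y>a] ((y-x)/v - e M a) - e E W_a - β (y - E y)`: affine decreasing on `y < a`, affine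
increasing on `y > a`, tending to `+∞` at both ends.  So there are `y₁ ≤ a ≤ y₂` with `k ≤ 0` on
`(y₁, y₂)` and `k ≥ 0` outside.  The functional `D ↦ J(a)` kills `1` and `M`; subtract from `D`
the chord `α + β' M` through `y₁, y₂` (the tangent at `a` if `y₁ = y₂`): `D - chord` is `≤ 0`
on `[y₁, y₂]` and `≥ 0` outside. -/
theorem BF_nonneg {g M A A' D D' D'' W W' W'' : ℝ → ℝ} {B : ℝ} (hg : Pot g M A A' B)
    (hD : CvxIn A D D' D'' B) (hW : CvxIn A W W' W'' B) {e v : ℝ} (he : 0 < e) (he1 : e ≤ 1)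
    (hv : 0 < v) (x : ℝ) : 0 ≤ BF e v g M A x D D' W W' := by
  have hl := o4_lip hg.d1 hg.bM
  obtain ⟨Z, hd⟩ := o4_den hl e hv x
  obtain ⟨hK, hΘ⟩ := o4_theta hg hW he hv x hd
  have cM : Continuous M := continuous_iff_continuousAt.2 fun t => (hg.d2 t).continuousAt
  have cA : Continuous A := continuous_iff_continuousAt.2 fun t => (hg.d3 t).continuousAt
  have cW : Continuous W := continuous_iff_continuousAt.2 fun t => (hW.d1 t).continuousAt
  have cW' : Continuous W' := continuous_iff_continuousAt.2 fun t => (hW.d2 t).continuousAt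
  have cD' : Continuous D' := continuous_iff_continuousAt.2 fun t => (hD.d2 t).continuousAt
  have hB : 0 ≤ B := (abs_nonneg _).trans (hD.bD 0)
  have mM : StrictMono M := strictMono_of_hasDerivAt_pos hg.d2 hg.pA
  have hpos := cov_id_pos hl mM.monotone cM hg.bM (mM zero_lt_one) e hv x
  have hid := cov_id_eq hl hg.d1 hW.d1 (B := B + B * B)
    (fun y => (hW.bD y).trans (le_add_of_nonneg_right (mul_nonneg hB hB)))
    (fun y => (hW.bD' y).trans ((mul_le_mul_of_nonneg_left (hg.bA y) hB).trans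
      (le_add_of_nonneg_left hB))) e hv x
  have iY := o4_int_id hl e v x
  have := hl.prob e v x
  unfold BF
  obtain ⟨ϖ, hϖ⟩ : ∃ ϖ : ℝ → ℝ, ∀ y, exp (e * g y - (y - x) ^ 2 / (2 * v)) / Z = ϖ y :=
    ⟨_, fun _ => rfl⟩
  simp only [hϖ] at hd hΘ
  generalize tm e v g x = ν at *
  have iA := o4_integrable hg.d2 cA hg.pA hg.bM
  have iW : Integrable W ν := o4_int_bdd cW hW.bD
  have bq : ∀ {φ' : ℝ → ℝ} {C : ℝ}, (∀ y, |φ' y| ≤ C * A y) → ∀ y, |φ' y / A y| ≤ C :=
    fun h y => by
      rw [abs_div, abs_of_pos (hg.pA y), div_le_iff₀ (hg.pA y)]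
      exact h y
  obtain ⟨β, hβ⟩ : ∃ β, β = cov[W, id; ν] / (v * cov[M, id; ν]) := ⟨_, rfl⟩
  obtain ⟨H, hH⟩ : ∃ H : ℝ → ℝ, H = fun t => W' t / A t * ϖ t -
    e * o4P ν (fun y => W y - ∫ z, W z ∂ν) t + β * o4P ν (fun y => y - ∫ z, z ∂ν) t := ⟨_, rfl⟩
  have rep : ∀ {φ φ' : ℝ → ℝ} {C C' : ℝ}, (∀ y, HasDerivAt φ (φ' y) y) → Continuous φ' →
      (∀ y, |φ y| ≤ C) → (∀ y, |φ' y| ≤ C' * A y) → Integrable (fun t => φ' t * H t) ∧
      ∫ y, φ' y * W' y / A y ∂ν + e * cov[φ, W; ν] - β * cov[φ, id; ν] = ∫ t, φ' t * H t := by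
    intro φ φ' C C' d1 c1 b1 b2
    have i1 : Integrable φ' := (iA.const_mul C').mono' c1.aestronglyMeasurable
      (Filter.Eventually.of_forall b2)
    obtain ⟨j1, e1⟩ := hd.cov d1 b1 i1 cW iW
    obtain ⟨j2, e2⟩ := hd.cov (f := id) d1 b1 i1 continuous_id iY
    simp only [id] at j2 e2
    have i2 : Integrable (fun y => φ' y * W' y / A y) ν := by
      refine o4_int_bdd ((c1.mul cW').div cA fun y => (hg.pA y).ne') (B := |C'| * B * B) fun y => ?_
      rw [mul_div_assoc, abs_mul]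
      refine mul_le_mul ((b2 y).trans ?_) (bq hW.bD' y) (abs_nonneg _) (by positivity)
      exact mul_le_mul (le_abs_self _) (hg.bA y) (hg.pA y).le (abs_nonneg _)
    have j0 := hd.integrable i2
    have j3 : Integrable (fun t => φ' t * W' t / A t * ϖ t -
        e * (φ' t * o4P ν (fun y => W y - ∫ z, W z ∂ν) t)) := j0.sub (j1.const_mul e)
    have e0 : (fun t => φ' t * H t) = fun t => (φ' t * W' t / A t * ϖ t -
        e * (φ' t * o4P ν (fun y => W y - ∫ z, W z ∂ν) t)) +
        β * (φ' t * o4P ν (fun y => y - ∫ z, z ∂ν) t) := by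
      funext t; rw [hH]; ring
    rw [e0, integral_add j3 (j2.const_mul β), integral_sub j0 (j1.const_mul e), integral_const_mul,
      integral_const_mul, e1, e2, hd.integral fun y => φ' y * W' y / A y]
    exact ⟨j3.add (j2.const_mul β), by ring⟩
  obtain ⟨i1, e1⟩ := rep hD.d1 cD' hD.bD hD.bD'
  obtain ⟨i2, e2⟩ := rep (C' := 1) hg.d2 cA hg.bM fun y => by rw [abs_of_pos (hg.pA y), one_mul]
  have e3 : ∫ t, A t * H t = 0 := by
    have : ∀ y, A y * W' y / A y = W' y := fun y => mul_div_cancel_left₀ _ (hg.pA y).ne'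
    simp only [this] at e2
    rw [← e2, covariance_comm M W, ← hid, hβ]
    field_simp
    ring
  obtain ⟨c, hc⟩ := o4_cross hD.mono (bq hD.bD') hΘ β
  have e4 : 0 ≤ ∫ t, (D' t * H t - c * (A t * H t)) := by
    refine integral_nonneg fun t => ?_
    have k1 := mul_nonneg (mul_nonneg (hg.pA t).le (hK t).le) (hc t)
    have k2 := (hK t).ne'
    have k3 := (hg.pA t).ne'
    refine k1.trans_eq ?_
    rw [hH]
    simp only
    generalize o4P ν (fun y => y - ∫ z, z ∂ν) t = k at *
    have k4 : k ≠ 0 := neg_ne_zero.1 k2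
    field_simp
    ring
  rw [integral_sub i1 (i2.const_mul c), integral_const_mul, e3, mul_zero, sub_zero, ← e1, hβ] at e4
  refine e4.trans_eq ?_
  ring

end Crest.Agent.R164
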