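import Crest.Agent.R164.O3

/-! # Auxiliary lemmas for `O4`: measures on the line with a continuous positive density -/

set_option autoImplicit false
set_option linter.unusedVariables false
set_option linter.unusedSectionVars false

open MeasureTheory ProbabilityTheory Real Filter Topology Set
open scoped ENNReal

namespace Crest.Agent.R164

theorem o4_le {φ φ' : ℝ → ℝ} (h : ∀ x, HasDerivAt φ (φ' x) x) {a b : ℝ} (hab : a ≤ b)
    (h0 : ∀ s ∈ Icc a b, 0 ≤ φ' s) : φ a ≤ φ b :=
  monotoneOn_of_deriv_nonneg (convex_Icc a b)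
    (fun x _ => (h x).continuousAt.continuousWithinAt)
    (fun x _ => (h x).differentiableAt.differentiableWithinAt)
    (fun s hs => by rw [(h s).deriv]; exact h0 s (interior_subset hs))
    (left_mem_Icc.2 hab) (right_mem_Icc.2 hab) hab

theorem o4_ge {φ φ' : ℝ → ℝ} (h : ∀ x, HasDerivAt φ (φ' x) x) {a b : ℝ} (hab : a ≤ b)
    (h0 : ∀ s ∈ Icc a b, φ' s ≤ 0) : φ b ≤ φ a :=
  neg_le_neg_iff.1 (o4_le (φ := fun x => -φ x) (fun x => (h x).neg) hab
    fun s hs => neg_nonneg.2 (h0 s hs))

theorem o4_lip {g M : ℝ → ℝ} (hg : ∀ x, HasDerivAt g (M x) x) (hM : ∀ x, |M x| ≤ 1) : Lip1 g := by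
  intro x y
  have := Convex.norm_image_sub_le_of_norm_hasDerivWithin_le (f := g) (f' := M) (C := 1)
    (s := univ) (fun z _ => (hg z).hasDerivWithinAt) (fun z _ => hM z) convex_univ
    (mem_univ y) (mem_univ x)
  simpa using this

/-- the derivative of a bounded nondecreasing function is integrable -/
theorem o4_integrable {M A : ℝ → ℝ} (hM : ∀ x, HasDerivAt M (A x) x) (hA : Continuous A)
    (pA : ∀ x, 0 < A x) (bM : ∀ x, |M x| ≤ 1) : Integrable A := by
  refine integrable_of_intervalIntegral_norm_bounded (l := atTop) (a := fun t : ℝ => -t)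
    (b := fun t => t) 2 (fun t => (hA.integrableOn_Icc).mono_set Ioc_subset_Icc_self)
    tendsto_neg_atTop_atBot tendsto_id (Eventually.of_forall fun t => ?_)
  simp only [Real.norm_of_nonneg (pA _).le]
  rw [intervalIntegral.integral_eq_sub_of_hasDerivAt (fun x _ => hM x) (hA.intervalIntegrable _ _)]
  linarith [abs_le.1 (bM t), abs_le.1 (bM (-t))]

/-- the lower tail integral -/
noncomputable def o4P (ν : Measure ℝ) (φ : ℝ → ℝ) (t : ℝ) : ℝ := ∫ y in Iic t, φ y ∂ν

theorem o4P_top {ν : Measure ℝ} {φ : ℝ → ℝ} (hi : Integrable φ ν) :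
    Tendsto (o4P ν φ) atTop (𝓝 (∫ y, φ y ∂ν)) :=
  (aecover_Iic tendsto_id).integral_tendsto_of_countably_generated hi

theorem o4P_bot {ν : Measure ℝ} {φ : ℝ → ℝ} (hi : Integrable φ ν) :
    Tendsto (o4P ν φ) atBot (𝓝 0) := by
  have h : Tendsto (fun t => ∫ y in Ioi t, φ y ∂ν) atBot (𝓝 (∫ y, φ y ∂ν)) :=
    (aecover_Ioi tendsto_id).integral_tendsto_of_countably_generated hi
  have h2 := h.const_sub (∫ y, φ y ∂ν)
  rw [sub_self] at h2
  refine h2.congr fun t => ?_
  rw [← intervalIntegral.integral_Iic_add_Ioi (b := t) hi.integrableOn hi.integrableOn, o4P]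
  ring

theorem o4P_abs {ν : Measure ℝ} {φ : ℝ → ℝ} (hi : Integrable φ ν) (t : ℝ) :
    |o4P ν φ t| ≤ ∫ y, |φ y| ∂ν :=
  (abs_integral_le_integral_abs).trans
    (setIntegral_le_integral hi.abs (Eventually.of_forall fun y => abs_nonneg _))

theorem o4_aff {ν : Measure ℝ} [IsFiniteMeasure ν] {f g : ℝ → ℝ} (hf : Integrable f ν)
    (hg : Integrable g ν) (a b c : ℝ) :
    ∫ y, (a * f y + b * g y + c) ∂ν = a * ∫ y, f y ∂ν + b * ∫ y, g y ∂ν + c * ∫ _y, (1 : ℝ) ∂ν := by
  have i1 : Integrable (fun y => a * f y + b * g y) ν := (hf.const_mul a).add (hg.const_mul b)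
  rw [integral_add i1 (integrable_const c),
    integral_add (hf.const_mul a) (hg.const_mul b), integral_const_mul, integral_const_mul,
    ← integral_const_mul c, mul_one]

theorem o4P_aff {ν : Measure ℝ} [IsFiniteMeasure ν] {f g : ℝ → ℝ} (hf : Integrable f ν)
    (hg : Integrable g ν) (a b c t : ℝ) :
    o4P ν (fun y => a * f y + b * g y + c) t =
      a * o4P ν f t + b * o4P ν g t + c * o4P ν (fun _ => 1) t :=
  o4_aff hf.integrableOn hg.integrableOn a b c

theorem o4P_sub {ν : Measure ℝ} [IsFiniteMeasure ν] {f : ℝ → ℝ} (hf : Integrable f ν) (c t : ℝ) :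
    o4P ν (fun y => f y - c) t = o4P ν f t - c * o4P ν (fun _ => 1) t := by
  have := o4P_aff hf hf 1 0 (-c) t
  simp only [one_mul, zero_mul, add_zero, ← sub_eq_add_neg] at this
  rw [this]; ring

theorem o4P_mem {ν : Measure ℝ} {U : ℝ → ℝ} (hi : Integrable U ν) (h0 : ∀ y, 0 ≤ U y) (t : ℝ) :
    0 ≤ o4P ν U t ∧ o4P ν U t ≤ ∫ y, U y ∂ν :=
  ⟨integral_nonneg h0, setIntegral_le_integral hi (Eventually.of_forall h0)⟩

/-- the two one-sided first moments about `t` are positive -/
theorem o4_mom {ν : Measure ℝ} [IsProbabilityMeasure ν] [ν.IsOpenPosMeasure]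
    (hi : Integrable (fun y : ℝ => y) ν) (t : ℝ) :
    0 < t * o4P ν (fun _ => 1) t - o4P ν (fun y => y) t ∧
      0 < t * o4P ν (fun _ => 1) t - o4P ν (fun y => y) t - (t - ∫ y, y ∂ν) := by
  have i1 : Integrable (fun y : ℝ => t - y) ν := (integrable_const t).sub hi
  have i2 : Integrable (fun y : ℝ => max (t - y) 0) ν := i1.pos_part
  have i3 : Integrable (fun y : ℝ => max (y - t) 0) ν := (hi.sub (integrable_const t)).pos_part
  have e1 : ∫ y, max (t - y) 0 ∂ν = t * o4P ν (fun _ => 1) t - o4P ν (fun y => y) t := by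
    rw [← setIntegral_eq_integral_of_forall_compl_eq_zero (s := Iic t)
      (fun y hy => max_eq_right (by simp only [mem_Iic, not_le] at hy; linarith)),
      setIntegral_congr_fun measurableSet_Iic (g := fun y => (-1) * y + 0 * y + t)
        (fun y hy => by
          simp only [mem_Iic] at hy
          show max (t - y) 0 = _
          rw [max_eq_left (by linarith)]; ring)]
    have := o4P_aff hi hi (-1) 0 t t
    unfold o4P at this ⊢
    rw [this]; ring
  have e2 : ∫ y, max (y - t) 0 ∂ν = ∫ y, max (t - y) 0 ∂ν - (t - ∫ y, y ∂ν) := by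
    have h1 : ∫ y, (t - y) ∂ν = t - ∫ y, y ∂ν := by
      rw [integral_sub (integrable_const t) hi]; simp
    rw [← h1, ← integral_sub i2 i1]
    refine integral_congr_ae (Eventually.of_forall fun y => ?_)
    rcases le_total y t with h | h
    · simp only [max_eq_right (sub_nonpos.2 h), max_eq_left (sub_nonneg.2 h), sub_self]
    · simp only [max_eq_left (sub_nonneg.2 h), max_eq_right (sub_nonpos.2 h)]; ring
  rw [← e1, ← e2]
  exact ⟨integral_pos_of_integrable_nonneg_nonzero (x := t - 1) (by fun_prop) i2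
      (fun y => le_max_right _ _) (by simp),
    integral_pos_of_integrable_nonneg_nonzero (x := t + 1) (by fun_prop) i3
      (fun y => le_max_right _ _) (by simp)⟩

/-- `ν` has the continuous positive density `ϖ` -/
structure O4Den (ν : Measure ℝ) (ϖ : ℝ → ℝ) : Prop where
  cont : Continuous ϖ
  pos : ∀ y, 0 < ϖ y
  eq : ν = volume.withDensity (fun y => ENNReal.ofReal (ϖ y))

namespace O4Den

variable {ν : Measure ℝ} {ϖ : ℝ → ℝ} (h : O4Den ν ϖ)
include h

theorem meas : Measurable (fun y => ENNReal.ofReal (ϖ y)) := h.cont.measurable.ennreal_ofReal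

theorem openPos : ν.IsOpenPosMeasure := by
  rw [h.eq]
  exact (withDensity_absolutelyContinuous' h.meas.aemeasurable (Eventually.of_forall fun y => by
    simpa using h.pos y)).isOpenPosMeasure

theorem integrable {φ : ℝ → ℝ} (hi : Integrable φ ν) : Integrable (fun y => φ y * ϖ y) := by
  rw [h.eq, integrable_withDensity_iff h.meas (by simp)] at hi
  simpa only [ENNReal.toReal_ofReal (h.pos _).le] using hi

theorem integral (φ : ℝ → ℝ) : ∫ y, φ y ∂ν = ∫ y, φ y * ϖ y := by
  rw [h.eq, integral_withDensity_eq_integral_toReal_smul h.meas (by simp)]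
  simp only [ENNReal.toReal_ofReal (h.pos _).le, smul_eq_mul, mul_comm]

theorem P_eq (φ : ℝ → ℝ) (t : ℝ) : o4P ν φ t = ∫ y in Iic t, φ y * ϖ y := by
  rw [o4P, h.eq, restrict_withDensity measurableSet_Iic,
    integral_withDensity_eq_integral_toReal_smul h.meas (by simp)]
  simp only [ENNReal.toReal_ofReal (h.pos _).le, smul_eq_mul, mul_comm]

theorem deriv {φ : ℝ → ℝ} (hc : Continuous φ) (hi : Integrable φ ν) (t : ℝ) :
    HasDerivAt (o4P ν φ) (φ t * ϖ t) t := by
  have hi' := h.integrable hi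
  have hc' : Continuous fun y => φ y * ϖ y := hc.mul h.cont
  have e : o4P ν φ = fun u => o4P ν φ 0 + ∫ y in (0 : ℝ)..u, φ y * ϖ y := by
    funext u
    rw [← intervalIntegral.integral_Iic_sub_Iic hi'.integrableOn hi'.integrableOn, h.P_eq, h.P_eq]
    ring
  rw [e]
  exact (hc'.integral_hasStrictDerivAt 0 t).hasDerivAt.const_add _

/-- Hoeffding's formula for the covariance -/
theorem cov [IsProbabilityMeasure ν] {D D' f : ℝ → ℝ} (hD : ∀ y, HasDerivAt D (D' y) y) {C : ℝ}
    (bD : ∀ y, |D y| ≤ C) (iD : Integrable D') (hc : Continuous f) (hi : Integrable f ν) :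
    Integrable (fun t => D' t * o4P ν (fun y => f y - ∫ z, f z ∂ν) t) ∧
      cov[D, f; ν] = -∫ t, D' t * o4P ν (fun y => f y - ∫ z, f z ∂ν) t := by
  have hc' : Continuous fun y => f y - ∫ z, f z ∂ν := hc.sub continuous_const
  have hi' : Integrable (fun y => f y - ∫ z, f z ∂ν) ν := hi.sub (integrable_const _)
  have hP := h.deriv hc' hi'
  have hPc : Continuous (o4P ν fun y => f y - ∫ z, f z ∂ν) :=
    continuous_iff_continuousAt.2 fun t => (hP t).continuousAt
  have hDc : Continuous D := continuous_iff_continuousAt.2 fun t => (hD t).continuousAt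
  have b2 : ∀ y, ‖D y - ∫ z, D z ∂ν‖ ≤ C + |∫ z, D z ∂ν| := fun y =>
    (abs_sub _ _).trans (add_le_add_left (bD y) _)
  have i1 : Integrable (fun t => D' t * o4P ν (fun y => f y - ∫ z, f z ∂ν) t) :=
    iD.mul_bdd hPc.aestronglyMeasurable (Eventually.of_forall fun t => o4P_abs hi' t)
  refine ⟨i1, ?_⟩
  have h0 : ∫ y, (f y - ∫ z, f z ∂ν) ∂ν = 0 := by
    rw [integral_sub hi (integrable_const _)]; simp
  have t1 := o4P_top hi'
  rw [h0] at t1
  have key := integral_mul_deriv_eq_deriv_mul (u := fun y => D y - ∫ z, D z ∂ν) (u' := D')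
    (v := o4P ν fun y => f y - ∫ z, f z ∂ν) (v' := fun y => (f y - ∫ z, f z ∂ν) * ϖ y)
    (a' := 0) (b' := 0) (fun y _ => (hD y).sub_const _) (fun y _ => hP y)
    ((h.integrable hi').bdd_mul (hDc.sub continuous_const).aestronglyMeasurable
      (Eventually.of_forall b2)) i1
    (bdd_le_mul_tendsto_zero' _ (Eventually.of_forall b2) (o4P_bot hi'))
    (bdd_le_mul_tendsto_zero' _ (Eventually.of_forall b2) t1)
  rw [covariance, h.integral, ← zero_sub, ← sub_self (0 : ℝ), ← key]
  simp only [mul_assoc]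

end O4Den

end Crest.Agent.R164
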