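import Crest.Agent.R164.O4

/-! # One-site recursion: regularity and convexity in the magnetisation -/

set_option autoImplicit false
set_option linter.unusedVariables false
set_option linter.unusedSectionVars false

open MeasureTheory ProbabilityTheory Real Crest.ProbabilityR.InvariantGlass
open scoped ENNReal

namespace Crest.Agent.R164

/-- mean square of the magnetisation after running the `k` outermost levels -/
noncomputable def DL : List (ℝ × ℝ) → ℕ → ℝ → ℝ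
  | L, 0 => fun x => ML L x ^ 2
  | [], _ + 1 => fun x => tanh x ^ 2
  | q :: L, k + 1 => fun x => ∫ y, DL L k y ∂(tm q.1 q.2 (fL L) x)

section aux

variable {ν : Measure ℝ} [IsProbabilityMeasure ν]

theorem o5_int_mul {φ Y : ℝ → ℝ} (hφ : Measurable φ) (hb : ∀ y, |φ y| ≤ 1) (hY : Integrable Y ν) :
    Integrable (fun y => φ y * Y y) ν :=
  hY.bdd_mul (c := 1) hφ.aestronglyMeasurable (Filter.Eventually.of_forall hb)

theorem o5_int {φ : ℝ → ℝ} (hφ : Measurable φ) (hb : ∀ y, |φ y| ≤ 1) : Integrable φ ν := by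
  simpa using o5_int_mul (ν := ν) hφ hb (integrable_const 1)

theorem o5_abs_int {φ : ℝ → ℝ} (hb : ∀ y, |φ y| ≤ 1) : |∫ y, φ y ∂ν| ≤ 1 := by
  simpa using norm_integral_le_of_norm_le_const (μ := ν) (f := φ) (C := 1)
    (Filter.Eventually.of_forall hb)

omit [IsProbabilityMeasure ν] in
theorem o5_lin3 {F f g h : ℝ → ℝ} (a b : ℝ) (hf : Integrable f ν) (hg : Integrable g ν)
    (hh : Integrable h ν) (e : ∀ y, F y = f y + a * g y + b * h y) :
    Integrable F ν ∧ ∫ y, F y ∂ν = ∫ y, f y ∂ν + a * ∫ y, g y ∂ν + b * ∫ y, h y ∂ν := by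
  have i1 : Integrable (fun y => f y + a * g y) ν := hf.add (hg.const_mul a)
  rw [funext e]
  refine ⟨i1.add (hh.const_mul b), ?_⟩
  rw [integral_add i1 (hh.const_mul b), integral_add hf (hg.const_mul a), integral_const_mul,
    integral_const_mul]

theorem o5_cov_eq {φ Y : ℝ → ℝ} (hφ : Integrable φ ν) (hY : Integrable Y ν)
    (h : Integrable (fun y => φ y * Y y) ν) :
    cov[φ, Y; ν] = ∫ y, φ y * Y y ∂ν - (∫ y, φ y ∂ν) * ∫ y, Y y ∂ν := by
  unfold covariance
  have i1 : Integrable (fun y => Y y - ∫ y, Y y ∂ν) ν := hY.sub (integrable_const _)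
  rw [(o5_lin3 (-∫ y, Y y ∂ν) (-∫ y, φ y ∂ν) h hφ i1 fun y => by ring).2,
    integral_sub hY (integrable_const _)]
  simp only [integral_const, probReal_univ, smul_eq_mul, one_mul]
  ring

theorem o5_cov_bd {φ Y Z : ℝ → ℝ} (hb : ∀ y, |φ y| ≤ 1) (hZ : Integrable Z ν)
    (h : ∀ y, 2 * |Y y - ∫ y, Y y ∂ν| ≤ Z y) : |cov[φ, Y; ν]| ≤ ∫ y, Z y ∂ν := by
  unfold covariance
  rw [← Real.norm_eq_abs]
  refine norm_integral_le_of_norm_le hZ (Filter.Eventually.of_forall fun y => ?_)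
  rw [norm_mul, Real.norm_eq_abs, Real.norm_eq_abs]
  refine le_trans ?_ (h y)
  gcongr
  have := abs_sub (φ y) (∫ y, φ y ∂ν)
  linarith [hb y, o5_abs_int (ν := ν) hb]

theorem o5_int_id (h2 : Integrable (fun y => y ^ 2) ν) : Integrable (fun y => y) ν := by
  refine (h2.add (integrable_const 1)).mono' measurable_id.aestronglyMeasurable
    (Filter.Eventually.of_forall fun y => ?_)
  simp only [Pi.add_apply, Real.norm_eq_abs]
  nlinarith [sq_nonneg (|y| - 1), sq_abs y, abs_nonneg y]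

theorem o5_int_sq (h2 : Integrable (fun y => y ^ 2) ν) (c : ℝ) :
    Integrable (fun y => (y - c) ^ 2) ν :=
  (o5_lin3 (-(2 * c)) (c ^ 2) h2 (o5_int_id h2) (integrable_const 1) fun y => by ring).1

theorem o5_integral_sq (h2 : Integrable (fun y => y ^ 2) ν) (c : ℝ) :
    ∫ y, (y - c) ^ 2 ∂ν = ∫ y, y ^ 2 ∂ν - 2 * c * ∫ y, y ∂ν + c ^ 2 := by
  rw [(o5_lin3 (-(2 * c)) (c ^ 2) h2 (o5_int_id h2) (integrable_const 1) fun y => by ring).2]
  simp only [integral_const, probReal_univ, smul_eq_mul, one_mul]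
  ring

theorem o5_cov_id {φ : ℝ → ℝ} (h2 : Integrable (fun y => y ^ 2) ν) (hφ : Measurable φ)
    (hb : ∀ y, |φ y| ≤ 1) :
    cov[φ, id; ν] = ∫ y, φ y * y ∂ν - (∫ y, φ y ∂ν) * ∫ y, y ∂ν :=
  o5_cov_eq (o5_int hφ hb) (o5_int_id h2) (o5_int_mul hφ hb (o5_int_id h2))

theorem o5_cov_sq {φ : ℝ → ℝ} (h2 : Integrable (fun y => y ^ 2) ν) (hφ : Measurable φ)
    (hb : ∀ y, |φ y| ≤ 1) :
    cov[φ, fun y => (y - ∫ z, z ∂ν) ^ 2; ν] = ∫ y, φ y * y ^ 2 ∂ν -
      2 * (∫ y, y ∂ν) * ∫ y, φ y * y ∂ν +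
      (∫ y, φ y ∂ν) * (2 * (∫ y, y ∂ν) ^ 2 - ∫ y, y ^ 2 ∂ν) := by
  rw [o5_cov_eq (o5_int hφ hb) (o5_int_sq h2 _) (o5_int_mul hφ hb (o5_int_sq h2 _)),
    o5_integral_sq h2]
  rw [(o5_lin3 (-(2 * ∫ z, z ∂ν)) ((∫ z, z ∂ν) ^ 2) (o5_int_mul hφ hb h2)
    (o5_int_mul hφ hb (o5_int_id h2)) (o5_int hφ hb) fun y => by ring).2]
  ring

theorem o5_memLp {φ : ℝ → ℝ} (hφ : Measurable φ) {C : ℝ} (hb : ∀ y, |φ y| ≤ C) : MemLp φ 2 ν :=
  MemLp.of_bound hφ.aestronglyMeasurable C (Filter.Eventually.of_forall hb)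

/-- `|Cov(D, y)| ≤ 2 Cov(M, y)` if `2 M ± D` are nondecreasing -/
theorem o5_two {M D : ℝ → ℝ} (h2 : Integrable (fun y => y ^ 2) ν) (hM : Measurable M)
    (bM : ∀ y, |M y| ≤ 1) (hD : Measurable D) (bD : ∀ y, |D y| ≤ 1)
    (m1 : Monotone fun y => 2 * M y + D y) (m2 : Monotone fun y => 2 * M y - D y) :
    |cov[D, id; ν]| ≤ 2 * cov[M, id; ν] := by
  have hid : MemLp (id : ℝ → ℝ) 2 ν :=
    (memLp_two_iff_integrable_sq measurable_id.aestronglyMeasurable).2 h2
  have lM := o5_memLp (ν := ν) hM bM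
  have lD := o5_memLp (ν := ν) hD bD
  have a1 := cov_nonneg_of_mono ν m1 monotone_id ((lM.const_mul 2).add lD) hid
  have a2 := cov_nonneg_of_mono ν m2 monotone_id ((lM.const_mul 2).sub lD) hid
  have e1 : cov[fun y => 2 * M y + D y, id; ν] = 2 * cov[M, id; ν] + cov[D, id; ν] := by
    rw [← covariance_const_mul_left]
    exact covariance_add_left (lM.const_mul 2) lD hid
  have e2 : cov[fun y => 2 * M y - D y, id; ν] = 2 * cov[M, id; ν] - cov[D, id; ν] := by
    rw [← covariance_const_mul_left]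
    exact covariance_sub_left (lM.const_mul 2) lD hid
  rw [abs_le]
  constructor <;> linarith

/-- the sign of the Wronskian -/
theorem o5_wr {M D : ℝ → ℝ} (h2 : Integrable (fun y => y ^ 2) ν) (hM : Measurable M)
    (bM : ∀ y, |M y| ≤ 1) (hD : Measurable D) (bD : ∀ y, |D y| ≤ 1) (hp : 0 < cov[M, id; ν])
    (hc : ∀ α β : ℝ, Set.OrdConnected {y | D y - α - β * M y < 0}) :
    cov[D, id; ν] * cov[M, fun y => (y - ∫ z, z ∂ν) ^ 2; ν] ≤
      cov[D, fun y => (y - ∫ z, z ∂ν) ^ 2; ν] * cov[M, id; ν] := by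
  obtain ⟨β, hβ⟩ : ∃ β, cov[D, id; ν] = β * cov[M, id; ν] :=
    ⟨cov[D, id; ν] / cov[M, id; ν], by field_simp⟩
  set α := (∫ y, D y ∂ν) - β * ∫ y, M y ∂ν with hα
  have lin : ∀ Y : ℝ → ℝ, Integrable Y ν →
      Integrable (fun y => (D y - α - β * M y) * Y y) ν ∧
      ∫ y, (D y - α - β * M y) * Y y ∂ν =
        ∫ y, D y * Y y ∂ν - α * ∫ y, Y y ∂ν - β * ∫ y, M y * Y y ∂ν := by
    intro Y hY
    obtain ⟨a1, a2⟩ := o5_lin3 (F := fun y => (D y - α - β * M y) * Y y) (-α) (-β)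
      (o5_int_mul hD bD hY) hY (o5_int_mul hM bM hY) fun y => by ring
    exact ⟨a1, by rw [a2]; ring⟩
  have l0 := (lin (fun _ => 1) (integrable_const _)).2
  have l1 := (lin (fun y => y) (o5_int_id h2)).2
  have l2 := (lin (fun y => y ^ 2) h2).2
  simp only [mul_one, integral_const, probReal_univ, smul_eq_mul] at l0
  have hβ' := hβ
  rw [o5_cov_id h2 hD bD, o5_cov_id h2 hM bM] at hβ'
  have key := tp3 ν (ψ := fun y => D y - α - β * M y) (by fun_prop)
    (lin (fun y => 1 + y ^ 2) ((integrable_const _).add h2)).1 (hc α β)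
    (by rw [l0, hα]; ring) (by rw [l1, hα]; linarith)
  rw [l2] at key
  rw [hβ, mul_right_comm]
  refine mul_le_mul_of_nonneg_right ?_ hp.le
  rw [o5_cov_sq h2 hD bD, o5_cov_sq h2 hM bM]
  have e : ∫ y, D y * y ∂ν = β * (∫ y, M y * y ∂ν - (∫ y, M y ∂ν) * ∫ y, y ∂ν) +
      (∫ y, D y ∂ν) * ∫ y, y ∂ν := by linarith
  rw [e]
  rw [hα] at key
  nlinarith

end aux

theorem o5_int_sq_tm {g : ℝ → ℝ} (h : Lip1 g) (e v x : ℝ) :
    Integrable (fun y => y ^ 2) (tm e v g x) := by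
  refine h.integrable_tm (C := 2) (by fun_prop) (fun y => ?_) e v x
  rw [abs_pow]
  have := Real.add_one_le_exp |y|
  have e : exp (2 * |y|) = exp |y| ^ 2 := by rw [← Real.exp_nat_mul]; norm_num
  rw [e]
  nlinarith [abs_nonneg y]

/-- bounds for the two derivatives of a tilted average -/
theorem o5_bd {g M φ : ℝ → ℝ} (h : Lip1 g) (hg : ∀ y, HasDerivAt g (M y) y)
    (hb : ∀ y, |φ y| ≤ 1) {e v vm : ℝ} (he : 0 < e) (he1 : e ≤ 1) (hvm : 0 < vm) (hv : vm ≤ v)
    (x : ℝ) : |cov[φ, id; tm e v g x] / v| ≤ 4 * (2 / vm + 1) ∧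
      |cov[φ, fun y => (y - ∫ z, z ∂(tm e v g x)) ^ 2; tm e v g x] / v ^ 2| ≤ 4 * (2 / vm + 1) := by
  have hv0 : 0 < v := hvm.trans_le hv
  have := h.prob e v x
  have h2 := o5_int_sq_tm h e v x
  have hs := tm_second_moment h hg he.le he1 hv0 x
  generalize tm e v g x = ν at *
  have hV : ∫ y, (y - ∫ z, z ∂ν) ^ 2 ∂ν ≤ 2 * v + v ^ 2 := by
    refine le_trans ?_ hs
    rw [o5_integral_sq h2, o5_integral_sq h2]
    nlinarith [sq_nonneg (x - ∫ z, z ∂ν)]
  have hV0 : 0 ≤ ∫ y, (y - ∫ z, z ∂ν) ^ 2 ∂ν := integral_nonneg fun y => sq_nonneg _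
  have hiv : 2 / v ≤ 2 / vm := by gcongr
  have i1 := o5_int_sq h2 (∫ z, z ∂ν)
  constructor
  · have k1 : ∀ t : ℝ, 2 * |t| ≤ v + t ^ 2 / v := fun t => by
      rw [← sq_abs, ← sub_le_iff_le_add', le_div_iff₀ hv0]
      nlinarith [sq_nonneg (|t| - v)]
    have := o5_cov_bd (ν := ν) (Y := id) (Z := fun y => v + (y - ∫ z, z ∂ν) ^ 2 / v) hb
      ((integrable_const _).add (i1.div_const _)) (fun y => k1 _)
    rw [integral_add (integrable_const _) (i1.div_const _), integral_div] at this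
    simp only [integral_const, probReal_univ, smul_eq_mul, one_mul] at this
    have a1 : (∫ y, (y - ∫ z, z ∂ν) ^ 2 ∂ν) / v ≤ 2 + v := by
      rw [div_le_iff₀ hv0]; linarith
    rw [abs_div, abs_of_pos hv0, div_le_iff₀ hv0]
    have a2 : 2 / v * v = 2 := by field_simp
    nlinarith
  · have := o5_cov_bd (ν := ν) (Y := fun y => (y - ∫ z, z ∂ν) ^ 2)
      (Z := fun y => 2 * (y - ∫ z, z ∂ν) ^ 2 + 2 * ∫ y, (y - ∫ z, z ∂ν) ^ 2 ∂ν) hb
      ((i1.const_mul _).add (integrable_const _)) (fun y => by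
        have := abs_sub ((y - ∫ z, z ∂ν) ^ 2) (∫ y, (y - ∫ z, z ∂ν) ^ 2 ∂ν)
        rw [abs_of_nonneg (sq_nonneg (y - ∫ z, z ∂ν)), abs_of_nonneg hV0] at this
        linarith)
    rw [integral_add (i1.const_mul _) (integrable_const _), integral_const_mul] at this
    simp only [integral_const, probReal_univ, smul_eq_mul, one_mul] at this
    rw [abs_div, abs_of_pos (pow_pos hv0 2), div_le_iff₀ (pow_pos hv0 2)]
    have a2 : 2 / v * v ^ 2 = 2 * v := by field_simp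
    nlinarith [sq_nonneg v]

/-- the statement proved by induction for the overlaps -/
structure O5C (A D D' D'' : ℝ → ℝ) (B : ℝ) : Prop where
  d1 : ∀ x, HasDerivAt D (D' x) x
  d2 : ∀ x, HasDerivAt D' (D'' x) x
  bD : ∀ x, |D x| ≤ 1
  bD' : ∀ x, |D' x| ≤ 2 * A x
  bD'' : ∀ x, |D'' x| ≤ B
  mono : Monotone (fun x => D' x / A x)

theorem o5_sq {g M A A' : ℝ → ℝ} {b : ℝ} (h : Pot g M A A' b) :
    O5C A (fun x => M x ^ 2) (fun x => 2 * M x * A x) (fun x => 2 * A x * A x + 2 * M x * A' x)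
      (2 * b ^ 2 + 2 * b) := by
  refine ⟨fun x => ?_, fun x => ((h.d2 x).const_mul 2).mul (h.d3 x), fun x => ?_, fun x => ?_,
    fun x => ?_, ?_⟩
  · exact ((h.d2 x).pow 2).congr_deriv (by simp)
  · rw [abs_pow]; exact pow_le_one₀ (abs_nonneg _) (h.bM x)
  · rw [abs_mul, abs_mul, abs_of_pos (h.pA x), abs_two]
    nlinarith [h.bM x, h.pA x]
  · refine (abs_add_le _ _).trans ?_
    rw [abs_mul, abs_mul, abs_mul, abs_mul, abs_of_pos (h.pA x), abs_two]
    have := h.pA x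
    have := h.bA x
    have := mul_le_mul (h.bM x) (h.bA' x) (abs_nonneg _) zero_le_one
    nlinarith
  · have e : (fun x => 2 * M x * A x / A x) = fun x => 2 * M x := by
      funext x; have := (h.pA x).ne'; field_simp
    rw [e]
    exact (strictMono_of_hasDerivAt_pos h.d2 h.pA).monotone.const_mul zero_le_two

theorem o5_tanh (x : ℝ) : HasDerivAt tanh (1 - tanh x ^ 2) x := by
  have h := (Real.hasDerivAt_sinh x).div (Real.hasDerivAt_cosh x) (cosh_pos x).ne'
  refine (h.congr_deriv ?_).congr_of_eventuallyEq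
    (Filter.Eventually.of_forall fun y => Real.tanh_eq_sinh_div_cosh y)
  rw [Real.tanh_eq_sinh_div_cosh]
  have := (cosh_pos x).ne'
  field_simp

theorem o5_base {b : ℝ} (hb : 2 ≤ b) :
    Pot (fL []) (ML []) (fun x => 1 - tanh x ^ 2) (fun x => -(2 * tanh x * (1 - tanh x ^ 2))) b := by
  refine ⟨fun x => fL_hasDerivAt (fun q hq => by simp at hq) x, o5_tanh, fun x => ?_,
    fun x => (abs_tanh_lt_one x).le, fun x => by linarith [tanh_sq_lt_one x],
    fun x => by nlinarith [sq_nonneg (tanh x)], fun x => ?_⟩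
  · simpa using ((o5_tanh x).pow 2).const_sub 1
  · have h1 := tanh_sq_lt_one x
    rw [abs_neg, abs_mul, abs_mul, abs_two, abs_of_pos (by linarith : 0 < 1 - tanh x ^ 2)]
    nlinarith [abs_tanh_lt_one x, abs_nonneg (tanh x), sq_nonneg (tanh x)]

theorem o5_ind {vm : ℝ} (hvm : 0 < vm) (L : List (ℝ × ℝ))
    (hL : ∀ q ∈ L, 0 < q.1 ∧ q.1 ≤ 1 ∧ vm ≤ q.2) :
    ∃ A A', Pot (fL L) (ML L) A A' (4 * (2 / vm + 1)) ∧ ∀ k, ∃ D' D'',
      O5C A (DL L k) D' D'' (2 * (4 * (2 / vm + 1)) ^ 2 + 2 * (4 * (2 / vm + 1))) := by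
  have hb : 2 ≤ 4 * (2 / vm + 1) := by
    have : 0 < 2 / vm := by positivity
    linarith
  induction L with
  | nil =>
    refine ⟨_, _, o5_base hb, fun k => ?_⟩
    cases k with
    | zero => exact ⟨_, _, o5_sq (o5_base hb)⟩
    | succ k => exact ⟨_, _, o5_sq (o5_base hb)⟩
  | cons q L ih =>
    obtain ⟨A, A', hP, hD⟩ := ih fun p hp => hL p (List.mem_cons_of_mem _ hp)
    obtain ⟨he, he1, hv⟩ := hL q List.mem_cons_self
    have hv0 : 0 < q.2 := hvm.trans_le hv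
    have ok : LOK (q :: L) := fun p hp =>
      ⟨(hL p hp).1.le, (hL p hp).2.1, hvm.le.trans (hL p hp).2.2⟩
    have ok' : LOK L := fun p hp => ok p (List.mem_cons_of_mem _ hp)
    have lip := fL_lip ok'
    have mM := measurable_ML ok'
    have sM := strictMono_of_hasDerivAt_pos hP.d2 hP.pA
    have cM : Continuous (ML L) := continuous_iff_continuousAt.2 fun x => (hP.d2 x).continuousAt
    have one : ∀ {φ : ℝ → ℝ}, (∀ y, |φ y| ≤ 1) → ∀ y, |φ y| ≤ 1 * (1 + y ^ 2) := fun h y => by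
      nlinarith [h y, sq_nonneg y]
    have pos : ∀ x, 0 < cov[ML L, id; tm q.1 q.2 (fL L) x] := fun x =>
      cov_id_pos lip sM.monotone cM hP.bM (sM zero_lt_one) q.1 hv0 x
    have hP' : Pot (fL (q :: L)) (ML (q :: L))
        (fun x => cov[ML L, id; tm q.1 q.2 (fL L) x] / q.2)
        (fun x => cov[ML L, fun y => (y - ∫ z, z ∂(tm q.1 q.2 (fL L) x)) ^ 2;
          tm q.1 q.2 (fL L) x] / q.2 ^ 2) (4 * (2 / vm + 1)) :=
      ⟨fL_hasDerivAt ok, hasDerivAt_tm lip mM (one hP.bM) he he1 hv0,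
        hasDerivAt_cov_tm lip mM hP.bM he he1 hv0, fun x => (abs_ML_lt ok x).le,
        fun x => div_pos (pos x) hv0,
        fun x => (le_abs_self _).trans (o5_bd lip hP.d1 hP.bM he he1 hvm hv x).1,
        fun x => (o5_bd lip hP.d1 hP.bM he he1 hvm hv x).2⟩
    refine ⟨_, _, hP', fun k => ?_⟩
    cases k with
    | zero => exact ⟨_, _, o5_sq hP'⟩
    | succ k =>
      obtain ⟨D', D'', h⟩ := hD k
      have mD : Measurable (DL L k) :=
        (continuous_iff_continuousAt.2 fun x => (h.d1 x).continuousAt).measurable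
      have e2 := hasDerivAt_cov_tm lip mD h.bD he he1 hv0
      refine ⟨_, _, hasDerivAt_tm lip mD (one h.bD) he he1 hv0, e2, fun x => ?_, fun x => ?_,
        fun x => ?_, ?_⟩
      · have := lip.prob q.1 q.2 x
        exact o5_abs_int h.bD
      · have := lip.prob q.1 q.2 x
        have := o5_two (o5_int_sq_tm lip q.1 q.2 x) mM hP.bM mD h.bD
          (monotone_of_hasDerivAt_nonneg (fun y => ((hP.d2 y).const_mul 2).add (h.d1 y))
            fun y => by have := (abs_le.1 (h.bD' y)).1; simp only [Pi.zero_apply]; linarith)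
          (monotone_of_hasDerivAt_nonneg (fun y => ((hP.d2 y).const_mul 2).sub (h.d1 y))
            fun y => by have := (abs_le.1 (h.bD' y)).2; simp only [Pi.zero_apply]; linarith)
        rw [abs_div, abs_of_pos hv0, ← mul_div_assoc]
        gcongr
      · refine (o5_bd lip hP.d1 h.bD he he1 hvm hv x).2.trans ?_
        nlinarith
      · refine monotone_of_hasDerivAt_nonneg (fun x => (e2 x).div (hP'.d3 x) (hP'.pA x).ne')
          fun x => ?_
        have := lip.prob q.1 q.2 x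
        have := o5_wr (o5_int_sq_tm lip q.1 q.2 x) mM hP.bM mD h.bD (pos x)
          (ordConnected_neg hP.d2 hP.pA h.d1 h.mono)
        refine div_nonneg ?_ (sq_nonneg _)
        rw [div_mul_div_comm, div_mul_div_comm, mul_comm q.2, ← sub_div]
        exact div_nonneg (by linarith) (by positivity)

/-- For positive variances all levels are smooth with bounds depending only on the smallest
variance, and the overlaps `DL L k` are convex functions of the magnetisation.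
Induction on `L`.  With `ν = tm e v (fL L) x`: `A = Cov(M, y)/v > 0` (`hasDerivAt_tm`,
`cov_id_pos`), `A' = Cov(M, (y - ȳ)²)/v²` (`hasDerivAt_cov_tm`), bounded by
`tm_second_moment`.  `|D'| ≤ 2 A` is preserved because `2 M ± D` are nondecreasing
(`cov_nonneg_of_mono`; prove the constant `2` in the induction and take `B ≥ 2`).
`(D'/A)' = (D'' A - D' A')/A²` and `D'' - (D'/A) A' = ∫ ψ y² dν / v² ≥ 0` for
`ψ = D - α - β M` with `β = D'/A` at `x` and `∫ ψ dν = 0` (`tp3`, `ordConnected_neg`). -/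
theorem pot_fL {vm : ℝ} (hvm : 0 < vm) : ∃ B : ℝ, 2 ≤ B ∧ ∀ L : List (ℝ × ℝ),
    (∀ q ∈ L, 0 < q.1 ∧ q.1 ≤ 1 ∧ vm ≤ q.2) →
    Pot (fL L) (ML L) (deriv (ML L)) (deriv (deriv (ML L))) B ∧
    ∀ k, CvxIn (deriv (ML L)) (DL L k) (deriv (DL L k)) (deriv (deriv (DL L k))) B := by
  have hb : 2 ≤ 4 * (2 / vm + 1) := by
    have : 0 < 2 / vm := by positivity
    linarith
  refine ⟨2 * (4 * (2 / vm + 1)) ^ 2 + 2 * (4 * (2 / vm + 1)), by nlinarith, fun L hL => ?_⟩
  obtain ⟨A, A', hP, hD⟩ := o5_ind hvm L hL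
  have e1 : deriv (ML L) = A := funext fun x => (hP.d2 x).deriv
  have e2 : deriv A = A' := funext fun x => (hP.d3 x).deriv
  rw [e1, e2]
  refine ⟨⟨hP.d1, hP.d2, hP.d3, hP.bM, hP.pA, fun x => (hP.bA x).trans (by nlinarith),
    fun x => (hP.bA' x).trans (by nlinarith)⟩, fun k => ?_⟩
  obtain ⟨D', D'', h⟩ := hD k
  have e3 : deriv (DL L k) = D' := funext fun x => (h.d1 x).deriv
  have e4 : deriv D' = D'' := funext fun x => (h.d2 x).deriv
  rw [e3, e4]
  exact ⟨h.d1, h.d2, fun x => (h.bD x).trans (by nlinarith),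
    fun x => (h.bD' x).trans (mul_le_mul_of_nonneg_right (by nlinarith) (hP.pA x).le),
    h.bD'', h.mono⟩

end Crest.Agent.R164
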