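import Crest.Agent.R164.O6a

/-! # Second variation: static lemmas for one level -/

set_option autoImplicit false
set_option linter.unusedVariables false
set_option linter.unusedSectionVars false

open MeasureTheory ProbabilityTheory Real Crest.ProbabilityR.InvariantGlass
open scoped ENNReal

namespace Crest.Agent.R164

/-- bounded measurable functions -/
def o6Bd (ψ : ℝ → ℝ) : Prop := Measurable ψ ∧ ∃ C, ∀ y, |ψ y| ≤ C

namespace o6Bd
variable {ψ χ : ℝ → ℝ}

theorem const (c : ℝ) : o6Bd (fun _ => c) := ⟨measurable_const, |c|, fun _ => le_rfl⟩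

theorem add (h : o6Bd ψ) (h' : o6Bd χ) : o6Bd (fun y => ψ y + χ y) := by
  obtain ⟨m, C, b⟩ := h
  obtain ⟨m', C', b'⟩ := h'
  exact ⟨m.add m', C + C', fun y => (abs_add_le _ _).trans (add_le_add (b y) (b' y))⟩

theorem mul (h : o6Bd ψ) (h' : o6Bd χ) : o6Bd (fun y => ψ y * χ y) := by
  obtain ⟨m, C, b⟩ := h
  obtain ⟨m', C', b'⟩ := h'
  exact ⟨m.mul m', C * C', fun y => by
    rw [abs_mul]; exact mul_le_mul (b y) (b' y) (abs_nonneg _) ((abs_nonneg _).trans (b y))⟩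

theorem cmul (c : ℝ) (h : o6Bd ψ) : o6Bd (fun y => c * ψ y) := (const c).mul h

theorem div (h : o6Bd ψ) (c : ℝ) : o6Bd (fun y => ψ y / c) := by
  simpa only [div_eq_mul_inv] using h.mul (const c⁻¹)

theorem neg (h : o6Bd ψ) : o6Bd (fun y => -ψ y) := by
  simpa only [neg_one_mul] using h.cmul (-1)

theorem sub (h : o6Bd ψ) (h' : o6Bd χ) : o6Bd (fun y => ψ y - χ y) := by
  simpa only [sub_eq_add_neg] using h.add h'.neg

theorem sq (h : o6Bd ψ) : o6Bd (fun y => ψ y ^ 2) := by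
  simpa only [pow_two] using h.mul h

theorem memLp (h : o6Bd ψ) (ν : Measure ℝ) [IsProbabilityMeasure ν] : MemLp ψ 2 ν := by
  obtain ⟨m, C, b⟩ := h
  exact MemLp.of_bound m.aestronglyMeasurable C (Filter.Eventually.of_forall b)

theorem int (h : o6Bd ψ) (ν : Measure ℝ) [IsProbabilityMeasure ν] : Integrable ψ ν :=
  (h.memLp ν).integrable (by norm_num)

end o6Bd

theorem o6_abs_int_le (ν : Measure ℝ) [IsProbabilityMeasure ν] {ψ : ℝ → ℝ} {C : ℝ}
    (b : ∀ y, |ψ y| ≤ C) : |∫ y, ψ y ∂ν| ≤ C := by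
  simpa using norm_integral_le_of_norm_le_const (μ := ν) (f := ψ) (C := C)
    (Filter.Eventually.of_forall b)

theorem o6_abs_cov_le (ν : Measure ℝ) [IsProbabilityMeasure ν] {ψ χ : ℝ → ℝ} {a b : ℝ}
    (ha : ∀ y, |ψ y| ≤ a) (hb : ∀ y, |χ y| ≤ b) : |cov[ψ, χ; ν]| ≤ 4 * a * b := by
  refine o6_abs_int_le ν fun y => ?_
  have h1 := o6_abs_int_le ν ha
  have h2 := o6_abs_int_le ν hb
  have h3 : |ψ y - ∫ y, ψ y ∂ν| ≤ 2 * a := (abs_sub _ _).trans (by linarith [ha y])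
  have h4 : |χ y - ∫ y, χ y ∂ν| ≤ 2 * b := (abs_sub _ _).trans (by linarith [hb y])
  rw [abs_mul]
  calc _ ≤ (2 * a) * (2 * b) := mul_le_mul h3 h4 (abs_nonneg _) ((abs_nonneg _).trans h3)
    _ = _ := by ring

theorem o6_poly {ψ : ℝ → ℝ} {C : ℝ} (b : ∀ y, |ψ y| ≤ C) (y : ℝ) : |ψ y| ≤ C * (1 + y ^ 2) :=
  (b y).trans (le_mul_of_one_le_right ((abs_nonneg _).trans (b y)) (by nlinarith [sq_nonneg y]))

theorem o6_memLp {g φ : ℝ → ℝ} (h : Lip1 g) (hφ : Measurable φ) {C : ℝ}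
    (hb : ∀ y, |φ y| ≤ C * (1 + y ^ 2)) (e v x : ℝ) : MemLp φ 2 (tm e v g x) := by
  rw [memLp_two_iff_integrable_sq hφ.aestronglyMeasurable]
  refine h.integrable_tm (hφ.pow_const 2) (C := 4 * C ^ 2 + 2) (fun y => ?_) e v x
  have h1 : 1 + y ^ 2 ≤ 2 * exp |y| := by
    have := Real.quadratic_le_exp_of_nonneg (abs_nonneg y)
    rw [sq_abs] at this
    nlinarith [abs_nonneg y]
  have h2 : |φ y ^ 2| ≤ (C * (1 + y ^ 2)) ^ 2 := by
    rw [abs_pow]
    exact pow_le_pow_left₀ (abs_nonneg _) (hb y) 2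
  have h3 : (1 + y ^ 2) ^ 2 ≤ (2 * exp |y|) ^ 2 := pow_le_pow_left₀ (by positivity) h1 2
  have h4 : exp |y| ^ 2 ≤ exp ((4 * C ^ 2 + 2) * |y|) := by
    rw [← Real.exp_nat_mul]
    exact Real.exp_le_exp.2 (by push_cast; nlinarith [abs_nonneg y, sq_nonneg C])
  calc _ ≤ (C * (1 + y ^ 2)) ^ 2 := h2
    _ = C ^ 2 * (1 + y ^ 2) ^ 2 := mul_pow _ _ _
    _ ≤ C ^ 2 * (2 * exp |y|) ^ 2 := by gcongr
    _ = 4 * C ^ 2 * exp |y| ^ 2 := by ring
    _ ≤ (4 * C ^ 2 + 2) * exp ((4 * C ^ 2 + 2) * |y|) := by gcongr; linarith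

theorem o6_memLp_id {g : ℝ → ℝ} (h : Lip1 g) (e v x : ℝ) : MemLp (fun y : ℝ => y) 2 (tm e v g x) :=
  o6_memLp h measurable_id' (C := 1) (fun y => by
    rw [one_mul, abs_le]; constructor <;> nlinarith [sq_nonneg (y + 1), sq_nonneg (y - 1)]) e v x

theorem o6_memLp_sq {g : ℝ → ℝ} (h : Lip1 g) (c e v x : ℝ) :
    MemLp (fun y : ℝ => (y - c) ^ 2) 2 (tm e v g x) :=
  o6_memLp h (by fun_prop) (C := 2 + 2 * c ^ 2) (fun y => by
    rw [abs_of_nonneg (sq_nonneg _)]
    nlinarith [sq_nonneg (y + c), sq_nonneg (c * y)]) e v x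

theorem o6_memLp_u {g : ℝ → ℝ} (h : Lip1 g) (c d e v x : ℝ) :
    MemLp (fun y : ℝ => (y - c) / d) 2 (tm e v g x) := by
  haveI := h.prob e v x
  simp only [div_eq_mul_inv]
  exact ((o6_memLp_id h e v x).sub (memLp_const c)).mul_const d⁻¹

theorem o6_memLp_usq {g : ℝ → ℝ} (h : Lip1 g) (c d e v x : ℝ) :
    MemLp (fun y : ℝ => ((y - c) / d) ^ 2) 2 (tm e v g x) := by
  simpa only [div_pow, div_eq_mul_inv, mul_pow] using (o6_memLp_sq h c e v x).mul_const (d⁻¹ ^ 2)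

theorem o6_deriv1 {g ψ : ℝ → ℝ} (h : Lip1 g) (hψ : o6Bd ψ) {e v : ℝ} (he : 0 < e) (he1 : e ≤ 1)
    (hv : 0 < v) :
    deriv (fun x => ∫ y, ψ y ∂(tm e v g x)) = fun x => cov[ψ, id; tm e v g x] / v := by
  obtain ⟨m, C, b⟩ := hψ
  exact funext fun x => (hasDerivAt_tm h m (o6_poly b) he he1 hv x).deriv

theorem o6_deriv2 {g ψ : ℝ → ℝ} (h : Lip1 g) (hψ : o6Bd ψ) {e v : ℝ} (he : 0 < e) (he1 : e ≤ 1)
    (hv : 0 < v) :
    deriv (deriv (fun x => ∫ y, ψ y ∂(tm e v g x))) = fun x =>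
      cov[ψ, fun y => (y - ∫ z, z ∂(tm e v g x)) ^ 2; tm e v g x] / v ^ 2 := by
  rw [o6_deriv1 h hψ he he1 hv]
  obtain ⟨m, C, b⟩ := hψ
  exact funext fun x => (hasDerivAt_cov_tm h m b he he1 hv x).deriv

/-- `Cov(ψ, u²) = (Eψ)'' + 2 e M_a (Eψ)'` -/
theorem o6_cov_usq {g M ψ : ℝ → ℝ} (h : Lip1 g) (hg : ∀ y, HasDerivAt g (M y) y) (hψ : o6Bd ψ)
    (e : ℝ) {v : ℝ} (hv : 0 < v) (x : ℝ) :
    cov[ψ, fun y => ((y - x) / v) ^ 2; tm e v g x] =
      cov[ψ, fun y => (y - ∫ z, z ∂(tm e v g x)) ^ 2; tm e v g x] / v ^ 2 +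
        2 * e * (∫ y, M y ∂(tm e v g x)) * (cov[ψ, id; tm e v g x] / v) := by
  haveI := h.prob e v x
  have hm := tm_mean h hg e hv x
  set m := ∫ z, z ∂(tm e v g x)
  set a := ∫ y, M y ∂(tm e v g x)
  have h1 : (fun y => ((y - x) / v) ^ 2) =
      (fun y => (y - m) ^ 2 / v ^ 2) + fun y => (2 * e * a / v) * id y +
        ((x ^ 2 - m ^ 2) / v ^ 2) := by
    funext y
    simp only [Pi.add_apply, id, hm]
    field_simp
    ring
  have i1 := o6_memLp_id h e v x
  have i2 : MemLp (fun y => (y - m) ^ 2 / v ^ 2) 2 (tm e v g x) := by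
    simpa only [div_pow] using o6_memLp_usq h m v e v x
  have i3 : MemLp (fun y : ℝ => (2 * e * a / v) * id y) 2 (tm e v g x) := i1.const_mul _
  have i4 : MemLp (fun y : ℝ => (2 * e * a / v) * id y + (x ^ 2 - m ^ 2) / v ^ 2) 2
      (tm e v g x) := i3.add (memLp_const _)
  rw [h1, covariance_add_right (hψ.memLp _) i2 i4,
    covariance_add_const_right (i3.integrable (by norm_num)), covariance_const_mul_right,
    covariance_fun_div_right]
  ring

theorem o6_cov3 {g ψ g' : ℝ → ℝ} (h : Lip1 g) (hψ : o6Bd ψ) (hg' : o6Bd g') (e v x β w : ℝ) :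
    cov[ψ, fun y => e * g' y + β * ((y - x) / v) + w / 2 * ((y - x) / v) ^ 2; tm e v g x] =
      e * cov[ψ, g'; tm e v g x] + β * (cov[ψ, id; tm e v g x] / v) +
        w / 2 * cov[ψ, fun y => ((y - x) / v) ^ 2; tm e v g x] := by
  haveI := h.prob e v x
  have i1 := (hg'.cmul e).memLp (tm e v g x)
  have i2 := (o6_memLp_u h x v e v x).const_mul β
  have i3 := (o6_memLp_usq h x v e v x).const_mul (w / 2)
  have h1 : (fun y => e * g' y + β * ((y - x) / v) + w / 2 * ((y - x) / v) ^ 2) =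
      ((fun y => e * g' y) + fun y => β * ((y - x) / v)) + fun y => w / 2 * ((y - x) / v) ^ 2 := rfl
  rw [h1, covariance_add_right (hψ.memLp _) (i1.add i2) i3, covariance_add_right (hψ.memLp _) i1 i2,
    covariance_const_mul_right, covariance_const_mul_right, covariance_const_mul_right,
    covariance_fun_div_right,
    covariance_sub_const_right ((o6_memLp_id h e v x).integrable (by norm_num))]
  rfl

namespace Pot
variable {g M A A' : ℝ → ℝ} {B : ℝ}

theorem o6_absA (hP : Pot g M A A' B) (y : ℝ) : |A y| ≤ B := by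
  rw [abs_of_pos (hP.pA y)]; exact hP.bA y

theorem o6_pos (hP : Pot g M A A' B) : 0 < B := (hP.pA 0).trans_le (hP.bA 0)

theorem o6_M (hP : Pot g M A A' B) : o6Bd M :=
  ⟨(continuous_iff_continuousAt.2 fun y => (hP.d2 y).continuousAt).measurable, 1, hP.bM⟩

theorem o6_A (hP : Pot g M A A' B) : o6Bd A :=
  ⟨(continuous_iff_continuousAt.2 fun y => (hP.d3 y).continuousAt).measurable, B, hP.o6_absA⟩

theorem o6_A' (hP : Pot g M A A' B) : o6Bd A' := by
  have : A' = deriv A := funext fun y => (hP.d3 y).deriv.symm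
  exact ⟨this ▸ measurable_deriv A, B, hP.bA'⟩

theorem o6_mono (hP : Pot g M A A' B) {B' : ℝ} (h : B ≤ B') : Pot g M A A' B' :=
  ⟨hP.d1, hP.d2, hP.d3, hP.bM, hP.pA, fun x => (hP.bA x).trans h, fun x => (hP.bA' x).trans h⟩

/-- `Ψ_a = E Ψ~` -/
theorem o6_psi (hP : Pot g M A A' B) (e : ℝ) {v : ℝ} (hv : 0 < v) (x : ℝ) :
    cov[M, id; tm e v g x] / v + e * (∫ y, M y ∂(tm e v g x)) ^ 2 =
      ∫ y, (A y + e * M y ^ 2) ∂(tm e v g x) := by
  haveI := hP.lip.prob e v x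
  rw [cov_id_eq hP.lip hP.d1 hP.d2 (B := max 1 B) (fun y => (hP.bM y).trans (le_max_left _ _))
    (fun y => (hP.o6_absA y).trans (le_max_right _ _)) e hv x,
    covariance_eq_sub (hP.o6_M.memLp _) (hP.o6_M.memLp _),
    integral_add (hP.o6_A.int _) ((hP.o6_M.sq.cmul e).int _), integral_const_mul]
  simp only [Pi.mul_apply, ← pow_two]
  ring

/-- the derivative of the Gaussian operator along a path -/
theorem o6_gauss (hP : Pot g M A A' B) {g' : ℝ → ℝ} (hg' : o6Bd g') {e v : ℝ} (he : 0 < e)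
    (hv : 0 < v) (x β w : ℝ) :
    ∫ y, (g' y + e⁻¹ * (β * ((y - x) / v) + w / 2 * (((y - x) / v) ^ 2 - v⁻¹))) ∂(tm e v g x) =
      ∫ y, g' y ∂(tm e v g x) + β * ∫ y, M y ∂(tm e v g x) +
        w / 2 * ∫ y, (A y + e * M y ^ 2) ∂(tm e v g x) := by
  have h := hP.lip
  haveI := h.prob e v x
  have i0 := (o6_memLp_id h e v x).integrable (by norm_num)
  have iu := o6_memLp_u h x v e v x
  have i1 := iu.integrable (by norm_num)
  have i2 := (o6_memLp_usq h x v e v x).integrable (by norm_num)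
  have e1 : ∫ y, (y - x) / v ∂(tm e v g x) = e * ∫ y, M y ∂(tm e v g x) := by
    rw [integral_div, integral_sub i0 (integrable_const _), tm_mean h hP.d1 e hv x]
    simp only [integral_const, probReal_univ, smul_eq_mul, one_mul]
    field_simp
    ring
  have e2 := tm_ibp h hP.d1 (φ := fun y => (y - x) / v) (φ' := fun _ => v⁻¹)
    (fun y => by simpa [div_eq_mul_inv] using ((hasDerivAt_id y).sub_const x).mul_const v⁻¹)
    (B := (1 + |x|) / v) (fun y => by
      rw [abs_div, abs_of_pos hv, div_mul_eq_mul_div]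
      gcongr
      have h1 : |y| ≤ 1 + y ^ 2 := by
        rw [abs_le]; constructor <;> nlinarith [sq_nonneg (y + 1), sq_nonneg (y - 1)]
      nlinarith [abs_sub y x, abs_nonneg x, sq_nonneg y])
    (fun y => by
      rw [abs_of_pos (inv_pos.2 hv), div_mul_eq_mul_div, ← one_div]
      gcongr
      nlinarith [abs_nonneg x, sq_nonneg y]) e hv x
  have e3 := tm_ibp h hP.d1 hP.d2 (B := max 1 B)
    (o6_poly fun y => (hP.bM y).trans (le_max_left _ _))
    (o6_poly fun y => (hP.o6_absA y).trans (le_max_right _ _)) e hv x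
  have i3 : Integrable (fun y => M y * ((y - x) / v)) (tm e v g x) :=
    (hP.o6_M.memLp _).integrable_mul iu
  have e4 : ∫ y, ((y - x) / v) ^ 2 ∂(tm e v g x) =
      v⁻¹ + e * ∫ y, (A y + e * M y ^ 2) ∂(tm e v g x) := by
    simp only [← pow_two, mul_assoc] at e2 e3
    rw [e2, integral_add (integrable_const _) (i3.const_mul e), integral_const_mul, ← e3]
    simp only [integral_const, probReal_univ, smul_eq_mul, mul_one, mul_comm]
  have i4 : Integrable (fun y => w / 2 * (((y - x) / v) ^ 2 - v⁻¹)) (tm e v g x) :=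
    (i2.sub (integrable_const _)).const_mul (w / 2)
  have i5 : Integrable (fun y => β * ((y - x) / v) + w / 2 * (((y - x) / v) ^ 2 - v⁻¹))
      (tm e v g x) := (i1.const_mul β).add i4
  rw [integral_add (hg'.int _) (i5.const_mul e⁻¹), integral_const_mul,
    integral_add (i1.const_mul β) i4,
    integral_const_mul, integral_const_mul, integral_sub i2 (integrable_const _), e1, e4]
  simp only [integral_const, probReal_univ, smul_eq_mul, one_mul]
  field_simp
  ring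

end Pot

theorem o6_meas {U : Set ℝ} (hU : IsOpen U) {F : ℝ → ℝ → ℝ} (hF : ∀ s ∈ U, Measurable (F s))
    {t : ℝ} (ht : t ∈ U) {F' : ℝ → ℝ} (hd : ∀ y, HasDerivAt (fun s => F s y) (F' y) t) :
    Measurable F' := by
  classical
  refine measurable_of_tendsto_metrizable' (nhdsWithin t {t}ᶜ)
    (f := fun s y => if s ∈ U then (s - t)⁻¹ * (F s y - F t y) else 0) (fun s => ?_) ?_
  · by_cases hs : s ∈ U
    · simp only [hs, if_true]
      exact ((hF s hs).sub (hF t ht)).const_mul _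
    · simp only [hs, if_false]
      exact measurable_const
  · rw [tendsto_pi_nhds]
    intro y
    refine (hasDerivAt_iff_tendsto_slope.1 (hd y)).congr' ?_
    filter_upwards [mem_nhdsWithin_of_mem_nhds (hU.mem_nhds ht)] with s hs
    rw [if_pos hs, slope_def_field, div_eq_inv_mul]

theorem o6_mkPath {U : Set ℝ} (hc : Convex ℝ U) {R : ℝ} (hR : ∀ s ∈ U, |s| ≤ R) {t : ℝ} (ht : t ∈ U)
    {v0 w vm : ℝ} (hvm : 0 < vm) (hv : ∀ s ∈ U, vm ≤ v0 + s * w) {g g' : ℝ → ℝ → ℝ}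
    (lip : ∀ s ∈ U, Lip1 (g s)) (mg : ∀ s ∈ U, Measurable (g' s))
    (dg : ∀ s ∈ U, ∀ y, HasDerivAt (fun s => g s y) (g' s y) s) {C : ℝ}
    (bg : ∀ s ∈ U, ∀ y, |g' s y| ≤ C) (y β : ℝ) :
    ∃ B, C ≤ B ∧ Path U (fun s => y + β * (s - t)) (fun _ => β) (fun s => v0 + s * w) (fun _ => w)
      g g' B := by
  have hC : 0 ≤ C := (abs_nonneg _).trans (bg t ht 0)
  have hR0 : 0 ≤ R := (abs_nonneg _).trans (hR t ht)
  have hst : ∀ s ∈ U, |s - t| ≤ 2 * R := fun s hs =>
    (abs_sub _ _).trans (by linarith [hR s hs, hR t ht])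
  have h0 : ∀ s ∈ U, |g s 0| ≤ |g t 0| + C * (2 * R) := fun s hs => by
    have := hc.norm_image_sub_le_of_norm_hasDerivWithin_le (f := fun s => g s 0)
      (f' := fun s => g' s 0) (C := C) (fun s hs => (dg s hs 0).hasDerivWithinAt)
      (fun s hs => bg s hs 0) ht hs
    simp only [Real.norm_eq_abs] at this
    have h1 : C * |s - t| ≤ C * (2 * R) := mul_le_mul_of_nonneg_left (hst s hs) hC
    linarith [abs_sub_abs_le_abs_sub (g s 0) (g t 0)]
  have p1 := abs_nonneg y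
  have p2 := abs_nonneg β
  have p3 := abs_nonneg w
  have p4 := abs_nonneg v0
  have p5 := abs_nonneg (g t 0)
  have p6 : 0 < vm⁻¹ := inv_pos.2 hvm
  have p7 : 0 ≤ |β| * (2 * R) := by positivity
  have p8 : 0 ≤ R * |w| := by positivity
  have p9 : 0 ≤ C * (2 * R) := by positivity
  refine ⟨C + (|y| + |β| * (2 * R)) + |β| + |w| + (|v0| + R * |w|) + vm⁻¹ + (|g t 0| + C * (2 * R)),
    by linarith, fun s _ => ?_, fun s _ => ?_, fun s hs => ⟨?_, by linarith, by linarith, ?_, ?_⟩,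
    by linarith, lip, fun s hs => by linarith [h0 s hs], mg, dg,
    fun s hs z => by linarith [bg s hs z]⟩
  · simpa using (((hasDerivAt_id s).sub_const t).const_mul β).const_add y
  · simpa using ((hasDerivAt_id s).mul_const w).const_add v0
  · have h1 : |β * (s - t)| ≤ |β| * (2 * R) := by
      rw [abs_mul]; exact mul_le_mul_of_nonneg_left (hst s hs) p2
    linarith [abs_add_le y (β * (s - t))]
  · have h1 : |s * w| ≤ R * |w| := by
      rw [abs_mul]; exact mul_le_mul_of_nonneg_right (hR s hs) p3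
    linarith [le_abs_self v0, le_abs_self (s * w)]
  · exact (inv_le_of_inv_le₀ hvm (by linarith)).trans (hv s hs)

end Crest.Agent.R164
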