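import Crest.Agent.R164.O6Aux1

/-! # Second variation: the inductive state and the change of exponent -/

set_option autoImplicit false
set_option linter.unusedVariables false
set_option linter.unusedSectionVars false

open MeasureTheory ProbabilityTheory Real Crest.ProbabilityR.InvariantGlass
open scoped ENNReal

namespace Crest.Agent.R164

/-- two bounded derivatives, the first bounded by a multiple of `A` -/
structure o6Rg (A ψ : ℝ → ℝ) (B : ℝ) : Prop where
  d1 : ∀ x, HasDerivAt ψ (deriv ψ x) x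
  d2 : ∀ x, HasDerivAt (deriv ψ) (deriv (deriv ψ) x) x
  b0 : ∀ x, |ψ x| ≤ B
  b1 : ∀ x, |deriv ψ x| ≤ B * A x
  b2 : ∀ x, |deriv (deriv ψ) x| ≤ B

namespace o6Rg
variable {g M A A' ψ χ : ℝ → ℝ} {B : ℝ}

theorem bd0 (h : o6Rg A ψ B) : o6Bd ψ :=
  ⟨(continuous_iff_continuousAt.2 fun y => (h.d1 y).continuousAt).measurable, B, h.b0⟩

theorem b1' (h : o6Rg A ψ B) (hP : Pot g M A A' B) (y : ℝ) : |deriv ψ y| ≤ B * B :=
  (h.b1 y).trans (mul_le_mul_of_nonneg_left (hP.bA y) hP.o6_pos.le)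

theorem bd1 (h : o6Rg A ψ B) (hP : Pot g M A A' B) : o6Bd (deriv ψ) :=
  ⟨measurable_deriv _, B * B, h.b1' hP⟩

theorem bd2 (h : o6Rg A ψ B) : o6Bd (deriv (deriv ψ)) := ⟨measurable_deriv _, B, h.b2⟩

theorem bdq (h : o6Rg A ψ B) (hP : Pot g M A A' B) (hχ : o6Bd χ) :
    o6Bd (fun y => deriv ψ y * χ y / A y) := by
  have : o6Bd (fun y => deriv ψ y / A y) :=
    ⟨(measurable_deriv _).div hP.o6_A.1, B, fun y => by
      rw [abs_div, abs_of_pos (hP.pA y), div_le_iff₀ (hP.pA y)]; exact h.b1 y⟩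
  simpa only [div_mul_eq_mul_div] using this.mul hχ

theorem mono (h : o6Rg A ψ B) (pA : ∀ y, 0 < A y) {B' : ℝ} (hB : B ≤ B') : o6Rg A ψ B' :=
  ⟨h.d1, h.d2, fun x => (h.b0 x).trans hB,
    fun x => (h.b1 x).trans (mul_le_mul_of_nonneg_right hB (pA x).le), fun x => (h.b2 x).trans hB⟩

end o6Rg

/-- the inductive state -/
structure o6St (U : Set ℝ) (e φ κ : ℝ) (g M u0 u1 u2 ud : ℝ → ℝ → ℝ) : Prop where
  h0 : ∀ t ∈ U, ∀ y, deriv (M t) y + e * M t y ^ 2 = 1 - u0 t y
  dg : ∀ t ∈ U, ∀ y β, HasDerivAt (fun s => g s (y + β * (s - t)))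
    ((κ - u1 t y) / 2 - φ * (1 - u0 t y) / 2 + β * M t y) t
  dM : ∀ t ∈ U, ∀ y β, HasDerivAt (fun s => M s (y + β * (s - t)))
    (-deriv (u1 t) y / 2 - φ * (deriv (deriv (M t)) y / 2 + e * M t y * deriv (M t) y) +
      β * deriv (M t) y) t
  du : ∀ t ∈ U, ∀ y β, HasDerivAt (fun s => u1 s (y + β * (s - t)))
    (ud t y + β * deriv (u1 t) y) t
  bud : ∃ C, ∀ t ∈ U, ∀ y, |ud t y| ≤ C
  ineq : ∀ t ∈ U, ∀ y,
    deriv (deriv (u2 t)) y - deriv (u2 t) y * deriv (deriv (M t)) y / deriv (M t) y ≤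
      2 * ud t y + φ * (deriv (deriv (u1 t)) y + 2 * e * M t y * deriv (u1 t) y) +
        deriv (u1 t) y ^ 2 / deriv (M t) y

theorem o6_addsq {g M A A' u : ℝ → ℝ} {B : ℝ} (hP : Pot g M A A' B) (r : o6Rg A u B) (c : ℝ) :
    (deriv (fun y => u y + c * M y ^ 2) = fun y => deriv u y + c * (2 * M y * A y)) ∧
    deriv (deriv (fun y => u y + c * M y ^ 2)) =
      fun y => deriv (deriv u) y + c * (2 * A y ^ 2 + 2 * M y * A' y) := by
  have h1 : deriv (fun y => u y + c * M y ^ 2) = fun y => deriv u y + c * (2 * M y * A y) :=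
    funext fun y => by
      refine HasDerivAt.deriv ?_
      have := (r.d1 y).add (((hP.d2 y).pow 2).const_mul c)
      refine this.congr_deriv ?_
      simp
  refine ⟨h1, funext fun y => ?_⟩
  rw [h1]
  refine HasDerivAt.deriv ?_
  have := (r.d2 y).add ((((hP.d2 y).const_mul 2).mul (hP.d3 y)).const_mul c)
  refine this.congr_deriv ?_
  ring

theorem o6_absMd {g M A A' u : ℝ → ℝ} {B : ℝ} (hP : Pot g M A A' B) (r : o6Rg A u B) (e φ y : ℝ) :
    |-deriv u y / 2 - φ * (A' y / 2 + e * M y * A y)| ≤ B * B / 2 + |φ| * (B / 2 + |e| * B) := by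
  refine (abs_sub _ _).trans (add_le_add ?_ ?_)
  · rw [abs_div, abs_neg, abs_two]
    linarith [r.b1' hP y]
  · rw [abs_mul]
    refine mul_le_mul_of_nonneg_left ((abs_add_le _ _).trans (add_le_add ?_ ?_)) (abs_nonneg _)
    · rw [abs_div, abs_two]
      linarith [hP.bA' y]
    · rw [abs_mul, abs_mul, mul_assoc]
      refine mul_le_mul_of_nonneg_left ?_ (abs_nonneg _)
      exact (mul_le_of_le_one_left (abs_nonneg _) (hP.bM y)).trans (hP.o6_absA y)

/-- change of the exponent -/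
theorem o6St.change {U : Set ℝ} {e0 φ κ : ℝ} {g M u0 u1 u2 ud : ℝ → ℝ → ℝ} {B : ℝ}
    (hP : ∀ t ∈ U, Pot (g t) (M t) (deriv (M t)) (deriv (deriv (M t))) B)
    (r1 : ∀ t ∈ U, o6Rg (deriv (M t)) (u1 t) B) (r2 : ∀ t ∈ U, o6Rg (deriv (M t)) (u2 t) B)
    (h : o6St U e0 φ κ g M u0 u1 u2 ud) (e : ℝ) :
    ∃ ud', o6St U e φ κ g M (fun t y => u0 t y + (e0 - e) * φ ^ 0 * M t y ^ 2)
      (fun t y => u1 t y + (e0 - e) * φ ^ 1 * M t y ^ 2)
      (fun t y => u2 t y + (e0 - e) * φ ^ 2 * M t y ^ 2) ud' := by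
  refine ⟨fun t y => ud t y + (e0 - e) * φ * (2 * M t y * (-deriv (u1 t) y / 2 -
    φ * (deriv (deriv (M t)) y / 2 + e0 * M t y * deriv (M t) y))), fun t ht y => ?_,
    fun t ht y β => ?_, fun t ht y β => ?_, fun t ht y β => ?_, ?_, fun t ht y => ?_⟩
  · have := h.h0 t ht y
    linear_combination this
  · refine (h.dg t ht y β).congr_deriv ?_
    ring
  · refine (h.dM t ht y β).congr_deriv ?_
    rw [(o6_addsq (hP t ht) (r1 t ht) _).1]
    ring
  · have := (h.du t ht y β).add (((h.dM t ht y β).pow 2).const_mul ((e0 - e) * φ ^ 1))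
    refine this.congr_deriv ?_
    rw [(o6_addsq (hP t ht) (r1 t ht) _).1]
    simp only [sub_self, mul_zero, add_zero]
    push_cast
    ring
  · obtain ⟨C, hC⟩ := h.bud
    refine ⟨C + |(e0 - e) * φ| * (2 * (B * B / 2 + |φ| * (B / 2 + |e0| * B))), fun t ht y => ?_⟩
    refine (abs_add_le _ _).trans (add_le_add (hC t ht y) ?_)
    rw [abs_mul]
    refine mul_le_mul_of_nonneg_left ?_ (abs_nonneg _)
    rw [abs_mul, abs_mul, abs_two, mul_assoc]
    refine mul_le_mul_of_nonneg_left ?_ zero_le_two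
    exact (mul_le_of_le_one_left (abs_nonneg _) ((hP t ht).bM y)).trans
      (o6_absMd (hP t ht) (r1 t ht) e0 φ y)
  · have h1 := h.ineq t ht y
    have hA := (hP t ht).pA y
    rw [(o6_addsq (hP t ht) (r1 t ht) _).2, (o6_addsq (hP t ht) (r2 t ht) _).2,
      (o6_addsq (hP t ht) (r1 t ht) _).1, (o6_addsq (hP t ht) (r2 t ht) _).1]
    simp only
    generalize deriv (deriv (u2 t)) y = a2 at *
    generalize deriv (deriv (u1 t)) y = a1 at *
    generalize deriv (u2 t) y = b2 at *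
    generalize deriv (u1 t) y = b1 at *
    generalize deriv (deriv (M t)) y = A' at *
    generalize deriv (M t) y = A at *
    generalize M t y = m at *
    generalize ud t y = d at *
    rw [← sub_nonneg] at h1 ⊢
    convert h1 using 1
    field_simp
    ring

/-- the inequality of one level -/
theorem o6_ineq {g M A A' u0 u1 u2 ud : ℝ → ℝ} {B : ℝ} (hP : Pot g M A A' B)
    (r0 : o6Rg A u0 B) (r1 : o6Rg A u1 B) (r2 : o6Rg A u2 B) (hud : o6Bd ud) {e v φ : ℝ}
    (he : 0 < e) (he1 : e ≤ 1) (hv : 0 < v) (h0 : ∀ y, A y + e * M y ^ 2 = 1 - u0 y)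
    (ineq : ∀ y, deriv (deriv u2) y - deriv u2 y * A' y / A y ≤
      2 * ud y + φ * (deriv (deriv u1) y + 2 * e * M y * deriv u1 y) + deriv u1 y ^ 2 / A y)
    (x : ℝ)
    (hBF : BF e v g M A x u1 (deriv u1) u1 (deriv u1) ≤ BF e v g M A x u2 (deriv u2) u0 (deriv u0)) :
    cov[u2, fun y => (y - ∫ z, z ∂(tm e v g x)) ^ 2; tm e v g x] / v ^ 2 -
        cov[u2, id; tm e v g x] / v *
          (cov[M, fun y => (y - ∫ z, z ∂(tm e v g x)) ^ 2; tm e v g x] / v ^ 2) /
          (cov[M, id; tm e v g x] / v) ≤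
      2 * ∫ y, ud y ∂(tm e v g x) +
        2 * φ * ∫ y, (deriv (deriv u1) y / 2 + e * M y * deriv u1 y) ∂(tm e v g x) -
        e * cov[u1, u1; tm e v g x] +
        (cov[u1, id; tm e v g x] / v) ^ 2 / (cov[M, id; tm e v g x] / v) := by
  haveI := hP.lip.prob e v x
  have hB := hP.o6_pos
  have e0 : u0 = fun y => 1 + (-2) * ((A y + e * M y ^ 2) / 2) := funext fun y => by
    rw [h0 y]; ring
  have e0' : deriv u0 = fun y => (-2) * (A' y / 2 + e * M y * A y) := funext fun y => by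
    rw [e0]
    refine HasDerivAt.deriv ?_
    have := ((((hP.d3 y).add (((hP.d2 y).pow 2).const_mul e)).div_const 2).const_mul (-2)).const_add 1
    refine this.congr_deriv ?_
    simp
    ring
  have hΨ : o6Bd fun y => (A y + e * M y ^ 2) / 2 := (hP.o6_A.add (hP.o6_M.sq.cmul e)).div 2
  have h1 := BF_affine (D := u2) (D' := deriv u2) (W := fun y => (A y + e * M y ^ 2) / 2)
    (W' := fun y => A' y / 2 + e * M y * A y) (hP.o6_mono (B' := B + 1) (by linarith)) r2.bd0.1 hΨ.1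
    (fun y => (r2.b0 y).trans (by linarith)) (fun y => by
      rw [h0 y, abs_div, abs_two]
      have := abs_sub 1 (u0 y)
      rw [abs_one] at this
      linarith [r0.b0 y]) 0 1 1 (-2) e hv x
  simp only [zero_add, one_mul] at h1
  rw [← e0, ← e0', BF_psi hP r2.d1 r2.d2 r2.b0 r2.b1 r2.b2 he he1 hv x] at h1
  have h1' : BF e v g M A x u2 (deriv u2) u0 (deriv u0) = _ := h1
  rw [h1'] at hBF
  have i1 := (r2.bd2.sub (r2.bdq hP hP.o6_A')).int (tm e v g x)
  have i2 := (hud.cmul 2).int (tm e v g x)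
  have i3 := (((r1.bd2.div 2).add ((hP.o6_M.cmul e).mul (r1.bd1 hP))).cmul (2 * φ)).int (tm e v g x)
  have i4 := (r1.bdq hP (r1.bd1 hP)).int (tm e v g x)
  have i5 : Integrable (fun y => 2 * ud y +
      2 * φ * (deriv (deriv u1) y / 2 + e * M y * deriv u1 y)) (tm e v g x) := i2.add i3
  have h2 := integral_mono i1 (i5.add i4) fun y => (ineq y).trans_eq (by
    simp only [Pi.add_apply]; ring)
  simp only [Pi.add_apply] at h2
  rw [integral_add i5 i4, integral_add i2 i3, integral_const_mul, integral_const_mul] at h2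
  have h3 : (cov[u1, id; tm e v g x] / v) ^ 2 / (cov[M, id; tm e v g x] / v) =
      cov[u1, id; tm e v g x] * cov[u1, id; tm e v g x] / (v * cov[M, id; tm e v g x]) := by
    by_cases hc : cov[M, id; tm e v g x] = 0
    · simp [hc]
    · field_simp
  rw [h3]
  unfold BF at hBF
  linarith

end Crest.Agent.R164
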