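import Crest.Agent.R164.O6Aux2

/-! # Second variation: one level of the induction -/

set_option autoImplicit false
set_option linter.unusedVariables false
set_option linter.unusedSectionVars false

open MeasureTheory ProbabilityTheory Real Crest.ProbabilityR.InvariantGlass
open scoped ENNReal

namespace Crest.Agent.R164

theorem o6_cov_aff (ν : Measure ℝ) [IsProbabilityMeasure ν] {ψ a b : ℝ → ℝ} (hψ : MemLp ψ 2 ν)
    (ha : o6Bd a) (hb : o6Bd b) (κ φ : ℝ) :
    cov[ψ, fun y => (κ - a y) / 2 - φ * (1 - b y) / 2; ν] =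
      -cov[ψ, a; ν] / 2 + φ * cov[ψ, b; ν] / 2 := by
  rw [covariance_fun_sub_right hψ ((((o6Bd.const κ).sub ha).div 2).memLp ν)
      (((((o6Bd.const 1).sub hb).cmul φ).div 2).memLp ν), covariance_fun_div_right,
    covariance_fun_div_right, covariance_const_mul_right, covariance_const_sub_right (ha.int ν),
    covariance_const_sub_right (hb.int ν)]
  ring

theorem o6_int_aff (ν : Measure ℝ) [IsProbabilityMeasure ν] {a b : ℝ → ℝ}
    (ha : o6Bd a) (hb : o6Bd b) (κ φ : ℝ) :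
    ∫ y, ((κ - a y) / 2 - φ * (1 - b y) / 2) ∂ν =
      (κ - ∫ y, a y ∂ν) / 2 - φ * (1 - ∫ y, b y ∂ν) / 2 := by
  rw [integral_sub ((((o6Bd.const κ).sub ha).div 2).int ν)
      (((((o6Bd.const 1).sub hb).cmul φ).div 2).int ν), integral_div, integral_div,
    integral_const_mul, integral_sub (integrable_const _) (ha.int ν),
    integral_sub (integrable_const _) (hb.int ν)]
  simp

theorem o6_int_one_sub (ν : Measure ℝ) [IsProbabilityMeasure ν] {b : ℝ → ℝ} (hb : o6Bd b) :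
    ∫ y, (1 - b y) ∂ν = 1 - ∫ y, b y ∂ν := by
  rw [integral_sub (integrable_const _) (hb.int ν)]
  simp

/-- derivative of the identity `A + e M² = 1 - u` -/
theorem o6_dh0 {M A u : ℝ → ℝ} {A' u' e x : ℝ} (hM : HasDerivAt M (A x) x) (hA : HasDerivAt A A' x)
    (hu : HasDerivAt u u' x) (h0 : ∀ y, A y + e * M y ^ 2 = 1 - u y) :
    u' = -(A' + 2 * e * M x * A x) := by
  have h1 : HasDerivAt (fun y => A y + e * M y ^ 2) (A' + 2 * e * M x * A x) x := by
    refine (hA.add ((hM.pow 2).const_mul e)).congr_deriv ?_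
    simp
    ring
  rw [show (fun y => A y + e * M y ^ 2) = fun y => 1 - u y from funext h0] at h1
  have := h1.unique (hu.const_sub 1)
  linarith

theorem o6St.level {U : Set ℝ} (hU : IsOpen U) (hc : Convex ℝ U) {R : ℝ} (hR : ∀ s ∈ U, |s| ≤ R)
    {v0 w vm : ℝ} (hvm : 0 < vm) (hv : ∀ s ∈ U, vm ≤ v0 + s * w) {e φ κ : ℝ} (he : 0 < e)
    (he1 : e ≤ 1) {g M u0 u1 u2 ud : ℝ → ℝ → ℝ} {B : ℝ}
    (hP : ∀ t ∈ U, Pot (g t) (M t) (deriv (M t)) (deriv (deriv (M t))) B)
    (r0 : ∀ t ∈ U, o6Rg (deriv (M t)) (u0 t) B) (r1 : ∀ t ∈ U, o6Rg (deriv (M t)) (u1 t) B)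
    (r2 : ∀ t ∈ U, o6Rg (deriv (M t)) (u2 t) B)
    (hBF : ∀ t ∈ U, ∀ x, BF e (v0 + t * w) (g t) (M t) (deriv (M t)) x (u1 t) (deriv (u1 t)) (u1 t)
      (deriv (u1 t)) ≤ BF e (v0 + t * w) (g t) (M t) (deriv (M t)) x (u2 t) (deriv (u2 t)) (u0 t)
      (deriv (u0 t)))
    (h : o6St U e (φ + w) κ g M u0 u1 u2 ud) :
    ∃ ud', o6St U e φ κ (fun t => gaussOp e (v0 + t * w) (g t))
      (fun t x => ∫ y, M t y ∂(tm e (v0 + t * w) (g t) x))
      (fun t x => ∫ y, u0 t y ∂(tm e (v0 + t * w) (g t) x))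
      (fun t x => ∫ y, u1 t y ∂(tm e (v0 + t * w) (g t) x))
      (fun t x => ∫ y, u2 t y ∂(tm e (v0 + t * w) (g t) x)) ud' := by
  obtain ⟨C, hC⟩ := h.bud
  have hv0 : ∀ t ∈ U, 0 < v0 + t * w := fun t ht => hvm.trans_le (hv t ht)
  set g' : ℝ → ℝ → ℝ := fun t y => (κ - u1 t y) / 2 - (φ + w) * (1 - u0 t y) / 2 with hg'
  set M' : ℝ → ℝ → ℝ := fun t y => -deriv (u1 t) y / 2 -
    (φ + w) * (deriv (deriv (M t)) y / 2 + e * M t y * deriv (M t) y) with hM'
  have lip : ∀ t ∈ U, Lip1 (g t) := fun t ht => (hP t ht).lip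
  have bg' : ∀ t ∈ U, o6Bd (g' t) := fun t ht =>
    (((o6Bd.const κ).sub (r1 t ht).bd0).div 2).sub
      ((((o6Bd.const 1).sub (r0 t ht).bd0).cmul _).div 2)
  have bM' : ∀ t ∈ U, o6Bd (M' t) := fun t ht =>
    (((r1 t ht).bd1 (hP t ht)).neg.div 2).sub ((((hP t ht).o6_A'.div 2).add
      (((hP t ht).o6_M.cmul e).mul (hP t ht).o6_A)).cmul _)
  have dg : ∀ t ∈ U, ∀ y, HasDerivAt (fun s => g s y) (g' t y) t := fun t ht y => by
    simpa only [zero_mul, add_zero] using h.dg t ht y 0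
  have dM : ∀ t ∈ U, ∀ y, HasDerivAt (fun s => M s y) (M' t y) t := fun t ht y => by
    simpa only [zero_mul, add_zero] using h.dM t ht y 0
  have du : ∀ t ∈ U, ∀ y, HasDerivAt (fun s => u1 s y) (ud t y) t := fun t ht y => by
    simpa only [zero_mul, add_zero] using h.du t ht y 0
  have bud : ∀ t ∈ U, o6Bd (ud t) := fun t ht =>
    ⟨o6_meas hU (fun s hs => (r1 s hs).bd0.1) ht (du t ht), C, hC t ht⟩
  have ag' : ∀ t ∈ U, ∀ y, |g' t y| ≤ (|κ| + B) / 2 + |φ + w| * (1 + B) / 2 := fun t ht y => by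
    refine (abs_sub _ _).trans (add_le_add ?_ ?_)
    · rw [abs_div, abs_two]
      linarith [abs_sub κ (u1 t y), (r1 t ht).b0 y]
    · rw [abs_div, abs_two, abs_mul]
      gcongr
      have := abs_sub 1 (u0 t y)
      rw [abs_one] at this
      linarith [(r0 t ht).b0 y]
  have aM' : ∀ t ∈ U, ∀ y, |M' t y| ≤ B * B / 2 + |φ + w| * (B / 2 + |e| * B) := fun t ht y =>
    o6_absMd (hP t ht) (r1 t ht) e (φ + w) y
  set C0 := |(|κ| + B) / 2 + |φ + w| * (1 + B) / 2| + |B * B / 2 + |φ + w| * (B / 2 + |e| * B)| +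
    |C| + |B| + 1 with hC0
  have c1 : (|κ| + B) / 2 + |φ + w| * (1 + B) / 2 ≤ C0 := (le_abs_self _).trans (by
    rw [hC0]; linarith [abs_nonneg (B * B / 2 + |φ + w| * (B / 2 + |e| * B)), abs_nonneg C,
      abs_nonneg B])
  have c2 : B * B / 2 + |φ + w| * (B / 2 + |e| * B) ≤ C0 := (le_abs_self _).trans (by
    rw [hC0]; linarith [abs_nonneg ((|κ| + B) / 2 + |φ + w| * (1 + B) / 2), abs_nonneg C,
      abs_nonneg B])
  have c3 : C ≤ C0 ∧ B ≤ C0 ∧ 1 ≤ C0 := by
    rw [hC0]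
    have := abs_nonneg ((|κ| + B) / 2 + |φ + w| * (1 + B) / 2)
    have := abs_nonneg (B * B / 2 + |φ + w| * (B / 2 + |e| * B))
    refine ⟨?_, ?_, ?_⟩ <;> linarith [le_abs_self C, le_abs_self B, abs_nonneg C, abs_nonneg B]
  have path : ∀ t ∈ U, ∀ y β, ∃ B', C0 ≤ B' ∧ Path U (fun s => y + β * (s - t)) (fun _ => β)
      (fun s => v0 + s * w) (fun _ => w) g g' B' := fun t ht y β =>
    o6_mkPath hc hR ht hvm hv lip (fun s hs => (bg' s hs).1) dg
      (fun s hs z => (ag' s hs z).trans c1) y β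
  -- derivative of a tilted expectation along the path
  have dint : ∀ ψ ψ' : ℝ → ℝ → ℝ, (∀ t ∈ U, o6Bd (ψ t)) → (∀ t ∈ U, o6Bd (ψ' t)) →
      (∀ t ∈ U, ∀ y, HasDerivAt (fun s => ψ s y) (ψ' t y) t) →
      (∀ t ∈ U, ∀ y, |ψ t y| ≤ C0 ∧ |ψ' t y| ≤ C0) → ∀ t ∈ U, ∀ x β,
      HasDerivAt (fun s => ∫ y, ψ s y ∂(tm e (v0 + s * w) (g s) (x + β * (s - t))))
        (∫ y, ψ' t y ∂(tm e (v0 + t * w) (g t) x) + (e * cov[ψ t, g' t; tm e (v0 + t * w) (g t) x] +
          β * (cov[ψ t, id; tm e (v0 + t * w) (g t) x] / (v0 + t * w)) +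
          w / 2 * cov[ψ t, fun y => ((y - x) / (v0 + t * w)) ^ 2; tm e (v0 + t * w) (g t) x])) t := by
    intro ψ ψ' b1 b2 d b t ht x β
    obtain ⟨B', hB', hp⟩ := path t ht x β
    have := hp.integral hU he he1 (fun s hs => (b1 s hs).1) (fun s hs => (b2 s hs).1) d
      (fun s hs y => ⟨o6_poly (fun z => (b s hs z).1.trans hB') y,
        o6_poly (fun z => (b s hs z).2.trans hB') y⟩) ht
    simp only [sub_self, mul_zero, add_zero] at this
    rwa [o6_cov3 (lip t ht) (b1 t ht) (bg' t ht)] at this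
  have h0 : ∀ t ∈ U, ∀ x, cov[M t, id; tm e (v0 + t * w) (g t) x] / (v0 + t * w) +
      e * (∫ y, M t y ∂(tm e (v0 + t * w) (g t) x)) ^ 2 =
      1 - ∫ y, u0 t y ∂(tm e (v0 + t * w) (g t) x) := fun t ht x => by
    haveI := (lip t ht).prob e (v0 + t * w) x
    rw [(hP t ht).o6_psi e (hv0 t ht) x, ← o6_int_one_sub _ (r0 t ht).bd0]
    simp only [h.h0 t ht]
  -- the second-order identity for `u1`
  have hsq : ∀ t ∈ U, ∀ x,
      cov[u1 t, fun y => ((y - x) / (v0 + t * w)) ^ 2; tm e (v0 + t * w) (g t) x] =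
      2 * ∫ y, (deriv (deriv (u1 t)) y / 2 + e * M t y * deriv (u1 t) y)
        ∂(tm e (v0 + t * w) (g t) x) - e * cov[u1 t, u0 t; tm e (v0 + t * w) (g t) x] := by
    intro t ht x
    haveI := (lip t ht).prob e (v0 + t * w) x
    have hB := (hP t ht).o6_pos
    have := cov_sq_eq (lip t ht) (hP t ht).d1 (hP t ht).d2 (r1 t ht).d1 (r1 t ht).d2
      (B := B + B * B) (fun y => ((hP t ht).o6_absA y).trans (by nlinarith))
      (fun y => ((r1 t ht).b0 y).trans (by nlinarith))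
      (fun y => ((r1 t ht).b1' (hP t ht) y).trans (by nlinarith))
      (fun y => ((r1 t ht).b2 y).trans (by nlinarith)) e (hv0 t ht) x
    simp only [h.h0 t ht] at this
    rw [covariance_fun_div_right, covariance_const_sub_right ((r0 t ht).bd0.int _)] at this
    linarith
  refine ⟨fun t x => ∫ y, ud t y ∂(tm e (v0 + t * w) (g t) x) +
      e * cov[u1 t, g' t; tm e (v0 + t * w) (g t) x] +
      w / 2 * cov[u1 t, fun y => ((y - x) / (v0 + t * w)) ^ 2; tm e (v0 + t * w) (g t) x],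
    fun t ht x => ?_, fun t ht x β => ?_, fun t ht x β => ?_, fun t ht x β => ?_, ?_,
    fun t ht x => ?_⟩
  · rw [o6_deriv1 (lip t ht) (hP t ht).o6_M he he1 (hv0 t ht)]
    exact h0 t ht x
  · haveI := (lip t ht).prob e (v0 + t * w) x
    obtain ⟨B', hB', hp⟩ := path t ht x β
    have := hp.gaussOp hU he he1 ht
    simp only [sub_self, mul_zero, add_zero] at this
    refine this.congr_deriv ?_
    rw [(hP t ht).o6_gauss (bg' t ht) he (hv0 t ht)]
    simp only [h.h0 t ht, hg']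
    rw [o6_int_aff _ (r1 t ht).bd0 (r0 t ht).bd0, o6_int_one_sub _ (r0 t ht).bd0]
    ring
  · haveI := (lip t ht).prob e (v0 + t * w) x
    refine (dint M M' (fun s hs => (hP s hs).o6_M) bM' dM
      (fun s hs y => ⟨((hP s hs).bM y).trans c3.2.2, (aM' s hs y).trans c2⟩) t ht x β).congr_deriv ?_
    rw [o6_deriv2 (lip t ht) (hP t ht).o6_M he he1 (hv0 t ht),
      o6_deriv1 (lip t ht) (hP t ht).o6_M he he1 (hv0 t ht),
      o6_deriv1 (lip t ht) (r1 t ht).bd0 he he1 (hv0 t ht),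
      o6_cov_usq (lip t ht) (hP t ht).d1 (hP t ht).o6_M e (hv0 t ht)]
    have d1 : ∀ y, HasDerivAt (g' t) (M' t y) y := fun y => by
      refine (((((r1 t ht).d1 y).const_sub κ).div_const 2).sub
        (((((r0 t ht).d1 y).const_sub 1).const_mul (φ + w)).div_const 2)).congr_deriv ?_
      rw [o6_dh0 ((hP t ht).d2 y) ((hP t ht).d3 y) ((r0 t ht).d1 y) (h.h0 t ht)]
      simp only [hM']
      ring
    have e1 := cov_id_eq (lip t ht) (hP t ht).d1 d1 (B := C0) (fun y => (ag' t ht y).trans c1)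
      (fun y => (aM' t ht y).trans c2) e (hv0 t ht) x
    rw [covariance_comm (g' t) (M t), covariance_comm (g' t) id] at e1
    have e2 := o6_cov_aff (tm e (v0 + t * w) (g t) x) (ψ := id) (o6_memLp_id (lip t ht) _ _ _)
      (r1 t ht).bd0 (r0 t ht).bd0 κ (φ + w)
    rw [covariance_comm id (u1 t), covariance_comm id (u0 t)] at e2
    have e3 := o6_dh0 (e := e) (x := x)
      (M := fun x => ∫ y, M t y ∂(tm e (v0 + t * w) (g t) x))
      (A := fun x => cov[M t, id; tm e (v0 + t * w) (g t) x] / (v0 + t * w))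
      (hasDerivAt_tm (lip t ht) (hP t ht).o6_M.1 (o6_poly (hP t ht).bM) he he1 (hv0 t ht) x)
      (hasDerivAt_cov_tm (lip t ht) (hP t ht).o6_M.1 (hP t ht).bM he he1 (hv0 t ht) x)
      (hasDerivAt_tm (lip t ht) (r0 t ht).bd0.1 (o6_poly (r0 t ht).b0) he he1 (hv0 t ht) x)
      (h0 t ht)
    have e4 : cov[id, g' t; tm e (v0 + t * w) (g t) x] / (v0 + t * w) =
        -(cov[u1 t, id; tm e (v0 + t * w) (g t) x] / (v0 + t * w)) / 2 +
          (φ + w) * (cov[u0 t, id; tm e (v0 + t * w) (g t) x] / (v0 + t * w)) / 2 := by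
      rw [show cov[id, g' t; tm e (v0 + t * w) (g t) x] = _ from e2]
      ring
    rw [e3] at e4
    simp only
    linear_combination e4 - e1
  · refine (dint u1 ud (fun s hs => (r1 s hs).bd0) bud du
      (fun s hs y => ⟨((r1 s hs).b0 y).trans c3.2.1, (hC s hs y).trans c3.1⟩) t ht x β).congr_deriv ?_
    rw [o6_deriv1 (lip t ht) (r1 t ht).bd0 he he1 (hv0 t ht)]
    ring
  · refine ⟨C + |e| * (4 * B * C0) + |w / 2| * (2 * (B / 2 + |e| * (B * B)) + |e| * (4 * B * B)),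
      fun t ht x => ?_⟩
    haveI := (lip t ht).prob e (v0 + t * w) x
    refine (abs_add_le _ _).trans (add_le_add ((abs_add_le _ _).trans (add_le_add
      (o6_abs_int_le _ (hC t ht)) ?_)) ?_)
    · rw [abs_mul]
      exact mul_le_mul_of_nonneg_left
        (o6_abs_cov_le _ (r1 t ht).b0 fun y => (ag' t ht y).trans c1) (abs_nonneg _)
    · rw [abs_mul, hsq t ht x]
      refine mul_le_mul_of_nonneg_left ((abs_sub _ _).trans (add_le_add ?_ ?_)) (abs_nonneg _)
      · rw [abs_mul, abs_two]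
        refine mul_le_mul_of_nonneg_left (o6_abs_int_le _ fun y => ?_) zero_le_two
        refine (abs_add_le _ _).trans (add_le_add ?_ ?_)
        · rw [abs_div, abs_two]
          linarith [(r1 t ht).b2 y]
        · rw [abs_mul, abs_mul, mul_assoc]
          refine mul_le_mul_of_nonneg_left ?_ (abs_nonneg _)
          exact (mul_le_of_le_one_left (abs_nonneg _) ((hP t ht).bM y)).trans
            ((r1 t ht).b1' (hP t ht) y)
      · rw [abs_mul]
        exact mul_le_mul_of_nonneg_left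
          (o6_abs_cov_le _ (r1 t ht).b0 (r0 t ht).b0) (abs_nonneg _)
  · haveI := (lip t ht).prob e (v0 + t * w) x
    rw [o6_deriv2 (lip t ht) (hP t ht).o6_M he he1 (hv0 t ht),
      o6_deriv2 (lip t ht) (r1 t ht).bd0 he he1 (hv0 t ht),
      o6_deriv2 (lip t ht) (r2 t ht).bd0 he he1 (hv0 t ht),
      o6_deriv1 (lip t ht) (hP t ht).o6_M he he1 (hv0 t ht),
      o6_deriv1 (lip t ht) (r1 t ht).bd0 he he1 (hv0 t ht),
      o6_deriv1 (lip t ht) (r2 t ht).bd0 he he1 (hv0 t ht)]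
    refine (o6_ineq (hP t ht) (r0 t ht) (r1 t ht) (r2 t ht) (bud t ht) he he1 (hv0 t ht)
      (h.h0 t ht) (h.ineq t ht) x (hBF t ht x)).trans_eq ?_
    have e1 := o6_cov_usq (lip t ht) (hP t ht).d1 (r1 t ht).bd0 e (hv0 t ht) x
    have e2 := hsq t ht x
    have e3 : cov[u1 t, g' t; tm e (v0 + t * w) (g t) x] = _ :=
      o6_cov_aff (tm e (v0 + t * w) (g t) x) ((r1 t ht).bd0.memLp _)
        (r1 t ht).bd0 (r0 t ht).bd0 κ (φ + w)
    simp only
    rw [← e1, e2, e3]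
    ring

end Crest.Agent.R164
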