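import Crest.Agent.R164.O6Aux3

/-! # Second variation: the induction over the list -/

set_option autoImplicit false
set_option linter.unusedVariables false
set_option linter.unusedSectionVars false

open MeasureTheory ProbabilityTheory Real Crest.ProbabilityR.InvariantGlass
open scoped ENNReal

namespace Crest.Agent.R164

/-- the outermost exponent -/
def o6hd : List (ℝ × ℝ × ℝ) → ℝ
  | [] => 1
  | q :: _ => q.1

/-- the increments of the exponents -/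
def o6W : ℝ → List (ℝ × ℝ × ℝ) → ℕ → ℝ
  | e, L, 0 => o6hd L - e
  | _, [], _ + 1 => 0
  | _, q :: L, k + 1 => o6W q.1 L k

/-- the cumulated slopes -/
def o6p : ℝ → List (ℝ × ℝ × ℝ) → ℕ → ℝ
  | φ, _, 0 => φ
  | φ, [], _ + 1 => φ
  | φ, q :: L, k + 1 => o6p (φ + q.2.2) L k

/-- `Û^j` -/
noncomputable def o6U (j : ℕ) (e φ : ℝ) (L : List (ℝ × ℝ × ℝ)) (t y : ℝ) : ℝ :=
  ∑ k ∈ Finset.range (L.length + 1), o6W e L k * o6p φ L k ^ j * DL (Lt L t) k y

theorem o6W_zero (e : ℝ) (L : List (ℝ × ℝ × ℝ)) : o6W e L 0 = o6hd L - e := by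
  cases L <;> rfl

theorem o6p_zero (φ : ℝ) (L : List (ℝ × ℝ × ℝ)) : o6p φ L 0 = φ := by
  cases L <;> rfl

theorem o6DL_zero (L : List (ℝ × ℝ)) : DL L 0 = fun x => ML L x ^ 2 := by
  cases L <;> rfl

theorem o6W_succ (e e' : ℝ) (L : List (ℝ × ℝ × ℝ)) (k : ℕ) : o6W e L (k + 1) = o6W e' L (k + 1) := by
  cases L <;> rfl

theorem o6U_change (j : ℕ) (e φ : ℝ) (L : List (ℝ × ℝ × ℝ)) :
    o6U j e φ L = fun t y => o6U j (o6hd L) φ L t y + (o6hd L - e) * φ ^ j * ML (Lt L t) y ^ 2 := by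
  funext t y
  simp only [o6U, Finset.sum_range_succ', o6W_zero, o6p_zero, o6DL_zero, o6W_succ e (o6hd L)]
  ring

theorem o6U_nil (j : ℕ) (φ : ℝ) : o6U j (o6hd []) φ [] = fun _ _ => 0 := by
  funext t y
  simp [o6U, o6W_zero]

theorem o6W_nonneg : ∀ (L : List (ℝ × ℝ × ℝ)) (e : ℝ), LSort (Lt L 0) → e ≤ o6hd L →
    ∀ k, 0 ≤ o6W e L k
  | L, e, _, he, 0 => by rw [o6W_zero]; linarith
  | [], e, _, _, k + 1 => le_rfl
  | q :: L, e, hs, _, k + 1 => by
    have h1 : LSort (Lt L 0) :=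
      ⟨fun p hp => hs.1 p (List.mem_cons_of_mem _ hp), (List.pairwise_cons.1 hs.2).2⟩
    refine o6W_nonneg L q.1 h1 ?_ k
    cases L with
    | nil => exact (hs.1 _ List.mem_cons_self).2
    | cons p L => exact (List.pairwise_cons.1 hs.2).1 _ List.mem_cons_self

theorem o6_sum {A : ℝ → ℝ} {D : ℕ → ℝ → ℝ} {B : ℝ} (J : Finset ℕ)
    (hD : ∀ k, CvxIn A (D k) (deriv (D k)) (deriv (deriv (D k))) B) (c : ℕ → ℝ) :
    (deriv (fun y => ∑ k ∈ J, c k * D k y) = fun y => ∑ k ∈ J, c k * deriv (D k) y) ∧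
    (deriv (deriv (fun y => ∑ k ∈ J, c k * D k y)) =
      fun y => ∑ k ∈ J, c k * deriv (deriv (D k)) y) ∧
    o6Rg A (fun y => ∑ k ∈ J, c k * D k y) ((∑ k ∈ J, |c k|) * B) := by
  have d1 : ∀ y, HasDerivAt (fun y => ∑ k ∈ J, c k * D k y) (∑ k ∈ J, c k * deriv (D k) y) y :=
    fun y => HasDerivAt.fun_sum fun k _ => ((hD k).d1 y).const_mul (c k)
  have d2 : ∀ y, HasDerivAt (fun y => ∑ k ∈ J, c k * deriv (D k) y)
      (∑ k ∈ J, c k * deriv (deriv (D k)) y) y :=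
    fun y => HasDerivAt.fun_sum fun k _ => ((hD k).d2 y).const_mul (c k)
  have e1 : deriv (fun y => ∑ k ∈ J, c k * D k y) = fun y => ∑ k ∈ J, c k * deriv (D k) y :=
    funext fun y => (d1 y).deriv
  have e2 : deriv (deriv (fun y => ∑ k ∈ J, c k * D k y)) =
      fun y => ∑ k ∈ J, c k * deriv (deriv (D k)) y := by
    rw [e1]; exact funext fun y => (d2 y).deriv
  have bd : ∀ (a : ℕ → ℝ) (b : ℝ), (∀ k, |a k| ≤ b) → |∑ k ∈ J, c k * a k| ≤ (∑ k ∈ J, |c k|) * b :=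
    fun a b h => by
      rw [Finset.sum_mul]
      refine (Finset.abs_sum_le_sum_abs _ _).trans (Finset.sum_le_sum fun k _ => ?_)
      rw [abs_mul]
      exact mul_le_mul_of_nonneg_left (h k) (abs_nonneg _)
  refine ⟨e1, e2, fun y => ?_, fun y => ?_, fun y => bd _ _ fun k => (hD k).bD y, fun y => ?_,
    fun y => ?_⟩
  · rw [e1]; exact d1 y
  · rw [e2, e1]; exact d2 y
  · rw [e1, mul_assoc]; exact bd _ _ fun k => (hD k).bD' y
  · rw [e2]; exact bd _ _ fun k => (hD k).bD'' y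

theorem o6_reg {U : Set ℝ} {vm : ℝ} (hvm : 0 < vm) (L : List (ℝ × ℝ × ℝ)) (hs : LSort (Lt L 0))
    (hv : ∀ q ∈ L, ∀ t ∈ U, vm ≤ q.2.1 + t * q.2.2) : ∃ B, ∀ t ∈ U,
    Pot (fL (Lt L t)) (ML (Lt L t)) (deriv (ML (Lt L t))) (deriv (deriv (ML (Lt L t)))) B ∧
    ∀ k, CvxIn (deriv (ML (Lt L t))) (DL (Lt L t) k) (deriv (DL (Lt L t) k))
      (deriv (deriv (DL (Lt L t) k))) B := by
  obtain ⟨B, -, h⟩ := pot_fL hvm
  refine ⟨B, fun t ht => h _ fun p hp => ?_⟩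
  obtain ⟨q, hq, rfl⟩ := List.mem_map.1 hp
  have := hs.1 _ (List.mem_map.2 ⟨q, hq, rfl⟩)
  exact ⟨this.1, this.2, hv q hq t ht⟩

theorem o6_reg' {U : Set ℝ} {vm : ℝ} (hvm : 0 < vm) (L : List (ℝ × ℝ × ℝ)) (hs : LSort (Lt L 0))
    (hv : ∀ q ∈ L, ∀ t ∈ U, vm ≤ q.2.1 + t * q.2.2) (e φ : ℝ) : ∃ B,
    (∀ t ∈ U, Pot (fL (Lt L t)) (ML (Lt L t)) (deriv (ML (Lt L t)))
      (deriv (deriv (ML (Lt L t)))) B) ∧
    ∀ j ≤ 2, ∀ t ∈ U, o6Rg (deriv (ML (Lt L t))) (o6U j e φ L t) B := by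
  obtain ⟨B, h⟩ := o6_reg hvm L hs hv
  set S : ℕ → ℝ := fun j => ∑ k ∈ Finset.range (L.length + 1), |o6W e L k * o6p φ L k ^ j| with hS
  have S0 : ∀ j, 0 ≤ S j := fun j => Finset.sum_nonneg fun k _ => abs_nonneg _
  refine ⟨(1 + S 0 + S 1 + S 2) * B, fun t ht => (h t ht).1.o6_mono ?_, fun j hj t ht => ?_⟩
  · exact le_mul_of_one_le_left (h t ht).1.o6_pos.le (by linarith [S0 0, S0 1, S0 2])
  · refine (o6_sum _ (h t ht).2 fun k => o6W e L k * o6p φ L k ^ j).2.2.mono (h t ht).1.pA ?_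
    refine mul_le_mul_of_nonneg_right ?_ (h t ht).1.o6_pos.le
    change S j ≤ _
    interval_cases j <;> linarith [S0 0, S0 1, S0 2]

theorem o6St.congr {U : Set ℝ} (hU : IsOpen U) {e φ κ : ℝ}
    {g M u0 u1 u2 u0' u1' u2' ud : ℝ → ℝ → ℝ} (h : o6St U e φ κ g M u0 u1 u2 ud)
    (h0 : ∀ t ∈ U, u0' t = u0 t) (h1 : ∀ t ∈ U, u1' t = u1 t) (h2 : ∀ t ∈ U, u2' t = u2 t) :
    o6St U e φ κ g M u0' u1' u2' ud := by
  refine ⟨fun t ht y => ?_, fun t ht y β => ?_, fun t ht y β => ?_, fun t ht y β => ?_, h.bud,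
    fun t ht y => ?_⟩
  · rw [h0 t ht]; exact h.h0 t ht y
  · rw [h0 t ht, h1 t ht]; exact h.dg t ht y β
  · rw [h1 t ht]; exact h.dM t ht y β
  · rw [h1 t ht]
    refine (h.du t ht y β).congr_of_eventuallyEq ?_
    filter_upwards [hU.mem_nhds ht] with s hs
    rw [h1 s hs]
  · rw [h1 t ht, h2 t ht]; exact h.ineq t ht y

theorem o6_base {U : Set ℝ} (φ : ℝ) :
    o6St U 1 φ φ (fun _ => fL []) (fun _ => ML []) (fun _ _ => 0) (fun _ _ => 0) (fun _ _ => 0)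
      (fun _ _ => 0) := by
  obtain ⟨B, -, h⟩ := pot_fL one_pos
  have hP := (h [] (by simp)).1
  have h0 : ∀ y, deriv (ML []) y + 1 * ML [] y ^ 2 = 1 - 0 := fun y => by
    have h1 : HasDerivAt (fun y => sinh y / cosh y) _ y :=
      (hasDerivAt_sinh y).div (hasDerivAt_cosh y) (cosh_pos y).ne'
    have h2 : ML [] = fun y => sinh y / cosh y := funext fun y => tanh_eq_sinh_div_cosh y
    rw [h2, h1.deriv]
    have := (cosh_pos y).ne'
    field_simp
    ring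
  have hl : ∀ (y β t : ℝ), HasDerivAt (fun s => y + β * (s - t)) β t := fun y β t => by
    simpa using (((hasDerivAt_id t).sub_const t).const_mul β).const_add y
  refine ⟨fun t _ y => h0 y, fun t _ y β => ?_, fun t _ y β => ?_, fun t _ y β => ?_,
    ⟨0, fun _ _ _ => by simp⟩, fun t _ y => by simp⟩
  · refine ((hP.d1 (y + β * (t - t))).comp t (hl y β t)).congr_deriv ?_
    simp [mul_comm]
  · refine ((hP.d2 (y + β * (t - t))).comp t (hl y β t)).congr_deriv ?_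
    have := o6_dh0 (u := fun _ => 0) (hP.d2 y) (hP.d3 y) (hasDerivAt_const y 0) h0
    simp only [sub_self, mul_zero, add_zero, deriv_const']
    linear_combination (φ / 2) * this
  · simpa using hasDerivAt_const t (0 : ℝ)

theorem o6_main {U : Set ℝ} (hU : IsOpen U) (hc : Convex ℝ U) {R : ℝ} (hR : ∀ s ∈ U, |s| ≤ R)
    {vm : ℝ} (hvm : 0 < vm) (L : List (ℝ × ℝ × ℝ)) (hs : LSort (Lt L 0))
    (hv : ∀ q ∈ L, ∀ t ∈ U, vm ≤ q.2.1 + t * q.2.2) (e φ : ℝ) :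
    ∃ κ ud, o6St U e φ κ (fun t => fL (Lt L t)) (fun t => ML (Lt L t)) (o6U 0 e φ L) (o6U 1 e φ L)
      (o6U 2 e φ L) ud := by
  induction L generalizing e φ with
  | nil =>
    obtain ⟨B, hP, r⟩ := o6_reg' hvm [] hs hv (o6hd []) φ
    have h := o6_base (U := U) φ
    rw [o6U_change 0, o6U_change 1, o6U_change 2]
    refine ⟨φ, o6St.change hP (r 1 (by norm_num)) (r 2 le_rfl) (ud := fun _ _ => 0) ?_ e⟩
    rw [o6U_nil, o6U_nil, o6U_nil]
    exact h
  | cons q L ih =>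
    have h1 : LSort (Lt L 0) :=
      ⟨fun p hp => hs.1 p (List.mem_cons_of_mem _ hp), (List.pairwise_cons.1 hs.2).2⟩
    have hv1 : ∀ p ∈ L, ∀ t ∈ U, vm ≤ p.2.1 + t * p.2.2 :=
      fun p hp => hv p (List.mem_cons_of_mem _ hp)
    have hq := hs.1 _ List.mem_cons_self
    have hvq := hv q List.mem_cons_self
    obtain ⟨κ, ud, h⟩ := ih h1 hv1 q.1 (φ + q.2.2)
    obtain ⟨B, hP, r⟩ := o6_reg' hvm L h1 hv1 q.1 (φ + q.2.2)
    obtain ⟨B0, hD⟩ := o6_reg hvm L h1 hv1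
    have hW : ∀ k, 0 ≤ o6W q.1 L k := fun k => o6W_nonneg (q :: L) q.1 hs le_rfl (k + 1)
    obtain ⟨ud', h'⟩ := o6St.level hU hc hR hvm hvq hq.1 hq.2 hP (r 0 (by norm_num))
      (r 1 (by norm_num)) (r 2 le_rfl) (fun t ht x => by
        have d := fun j : ℕ => (o6_sum (Finset.range (L.length + 1)) (hD t ht).2
          fun k => o6W q.1 L k * o6p (φ + q.2.2) L k ^ j).1
        have := BF_family (Finset.range (L.length + 1)) (hD t ht).1 (fun k _ => (hD t ht).2 k)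
          (o6W q.1 L) (o6p (φ + q.2.2) L) (fun k _ => hW k) hq.1 hq.2
          (hvm.trans_le (hvq t ht)) x
        unfold o6U
        rw [d 0, d 1, d 2]
        simpa only [pow_one, pow_zero, mul_one] using this) h
    have hE : ∀ j, ∀ t ∈ U, o6U j (o6hd (q :: L)) φ (q :: L) t = fun x =>
        ∫ y, o6U j q.1 (φ + q.2.2) L t y ∂(tm q.1 (q.2.1 + t * q.2.2) (fL (Lt L t)) x) := by
      intro j t ht
      funext x
      haveI := (hP t ht).lip.prob q.1 (q.2.1 + t * q.2.2) x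
      unfold o6U
      rw [integral_finset_sum _ fun k _ => (o6Bd.cmul _ ⟨(continuous_iff_continuousAt.2 fun y =>
        (((hD t ht).2 k).d1 y).continuousAt).measurable, B0, ((hD t ht).2 k).bD⟩).int _,
        List.length_cons, Finset.sum_range_succ', o6W_zero, sub_self, zero_mul, zero_mul, add_zero]
      refine Finset.sum_congr rfl fun k _ => ?_
      rw [integral_const_mul]
      rfl
    obtain ⟨B', hP', r'⟩ := o6_reg' hvm (q :: L) hs hv (o6hd (q :: L)) φ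
    rw [o6U_change 0, o6U_change 1, o6U_change 2]
    exact ⟨κ, o6St.change hP' (r' 1 (by norm_num)) (r' 2 le_rfl)
      (h'.congr hU (hE 0) (hE 1) (hE 2)) e⟩

theorem o6_c_nonneg {g M A A' D : ℝ → ℝ} {B : ℝ} (hP : Pot g M A A' B)
    (hD : CvxIn A D (deriv D) (deriv (deriv D)) B) (x : ℝ) :
    0 ≤ deriv (deriv D) x - deriv D x * A' x / A x := by
  have h := ((hD.d2 x).div (hP.d3 x) (hP.pA x).ne').nonneg_of_monotone hD.mono
  have hA := hP.pA x
  have : deriv (deriv D) x - deriv D x * A' x / A x =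
      (deriv (deriv D) x * A x - deriv D x * A' x) / A x ^ 2 * A x := by field_simp
  rw [this]
  positivity

theorem o6_nhds (L : List (ℝ × ℝ × ℝ)) {t0 : ℝ} (hv : ∀ q ∈ L, 0 < q.2.1 + t0 * q.2.2) :
    ∃ vm, 0 < vm ∧ ∀ᶠ t in nhds t0, ∀ q ∈ L, vm ≤ q.2.1 + t * q.2.2 := by
  induction L with
  | nil => exact ⟨1, one_pos, by simp⟩
  | cons q L ih =>
    obtain ⟨vm, hvm, h⟩ := ih fun p hp => hv p (List.mem_cons_of_mem _ hp)
    have hq := hv q List.mem_cons_self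
    have hcont : ContinuousAt (fun t : ℝ => q.2.1 + t * q.2.2) t0 := by fun_prop
    refine ⟨min vm ((q.2.1 + t0 * q.2.2) / 2), lt_min hvm (half_pos hq), ?_⟩
    filter_upwards [h, hcont.eventually (lt_mem_nhds (half_lt_self hq))] with t h1 h2 p hp
    rcases List.mem_cons.1 hp with rfl | hp
    · exact (min_le_right _ _).trans h2.le
    · exact (min_le_left _ _).trans (h1 p hp)

end Crest.Agent.R164
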