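import Crest.Agent.R164.O5

/-! # One-site recursion: two identities for the bilinear form of one level -/

set_option autoImplicit false
set_option linter.unusedVariables false
set_option linter.unusedSectionVars false

open MeasureTheory ProbabilityTheory Real Crest.ProbabilityR.InvariantGlass
open scoped ENNReal

namespace Crest.Agent.R164

theorem o6a_lip {g M A A' : ℝ → ℝ} {B : ℝ} (hg : Pot g M A A' B) : Lip1 g := by
  intro x y
  have := Convex.norm_image_sub_le_of_norm_hasDerivWithin_le (s := Set.univ) (C := 1)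
    (f := g) (f' := M) (fun z _ => (hg.d1 z).hasDerivWithinAt) (fun z _ => hg.bM z) convex_univ
    (Set.mem_univ y) (Set.mem_univ x)
  simpa using this

theorem o6a_cont {f f' : ℝ → ℝ} (h : ∀ x, HasDerivAt f (f' x) x) : Continuous f :=
  continuous_iff_continuousAt.2 fun x => (h x).continuousAt

theorem o6a_meas {f f' : ℝ → ℝ} (h : ∀ x, HasDerivAt f (f' x) x) : Measurable f' := by
  have : f' = deriv f := funext fun x => (h x).deriv.symm
  rw [this]
  exact measurable_deriv f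

theorem o6a_memLp_bdd {ν : Measure ℝ} [IsProbabilityMeasure ν] {φ : ℝ → ℝ} (hφ : Measurable φ)
    {C : ℝ} (hb : ∀ y, |φ y| ≤ C) (p : ℝ≥0∞) : MemLp φ p ν :=
  MemLp.of_bound hφ.aestronglyMeasurable C (Filter.Eventually.of_forall hb)

theorem o6a_int_bdd {ν : Measure ℝ} [IsProbabilityMeasure ν] {φ : ℝ → ℝ} (hφ : Measurable φ)
    {C : ℝ} (hb : ∀ y, |φ y| ≤ C) : Integrable φ ν :=
  memLp_one_iff_integrable.1 (o6a_memLp_bdd hφ hb 1)

theorem o6a_memLp {g φ : ℝ → ℝ} (h : Lip1 g) (hφ : Measurable φ) {C : ℝ}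
    (hb : ∀ y, |φ y| ≤ C * (1 + y ^ 2)) (e v x : ℝ) : MemLp φ 2 (tm e v g x) := by
  rw [memLp_two_iff_integrable_sq hφ.aestronglyMeasurable]
  refine h.integrable_tm (hφ.pow_const 2) (C := 4 * C ^ 2 + 2) (fun y => ?_) e v x
  have h0 := abs_nonneg y
  have h1 : 1 + y ^ 2 ≤ 2 * exp |y| := by
    have := Real.quadratic_le_exp_of_nonneg h0
    rw [sq_abs] at this
    linarith
  have h2 : |φ y| ≤ |C| * (2 * exp |y|) :=
    (hb y).trans (mul_le_mul (le_abs_self C) h1 (by positivity) (abs_nonneg C))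
  have h3 : exp |y| ^ 2 ≤ exp ((4 * C ^ 2 + 2) * |y|) := by
    rw [← Real.exp_nat_mul]
    refine exp_le_exp.2 (mul_le_mul_of_nonneg_right ?_ h0)
    push_cast
    nlinarith [sq_nonneg C]
  calc |φ y ^ 2| = |φ y| ^ 2 := abs_pow _ _
    _ ≤ (|C| * (2 * exp |y|)) ^ 2 := pow_le_pow_left₀ (abs_nonneg _) h2 2
    _ = 4 * C ^ 2 * exp |y| ^ 2 := by rw [mul_pow, sq_abs]; ring
    _ ≤ (4 * C ^ 2 + 2) * exp ((4 * C ^ 2 + 2) * |y|) :=
        mul_le_mul (by linarith) h3 (by positivity) (by positivity)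

theorem o6a_memLp_id {g : ℝ → ℝ} (h : Lip1 g) (e v x : ℝ) : MemLp id 2 (tm e v g x) :=
  o6a_memLp h measurable_id (C := 1) (fun y => by
    simp only [id, one_mul]
    nlinarith [sq_abs y, sq_nonneg (|y| - 1), abs_nonneg y]) e v x

theorem o6a_memLp_sq {g : ℝ → ℝ} (h : Lip1 g) (c e v x : ℝ) :
    MemLp (fun y => (y - c) ^ 2) 2 (tm e v g x) :=
  o6a_memLp h (by fun_prop) (C := 2 + 2 * c ^ 2) (fun y => by
    rw [abs_of_nonneg (sq_nonneg _)]
    nlinarith [sq_nonneg (y + c), sq_nonneg (c * y), sq_nonneg c, sq_nonneg y]) e v x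

theorem o6a_cov_u {g M φ : ℝ → ℝ} (h : Lip1 g) (hg : ∀ y, HasDerivAt g (M y) y) (e : ℝ) {v : ℝ}
    (hv : 0 < v) (x : ℝ) (hφ : MemLp φ 2 (tm e v g x)) :
    cov[φ, fun y => ((y - x) / v) ^ 2; tm e v g x] =
      cov[φ, fun y => (y - ∫ z, z ∂(tm e v g x)) ^ 2; tm e v g x] / v ^ 2 +
        2 * e * (∫ y, M y ∂(tm e v g x)) * (cov[φ, id; tm e v g x] / v) := by
  have := h.prob e v x
  have hm := tm_mean h hg e hv x
  set c := ∫ z, z ∂(tm e v g x) with hc
  set m := ∫ y, M y ∂(tm e v g x) with hm'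
  have h1 : (fun y : ℝ => ((y - x) / v) ^ 2) = fun y => (((fun y => (v ^ 2)⁻¹ * (y - c) ^ 2) +
      fun y => (2 * e * m / v) * id y : ℝ → ℝ)) y + (x ^ 2 - c ^ 2) / v ^ 2 := by
    funext y
    simp only [Pi.add_apply, id]
    rw [hm]
    field_simp
    ring
  have h2 := (o6a_memLp_sq h c e v x).const_mul (v ^ 2)⁻¹
  have h3 := (o6a_memLp_id h e v x).const_mul (2 * e * m / v)
  rw [h1, covariance_add_const_right ((h2.add h3).integrable one_le_two),
    covariance_add_right hφ h2 h3, covariance_const_mul_right, covariance_const_mul_right]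
  field_simp

theorem o6a_BF_sum {ι : Type} (J : Finset ι) {g M A A' : ℝ → ℝ} {D D' D'' : ι → ℝ → ℝ} {B : ℝ}
    (hg : Pot g M A A' B) (hD : ∀ r ∈ J, CvxIn A (D r) (D' r) (D'' r) B) (a b : ι → ℝ)
    (e v x : ℝ) :
    BF e v g M A x (fun y => ∑ r ∈ J, a r * D r y) (fun y => ∑ r ∈ J, a r * D' r y)
        (fun y => ∑ r ∈ J, b r * D r y) (fun y => ∑ r ∈ J, b r * D' r y) =
      ∑ r ∈ J, ∑ s ∈ J, a r * b s * BF e v g M A x (D r) (D' r) (D s) (D' s) := by
  have hl := o6a_lip hg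
  have := hl.prob e v x
  have hL : ∀ r ∈ J, MemLp (D r) 2 (tm e v g x) := fun r hr =>
    o6a_memLp_bdd (o6a_cont (hD r hr).d1).measurable (hD r hr).bD 2
  have hI : ∀ r ∈ J, ∀ s ∈ J, Integrable (fun y => D' r y * D' s y / A y) (tm e v g x) := by
    intro r hr s hs
    refine o6a_int_bdd (((o6a_meas (hD r hr).d1).mul (o6a_meas (hD s hs).d1)).div
      (o6a_meas hg.d2)) (C := B * B * B) fun y => ?_
    have hA := hg.pA y
    have hB : 0 < B := hA.trans_le (hg.bA y)
    rw [abs_div, abs_mul, abs_of_pos hA, div_le_iff₀ hA]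
    calc |D' r y| * |D' s y| ≤ (B * A y) * (B * A y) :=
          mul_le_mul ((hD r hr).bD' y) ((hD s hs).bD' y) (abs_nonneg _) (by positivity)
      _ = B * B * A y * A y := by ring
      _ ≤ B * B * B * A y := by gcongr; exact hg.bA y
  have h1 : ∫ y, (∑ r ∈ J, a r * D' r y) * (∑ r ∈ J, b r * D' r y) / A y ∂(tm e v g x) =
      ∑ r ∈ J, ∑ s ∈ J, a r * b s * ∫ y, D' r y * D' s y / A y ∂(tm e v g x) := by
    have h2 : ∀ y, (∑ r ∈ J, a r * D' r y) * (∑ r ∈ J, b r * D' r y) / A y =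
        ∑ r ∈ J, ∑ s ∈ J, a r * b s * (D' r y * D' s y / A y) := by
      intro y
      rw [Finset.sum_mul_sum, Finset.sum_div]
      refine Finset.sum_congr rfl fun r _ => ?_
      rw [Finset.sum_div]
      exact Finset.sum_congr rfl fun s _ => by ring
    simp only [h2]
    rw [integral_finsetSum _ fun r hr =>
      integrable_finsetSum _ fun s hs => (hI r hr s hs).const_mul _]
    refine Finset.sum_congr rfl fun r hr => ?_
    rw [integral_finsetSum _ fun s hs => (hI r hr s hs).const_mul _]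
    exact Finset.sum_congr rfl fun s _ => integral_const_mul _ _
  unfold BF
  rw [h1, covariance_fun_sum_fun_sum' (fun r hr => (hL r hr).const_mul _)
      (fun r hr => (hL r hr).const_mul _),
    covariance_fun_sum_left' (fun r hr => (hL r hr).const_mul _) (o6a_memLp_id hl e v x),
    covariance_fun_sum_left' (fun r hr => (hL r hr).const_mul _) (o6a_memLp_id hl e v x),
    Finset.sum_mul_sum, Finset.sum_div, Finset.mul_sum, ← Finset.sum_add_distrib,
    ← Finset.sum_sub_distrib]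
  refine Finset.sum_congr rfl fun r _ => ?_
  rw [Finset.sum_div, Finset.mul_sum, ← Finset.sum_add_distrib, ← Finset.sum_sub_distrib]
  refine Finset.sum_congr rfl fun s _ => ?_
  rw [covariance_const_mul_left, covariance_const_mul_right, covariance_const_mul_left,
    covariance_const_mul_left]
  ring

theorem o6a_BF_symm (e v : ℝ) (g M A : ℝ → ℝ) (x : ℝ) (D D' W W' : ℝ → ℝ) :
    BF e v g M A x D D' W W' = BF e v g M A x W W' D D' := by
  unfold BF
  rw [covariance_comm D W, mul_comm cov[D, id; tm e v g x]]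
  simp only [mul_comm (D' _) (W' _)]

/-- `𝔅(ψ, ½ (A + e M²)) = ½ c_a[E ψ] - ½ E c[ψ]`, where `(Eψ)' = Cov(ψ,y)/v`,
`(Eψ)'' = Cov(ψ,(y-ȳ)²)/v²` and similarly for `M`.  From `cov_sq_eq` for `ψ`, `tm_mean`,
`cov_id_eq`/`cov_sq_eq` for `M` (which give `Cov(½(A + eM²), y)/v = ½ A_a' + e M_a A_a`; a direct way:
`x ↦ E ½ (A + e M²) = ½ (A_a + e M_a²)` by `cov_id_eq`, differentiate both sides). -/
theorem BF_psi {g M A A' ψ ψ' ψ'' : ℝ → ℝ} {B : ℝ} (hg : Pot g M A A' B)
    (d1 : ∀ x, HasDerivAt ψ (ψ' x) x) (d2 : ∀ x, HasDerivAt ψ' (ψ'' x) x) (b0 : ∀ x, |ψ x| ≤ B)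
    (b1 : ∀ x, |ψ' x| ≤ B * A x) (b2 : ∀ x, |ψ'' x| ≤ B) {e v : ℝ} (he : 0 < e) (he1 : e ≤ 1)
    (hv : 0 < v) (x : ℝ) :
    BF e v g M A x ψ ψ' (fun y => (A y + e * M y ^ 2) / 2) (fun y => A' y / 2 + e * M y * A y) =
      (cov[ψ, fun y => (y - ∫ z, z ∂(tm e v g x)) ^ 2; tm e v g x] / v ^ 2 -
        cov[ψ, id; tm e v g x] / v *
          (cov[M, fun y => (y - ∫ z, z ∂(tm e v g x)) ^ 2; tm e v g x] / v ^ 2) /
          (cov[M, id; tm e v g x] / v)) / 2 -
      (∫ y, (ψ'' y - ψ' y * A' y / A y) ∂(tm e v g x)) / 2 := by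
  have hl := o6a_lip hg
  have := hl.prob e v x
  have hB : 0 < B := (hg.pA 0).trans_le (hg.bA 0)
  have bA : ∀ y, |A y| ≤ B := fun y => by rw [abs_of_pos (hg.pA y)]; exact hg.bA y
  have b1' : ∀ y, |ψ' y| ≤ B * B := fun y =>
    (b1 y).trans (mul_le_mul_of_nonneg_left (hg.bA y) hB.le)
  have hBB : 0 < B * B := mul_pos hB hB
  have mψ := (o6a_cont d1).measurable
  have mM := (o6a_cont hg.d2).measurable
  -- second order identities
  have e1 := cov_sq_eq hl hg.d1 hg.d2 d1 d2 (B := 1 + B + B * B)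
    (fun y => by linarith [bA y]) (fun y => by linarith [b0 y]) (fun y => by linarith [b1' y])
    (fun y => by linarith [b2 y]) e hv x
  have e2 := cov_sq_eq hl hg.d1 hg.d2 hg.d2 hg.d3 (B := 1 + B)
    (fun y => by linarith [bA y]) (fun y => by linarith [hg.bM y]) (fun y => by linarith [bA y])
    (fun y => by linarith [hg.bA' y]) e hv x
  have beM : ∀ y, |e * M y| ≤ 1 := fun y => by
    rw [abs_mul, abs_of_pos he]
    exact mul_le_one₀ he1 (abs_nonneg _) (hg.bM y)
  have e3 := cov_id_eq (φ := fun y => (A y + e * M y ^ 2) / 2)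
    (φ' := fun y => A' y / 2 + e * M y * A y) hl hg.d1 (fun y => by
      have := ((hg.d3 y).add (((hg.d2 y).pow 2).const_mul e)).div_const 2
      refine HasDerivAt.congr_deriv this ?_
      simp
      ring) (B := 1 + 2 * B) (fun y => by
      have h1 : |e * M y ^ 2| ≤ 1 := by
        rw [sq, ← mul_assoc, abs_mul]
        exact mul_le_one₀ (beM y) (abs_nonneg _) (hg.bM y)
      have h2 := abs_add_le (A y) (e * M y ^ 2)
      rw [abs_div, abs_two]
      linarith [bA y]) (fun y => by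
      have h1 : |e * M y * A y| ≤ B := by
        rw [abs_mul]
        exact (mul_le_of_le_one_left (abs_nonneg _) (beM y)).trans (bA y)
      have h2 := abs_add_le (A' y / 2) (e * M y * A y)
      rw [abs_div, abs_two] at h2
      linarith [hg.bA' y]) e hv x
  rw [o6a_cov_u hl hg.d1 e hv x (o6a_memLp_bdd mψ b0 2)] at e1
  rw [o6a_cov_u hl hg.d1 e hv x (o6a_memLp_bdd mM hg.bM 2)] at e2
  rw [covariance_comm _ M] at e3
  have hpos : 0 < cov[M, id; tm e v g x] := by
    have hs : StrictMono M := strictMono_of_deriv_pos fun y => by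
      rw [(hg.d2 y).deriv]; exact hg.pA y
    exact cov_id_pos hl hs.monotone (o6a_cont hg.d2) hg.bM (hs zero_lt_one) e hv x
  have i1 : Integrable (fun y => ψ'' y / 2 + e * M y * ψ' y) (tm e v g x) := by
    refine o6a_int_bdd (((o6a_meas d2).div_const 2).add
      ((mM.const_mul e).mul (o6a_meas d1))) (C := B / 2 + B * B) fun y => ?_
    have h1 : |e * M y * ψ' y| ≤ B * B := by
      rw [abs_mul]
      exact (mul_le_of_le_one_left (abs_nonneg _) (beM y)).trans (b1' y)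
    have h2 := abs_add_le (ψ'' y / 2) (e * M y * ψ' y)
    rw [abs_div, abs_two] at h2
    linarith [b2 y]
  have i2 : Integrable (fun y => (ψ'' y - ψ' y * A' y / A y) / 2) (tm e v g x) := by
    refine Integrable.div_const (o6a_int_bdd ((o6a_meas d2).sub
      (((o6a_meas d1).mul (o6a_meas hg.d3)).div (o6a_meas hg.d2))) (C := B + B * B) fun y => ?_) 2
    have h1 : |ψ' y * A' y / A y| ≤ B * B := by
      have hA := hg.pA y
      rw [abs_div, abs_mul, abs_of_pos hA, div_le_iff₀ hA]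
      calc |ψ' y| * |A' y| ≤ (B * A y) * B :=
            mul_le_mul (b1 y) (hg.bA' y) (abs_nonneg _) (by positivity)
        _ = _ := by ring
    have h2 := abs_sub (ψ'' y) (ψ' y * A' y / A y)
    show |ψ'' y - ψ' y * A' y / A y| ≤ _
    linarith [b2 y]
  have e4 : ∫ y, ψ' y * (A' y / 2 + e * M y * A y) / A y ∂(tm e v g x) =
      ∫ y, (ψ'' y / 2 + e * M y * ψ' y) ∂(tm e v g x) -
        (∫ y, (ψ'' y - ψ' y * A' y / A y) ∂(tm e v g x)) / 2 := by
    rw [← integral_div, ← integral_sub i1 i2]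
    refine integral_congr_ae (Filter.Eventually.of_forall fun y => ?_)
    have := (hg.pA y).ne'
    simp only
    field_simp
    ring
  have e5 : cov[fun y => (A y + e * M y ^ 2) / 2, id; tm e v g x] =
      v * ((cov[M, fun y => (y - ∫ z, z ∂(tm e v g x)) ^ 2; tm e v g x] / v ^ 2 +
        2 * e * (∫ y, M y ∂(tm e v g x)) * (cov[M, id; tm e v g x] / v)) / 2) := by
    rw [e2, ← e3]
    field_simp
  have e6 : e * cov[ψ, fun y => (A y + e * M y ^ 2) / 2; tm e v g x] =
      (cov[ψ, fun y => (y - ∫ z, z ∂(tm e v g x)) ^ 2; tm e v g x] / v ^ 2 +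
        2 * e * (∫ y, M y ∂(tm e v g x)) * (cov[ψ, id; tm e v g x] / v)) / 2 -
        ∫ y, (ψ'' y / 2 + e * M y * ψ' y) ∂(tm e v g x) := by linarith
  unfold BF
  rw [e4, e5, e6]
  field_simp
  ring

/-- bilinearity, symmetry and `BF_nonneg` -/
theorem BF_family {ι : Type} (J : Finset ι) {g M A A' : ℝ → ℝ} {D D' D'' : ι → ℝ → ℝ} {B : ℝ}
    (hg : Pot g M A A' B) (hD : ∀ r ∈ J, CvxIn A (D r) (D' r) (D'' r) B) (W φ : ι → ℝ)
    (hW : ∀ r ∈ J, 0 ≤ W r) {e v : ℝ} (he : 0 < e) (he1 : e ≤ 1) (hv : 0 < v) (x : ℝ) :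
    BF e v g M A x (fun y => ∑ r ∈ J, W r * φ r * D r y) (fun y => ∑ r ∈ J, W r * φ r * D' r y)
        (fun y => ∑ r ∈ J, W r * φ r * D r y) (fun y => ∑ r ∈ J, W r * φ r * D' r y) ≤
      BF e v g M A x (fun y => ∑ r ∈ J, W r * φ r ^ 2 * D r y)
        (fun y => ∑ r ∈ J, W r * φ r ^ 2 * D' r y)
        (fun y => ∑ r ∈ J, W r * D r y) (fun y => ∑ r ∈ J, W r * D' r y) := by
  rw [o6a_BF_sum J hg hD (fun r => W r * φ r) (fun r => W r * φ r),
    o6a_BF_sum J hg hD (fun r => W r * φ r ^ 2) W]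
  have h1 : ∑ r ∈ J, ∑ s ∈ J, W r * φ r ^ 2 * W s * BF e v g M A x (D r) (D' r) (D s) (D' s) =
      ∑ r ∈ J, ∑ s ∈ J, W r * φ s ^ 2 * W s * BF e v g M A x (D r) (D' r) (D s) (D' s) := by
    rw [Finset.sum_comm]
    refine Finset.sum_congr rfl fun r _ => Finset.sum_congr rfl fun s _ => ?_
    rw [o6a_BF_symm]
    ring
  have h2 : 0 ≤ ∑ r ∈ J, ∑ s ∈ J,
      W r * W s * (φ r - φ s) ^ 2 * BF e v g M A x (D r) (D' r) (D s) (D' s) :=
    Finset.sum_nonneg fun r hr => Finset.sum_nonneg fun s hs =>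
      mul_nonneg (mul_nonneg (mul_nonneg (hW r hr) (hW s hs)) (sq_nonneg _))
        (BF_nonneg hg (hD r hr) (hD s hs) he he1 hv x)
  have h3 : ∑ r ∈ J, ∑ s ∈ J,
      W r * W s * (φ r - φ s) ^ 2 * BF e v g M A x (D r) (D' r) (D s) (D' s) =
      ∑ r ∈ J, ∑ s ∈ J, W r * φ r ^ 2 * W s * BF e v g M A x (D r) (D' r) (D s) (D' s) +
      ∑ r ∈ J, ∑ s ∈ J, W r * φ s ^ 2 * W s * BF e v g M A x (D r) (D' r) (D s) (D' s) -
      2 * ∑ r ∈ J, ∑ s ∈ J, W r * φ r * (W s * φ s) * BF e v g M A x (D r) (D' r) (D s) (D' s) := by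
    simp only [Finset.mul_sum, ← Finset.sum_add_distrib, ← Finset.sum_sub_distrib]
    exact Finset.sum_congr rfl fun r _ => Finset.sum_congr rfl fun s _ => by ring
  linarith

/-- `BF` is affine-equivariant in each argument -/
theorem BF_affine {g M A A' D D' W W' : ℝ → ℝ} {B : ℝ} (hg : Pot g M A A' B) (mD : Measurable D)
    (mW : Measurable W) (bD : ∀ y, |D y| ≤ B) (bW : ∀ y, |W y| ≤ B) (a b a' b' e : ℝ) {v : ℝ}
    (hv : 0 < v) (x : ℝ) :
    BF e v g M A x (fun y => a + b * D y) (fun y => b * D' y) (fun y => a' + b' * W y)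
      (fun y => b' * W' y) = b * b' * BF e v g M A x D D' W W' := by
  have := (o6a_lip hg).prob e v x
  have iD : Integrable (fun y => b * D y) (tm e v g x) := (o6a_int_bdd mD bD).const_mul b
  have iW : Integrable (fun y => b' * W y) (tm e v g x) := (o6a_int_bdd mW bW).const_mul b'
  have h1 : ∫ y, b * D' y * (b' * W' y) / A y ∂(tm e v g x) =
      b * b' * ∫ y, D' y * W' y / A y ∂(tm e v g x) := by
    rw [← integral_const_mul]
    exact integral_congr_ae (Filter.Eventually.of_forall fun y => by simp only; ring)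
  unfold BF
  rw [h1, covariance_const_add_left iD, covariance_const_add_left iD, covariance_const_add_left iW,
    covariance_const_add_right iW, covariance_const_mul_left, covariance_const_mul_right,
    covariance_const_mul_left, covariance_const_mul_left]
  ring

theorem Pot.lip {g M A A' : ℝ → ℝ} {B : ℝ} (hg : Pot g M A A' B) : Lip1 g := by
  exact o6a_lip hg

end Crest.Agent.R164
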