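import Crest.Agent.R164.GDefs
import Crest.Prelude.Def_InvariantGlass

/-! # The one-site recursion (definitions)

A list `L` of pairs `(e, v)` (exponent, variance), outermost level first. -/

set_option autoImplicit false
set_option linter.unusedVariables false
set_option linter.unusedSectionVars false

open MeasureTheory ProbabilityTheory Real Crest.ProbabilityR.InvariantGlass
open scoped ENNReal

namespace Crest.Agent.R164

/-- the recursion of `fieldValue` on a list of (exponent, variance) pairs -/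
noncomputable def fL : List (ℝ × ℝ) → ℝ → ℝ
  | [] => fun z => log (cosh z)
  | q :: L => gaussOp q.1 q.2 (fL L)

/-- law of `x + √v Z` tilted by `exp (e g)` -/
noncomputable def tm (e v : ℝ) (g : ℝ → ℝ) (x : ℝ) : Measure ℝ :=
  ((gaussianReal 0 1).map (fun z => x + √v * z)).tilted (fun y => e * g y)

/-- the magnetisation `(fL L)'` -/
noncomputable def ML : List (ℝ × ℝ) → ℝ → ℝ
  | [] => tanh
  | q :: L => fun x => ∫ y, ML L y ∂(tm q.1 q.2 (fL L) x)

/-- the overlap at the quantile `s`: mean square of the magnetisation after running the levels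
with exponent `< s` -/
noncomputable def PL : List (ℝ × ℝ) → ℝ → ℝ → ℝ
  | [], _ => fun x => tanh x ^ 2
  | q :: L, s => fun x =>
      if q.1 < s then ∫ y, PL L s y ∂(tm q.1 q.2 (fL L) x) else ML (q :: L) x ^ 2

/-- exponents in `[0,1]`, variances `≥ 0` -/
def LOK (L : List (ℝ × ℝ)) : Prop := ∀ q ∈ L, 0 ≤ q.1 ∧ q.1 ≤ 1 ∧ 0 ≤ q.2

/-- positive nondecreasing exponents -/
def LSort (L : List (ℝ × ℝ)) : Prop :=
  (∀ q ∈ L, 0 < q.1 ∧ q.1 ≤ 1) ∧ L.Pairwise (fun p q => p.1 ≤ q.1)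

/-- a line of lists: entries `(e, v, w)` give `(e, v + t w)` -/
def Lt (L : List (ℝ × ℝ × ℝ)) (t : ℝ) : List (ℝ × ℝ) := L.map fun q => (q.1, q.2.1 + t * q.2.2)

/-- the levels `a, …, n` of an exponent sequence with variances `v` -/
def Expo.lst (X : Expo) (v : ℕ → ℝ) (a : ℕ) : List (ℝ × ℝ) :=
  (List.range' a (X.n + 1 - a)).map fun l => (X.e l, v l)

/-- the one-site value -/
noncomputable def Expo.Phi (X : Expo) (v : ℕ → ℝ) (b : ℝ) : ℝ := fL (X.lst v 1) b

/-- the list of a step field -/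
def stepL {k : ℕ} (w hv : Fin k → ℝ) : List (ℝ × ℝ) :=
  (List.finRange k).map fun i => (leftEnd w i, increment hv i)

/-- real version of `constrainedFieldValue` -/
noncomputable def cfv {k : ℕ} (s : ℝ) (w hv : Fin k → ℝ) : ℝ := ⨅ b : ℝ, (fieldValueAt b w hv - b * s)

/-- `S_m(p) ≤ y` -/
def SLe {J : ℕ} (γ mag : Fin J → ℝ) (p : ℝ → ℝ) (y : ℝ) : Prop :=
  ∀ (k : ℕ) (w hv : Fin k → ℝ), IsStepField w hv →
    ∑ j, γ j * cfv (mag j) w hv + (1 / 2) * ∫ s in Set.Ioo (0 : ℝ) 1, p s * stepFn w hv s ≤ y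

/-- `∫_ζ^1 p` -/
noncomputable def tl (p : ℝ → ℝ) (ζ : ℝ) : ℝ := ∫ s in Set.Ioo ζ 1, p s

/-- A convex potential `g` with its first three derivatives `M, A, A'`, all bounded. -/
structure Pot (g M A A' : ℝ → ℝ) (B : ℝ) : Prop where
  d1 : ∀ x, HasDerivAt g (M x) x
  d2 : ∀ x, HasDerivAt M (A x) x
  d3 : ∀ x, HasDerivAt A (A' x) x
  bM : ∀ x, |M x| ≤ 1
  pA : ∀ x, 0 < A x
  bA : ∀ x, A x ≤ B
  bA' : ∀ x, |A' x| ≤ B

/-- A bounded function `D` with two bounded derivatives which is a convex function of `M`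
(`D'/M'` is nondecreasing) with `|D'| ≤ B M'`. -/
structure CvxIn (A D D' D'' : ℝ → ℝ) (B : ℝ) : Prop where
  d1 : ∀ x, HasDerivAt D (D' x) x
  d2 : ∀ x, HasDerivAt D' (D'' x) x
  bD : ∀ x, |D x| ≤ B
  bD' : ∀ x, |D' x| ≤ B * A x
  bD'' : ∀ x, |D'' x| ≤ B
  mono : Monotone (fun x => D' x / A x)

/-- the bilinear form `𝔅(D, W)` of one level -/
noncomputable def BF (e v : ℝ) (g M A : ℝ → ℝ) (x : ℝ) (D D' W W' : ℝ → ℝ) : ℝ :=
  ∫ y, D' y * W' y / A y ∂(tm e v g x) + e * cov[D, W; tm e v g x] -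
    cov[D, id; tm e v g x] * cov[W, id; tm e v g x] / (v * cov[M, id; tm e v g x])

end Crest.Agent.R164
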