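import Crest.Agent.R164.S2

/-! # The R-transform of a general compactly supported law -/

set_option autoImplicit false
set_option linter.unusedVariables false
set_option linter.unusedSectionVars false

open MeasureTheory ProbabilityTheory Real Crest.ProbabilityR.InvariantGlass
open scoped ENNReal

namespace Crest.Agent.R164

section
variable {μ : Measure ℝ} [IsProbabilityMeasure μ] {lo hi : ℝ}

theorem S4_ae (hs : μ (Set.Icc lo hi) = 1) : ∀ᵐ lam ∂μ, lam ∈ Set.Icc lo hi :=
  (mem_ae_iff_prob_eq_one measurableSet_Icc).2 hs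

theorem S4_meas (b : ℝ) : Measurable fun lam : ℝ => (b - lam)⁻¹ := by fun_prop

theorem S4_bd {b b' lam : ℝ} (hb : hi < b) (hb' : b ≤ b') (h : lam ∈ Set.Icc lo hi) :
    ‖(b' - lam)⁻¹‖ ≤ (b - hi)⁻¹ := by
  rw [Real.norm_eq_abs, abs_of_pos (inv_pos.2 (by linarith [h.2]))]
  exact inv_anti₀ (by linarith) (by linarith [h.2])

theorem S4_int (hs : μ (Set.Icc lo hi) = 1) {b : ℝ} (hb : hi < b) :
    Integrable (fun lam => (b - lam)⁻¹) μ :=
  Integrable.of_bound (S4_meas b).aestronglyMeasurable (b - hi)⁻¹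
    ((S4_ae hs).mono fun lam h => S4_bd hb le_rfl h)

theorem S4_le (hs : μ (Set.Icc lo hi) = 1) {b : ℝ} (hb : hi < b) :
    ∫ lam, (b - lam)⁻¹ ∂μ ≤ (b - hi)⁻¹ := by
  have := integral_mono_ae (S4_int hs hb) (integrable_const (b - hi)⁻¹)
    ((S4_ae hs).mono fun lam h => inv_anti₀ (by linarith) (by linarith [h.2]))
  simpa using this

theorem S4_ge (hs : μ (Set.Icc lo hi) = 1) {b : ℝ} (hb : hi < b) :
    (b - lo)⁻¹ ≤ ∫ lam, (b - lam)⁻¹ ∂μ := by
  have := integral_mono_ae (integrable_const (b - lo)⁻¹) (S4_int hs hb)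
    ((S4_ae hs).mono fun lam h => inv_anti₀ (by linarith [h.2]) (by linarith [h.1]))
  simpa using this

theorem S4_anti (hle : lo ≤ hi) (hs : μ (Set.Icc lo hi) = 1) {b b' : ℝ} (hb : hi < b)
    (hb' : b < b') : ∫ lam, (b' - lam)⁻¹ ∂μ < ∫ lam, (b - lam)⁻¹ ∂μ := by
  have h1 : 0 < (b' - b) / ((b - lo) * (b' - lo)) :=
    div_pos (by linarith) (mul_pos (by linarith) (by linarith))
  have := integral_mono_ae (integrable_const ((b' - b) / ((b - lo) * (b' - lo))))
    ((S4_int hs hb).sub (S4_int hs (hb.trans hb'))) ((S4_ae hs).mono fun lam h => by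
      have p1 : 0 < b - lam := by linarith [h.2]
      have p2 : 0 < b' - lam := by linarith [h.2]
      have e : (b - lam)⁻¹ - (b' - lam)⁻¹ = (b' - b) / ((b - lam) * (b' - lam)) := by
        field_simp
        ring
      simp only [Pi.sub_apply]
      rw [e]
      exact div_le_div_of_nonneg_left (by linarith) (mul_pos p1 p2)
        (mul_le_mul (by linarith [h.1]) (by linarith [h.1]) p2.le (by linarith)))
  simp only [Pi.sub_apply] at this
  rw [integral_sub (S4_int hs hb) (S4_int hs (hb.trans hb'))] at this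
  simp only [integral_const, probReal_univ, smul_eq_mul, one_mul] at this
  linarith

theorem S4_cont (hs : μ (Set.Icc lo hi) = 1) {b b' : ℝ} (hb : hi < b) :
    ContinuousOn (fun u => ∫ lam, (u - lam)⁻¹ ∂μ) (Set.Icc b b') :=
  continuousOn_of_dominated (bound := fun _ => (b - hi)⁻¹)
    (fun u _ => (S4_meas u).aestronglyMeasurable)
    (fun u hu => (S4_ae hs).mono fun lam h => S4_bd hb hu.1 h) (integrable_const _)
    ((S4_ae hs).mono fun lam h => ContinuousOn.inv₀ (by fun_prop) fun u hu =>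
      (show 0 < u - lam by linarith [h.2, hu.1]).ne')

theorem S4_spec (hle : lo ≤ hi) (hs : μ (Set.Icc lo hi) = 1) (x : ℝ) :
    (hi < resolventPoint μ hi x ∧ ∫ lam, (resolventPoint μ hi x - lam)⁻¹ ∂μ = x) ∨
      ((¬ ∃ b, hi < b ∧ ∫ lam, (b - lam)⁻¹ ∂μ = x) ∧ resolventPoint μ hi x = hi) := by
  by_cases h : ∃ b, hi < b ∧ ∫ lam, (b - lam)⁻¹ ∂μ = x
  · left
    have h' := h
    obtain ⟨b, hb, hbx⟩ := h'
    have e : {b : ℝ | hi < b ∧ ∫ lam, (b - lam)⁻¹ ∂μ = x} = {b} := by
      refine Set.eq_singleton_iff_unique_mem.2 ⟨⟨hb, hbx⟩, fun b' hb' => ?_⟩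
      rcases lt_trichotomy b' b with h1 | h1 | h1
      · exact absurd (hbx.trans hb'.2.symm) (S4_anti hle hs hb'.1 h1).ne
      · exact h1
      · exact absurd (hb'.2.trans hbx.symm) (S4_anti hle hs hb h1).ne
    have e2 : resolventPoint μ hi x = b := by
      unfold resolventPoint
      rw [if_pos h, e, csInf_singleton]
    rw [e2]
    exact ⟨hb, hbx⟩
  · right
    refine ⟨h, ?_⟩
    unfold resolventPoint
    rw [if_neg h]

/-- The resolvent `s b = ∫ (b - λ)⁻¹ dμ` is continuous and strictly decreasing on `(hi, ∞)` with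
`(b - lo)⁻¹ ≤ s b ≤ (b - hi)⁻¹`; so `resolventPoint` is characterised by these two one-sided
statements. -/
theorem le_resolventPoint (hle : lo ≤ hi) (hs : μ (Set.Icc lo hi) = 1) {x b : ℝ} (hx : 0 < x)
    (h : b ≤ hi ∨ x ≤ ∫ lam, (b - lam)⁻¹ ∂μ) : b ≤ resolventPoint μ hi x := by
  rcases le_or_gt b hi with hb | hb
  · rcases S4_spec hle hs x with h1 | h1
    · exact hb.trans h1.1.le
    · exact hb.trans h1.2.ge
  have h := h.resolve_left (not_le.2 hb)
  rcases S4_spec hle hs x with h1 | h1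
  · by_contra h2
    have := S4_anti hle hs h1.1 (not_le.1 h2)
    linarith [h1.2]
  · exfalso
    have hx' := inv_pos.2 hx
    have h2 : ∫ lam, (b + x⁻¹ - lam)⁻¹ ∂μ ≤ x := by
      refine (S4_le hs (by linarith)).trans ?_
      rw [inv_le_comm₀ (by linarith) hx]
      linarith
    obtain ⟨u, hu, hux⟩ := intermediate_value_Icc' (show b ≤ b + x⁻¹ by linarith)
      (S4_cont hs hb) ⟨h2, h⟩
    exact h1.1 ⟨u, hb.trans_le hu.1, hux⟩

theorem resolventPoint_le (hle : lo ≤ hi) (hs : μ (Set.Icc lo hi) = 1) {x b : ℝ} (hx : 0 < x)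
    (hb : hi < b) (h : ∫ lam, (b - lam)⁻¹ ∂μ ≤ x) : resolventPoint μ hi x ≤ b := by
  rcases S4_spec hle hs x with h1 | h1
  · by_contra h2
    have := S4_anti hle hs hb (not_le.1 h2)
    linarith [h1.2]
  · exact h1.2.trans_le hb.le

theorem resolventPoint_spec (hle : lo ≤ hi) (hs : μ (Set.Icc lo hi) = 1) {x : ℝ} (hx : 0 < x) :
    resolventPoint μ hi x = hi ∨
      (hi < resolventPoint μ hi x ∧ ∫ lam, (resolventPoint μ hi x - lam)⁻¹ ∂μ = x) := by
  rcases S4_spec hle hs x with h1 | h1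
  · exact Or.inr h1
  · exact Or.inl h1.2

theorem S4_int_id (hs : μ (Set.Icc lo hi) = 1) : Integrable (fun lam : ℝ => lam) μ :=
  Integrable.of_bound measurable_id.aestronglyMeasurable (|lo| + |hi|)
    ((S4_ae hs).mono fun lam h => by
      rw [Real.norm_eq_abs, abs_le]
      constructor <;> linarith [h.1, h.2, neg_abs_le lo, le_abs_self hi, abs_nonneg lo,
        abs_nonneg hi])

theorem rTransform_mem (hle : lo ≤ hi) (hs : μ (Set.Icc lo hi) = 1) (x : ℝ) :
    rTransform μ hi x ∈ Set.Icc lo hi := by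
  unfold rTransform
  split_ifs with hx
  · have hx' := inv_pos.2 hx
    rw [one_div]
    constructor
    · rw [le_sub_iff_add_le]
      refine le_resolventPoint hle hs hx ((le_or_gt _ hi).imp_right fun h => ?_)
      simpa using S4_ge hs h
    · rw [sub_le_iff_le_add]
      refine resolventPoint_le hle hs hx (by linarith) ?_
      simpa using S4_le hs (b := hi + x⁻¹) (by linarith)
  · constructor
    · simpa using integral_mono_ae (integrable_const lo) (S4_int_id hs)
        ((S4_ae hs).mono fun lam h => h.1)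
    · simpa using integral_mono_ae (S4_int_id hs) (integrable_const hi)
        ((S4_ae hs).mono fun lam h => h.2)

/-- `resolventPoint` is antitone on `(0, ∞)` -/
theorem measurable_rTransform (hle : lo ≤ hi) (hs : μ (Set.Icc lo hi) = 1) :
    Measurable (rTransform μ hi) := by
  have hg : Antitone fun u => resolventPoint μ hi (Real.exp u) := by
    intro u v huv
    refine le_resolventPoint hle hs (Real.exp_pos u) ?_
    rcases resolventPoint_spec hle hs (Real.exp_pos v) with h | h
    · exact Or.inl h.le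
    · exact Or.inr ((Real.exp_le_exp.2 huv).trans h.2.ge)
  have e : rTransform μ hi = fun x => if 0 < x then
      resolventPoint μ hi (Real.exp (Real.log x)) - 1 / x else ∫ lam, lam ∂μ := by
    funext x
    unfold rTransform
    split_ifs with hx
    · rw [Real.exp_log hx]
    · rfl
  rw [e]
  exact Measurable.ite measurableSet_Ioi
    ((hg.measurable.comp Real.measurable_log).sub (by fun_prop)) measurable_const

theorem S4_norm_le (hle : lo ≤ hi) (hs : μ (Set.Icc lo hi) = 1) (x : ℝ) :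
    ‖rTransform μ hi x‖ ≤ |lo| + |hi| := by
  have h := rTransform_mem hle hs x
  rw [Real.norm_eq_abs, abs_le]
  constructor <;> linarith [h.1, h.2, neg_abs_le lo, le_abs_self hi, abs_nonneg lo, abs_nonneg hi]

theorem S4_intOn (hle : lo ≤ hi) (hs : μ (Set.Icc lo hi) = 1) {p : ℝ → ℝ} (hp : IsTrialPath p) :
    IntegrableOn (fun r => rTransform μ hi (deficit p r)) (Set.Ioo (0 : ℝ) 1) :=
  Integrable.of_bound
    ((measurable_rTransform hle hs).comp (continuous_deficit hp).measurable).aestronglyMeasurable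
    (|lo| + |hi|) (.of_forall fun r => S4_norm_le hle hs _)

theorem abs_spectralPart_le (hle : lo ≤ hi) (hs : μ (Set.Icc lo hi) = 1) {p : ℝ → ℝ}
    (hp : IsTrialPath p) : |spectralPart μ hi p| ≤ (|lo| + |hi|) / 2 := by
  have h := norm_setIntegral_le_of_norm_le_const (μ := volume) (s := Set.Ioo (0 : ℝ) 1)
    (f := fun r => rTransform μ hi (deficit p r)) (by simp) fun r _ => S4_norm_le hle hs _
  simp only [Real.norm_eq_abs, Real.volume_real_Ioo, sub_zero, zero_le_one, sup_of_le_left,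
    mul_one] at h
  unfold spectralPart
  rw [abs_mul, abs_of_pos (by norm_num : (0 : ℝ) < 1 / 2)]
  linarith

theorem spectralPart_le {μ' : Measure ℝ} [IsProbabilityMeasure μ'] {lo' hi' ε : ℝ} (hle : lo ≤ hi)
    (hs : μ (Set.Icc lo hi) = 1) (hle' : lo' ≤ hi') (hs' : μ' (Set.Icc lo' hi') = 1)
    (h : ∀ x ∈ Set.Icc (0 : ℝ) 1, rTransform μ hi x ≤ rTransform μ' hi' x + ε) {p : ℝ → ℝ}
    (hp : IsTrialPath p) : spectralPart μ hi p ≤ spectralPart μ' hi' p + ε / 2 := by
  have hc : IntegrableOn (fun _ : ℝ => ε) (Set.Ioo (0 : ℝ) 1) := integrableOn_const (by simp)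
  have h1 := setIntegral_mono_on (S4_intOn hle hs hp) ((S4_intOn hle' hs' hp).add hc)
    measurableSet_Ioo fun r hr => h _ ⟨deficit_nonneg hp hr.1.le hr.2.le, deficit_le_one hp hr.1.le⟩
  simp only [Pi.add_apply] at h1
  rw [integral_add (S4_intOn hle' hs' hp) hc] at h1
  simp only [integral_const, MeasurableSet.univ, measureReal_restrict_apply, Set.univ_inter,
    Real.volume_real_Ioo, sub_zero, zero_le_one, sup_of_le_left, smul_eq_mul, one_mul] at h1
  unfold spectralPart
  linarith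

theorem S4_pt {ε a M A A' : ℝ} (hε : 0 < ε) (ha : 0 < a) (h1 : a ≤ A) (h2 : A ≤ M) (h3 : 0 < A')
    (h4 : A' ≤ M) : A⁻¹ + 2 * ε / M ^ 2 - max (2 * ε - (A - A')) 0 / a ^ 2 ≤ A'⁻¹ := by
  have hA : 0 < A := by linarith
  have hM : 0 < M := by linarith
  have e : A'⁻¹ = A⁻¹ + (A - A') / (A * A') := by
    field_simp
    ring
  have h5 : a ^ 2 ≤ M ^ 2 := pow_le_pow_left₀ ha.le (h1.trans h2) 2
  rw [e, add_sub_assoc, add_le_add_iff_left]
  rcases le_total A A' with h | h
  · have h6 : (A' - A) / (A * A') ≤ (A' - A) / a ^ 2 :=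
      div_le_div_of_nonneg_left (by linarith) (by positivity) (by nlinarith)
    have h7 : 2 * ε / M ^ 2 ≤ 2 * ε / a ^ 2 :=
      div_le_div_of_nonneg_left (by linarith) (by positivity) h5
    rw [max_eq_left (by linarith)]
    have e1 : (2 * ε - (A - A')) / a ^ 2 = 2 * ε / a ^ 2 + (A' - A) / a ^ 2 := by ring
    have e2 : (A - A') / (A * A') = -((A' - A) / (A * A')) := by ring
    linarith
  · have h6 : (A - A') / M ^ 2 ≤ (A - A') / (A * A') :=
      div_le_div_of_nonneg_left (by linarith) (by positivity) (by nlinarith)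
    have h7 : max (2 * ε - (A - A')) 0 / M ^ 2 ≤ max (2 * ε - (A - A')) 0 / a ^ 2 :=
      div_le_div_of_nonneg_left (le_max_right _ _) (by positivity) h5
    have h8 : (2 * ε - (A - A')) / M ^ 2 ≤ max (2 * ε - (A - A')) 0 / M ^ 2 :=
      div_le_div_of_nonneg_right (le_max_left _ _) (by positivity)
    have e1 : (2 * ε - (A - A')) / M ^ 2 = 2 * ε / M ^ 2 - (A - A') / M ^ 2 := by ring
    linarith

/-- Stability of the R-transform under a coupling.  For `x > 0` let `b = resolventPoint μ hi x`; we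
need `b - 2ε ≤ resolventPoint μ' hi' x`.  If `b - 2ε ≤ hi'` use `le_resolventPoint`.  Otherwise
`b > hi + ε`, so `b` solves the resolvent equation, and
`(b - 2ε - Y')⁻¹ - (b - Y)⁻¹ = (2ε - (Y - Y'))/((b - 2ε - Y')(b - Y))` is `≥ ε/(b+C)²` if
`Y - Y' ≤ ε`, `≥ 0` if `Y - Y' ≤ 2ε`, and `≥ -2C/(b-hi)²` otherwise (then
`b - 2ε - Y' ≥ b - Y ≥ b - hi`).  Markov: `P(Y - Y' > ε) ≤ δ/ε`, and
`(b + C)/(b - hi) ≤ 1 + 2C/ε`, so the mean is `≥ 0` for small `δ`.  At `x = 0` compare means. -/
theorem rTransform_le_of_coupling {C ε : ℝ} (hC : 0 < C) (hε : 0 < ε) : ∃ δ > 0,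
    ∀ (Ω : Type) [MeasurableSpace Ω] (P : Measure Ω) [IsProbabilityMeasure P] (Y Y' : Ω → ℝ)
      (hi hi' : ℝ), Measurable Y → Measurable Y' → (∀ᵐ ω ∂P, Y ω ∈ Set.Icc (-C) hi) →
      (∀ᵐ ω ∂P, Y' ω ∈ Set.Icc (-C) hi') → hi ≤ C → hi' ≤ C → hi ≤ hi' + ε →
      ∫ ω, max (Y ω - Y' ω) 0 ∂P ≤ δ →
      ∀ x, 0 ≤ x → rTransform (P.map Y) hi x ≤ rTransform (P.map Y') hi' x + 2 * ε := by
  have hκ : 1 ≤ 1 + 2 * C / ε := le_add_of_nonneg_right (by positivity)
  refine ⟨2 * ε / (1 + 2 * C / ε) ^ 2, by positivity,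
    fun Ω _ P _ Y Y' hi hi' hY hY' h1 h2 h3 h4 h5 h6 x hx => ?_⟩
  have : IsProbabilityMeasure (P.map Y) := Measure.isProbabilityMeasure_map hY.aemeasurable
  have : IsProbabilityMeasure (P.map Y') := Measure.isProbabilityMeasure_map hY'.aemeasurable
  have hs : P.map Y (Set.Icc (-C) hi) = 1 := by
    rw [Measure.map_apply hY measurableSet_Icc]
    exact (mem_ae_iff_prob_eq_one (hY measurableSet_Icc)).1 h1
  have hs' : P.map Y' (Set.Icc (-C) hi') = 1 := by
    rw [Measure.map_apply hY' measurableSet_Icc]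
    exact (mem_ae_iff_prob_eq_one (hY' measurableSet_Icc)).1 h2
  have hle : -C ≤ hi := by
    obtain ⟨ω, hω⟩ := h1.exists
    exact hω.1.trans hω.2
  have hle' : -C ≤ hi' := by
    obtain ⟨ω, hω⟩ := h2.exists
    exact hω.1.trans hω.2
  have iY : Integrable Y P := (integrable_map_measure measurable_id.aestronglyMeasurable
    hY.aemeasurable).1 (S4_int_id hs)
  have iY' : Integrable Y' P := (integrable_map_measure measurable_id.aestronglyMeasurable
    hY'.aemeasurable).1 (S4_int_id hs')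
  have iM : Integrable (fun ω => max (Y ω - Y' ω) 0) P := (iY.sub iY').pos_part
  unfold rTransform
  split_ifs with hx0
  swap
  · rw [integral_map hY.aemeasurable measurable_id'.aestronglyMeasurable,
      integral_map hY'.aemeasurable measurable_id'.aestronglyMeasurable]
    have h7 := integral_mono (iY.sub iY') iM fun ω => le_max_left _ _
    simp only [Pi.sub_apply] at h7
    rw [integral_sub iY iY'] at h7
    have h8 : 2 * ε / (1 + 2 * C / ε) ^ 2 ≤ 2 * ε := div_le_self (by positivity) (one_le_pow₀ hκ)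
    linarith
  set b := resolventPoint (P.map Y) hi x with hb
  suffices h : b - 2 * ε ≤ resolventPoint (P.map Y') hi' x by linarith
  refine le_resolventPoint hle' hs' hx0 ((le_or_gt _ hi').imp_right fun h => ?_)
  have hb1 : hi + ε < b := by linarith
  obtain ⟨-, hbx⟩ := (resolventPoint_spec hle hs hx0).resolve_left (by linarith : hi < b).ne'
  rw [← hb] at hbx
  have i1 : Integrable (fun ω => (b - Y ω)⁻¹) P :=
    (integrable_map_measure (S4_meas b).aestronglyMeasurable hY.aemeasurable).1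
      (S4_int hs (by linarith))
  have i2 := (integrable_map_measure (S4_meas (b - 2 * ε)).aestronglyMeasurable
    hY'.aemeasurable).1 (S4_int hs' h)
  rw [integral_map hY.aemeasurable (S4_meas b).aestronglyMeasurable] at hbx
  rw [integral_map hY'.aemeasurable (S4_meas _).aestronglyMeasurable]
  have ha : 0 < b - hi := by linarith
  have i3 : Integrable (fun ω => (b - Y ω)⁻¹ + 2 * ε / (b + C) ^ 2) P :=
    i1.add (integrable_const _)
  have h7 := integral_mono_ae (i3.sub (iM.div_const ((b - hi) ^ 2))) i2 (by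
    filter_upwards [h1, h2] with ω a1 a2
    have := S4_pt (A := b - Y ω) (A' := b - 2 * ε - Y' ω) (M := b + C) hε ha (by linarith [a1.2])
      (by linarith [a1.1]) (by linarith [a2.2]) (by linarith [a2.1])
    rwa [show 2 * ε - (b - Y ω - (b - 2 * ε - Y' ω)) = Y ω - Y' ω by ring] at this)
  simp only [Pi.sub_apply, Function.comp_apply] at h7
  rw [integral_sub i3 (iM.div_const _), integral_add i1 (integrable_const _),
    integral_div ((b - hi) ^ 2)] at h7
  simp only [integral_const, probReal_univ, smul_eq_mul, one_mul] at h7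
  have h8 : (∫ ω, max (Y ω - Y' ω) 0 ∂P) / (b - hi) ^ 2 ≤ 2 * ε / (b + C) ^ 2 := by
    refine (div_le_div_of_nonneg_right h6 (by positivity)).trans ?_
    rw [div_div, ← mul_pow]
    refine div_le_div_of_nonneg_left (by positivity) (pow_pos (by linarith) 2)
      (pow_le_pow_left₀ (by linarith) ?_ 2)
    have h9 : 2 * C ≤ 2 * C / ε * (b - hi) := by
      rw [div_mul_eq_mul_div, le_div_iff₀ hε]
      exact mul_le_mul_of_nonneg_left (by linarith) (by positivity)
    linarith
  linarith

end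

end Crest.Agent.R164
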