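import Crest.Agent.R164.ODefs

/-! # Finite spectra (definitions) -/

set_option autoImplicit false
set_option linter.unusedVariables false
set_option linter.unusedSectionVars false

open MeasureTheory ProbabilityTheory Real Crest.ProbabilityR.InvariantGlass
open scoped ENNReal

namespace Crest.Agent.R164

/-- A finite spectrum: `k + 1` eigenvalues of equal weight, `top` is a largest one. -/
structure Spec where
  k : ℕ
  lam : Fin (k + 1) → ℝ
  top : Fin (k + 1)
  le_top : ∀ b, lam b ≤ lam top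

namespace Spec

variable (S : Spec)

/-- average over the eigenvalues -/
noncomputable def av (f : Fin (S.k + 1) → ℝ) : ℝ := (∑ b, f b) / ((S.k : ℝ) + 1)

/-- gap below the top eigenvalue -/
def κ (b : Fin (S.k + 1)) : ℝ := S.lam S.top - S.lam b

/-- a bound for the eigenvalues -/
def Λ : ℝ := ∑ b, |S.lam b|

noncomputable def μ : Measure ℝ := empiricalLaw S.lam

/-- the R-transform -/
noncomputable def R (x : ℝ) : ℝ := rTransform S.μ (S.lam S.top) x

/-- the spectral part of the functional -/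
noncomputable def G (p : ℝ → ℝ) : ℝ := spectralPart S.μ (S.lam S.top) p

/-- the resolvent at `lam top + 1/β` -/
noncomputable def g (β : ℝ) : ℝ := S.av fun b => β / (1 + S.κ b * β)

/-- the R-transform in the parameter `β` -/
noncomputable def Rh (β : ℝ) : ℝ :=
  S.lam S.top - (S.av fun b => S.κ b / (1 + S.κ b * β)) / (S.av fun b => 1 / (1 + S.κ b * β))

noncomputable def LL (β : ℝ) : ℝ :=
  (S.av fun b => log (1 + S.κ b * β)) + log (S.av fun b => 1 / (1 + S.κ b * β))

end Spec

/-- the step path with value `Q r` on `(e (r-1), e r]`, `2 ≤ r ≤ n`, and `0` on `(0, m]` -/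
noncomputable def Expo.path (X : Expo) (Q : ℕ → ℝ) (s : ℝ) : ℝ :=
  ∑ r ∈ Finset.Icc 2 X.n, if X.e (r - 1) < s ∧ s ≤ X.e r then Q r else 0

/-- an overlap sequence: `0 = Q 1 ≤ Q 2 ≤ … ≤ Q (n+1) ≤ ρ` -/
structure Expo.Seq (X : Expo) (Q : ℕ → ℝ) (ρ : ℝ) : Prop where
  one : Q 1 = 0
  mono : ∀ l, 1 ≤ l → l ≤ X.n → Q l ≤ Q (l + 1)
  le : Q (X.n + 1) ≤ ρ

/-- residue class -/
def per (k N : ℕ) (i : Fin N) : Fin (k + 1) := ⟨i.val % (k + 1), Nat.mod_lt _ (Nat.succ_pos k)⟩

end Crest.Agent.R164
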