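import Crest.Agent.R164.TDefs

/-! # Towers: recursion and growth classes -/

set_option autoImplicit false
set_option linter.unusedVariables false
set_option linter.unusedSectionVars false

open MeasureTheory ProbabilityTheory Real
open scoped ENNReal

namespace Crest.Agent.R164

theorem t0_exp_add_le {a b c : ℝ} (ha : a ≤ c) (hb : b ≤ c) : exp a + exp b ≤ exp (1 + c) := by
  have h1 := exp_le_exp.2 ha
  have h2 := exp_le_exp.2 hb
  have h3 : 2 * exp c ≤ exp 1 * exp c :=
    mul_le_mul_of_nonneg_right (by linarith [add_one_le_exp 1]) (exp_pos c).le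
  rw [exp_add]
  linarith

theorem t0_logAdd_le {a b c : ℝ} (ha : a ≤ c) (hb : b ≤ c) : log (exp a + exp b) ≤ 1 + c :=
  (log_le_iff_le_exp (by positivity)).2 (t0_exp_add_le ha hb)

theorem t0_le_logAdd (a b : ℝ) : a ≤ log (exp a + exp b) :=
  (le_log_iff_exp_le (by positivity)).2 (by linarith [exp_pos b])

namespace Tower

variable {S : Type} [MeasurableSpace S] (T : Tower S)

theorem e_pos' (a : ℕ) : 0 < T.e a := lt_of_lt_of_le T.e_pos (T.e_mono (Nat.zero_le a))

theorem e_of_ge {a : ℕ} (h : T.L - 1 ≤ a) : T.e a = 1 :=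
  le_antisymm (T.e_le a) (T.e_last ▸ T.e_mono h)

theorem W_nonneg (r : ℕ) : 0 ≤ T.W r := sub_nonneg.2 (T.e_mono (Nat.sub_le r 1))

/-- telescoping: the weights of the levels in `(a, L)` and `e a` add up to one -/
theorem sum_W {a : ℕ} (ha : a < T.L) : ∑ r ∈ Finset.Ioo a T.L, T.W r + T.e a = 1 := by
  have key : ∀ b, a ≤ b → ∑ r ∈ Finset.Ioc a b, T.W r + T.e a = T.e b := by
    intro b hb
    induction b, hb using Nat.le_induction with
    | base => simp
    | succ b hb ih =>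
      rw [Finset.sum_Ioc_succ_top hb, W, Nat.add_sub_cancel]
      linarith
  have e : Finset.Ioo a T.L = Finset.Ioc a (T.L - 1) := by
    ext r
    simp only [Finset.mem_Ioo, Finset.mem_Ioc]
    omega
  rw [e, key _ (by omega), T.e_last]

/-- downward induction on the levels -/
theorem down_ind {P : ℕ → Prop} (h0 : ∀ a, T.L ≤ a → P a) (h1 : ∀ a, a < T.L → P (a + 1) → P a)
    (a : ℕ) : P a := by
  have key : ∀ k a, T.L - a = k → P a := by
    intro k
    induction k with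
    | zero => intro a h; exact h0 a (by omega)
    | succ k ih => intro a h; exact h1 a (by omega) (ih _ (by omega))
  exact key _ a rfl

theorem X_of_ge (H : S → ℝ) {a : ℕ} (h : T.L ≤ a) : T.X H a = H := by
  rw [X, Nat.sub_eq_zero_of_le h, Xaux]

theorem X_step (H : S → ℝ) {a : ℕ} (h : a < T.L) : T.X H a = T.step a (T.X H (a + 1)) := by
  have e : T.L - a = (T.L - (a + 1)) + 1 := by omega
  rw [X, e, Xaux, X]

theorem K_of_ge (H : S → ℝ) {a : ℕ} (h : T.L ≤ a) : T.K H a = Kernel.id := by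
  rw [K, Nat.sub_eq_zero_of_le h, Kaux]

theorem K_step (H : S → ℝ) {a : ℕ} (h : a < T.L) : T.K H a = T.K H (a + 1) ∘ₖ T.K1 H a := by
  have e : T.L - a = (T.L - (a + 1)) + 1 := by omega
  rw [K, e, Kaux, K]

theorem E_of_ge (H : S → ℝ) {a : ℕ} (h : T.L ≤ a) {φ : S → ℝ} (hφ : Measurable φ) :
    T.E H a φ = φ := by
  funext x
  rw [E, T.K_of_ge H h, Kernel.id_apply, integral_dirac' _ _ hφ.stronglyMeasurable]

theorem κ_apply (a : ℕ) (x : S) : T.κ a x = T.μ.map (T.mix a x) := by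
  rw [κ, Kernel.map_apply _ (T.meas_mix a), Kernel.prod_apply, Kernel.id_apply, Kernel.const_apply,
    Measure.dirac_prod, Measure.map_map (T.meas_mix a) measurable_prodMk_left]
  rfl

theorem measurable_mix (a : ℕ) (x : S) : Measurable (T.mix a x) := by
  exact (T.meas_mix a).comp measurable_prodMk_left

theorem measurable_step (a : ℕ) {F : S → ℝ} (hF : Measurable F) : Measurable (T.step a F) := by
  have h1 : Measurable fun p : S × S => exp (T.e a * F (T.mix a p.1 p.2)) :=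
    measurable_exp.comp ((hF.comp (T.meas_mix a)).const_mul _)
  have h2 : Measurable fun x => ∫ y, exp (T.e a * F (T.mix a x y)) ∂T.μ :=
    (h1.stronglyMeasurable.integral_prod_right' (ν := T.μ)).measurable
  exact (measurable_log.comp h2).const_mul _

theorem measurable_X {H : S → ℝ} (hH : Measurable H) (a : ℕ) : Measurable (T.X H a) := by
  refine T.down_ind (P := fun a => Measurable (T.X H a)) (fun a h => ?_) (fun a h ih => ?_) a
  · rwa [T.X_of_ge H h]
  · rw [T.X_step H h]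
    exact T.measurable_step a ih

theorem measurable_E (H : S → ℝ) (a : ℕ) {φ : S → ℝ} (hφ : Measurable φ) :
    Measurable (T.E H a φ) := by
  exact (hφ.stronglyMeasurable.integral_kernel (κ := T.K H a)).measurable

/-! ### closure properties of the growth classes -/

variable {T}

theorem LG.ub {H : S → ℝ} (h : T.LG H) : T.UB H := by
  obtain ⟨hm, C, hC⟩ := h
  exact ⟨hm, C, fun x => (le_abs_self _).trans (hC x)⟩
theorem LG.gr {H : S → ℝ} (h : T.LG H) : T.Gr H := by
  obtain ⟨hm, C, hC⟩ := h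
  exact ⟨hm, C, fun x => (hC x).trans (by linarith [add_one_le_exp (C * (1 + T.ν x))])⟩
theorem LG.of_bdd {H : S → ℝ} (hm : Measurable H) {C : ℝ} (h : ∀ x, |H x| ≤ C) : T.LG H := by
  refine ⟨hm, C, fun x => (h x).trans (le_mul_of_one_le_right ((abs_nonneg _).trans (h x)) ?_)⟩
  linarith [T.ν_nonneg x]
theorem LG.const (c : ℝ) : T.LG (fun _ => c) := by
  exact LG.of_bdd measurable_const fun _ => le_rfl
theorem LG.add {H G : S → ℝ} (h : T.LG H) (g : T.LG G) : T.LG (fun x => H x + G x) := by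
  obtain ⟨hm, C, hC⟩ := h
  obtain ⟨gm, D, hD⟩ := g
  refine ⟨hm.add gm, C + D, fun x => (abs_add_le _ _).trans ?_⟩
  linarith [hC x, hD x]
theorem LG.neg {H : S → ℝ} (h : T.LG H) : T.LG (fun x => -H x) := by
  obtain ⟨hm, C, hC⟩ := h
  exact ⟨hm.neg, C, fun x => by rw [abs_neg]; exact hC x⟩
theorem LG.sub {H G : S → ℝ} (h : T.LG H) (g : T.LG G) : T.LG (fun x => H x - G x) := by
  simpa only [sub_eq_add_neg] using h.add g.neg
theorem LG.abs {H : S → ℝ} (h : T.LG H) : T.LG (fun x => |H x|) := by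
  obtain ⟨hm, C, hC⟩ := h
  exact ⟨continuous_abs.measurable.comp hm, C, fun x => by rw [abs_abs]; exact hC x⟩
theorem LG.const_mul {H : S → ℝ} (h : T.LG H) (c : ℝ) : T.LG (fun x => c * H x) := by
  obtain ⟨hm, C, hC⟩ := h
  refine ⟨hm.const_mul c, |c| * C, fun x => ?_⟩
  rw [abs_mul, mul_assoc]
  exact mul_le_mul_of_nonneg_left (hC x) (abs_nonneg _)
theorem LG.mul_bdd {H G : S → ℝ} (h : T.LG H) (hm : Measurable G) {C : ℝ} (g : ∀ x, |G x| ≤ C) :
    T.LG (fun x => H x * G x) := by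
  obtain ⟨hH, D, hD⟩ := h
  refine ⟨hH.mul hm, C * D, fun x => ?_⟩
  rw [abs_mul, mul_assoc, mul_comm]
  exact mul_le_mul (g x) (hD x) (abs_nonneg _) ((abs_nonneg _).trans (g x))
theorem LG.sum {ι : Type} (J : Finset ι) {H : ι → S → ℝ} (h : ∀ i ∈ J, T.LG (H i)) :
    T.LG (fun x => ∑ i ∈ J, H i x) := by
  classical
  induction J using Finset.induction_on with
  | empty => simpa using LG.const (T := T) 0
  | insert i J hi ih =>
    simp only [Finset.sum_insert hi]
    exact (h i (Finset.mem_insert_self _ _)).add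
      (ih fun j hj => h j (Finset.mem_insert_of_mem hj))
theorem LG.of_le {H G : S → ℝ} (hm : Measurable H) (g : T.LG G) (h : ∀ x, |H x| ≤ G x) :
    T.LG H := by
  obtain ⟨-, C, hC⟩ := g
  exact ⟨hm, C, fun x => (h x).trans ((le_abs_self _).trans (hC x))⟩
/-- `log (e^H + e^G)` -/
theorem LG.logAdd {H G : S → ℝ} (h : T.LG H) (g : T.LG G) :
    T.LG (fun x => log (exp (H x) + exp (G x))) := by
  obtain ⟨hm, C, hC⟩ := h
  obtain ⟨gm, D, hD⟩ := g
  refine ⟨measurable_log.comp ((measurable_exp.comp hm).add (measurable_exp.comp gm)),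
    1 + C + D, fun x => abs_le.2 ⟨?_, ?_⟩⟩
  · have h1 := t0_le_logAdd (H x) (G x)
    linarith [neg_abs_le (H x), hC x, hD x, abs_nonneg (G x), T.ν_nonneg x]
  · have h1 := t0_logAdd_le (a := H x) (b := G x) (c := |H x| + |G x|)
      (by linarith [le_abs_self (H x), abs_nonneg (G x)])
      (by linarith [le_abs_self (G x), abs_nonneg (H x)])
    linarith [hC x, hD x, T.ν_nonneg x]
theorem UB.logAdd {H G : S → ℝ} (h : T.UB H) (g : T.UB G) :
    T.UB (fun x => log (exp (H x) + exp (G x))) := by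
  obtain ⟨hm, C, hC⟩ := h
  obtain ⟨gm, D, hD⟩ := g
  refine ⟨measurable_log.comp ((measurable_exp.comp hm).add (measurable_exp.comp gm)),
    1 + max C D, fun x => ?_⟩
  have hp : 0 ≤ 1 + T.ν x := by linarith [T.ν_nonneg x]
  have h1 := t0_logAdd_le (a := H x) (b := G x) (c := max C D * (1 + T.ν x))
    ((hC x).trans (mul_le_mul_of_nonneg_right (le_max_left _ _) hp))
    ((hD x).trans (mul_le_mul_of_nonneg_right (le_max_right _ _) hp))
  linarith [T.ν_nonneg x]
theorem UB.of_le {H G : S → ℝ} (hm : Measurable H) (g : T.UB G) (h : ∀ x, H x ≤ G x) :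
    T.UB H := by
  obtain ⟨-, C, hC⟩ := g
  exact ⟨hm, C, fun x => (h x).trans (hC x)⟩
theorem UB.add {H G : S → ℝ} (h : T.UB H) (g : T.UB G) : T.UB (fun x => H x + G x) := by
  obtain ⟨hm, C, hC⟩ := h
  obtain ⟨gm, D, hD⟩ := g
  exact ⟨hm.add gm, C + D, fun x => by linarith [hC x, hD x]⟩

theorem Gr.of_bdd {φ : S → ℝ} (hm : Measurable φ) {C : ℝ} (h : ∀ x, |φ x| ≤ C) : T.Gr φ := by
  exact (LG.of_bdd hm h).gr
theorem Gr.const (c : ℝ) : T.Gr (fun _ => c) := by
  exact (LG.const c).gr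
theorem Gr.add {φ ψ : S → ℝ} (h : T.Gr φ) (g : T.Gr ψ) : T.Gr (fun x => φ x + ψ x) := by
  obtain ⟨hm, C, hC⟩ := h
  obtain ⟨gm, D, hD⟩ := g
  refine ⟨hm.add gm, 1 + max C D, fun x => (abs_add_le _ _).trans ?_⟩
  have hp : 0 ≤ 1 + T.ν x := by linarith [T.ν_nonneg x]
  have h1 := t0_exp_add_le (a := C * (1 + T.ν x)) (b := D * (1 + T.ν x))
    (c := max C D * (1 + T.ν x)) (mul_le_mul_of_nonneg_right (le_max_left _ _) hp)
    (mul_le_mul_of_nonneg_right (le_max_right _ _) hp)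
  have h2 : exp (1 + max C D * (1 + T.ν x)) ≤ exp ((1 + max C D) * (1 + T.ν x)) :=
    exp_le_exp.2 (by linarith [T.ν_nonneg x])
  linarith [hC x, hD x]
theorem Gr.neg {φ : S → ℝ} (h : T.Gr φ) : T.Gr (fun x => -φ x) := by
  obtain ⟨hm, C, hC⟩ := h
  exact ⟨hm.neg, C, fun x => by rw [abs_neg]; exact hC x⟩
theorem Gr.sub {φ ψ : S → ℝ} (h : T.Gr φ) (g : T.Gr ψ) : T.Gr (fun x => φ x - ψ x) := by
  simpa only [sub_eq_add_neg] using h.add g.neg
theorem Gr.mul {φ ψ : S → ℝ} (h : T.Gr φ) (g : T.Gr ψ) : T.Gr (fun x => φ x * ψ x) := by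
  obtain ⟨hm, C, hC⟩ := h
  obtain ⟨gm, D, hD⟩ := g
  refine ⟨hm.mul gm, C + D, fun x => ?_⟩
  rw [abs_mul, add_mul, exp_add]
  exact mul_le_mul (hC x) (hD x) (abs_nonneg _) (exp_pos _).le
theorem Gr.const_mul {φ : S → ℝ} (h : T.Gr φ) (c : ℝ) : T.Gr (fun x => c * φ x) := by
  exact (Gr.const c).mul h
theorem Gr.pow {φ : S → ℝ} (h : T.Gr φ) (k : ℕ) : T.Gr (fun x => φ x ^ k) := by
  induction k with
  | zero => simpa using Gr.const (T := T) 1
  | succ k ih => simpa only [pow_succ] using ih.mul h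
theorem Gr.abs {φ : S → ℝ} (h : T.Gr φ) : T.Gr (fun x => |φ x|) := by
  obtain ⟨hm, C, hC⟩ := h
  exact ⟨continuous_abs.measurable.comp hm, C, fun x => by rw [abs_abs]; exact hC x⟩
theorem Gr.sum {ι : Type} (J : Finset ι) {φ : ι → S → ℝ} (h : ∀ i ∈ J, T.Gr (φ i)) :
    T.Gr (fun x => ∑ i ∈ J, φ i x) := by
  classical
  induction J using Finset.induction_on with
  | empty => simpa using Gr.const (T := T) 0
  | insert i J hi ih =>
    simp only [Finset.sum_insert hi]
    exact (h i (Finset.mem_insert_self _ _)).add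
      (ih fun j hj => h j (Finset.mem_insert_of_mem hj))
theorem Gr.of_le {φ ψ : S → ℝ} (hm : Measurable φ) (g : T.Gr ψ) (h : ∀ x, |φ x| ≤ ψ x) :
    T.Gr φ := by
  obtain ⟨-, C, hC⟩ := g
  exact ⟨hm, C, fun x => (h x).trans ((le_abs_self _).trans (hC x))⟩
theorem UB.exp {H : S → ℝ} (h : T.UB H) : T.Gr (fun x => exp (H x)) := by
  obtain ⟨hm, C, hC⟩ := h
  refine ⟨measurable_exp.comp hm, C, fun x => ?_⟩
  rw [abs_of_pos (exp_pos _)]
  exact exp_le_exp.2 (hC x)

end Tower

end Crest.Agent.R164
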