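import Crest.Agent.R164.T0

/-! # Towers: one-step formulas, integrability -/

set_option autoImplicit false
set_option linter.unusedVariables false
set_option linter.unusedSectionVars false

open MeasureTheory ProbabilityTheory Real
open scoped ENNReal

namespace Crest.Agent.R164

namespace Tower

variable {S : Type} [MeasurableSpace S] {T : Tower S}

theorem T1_one_le (x : S) : 1 ≤ 1 + T.ν x := le_add_of_nonneg_right (T.ν_nonneg x)

theorem T1_mono {C D : ℝ} (h : C ≤ D) (x : S) : C * (1 + T.ν x) ≤ D * (1 + T.ν x) :=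
  mul_le_mul_of_nonneg_right h (zero_le_one.trans (T1_one_le x))

theorem T1_abs_mix (C : ℝ) (a : ℕ) (x y : S) :
    |C * (1 + T.ν (T.mix a x y))| ≤ |C| * (1 + T.ν x) + |C| * T.ν y := by
  rw [abs_mul, abs_of_nonneg (zero_le_one.trans (T1_one_le _)), ← mul_add]
  exact mul_le_mul_of_nonneg_left (by linarith [T.ν_mix a x y]) (abs_nonneg C)

theorem T1_integrable (C : ℝ) (a : ℕ) (x : S) :
    Integrable (fun y => exp (C * (1 + T.ν (T.mix a x y)))) T.μ := by
  have hm : Measurable fun y => T.ν (T.mix a x y) := T.meas_ν.comp (T.measurable_mix a x)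
  refine ((T.mom |C|).const_mul (exp (|C| * (1 + T.ν x)))).mono'
    (Measurable.aestronglyMeasurable (by fun_prop)) (Filter.Eventually.of_forall fun y => ?_)
  rw [Real.norm_of_nonneg (exp_pos _).le, ← exp_add, exp_le_exp]
  exact (le_abs_self _).trans (T1_abs_mix C a x y)

theorem T1_mom_le (C : ℝ) : ∃ D : ℝ, ∀ a x,
    ∫ y, exp (C * (1 + T.ν (T.mix a x y))) ∂T.μ ≤ exp (D * (1 + T.ν x)) := by
  set m := ∫ y, exp (|C| * T.ν y) ∂T.μ with hm
  have hm0 : 0 ≤ m := integral_nonneg fun y => (exp_pos _).le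
  refine ⟨|C| + m, fun a x => ?_⟩
  calc _ ≤ ∫ y, exp (|C| * (1 + T.ν x)) * exp (|C| * T.ν y) ∂T.μ := by
        refine integral_mono (T1_integrable C a x) ((T.mom |C|).const_mul _) fun y => ?_
        simp only
        rw [← exp_add, exp_le_exp]
        exact (le_abs_self _).trans (T1_abs_mix C a x y)
    _ = exp (|C| * (1 + T.ν x)) * m := integral_const_mul _ _
    _ ≤ _ := by
        rw [add_mul, exp_add]
        refine mul_le_mul_of_nonneg_left ?_ (exp_pos _).le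
        have h1 := add_one_le_exp (m * (1 + T.ν x))
        have h2 := le_mul_of_one_le_right hm0 (T1_one_le (T := T) x)
        linarith

theorem T1_mom_ge (C : ℝ) : ∃ D : ℝ, ∀ a x,
    exp (-(D * (1 + T.ν x))) ≤ ∫ y, exp (C * (1 + T.ν (T.mix a x y))) ∂T.μ := by
  set m := ∫ y, exp (-|C| * T.ν y) ∂T.μ with hm
  have hm0 : 0 < m := integral_exp_pos (T.mom _)
  refine ⟨|C| + |log m|, fun a x => ?_⟩
  calc _ ≤ exp (-(|C| * (1 + T.ν x))) * m := by
        rw [add_mul, neg_add, exp_add]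
        refine mul_le_mul_of_nonneg_left ?_ (exp_pos _).le
        rw [← le_log_iff_exp_le hm0]
        have h2 := le_mul_of_one_le_right (abs_nonneg (log m)) (T1_one_le (T := T) x)
        linarith [neg_abs_le (log m)]
    _ = ∫ y, exp (-(|C| * (1 + T.ν x))) * exp (-|C| * T.ν y) ∂T.μ := (integral_const_mul _ _).symm
    _ ≤ _ := by
        refine integral_mono ((T.mom _).const_mul _) (T1_integrable C a x) fun y => ?_
        simp only
        rw [← exp_add, exp_le_exp]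
        linarith [neg_abs_le (C * (1 + T.ν (T.mix a x y))), T1_abs_mix (T := T) C a x y]

theorem T1_exp_le {F : S → ℝ} {C : ℝ} (h : ∀ x, F x ≤ C * (1 + T.ν x)) (a : ℕ) (z : S) :
    exp (T.e a * F z) ≤ exp (T.e a * C * (1 + T.ν z)) := by
  rw [exp_le_exp, mul_assoc]
  exact mul_le_mul_of_nonneg_left (h z) (T.e_pos' a).le

theorem T1_integrable_exp {F : S → ℝ} (h : T.UB F) (a : ℕ) (x : S) :
    Integrable (fun y => exp (T.e a * F (T.mix a x y))) T.μ := by
  obtain ⟨hF, C, hC⟩ := h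
  have hm : Measurable fun y => F (T.mix a x y) := hF.comp (T.measurable_mix a x)
  refine (T1_integrable (T.e a * C) a x).mono' (hm.const_mul _).exp.aestronglyMeasurable
    (Filter.Eventually.of_forall fun y => ?_)
  rw [Real.norm_of_nonneg (exp_pos _).le]
  exact T1_exp_le hC a _

theorem T1_step_le (a : ℕ) (C : ℝ) : ∃ C' : ℝ, ∀ F : S → ℝ, Measurable F →
    (∀ x, F x ≤ C * (1 + T.ν x)) → ∀ x, T.step a F x ≤ C' * (1 + T.ν x) := by
  obtain ⟨D, hD⟩ := T1_mom_le (T := T) (T.e a * C)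
  refine ⟨(T.e a)⁻¹ * D, fun F hF hC x => ?_⟩
  have hi := T1_integrable_exp (T := T) ⟨hF, C, hC⟩ a x
  rw [Tower.step, mul_assoc]
  refine mul_le_mul_of_nonneg_left ?_ (inv_nonneg.2 (T.e_pos' a).le)
  rw [log_le_iff_le_exp (integral_exp_pos hi)]
  exact (integral_mono hi (T1_integrable _ a x) fun y => T1_exp_le hC a _).trans (hD a x)

theorem T1_step_bound (a : ℕ) (C : ℝ) : ∃ C' : ℝ, ∀ F : S → ℝ, Measurable F →
    (∀ x, |F x| ≤ C * (1 + T.ν x)) → ∀ x, |T.step a F x| ≤ C' * (1 + T.ν x) := by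
  obtain ⟨C₁, h₁⟩ := T1_step_le (T := T) a C
  obtain ⟨D, hD⟩ := T1_mom_ge (T := T) (-(T.e a * C))
  refine ⟨max C₁ ((T.e a)⁻¹ * D), fun F hF hC x => abs_le.2 ⟨?_, ?_⟩⟩
  · have hi := T1_integrable_exp (T := T) ⟨hF, C, fun x => (le_abs_self _).trans (hC x)⟩ a x
    refine le_trans (neg_le_neg (T1_mono (le_max_right _ _) x)) ?_
    rw [Tower.step, mul_assoc, ← mul_neg]
    refine mul_le_mul_of_nonneg_left ?_ (inv_nonneg.2 (T.e_pos' a).le)
    rw [le_log_iff_exp_le (integral_exp_pos hi)]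
    refine (hD a x).trans (integral_mono (T1_integrable _ a x) hi fun y => ?_)
    simp only
    rw [exp_le_exp, neg_mul, mul_assoc, ← mul_neg]
    exact mul_le_mul_of_nonneg_left (abs_le.1 (hC _)).1 (T.e_pos' a).le
  · exact (h₁ F hF (fun x => (le_abs_self _).trans (hC x)) x).trans (T1_mono (le_max_left _ _) x)

/-- functions of exponential growth are integrable against one resampling -/
theorem Gr.integrable_mix {φ : S → ℝ} (h : T.Gr φ) (a : ℕ) (x : S) :
    Integrable (fun y => φ (T.mix a x y)) T.μ := by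
  obtain ⟨hφ, C, hC⟩ := h
  exact (T1_integrable C a x).mono' (hφ.comp (T.measurable_mix a x)).aestronglyMeasurable
    (Filter.Eventually.of_forall fun y => hC _)

theorem UB.step {F : S → ℝ} (h : T.UB F) (a : ℕ) : T.UB (T.step a F) := by
  obtain ⟨hF, C, hC⟩ := h
  obtain ⟨C', h'⟩ := T1_step_le (T := T) a C
  exact ⟨T.measurable_step a hF, C', h' F hF hC⟩

/-- upper bound from the exponential moment, lower bound by Jensen -/
theorem LG.step {F : S → ℝ} (h : T.LG F) (a : ℕ) : T.LG (T.step a F) := by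
  obtain ⟨hF, C, hC⟩ := h
  obtain ⟨C', h'⟩ := T1_step_bound (T := T) a C
  exact ⟨T.measurable_step a hF, C', h' F hF hC⟩

theorem UB.X {H : S → ℝ} (h : T.UB H) (a : ℕ) : T.UB (T.X H a) := by
  refine T.down_ind (P := fun a => T.UB (T.X H a)) (fun a ha => ?_) (fun a ha ih => ?_) a
  · rwa [T.X_of_ge H ha]
  · rw [T.X_step H ha]
    exact ih.step a

theorem LG.X {H : S → ℝ} (h : T.LG H) (a : ℕ) : T.LG (T.X H a) := by
  refine T.down_ind (P := fun a => T.LG (T.X H a)) (fun a ha => ?_) (fun a ha ih => ?_) a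
  · rwa [T.X_of_ge H ha]
  · rw [T.X_step H ha]
    exact ih.step a

/-- uniform version of `LG.X` -/
theorem X_bound (a : ℕ) (C : ℝ) : ∃ C' : ℝ, ∀ H : S → ℝ, Measurable H →
    (∀ x, |H x| ≤ C * (1 + T.ν x)) → ∀ x, |T.X H a x| ≤ C' * (1 + T.ν x) := by
  refine T.down_ind (P := fun a => ∃ C' : ℝ, ∀ H : S → ℝ, Measurable H →
    (∀ x, |H x| ≤ C * (1 + T.ν x)) → ∀ x, |T.X H a x| ≤ C' * (1 + T.ν x))
    (fun a ha => ⟨C, fun H _ hC => ?_⟩) (fun a ha ⟨C₁, ih⟩ => ?_) a
  · rwa [T.X_of_ge H ha]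
  · obtain ⟨C', h'⟩ := T1_step_bound (T := T) a C₁
    refine ⟨C', fun H hH hC => ?_⟩
    rw [T.X_step H ha]
    exact h' _ (T.measurable_X hH _) (ih H hH hC)

theorem exp_X_step {H : S → ℝ} (h : T.UB H) {a : ℕ} (ha : a < T.L) (x : S) :
    exp (T.e a * T.X H a x) = ∫ y, exp (T.e a * T.X H (a + 1) (T.mix a x y)) ∂T.μ := by
  rw [T.X_step H ha, Tower.step, mul_inv_cancel_left₀ (T.e_pos' a).ne',
    exp_log (integral_exp_pos (T1_integrable_exp (h.X (a + 1)) a x))]

theorem T1_measurable_dens {H : S → ℝ} (hH : Measurable H) (a : ℕ) :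
    Measurable (Function.uncurry (T.dens H a)) := by
  have h1 := T.measurable_X hH a
  have h2 := T.measurable_X hH (a + 1)
  change Measurable fun p : S × S =>
    ENNReal.ofReal (exp (T.e a * (T.X H (a + 1) p.2 - T.X H a p.1)))
  fun_prop

theorem UB.good {H : S → ℝ} (h : T.UB H) {a : ℕ} (ha : a < T.L) : T.Good H a := by
  have hm := T1_measurable_dens (T := T) h.1 a
  refine ⟨hm, fun x => ?_⟩
  have hi := (T1_integrable_exp (h.X (a + 1)) a x).mul_const (rexp (-(T.e a * T.X H a x)))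
  have e : ∀ y, T.dens H a x (T.mix a x y) = ENNReal.ofReal
      (rexp (T.e a * T.X H (a + 1) (T.mix a x y)) * rexp (-(T.e a * T.X H a x))) := fun y => by
    rw [dens, ← exp_add, mul_sub, sub_eq_add_neg]
  rw [T.κ_apply, lintegral_map (hm.of_uncurry_left) (T.measurable_mix a x)]
  simp only [e]
  rw [← ofReal_integral_eq_lintegral_ofReal hi
    (Filter.Eventually.of_forall fun y => by positivity), integral_mul_const, ← exp_X_step h ha,
    ← exp_add, add_neg_cancel, exp_zero, ENNReal.ofReal_one]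

theorem T1_K1 {H : S → ℝ} (h : T.UB H) {a : ℕ} (ha : a < T.L) :
    T.K1 H a = (T.κ a).withDensity (T.dens H a) := by
  rw [K1, if_pos (h.good ha)]

/-- one step of the tilted kernel, nonnegative version -/
theorem lintegral_K_step {H : S → ℝ} (h : T.UB H) {a : ℕ} (ha : a < T.L) {f : S → ℝ≥0∞}
    (hf : Measurable f) (x : S) :
    ∫⁻ y, f y ∂(T.K H a x) = ∫⁻ y, (∫⁻ z, f z ∂(T.K H (a + 1) (T.mix a x y))) *
      T.dens H a x (T.mix a x y) ∂T.μ := by
  have hm := T1_measurable_dens (T := T) h.1 a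
  have hg : Measurable fun y => ∫⁻ z, f z ∂(T.K H (a + 1) y) := hf.lintegral_kernel
  rw [T.K_step H ha, Kernel.lintegral_comp _ _ _ hf, T1_K1 h ha,
    Kernel.lintegral_withDensity _ hm _ hg, T.κ_apply,
    lintegral_map (hm.of_uncurry_left.fun_mul hg) (T.measurable_mix a x)]
  simp only [mul_comm]

/-- exponential moments under the tilted kernels (downward induction on `a`) -/
theorem lintegral_exp_K (a : ℕ) (C : ℝ) : ∃ C' : ℝ, ∀ H : S → ℝ, Measurable H →
    (∀ x, |H x| ≤ C * (1 + T.ν x)) → ∀ x,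
    ∫⁻ y, ENNReal.ofReal (exp (C * (1 + T.ν y))) ∂(T.K H a x) ≤
      ENNReal.ofReal (exp (C' * (1 + T.ν x))) := by
  have hν := T.meas_ν
  have hf : Measurable fun y => ENNReal.ofReal (exp (C * (1 + T.ν y))) := by fun_prop
  refine T.down_ind (P := fun a => ∃ C' : ℝ, ∀ H : S → ℝ, Measurable H →
    (∀ x, |H x| ≤ C * (1 + T.ν x)) → ∀ x,
    ∫⁻ y, ENNReal.ofReal (exp (C * (1 + T.ν y))) ∂(T.K H a x) ≤
      ENNReal.ofReal (exp (C' * (1 + T.ν x))))
    (fun a ha => ⟨C, fun H _ _ x => ?_⟩) (fun a ha ⟨C₁, ih⟩ => ?_) a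
  · rw [T.K_of_ge H ha, Kernel.id_apply, lintegral_dirac' _ hf]
  · obtain ⟨C₂, h₂⟩ := X_bound (T := T) (a + 1) C
    obtain ⟨C₃, h₃⟩ := X_bound (T := T) a C
    obtain ⟨D, hD⟩ := T1_mom_le (T := T) (C₁ + T.e a * C₂)
    refine ⟨D + T.e a * C₃, fun H hH hC x => ?_⟩
    have hi := (T1_integrable (T := T) (C₁ + T.e a * C₂) a x).mul_const
      (exp (T.e a * C₃ * (1 + T.ν x)))
    rw [lintegral_K_step (LG.ub ⟨hH, C, hC⟩) ha hf]
    calc _ ≤ ∫⁻ y, ENNReal.ofReal (exp ((C₁ + T.e a * C₂) * (1 + T.ν (T.mix a x y))) *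
          exp (T.e a * C₃ * (1 + T.ν x))) ∂T.μ := by
          refine lintegral_mono fun y => (mul_le_mul_left (ih H hH hC _) _).trans ?_
          rw [dens, ← ENNReal.ofReal_mul (exp_pos _).le, ← exp_add, ← exp_add]
          refine ENNReal.ofReal_le_ofReal (exp_le_exp.2 ?_)
          have e1 := mul_le_mul_of_nonneg_left (abs_le.1 (h₂ H hH hC (T.mix a x y))).2
            (T.e_pos' a).le
          have e2 := mul_le_mul_of_nonneg_left (abs_le.1 (h₃ H hH hC x)).1 (T.e_pos' a).le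
          linarith
      _ ≤ _ := by
          rw [← ofReal_integral_eq_lintegral_ofReal hi
            (Filter.Eventually.of_forall fun y => by positivity), integral_mul_const]
          refine ENNReal.ofReal_le_ofReal ?_
          rw [add_mul D, exp_add]
          exact mul_le_mul_of_nonneg_right (hD a x) (exp_pos _).le

theorem T1_enorm_le {φ : S → ℝ} {C : ℝ} (h : ∀ x, |φ x| ≤ exp (C * (1 + T.ν x)))
    (ν : Measure S) : ∫⁻ y, ‖φ y‖ₑ ∂ν ≤ ∫⁻ y, ENNReal.ofReal (exp (C * (1 + T.ν y))) ∂ν :=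
  lintegral_mono fun y => by
    simp only
    rw [← ofReal_norm]
    exact ENNReal.ofReal_le_ofReal (h y)

theorem T1_common {H φ : S → ℝ} (h : T.LG H) (hφ : T.Gr φ) : ∃ C : ℝ,
    (∀ x, |H x| ≤ C * (1 + T.ν x)) ∧ ∀ x, |φ x| ≤ exp (C * (1 + T.ν x)) := by
  obtain ⟨-, C₁, h₁⟩ := h
  obtain ⟨-, C₂, h₂⟩ := hφ
  exact ⟨max C₁ C₂, fun x => (h₁ x).trans (T1_mono (le_max_left _ _) x),
    fun x => (h₂ x).trans (exp_le_exp.2 (T1_mono (le_max_right _ _) x))⟩

theorem T1_E_bound (a : ℕ) (C : ℝ) : ∃ C' : ℝ, ∀ H φ : S → ℝ, Measurable H →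
    (∀ x, |H x| ≤ C * (1 + T.ν x)) → (∀ x, |φ x| ≤ exp (C * (1 + T.ν x))) →
    ∀ x, |T.E H a φ x| ≤ exp (C' * (1 + T.ν x)) := by
  obtain ⟨C', h'⟩ := lintegral_exp_K (T := T) a C
  refine ⟨C', fun H φ hH hC hφ x => ?_⟩
  rw [← ENNReal.ofReal_le_ofReal_iff (exp_pos _).le, ← Real.norm_eq_abs, ofReal_norm]
  exact (enorm_integral_le_lintegral_enorm _).trans ((T1_enorm_le hφ _).trans (h' H hH hC x))

theorem Gr.integrable_K {H φ : S → ℝ} (h : T.LG H) (hφ : T.Gr φ) (a : ℕ) (x : S) :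
    Integrable φ (T.K H a x) := by
  obtain ⟨C, h₁, h₂⟩ := T1_common h hφ
  obtain ⟨C', h'⟩ := lintegral_exp_K (T := T) a C
  exact ⟨hφ.1.aestronglyMeasurable,
    ((T1_enorm_le h₂ _).trans (h' H h.1 h₁ x)).trans_lt ENNReal.ofReal_lt_top⟩

theorem Gr.integrable_PP {H φ : S → ℝ} (h : T.LG H) (hφ : T.Gr φ) :
    Integrable φ (T.PP H) := hφ.integrable_K h 0 _

theorem Gr.E {H φ : S → ℝ} (h : T.LG H) (hφ : T.Gr φ) (a : ℕ) : T.Gr (T.E H a φ) := by
  obtain ⟨C, h₁, h₂⟩ := T1_common h hφ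
  obtain ⟨C', h'⟩ := T1_E_bound (T := T) a C
  exact ⟨T.measurable_E H a hφ.1, C', h' H φ h.1 h₁ h₂⟩

/-- uniform version of `Gr.E` -/
theorem E_bound (a : ℕ) (C : ℝ) : ∃ C' : ℝ, ∀ H φ : S → ℝ, Measurable H →
    (∀ x, |H x| ≤ C * (1 + T.ν x)) → (∀ x, |φ x| ≤ exp (C * (1 + T.ν x))) →
    ∀ x, |T.E H a φ x| ≤ exp (C' * (1 + T.ν x)) := by
  exact T1_E_bound a C

/-- one step of the tilted expectation -/
theorem E_step {H φ : S → ℝ} (h : T.LG H) (hφ : T.Gr φ) {a : ℕ} (ha : a < T.L) (x : S) :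
    T.E H a φ x = ∫ y, T.E H (a + 1) φ (T.mix a x y) *
      exp (T.e a * (T.X H (a + 1) (T.mix a x y) - T.X H a x)) ∂T.μ := by
  have hm := T1_measurable_dens (T := T) h.1 a
  have hi := hφ.integrable_K h a x
  have hE := T.measurable_E H (a + 1) hφ.1
  have hX := T.measurable_X h.1 (a + 1)
  rw [T.K_step H ha] at hi
  rw [Tower.E, T.K_step H ha, Kernel.integral_comp hi, T1_K1 h.ub ha,
    Kernel.withDensity_apply _ hm, integral_withDensity_eq_integral_toReal_smul hm.of_uncurry_left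
      (Filter.Eventually.of_forall fun y => ENNReal.ofReal_lt_top), T.κ_apply]
  have e : ∀ y, (T.dens H a x y).toReal • ∫ z, φ z ∂(T.K H (a + 1) y) =
      T.E H (a + 1) φ y * exp (T.e a * (T.X H (a + 1) y - T.X H a x)) := fun y => by
    rw [dens, ENNReal.toReal_ofReal (exp_pos _).le, smul_eq_mul, mul_comm]
    rfl
  simp only [e]
  exact integral_map (T.measurable_mix a x).aemeasurable
    (Measurable.aestronglyMeasurable (by fun_prop))

theorem abs_E_le (H : S → ℝ) {φ : S → ℝ} {C : ℝ} (h : ∀ x, |φ x| ≤ C) (a : ℕ) (x : S) :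
    |T.E H a φ x| ≤ C := by
  simpa [Tower.E] using norm_integral_le_of_norm_le_const (μ := T.K H a x) (f := φ) (C := C)
    (Filter.Eventually.of_forall h)

theorem E_const (H : S → ℝ) (c : ℝ) (a : ℕ) (x : S) : T.E H a (fun _ => c) x = c := by
  simp [Tower.E]

theorem E_zero_eq (H φ : S → ℝ) : T.E H 0 φ T.x0 = ∫ x, φ x ∂(T.PP H) := rfl

end Tower

end Crest.Agent.R164
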