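import Crest.Agent.R164.T1

/-! # Towers: dependence on the levels, tower property -/

set_option autoImplicit false
set_option linter.unusedVariables false
set_option linter.unusedSectionVars false

open MeasureTheory ProbabilityTheory Real
open scoped ENNReal

namespace Crest.Agent.R164

namespace Tower

variable {S : Type} [MeasurableSpace S] {T : Tower S}

theorem Dep.mono {ψ : S → ℝ} {a b : ℕ} (h : T.Dep a ψ) (hab : a ≤ b) : T.Dep b ψ :=
  fun x y hxy => h x y (T.agree_mono a b x y hab hxy)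
theorem dep_of_ge (ψ : S → ℝ) {a : ℕ} (h : T.L ≤ a) : T.Dep a ψ :=
  fun x y hxy => by rw [T.agree_top x y (T.agree_mono _ _ x y h hxy)]
theorem Dep.const (c : ℝ) (a : ℕ) : T.Dep a (fun _ => c) := fun _ _ _ => rfl
theorem Dep.add {φ ψ : S → ℝ} {a : ℕ} (h : T.Dep a φ) (g : T.Dep a ψ) :
    T.Dep a (fun x => φ x + ψ x) := fun x y hxy => by simp only [h x y hxy, g x y hxy]
theorem Dep.mul {φ ψ : S → ℝ} {a : ℕ} (h : T.Dep a φ) (g : T.Dep a ψ) :
    T.Dep a (fun x => φ x * ψ x) := fun x y hxy => by simp only [h x y hxy, g x y hxy]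
theorem Dep.comp {φ : S → ℝ} {a : ℕ} (h : T.Dep a φ) (F : ℝ → ℝ) :
    T.Dep a (fun x => F (φ x)) := fun x y hxy => by simp only [h x y hxy]
theorem Dep.sum {ι : Type} (J : Finset ι) {φ : ι → S → ℝ} {a : ℕ} (h : ∀ i ∈ J, T.Dep a (φ i)) :
    T.Dep a (fun x => ∑ i ∈ J, φ i x) := fun x y hxy => Finset.sum_congr rfl fun i hi => h i hi x y hxy

/-- locality: `X H a x` only sees `H` on the states that agree with `x` below `a`
(downward induction, `agree_mix`, `agree_trans`). -/
theorem X_local {H H' : S → ℝ} (a : ℕ) (x : S) (h : ∀ y, T.agree a x y → H y = H' y) :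
    T.X H a x = T.X H' a x := by
  induction a using T.down_ind generalizing x with
  | h0 a ha => rw [T.X_of_ge H ha, T.X_of_ge H' ha]; exact h x (T.agree_refl a x)
  | h1 a ha ih =>
    rw [T.X_step H ha, T.X_step H' ha]
    unfold step
    have : ∀ y, T.X H (a + 1) (T.mix a x y) = T.X H' (a + 1) (T.mix a x y) := fun y =>
      ih _ fun z hz => h z (T.agree_trans a _ _ _ (T.agree_mix a a x y le_rfl)
        (T.agree_mono a (a + 1) _ _ (Nat.le_succ a) hz))
    simp only [this]

/-- joint measurability in a parameter -/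
theorem measurable_X_param {Z : Type} [MeasurableSpace Z] {H : Z → S → ℝ}
    (hH : Measurable (Function.uncurry H)) (a : ℕ) :
    Measurable (fun p : Z × S => T.X (H p.1) a p.2) := by
  induction a using T.down_ind with
  | h0 a ha => simp only [T.X_of_ge _ ha]; exact hH
  | h1 a ha ih =>
    simp only [T.X_step _ ha]
    unfold step
    refine (Measurable.log ?_).const_mul _
    have h1 : Measurable fun q : (Z × S) × S =>
        exp (T.e a * T.X (H q.1.1) (a + 1) (T.mix a q.1.2 q.2)) :=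
      ((ih.comp (measurable_fst.fst.prodMk ((T.meas_mix a).comp
        (measurable_fst.snd.prodMk measurable_snd)))).const_mul _).exp
    exact (h1.stronglyMeasurable.integral_prod_right' (ν := T.μ)).measurable

theorem dep_X (H : S → ℝ) (a : ℕ) : T.Dep a (T.X H a) := by
  induction a using T.down_ind with
  | h0 a ha => exact dep_of_ge _ ha
  | h1 a ha ih =>
    intro x x' hx
    rw [T.X_step H ha]
    unfold step
    have : ∀ y, T.X H (a + 1) (T.mix a x y) = T.X H (a + 1) (T.mix a x' y) := fun y =>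
      ih _ _ (T.mix_congr a x x' y hx)
    simp only [this]

theorem X_zero (H : S → ℝ) (x : S) : T.X H 0 x = T.A H := dep_X H 0 x T.x0 (T.agree_zero _ _)

/-- the tilted kernel depends only on the levels `< a` -/
theorem K_congr {H : S → ℝ} (h : T.UB H) (a : ℕ) {x x' : S} (hx : T.agree a x x') :
    T.K H a x = T.K H a x' := by
  induction a using T.down_ind generalizing x x' with
  | h0 a ha => rw [T.agree_top x x' (T.agree_mono _ _ x x' ha hx)]
  | h1 a ha ih =>
    refine Measure.ext_of_lintegral _ fun f hf => ?_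
    rw [lintegral_K_step h ha hf, lintegral_K_step h ha hf]
    refine lintegral_congr fun y => ?_
    have h1 := T.mix_congr a x x' y hx
    rw [ih h1]
    unfold dens
    rw [dep_X H (a + 1) _ _ h1, dep_X H a _ _ hx]

theorem K_zero {H : S → ℝ} (h : T.UB H) (x : S) : T.K H 0 x = T.PP H := K_congr h 0 (T.agree_zero _ _)

theorem dep_E {H : S → ℝ} (h : T.UB H) (φ : S → ℝ) (a : ℕ) : T.Dep a (T.E H a φ) :=
  fun x y hxy => by unfold E; rw [K_congr h a hxy]

theorem E_zero {H : S → ℝ} (h : T.UB H) (φ : S → ℝ) (x : S) :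
    T.E H 0 φ x = ∫ y, φ y ∂(T.PP H) := by
  unfold E; rw [K_zero h]

theorem t2_diag {H : S → ℝ} (h : T.UB H) (a : ℕ) {F : S → S → ℝ≥0∞}
    (hF : Measurable (Function.uncurry F))
    (hd : ∀ y y' z, T.agree a y y' → F y z = F y' z) (x : S) :
    ∫⁻ z, F x z ∂(T.K H a x) = ∫⁻ z, F z z ∂(T.K H a x) := by
  have m1 : ∀ x, Measurable (F x) := fun x => hF.of_uncurry_left
  have m2 : Measurable fun z => F z z := hF.comp (measurable_id.prodMk measurable_id)
  induction a using T.down_ind generalizing x with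
  | h0 a ha => rw [T.K_of_ge H ha, Kernel.id_apply, lintegral_dirac' _ (m1 x), lintegral_dirac' _ m2]
  | h1 a ha ih =>
    rw [lintegral_K_step h ha (m1 x), lintegral_K_step h ha m2]
    refine lintegral_congr fun y => ?_
    rw [← ih (fun y y' z hy => hd y y' z (T.agree_mono a (a + 1) _ _ (Nat.le_succ a) hy))]
    simp only [hd x _ _ (T.agree_mix a a x y le_rfl)]

/-- a function of the levels `< a` is a.s. constant under `K H a x` -/
theorem ae_eq_of_dep {H ψ : S → ℝ} (h : T.UB H) {a : ℕ} (hm : Measurable ψ) (hψ : T.Dep a ψ)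
    (x : S) : ∀ᵐ y ∂(T.K H a x), ψ y = ψ x := by
  have hs : MeasurableSet {y | ¬ ψ y = ψ x} := (measurableSet_eq_fun hm measurable_const).compl
  have h1 := t2_diag h a (F := fun y _ => {y | ¬ ψ y = ψ x}.indicator 1 y)
    ((measurable_one.indicator hs).comp measurable_fst)
    (fun y y' _ hy => by simp only [Set.indicator, Set.mem_setOf_eq, hψ y y' hy, Pi.one_apply]) x
  rw [lintegral_indicator_one hs] at h1
  rw [ae_iff, ← h1]
  simp

theorem E_of_dep {H ψ : S → ℝ} (h : T.UB H) {a : ℕ} (hm : Measurable ψ) (hψ : T.Dep a ψ) (x : S) :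
    T.E H a ψ x = ψ x := by
  unfold E
  rw [integral_congr_ae (ae_eq_of_dep h hm hψ x)]
  simp

theorem E_mul_dep {H ψ φ : S → ℝ} (h : T.UB H) {a : ℕ} (hm : Measurable ψ) (hψ : T.Dep a ψ)
    (x : S) : T.E H a (fun y => ψ y * φ y) x = ψ x * T.E H a φ x := by
  unfold E
  rw [← integral_const_mul]
  exact integral_congr_ae ((ae_eq_of_dep h hm hψ x).mono fun y hy => by simp only [hy])

/-- the kernel form of the tower property: resampling again from level `b ≥ a` does not change
the law of the pair (levels `< b`, everything).  For `F : S → S → ℝ≥0∞` jointly measurable and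
depending only on the levels `< b` in the first variable. -/
theorem lintegral_K_K {H : S → ℝ} (h : T.UB H) {a b : ℕ} (hab : a ≤ b) {F : S → S → ℝ≥0∞}
    (hF : Measurable (Function.uncurry F))
    (hd : ∀ y y' z, T.agree b y y' → F y z = F y' z) (x : S) :
    ∫⁻ y, (∫⁻ z, F y z ∂(T.K H b y)) ∂(T.K H a x) = ∫⁻ y, F y y ∂(T.K H a x) := by
  have m2 : Measurable fun z => F z z := hF.comp (measurable_id.prodMk measurable_id)
  have m3 : Measurable fun y => ∫⁻ z, F y z ∂(T.K H b y) := hF.lintegral_kernel_prod_right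
  have base : ∀ x, ∫⁻ y, (∫⁻ z, F y z ∂(T.K H b y)) ∂(T.K H b x) = ∫⁻ y, F y y ∂(T.K H b x) := by
    intro x
    rw [← t2_diag h b (F := fun y _ => ∫⁻ z, F y z ∂(T.K H b y)) (m3.comp measurable_fst)
      (fun y y' _ hy => by simp only [K_congr h b hy, fun z => hd y y' z hy]) x,
      lintegral_const, measure_univ, mul_one, t2_diag h b hF hd x]
  induction a using T.down_ind generalizing x with
  | h0 a ha =>
    rw [show T.K H a = T.K H b by rw [T.K_of_ge H ha, T.K_of_ge H (ha.trans hab)]]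
    exact base x
  | h1 a ha ih =>
    rcases hab.eq_or_lt with rfl | hlt
    · exact base x
    · rw [lintegral_K_step h ha m3, lintegral_K_step h ha m2]
      exact lintegral_congr fun y => by rw [ih hlt]

theorem K_comp {H : S → ℝ} (h : T.UB H) {a b : ℕ} (hab : a ≤ b) :
    T.K H b ∘ₖ T.K H a = T.K H a := by
  ext1 x
  refine Measure.ext_of_lintegral _ fun f hf => ?_
  rw [Kernel.lintegral_comp _ _ _ hf]
  exact lintegral_K_K h hab (F := fun _ z => f z) (hf.comp measurable_snd) (fun _ _ _ _ => rfl) x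

theorem t2_E_E {H φ : S → ℝ} (h : T.LG H) {a b : ℕ} (hab : a ≤ b) (hφ : T.Gr φ) (x : S) :
    T.E H a (T.E H b φ) x = T.E H a φ x := by
  have h1 := hφ.integrable_K h a x
  rw [← K_comp h.ub hab] at h1
  have h2 := Kernel.integral_comp h1
  rw [K_comp h.ub hab] at h2
  exact h2.symm

/-- tower property with a factor depending on the levels `< b` -/
theorem E_mul_E {H ψ φ : S → ℝ} (h : T.LG H) {a b : ℕ} (hab : a ≤ b) (hψ : T.Gr ψ)
    (hd : T.Dep b ψ) (hφ : T.Gr φ) (x : S) :
    T.E H a (fun y => ψ y * T.E H b φ y) x = T.E H a (fun y => ψ y * φ y) x := by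
  simp only [← E_mul_dep h.ub hψ.1 hd]
  exact t2_E_E h hab (hψ.mul hφ) x

theorem E_E {H φ : S → ℝ} (h : T.LG H) {a b : ℕ} (hab : a ≤ b) (hφ : T.Gr φ) (x : S) :
    T.E H a (T.E H b φ) x = T.E H a φ x := t2_E_E h hab hφ x

theorem integral_mul_E {H ψ φ : S → ℝ} (h : T.LG H) (b : ℕ) (hψ : T.Gr ψ)
    (hd : T.Dep b ψ) (hφ : T.Gr φ) :
    ∫ y, ψ y * T.E H b φ y ∂(T.PP H) = ∫ y, ψ y * φ y ∂(T.PP H) := E_mul_E h (Nat.zero_le b) hψ hd hφ T.x0

theorem integral_E {H φ : S → ℝ} (h : T.LG H) (b : ℕ) (hφ : T.Gr φ) :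
    ∫ y, T.E H b φ y ∂(T.PP H) = ∫ y, φ y ∂(T.PP H) := E_E h (Nat.zero_le b) hφ T.x0

theorem sq_E_le {H φ : S → ℝ} (h : T.LG H) (hφ : T.Gr φ) (a : ℕ) (x : S) :
    (T.E H a φ x) ^ 2 ≤ T.E H a (fun y => φ y ^ 2) x := by
  have h1 := hφ.integrable_K h a x
  have h2 := (hφ.pow 2).integrable_K h a x
  have h3 := integral_mono ((h1.const_mul (2 * T.E H a φ x)).sub (integrable_const
    (T.E H a φ x ^ 2))) h2 fun y => by
      simp only [Pi.sub_apply]
      nlinarith [sq_nonneg (φ y - T.E H a φ x)]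
  simp only [Pi.sub_apply] at h3
  rw [integral_sub (h1.const_mul _) (integrable_const _), integral_const_mul] at h3
  simp only [integral_const, probReal_univ, one_smul] at h3
  change 2 * T.E H a φ x * T.E H a φ x - _ ≤ T.E H a (fun y => φ y ^ 2) x at h3
  nlinarith

theorem E_add {H φ ψ : S → ℝ} (h : T.LG H) (hφ : T.Gr φ) (hψ : T.Gr ψ) (a : ℕ) (x : S) :
    T.E H a (fun y => φ y + ψ y) x = T.E H a φ x + T.E H a ψ x :=
  integral_add (hφ.integrable_K h a x) (hψ.integrable_K h a x)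

theorem E_sub {H φ ψ : S → ℝ} (h : T.LG H) (hφ : T.Gr φ) (hψ : T.Gr ψ) (a : ℕ) (x : S) :
    T.E H a (fun y => φ y - ψ y) x = T.E H a φ x - T.E H a ψ x :=
  integral_sub (hφ.integrable_K h a x) (hψ.integrable_K h a x)

theorem E_const_mul (H φ : S → ℝ) (c : ℝ) (a : ℕ) (x : S) :
    T.E H a (fun y => c * φ y) x = c * T.E H a φ x := integral_const_mul _ _

theorem E_sum {ι : Type} (J : Finset ι) {H : S → ℝ} {φ : ι → S → ℝ} (h : T.LG H)
    (hφ : ∀ i ∈ J, T.Gr (φ i)) (a : ℕ) (x : S) :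
    T.E H a (fun y => ∑ i ∈ J, φ i y) x = ∑ i ∈ J, T.E H a (φ i) x :=
  integral_finsetSum J fun i hi => (hφ i hi).integrable_K h a x

theorem E_mono {H φ ψ : S → ℝ} (h : T.LG H) (hφ : T.Gr φ) (hψ : T.Gr ψ) (hle : ∀ y, φ y ≤ ψ y)
    (a : ℕ) (x : S) : T.E H a φ x ≤ T.E H a ψ x :=
  integral_mono (hφ.integrable_K h a x) (hψ.integrable_K h a x) hle

/-! ### overlaps -/

theorem ov_nonneg {ι : Type} (H : S → ℝ) (s : ι → S → ℝ) (J : Finset ι) (r : ℕ) :
    0 ≤ T.ov H s J r :=
  integral_nonneg fun _ => Finset.sum_nonneg fun _ _ => sq_nonneg _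

theorem t2_sq_sub {ι : Type} {H : S → ℝ} {s : ι → S → ℝ} (J : Finset ι) (h : T.LG H)
    (hs : ∀ i ∈ J, T.Gr (s i)) {a b : ℕ} (hab : a ≤ b) :
    ∫ x, ∑ i ∈ J, (T.E H b (s i) x - T.E H a (s i) x) ^ 2 ∂(T.PP H) =
      T.ov H s J b - T.ov H s J a := by
  unfold ov
  rw [integral_finsetSum J fun i hi =>
      ((((hs i hi).E h b).sub ((hs i hi).E h a)).pow 2).integrable_PP h,
    integral_finsetSum J fun i hi => (((hs i hi).E h b).pow 2).integrable_PP h,
    integral_finsetSum J fun i hi => (((hs i hi).E h a).pow 2).integrable_PP h,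
    ← Finset.sum_sub_distrib]
  refine Finset.sum_congr rfl fun i hi => ?_
  have ga := (hs i hi).E h a
  have gb := (hs i hi).E h b
  have h1 := integral_mul_E h b ga ((dep_E h.ub _ a).mono hab) (hs i hi)
  have h2 := integral_mul_E h a ga (dep_E h.ub _ a) (hs i hi)
  have e : ∀ x, (T.E H b (s i) x - T.E H a (s i) x) ^ 2 = (T.E H b (s i) x ^ 2 -
      2 * (T.E H a (s i) x * T.E H b (s i) x)) + T.E H a (s i) x * T.E H a (s i) x :=
    fun x => by ring
  simp only [e]
  rw [integral_add (((gb.pow 2).sub ((ga.mul gb).const_mul 2)).integrable_PP h)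
      ((ga.mul ga).integrable_PP h),
    integral_sub ((gb.pow 2).integrable_PP h) (((ga.mul gb).const_mul 2).integrable_PP h),
    integral_const_mul, h1]
  simp only [sq (T.E H a (s i) _), h2]
  ring

/-- martingale property: `E_a s = E_a E_b s` and Jensen -/
theorem ov_mono {ι : Type} {H : S → ℝ} {s : ι → S → ℝ} (J : Finset ι) (h : T.LG H)
    (hs : ∀ i ∈ J, T.Gr (s i)) : Monotone (T.ov H s J) := fun a b hab => by
  rw [← sub_nonneg, ← t2_sq_sub J h hs hab]
  exact integral_nonneg fun _ => Finset.sum_nonneg fun _ _ => sq_nonneg _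

theorem ov_of_ge {ι : Type} (H : S → ℝ) {s : ι → S → ℝ} (J : Finset ι)
    (hs : ∀ i ∈ J, Measurable (s i)) {r : ℕ} (hr : T.L ≤ r) :
    T.ov H s J r = ∫ x, ∑ i ∈ J, s i x ^ 2 ∂(T.PP H) := by
  unfold ov
  congr 1
  funext x
  exact Finset.sum_congr rfl fun i hi => by rw [T.E_of_ge H hr (hs i hi)]

theorem Err2_of_ge {ι : Type} (H : S → ℝ) {s : ι → S → ℝ} (J : Finset ι)
    (hs : ∀ i ∈ J, Measurable (s i)) {r : ℕ} (hr : T.L ≤ r) (c : ℝ) :
    T.Err2 H s J r c = ∫ x, |∑ i ∈ J, s i x ^ 2 - c| ∂(T.PP H) := by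
  unfold Err2
  congr 1
  funext x
  have m : ∀ y, Measurable fun y' => |∑ i ∈ J, s i y * s i y' - c| := fun y =>
    ((Finset.measurable_sum J fun i hi => (hs i hi).const_mul _).sub_const c).abs
  have m' : Measurable fun y => |∑ i ∈ J, s i y * s i x - c| :=
    ((Finset.measurable_sum J fun i hi => (hs i hi).mul_const _).sub_const c).abs
  rw [T.K_of_ge H hr, Kernel.id_apply]
  simp only [fun y => integral_dirac' _ x (m y).stronglyMeasurable]
  rw [integral_dirac' _ x m'.stronglyMeasurable]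
  simp only [sq]

theorem Err2_nonneg {ι : Type} (H : S → ℝ) (s : ι → S → ℝ) (J : Finset ι) (r : ℕ) (c : ℝ) :
    0 ≤ T.Err2 H s J r c :=
  integral_nonneg fun _ => integral_nonneg fun _ => integral_nonneg fun _ => abs_nonneg _

theorem t2_mono {μ : Measure S} [IsProbabilityMeasure μ] {f g : S → ℝ} {d B : ℝ}
    (hf : ∀ x, 0 ≤ f x) (hm : StronglyMeasurable g) (hg : ∀ x, |g x| ≤ B)
    (h : ∀ x, f x ≤ g x + d) : ∫ x, f x ∂μ ≤ ∫ x, g x ∂μ + d := by
  have h1 : Integrable g μ :=
    (integrable_const B).mono' hm.aestronglyMeasurable (Filter.Eventually.of_forall hg)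
  have h2 := integral_mono_of_nonneg (μ := μ) (Filter.Eventually.of_forall hf)
    (g := fun x => g x + d) (h1.add (integrable_const d)) (Filter.Eventually.of_forall h)
  rw [integral_add h1 (integrable_const d)] at h2
  simpa using h2

theorem t2_bd {μ : Measure S} [IsProbabilityMeasure μ] {g : S → ℝ} {B : ℝ}
    (hg : ∀ x, |g x| ≤ B) : |∫ x, g x ∂μ| ≤ B := by
  have := norm_integral_le_of_norm_le_const (μ := μ) (f := g) (C := B)
    (Filter.Eventually.of_forall hg)
  simpa using this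

theorem Err2_le_add {ι : Type} (H : S → ℝ) {s : ι → S → ℝ} (J : Finset ι)
    (hs : ∀ i ∈ J, Measurable (s i)) {B : ℝ} (hB : ∀ i ∈ J, ∀ x, |s i x| ≤ B) (r : ℕ) (c c' : ℝ) :
    T.Err2 H s J r c ≤ T.Err2 H s J r c' + |c - c'| := by
  have m0 : Measurable fun q : S × S => |∑ i ∈ J, s i q.1 * s i q.2 - c'| :=
    ((Finset.measurable_sum J fun i hi => ((hs i hi).comp measurable_fst).mul
      ((hs i hi).comp measurable_snd)).sub_const c').abs
  have m1 : StronglyMeasurable fun q : S × S =>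
      ∫ y', |∑ i ∈ J, s i q.2 * s i y' - c'| ∂(T.K H r q.1) :=
    StronglyMeasurable.integral_kernel_prod_right' (κ := (T.K H r).comap Prod.fst measurable_fst)
      (m0.comp (measurable_fst.snd.prodMk measurable_snd)).stronglyMeasurable
  have m2 : StronglyMeasurable fun x =>
      ∫ y, (∫ y', |∑ i ∈ J, s i y * s i y' - c'| ∂(T.K H r x)) ∂(T.K H r x) :=
    StronglyMeasurable.integral_kernel_prod_right' (κ := T.K H r) m1
  have b0 : ∀ y y', |(|∑ i ∈ J, s i y * s i y' - c'|)| ≤ ∑ _i ∈ J, B * B + |c'| := fun y y' => by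
    rw [abs_abs]
    refine (abs_sub _ _).trans (add_le_add_left ((Finset.abs_sum_le_sum_abs _ _).trans
      (Finset.sum_le_sum fun i hi => ?_)) _)
    rw [abs_mul]
    exact mul_le_mul (hB i hi y) (hB i hi y') (abs_nonneg _) ((abs_nonneg _).trans (hB i hi y))
  unfold Err2
  refine t2_mono (fun _ => integral_nonneg fun _ => integral_nonneg fun _ => abs_nonneg _) m2
    (fun x => t2_bd fun y => t2_bd (b0 y)) fun x => ?_
  refine t2_mono (fun _ => integral_nonneg fun _ => abs_nonneg _)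
    (m1.comp_measurable (measurable_prodMk_left (x := x))) (fun y => t2_bd (b0 y)) fun y => ?_
  refine t2_mono (fun _ => abs_nonneg _)
    (m0.comp (measurable_prodMk_left (x := y))).stronglyMeasurable (b0 y) fun y' => ?_
  rw [abs_sub_comm c c']
  exact abs_sub_le _ _ _

/-- increments of the martingale `E_a s` are orthogonal -/
theorem integral_sq_sub {ι : Type} {H : S → ℝ} {s : ι → S → ℝ} (J : Finset ι) (h : T.LG H)
    (hs : ∀ i ∈ J, T.Gr (s i)) {a b : ℕ} (hab : a ≤ b) :
    ∫ x, ∑ i ∈ J, (T.E H b (s i) x - T.E H a (s i) x) ^ 2 ∂(T.PP H) =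
      T.ov H s J b - T.ov H s J a := t2_sq_sub J h hs hab

end Tower

end Crest.Agent.R164
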