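import Mathlib

/-! # Row 164, abstract towers (definitions)

A *tower* is a probability space `(S, μ)` with `L` resampling operations `mix a x y` ("take the
level-`a` coordinates from `y`, the others from `x`") and nondecreasing exponents
`0 < e 0 ≤ e 1 ≤ … ≤ e (L-1) = 1`.  `X H a` is the nested log-mean-exp recursion (Parisi
recursion) of a Hamiltonian `H`, `K H a` the tilted (Gibbs) kernel from level `a` to the end,
`E H a φ` its expectation (a conditional expectation w.r.t. the levels `< a`), `PP H` the Gibbs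
law of the whole tower and `A H` the value at the root. -/

set_option autoImplicit false
set_option linter.unusedVariables false
set_option linter.unusedSectionVars false

open MeasureTheory ProbabilityTheory Real
open scoped ENNReal

namespace Crest.Agent.R164

structure Tower (S : Type) [MeasurableSpace S] where
  L : ℕ
  e : ℕ → ℝ
  μ : Measure S
  mix : ℕ → S → S → S
  /-- `agree r x y`: `x` and `y` have the same coordinates of level `< r`. -/
  agree : ℕ → S → S → Prop
  /-- size function (controls Gaussian growth) -/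
  ν : S → ℝ
  x0 : S
  prob : IsProbabilityMeasure μ
  L_pos : 0 < L
  e_pos : 0 < e 0
  e_mono : Monotone e
  e_le : ∀ a, e a ≤ 1
  e_last : e (L - 1) = 1
  meas_mix : ∀ a, Measurable (fun p : S × S => mix a p.1 p.2)
  meas_ν : Measurable ν
  ν_nonneg : ∀ x, 0 ≤ ν x
  ν_mix : ∀ a x y, ν (mix a x y) ≤ ν x + ν y
  mom : ∀ C : ℝ, Integrable (fun y => exp (C * ν y)) μ
  agree_refl : ∀ r x, agree r x x
  agree_symm : ∀ r x y, agree r x y → agree r y x
  agree_trans : ∀ r x y z, agree r x y → agree r y z → agree r x z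
  agree_mono : ∀ a b x y, a ≤ b → agree b x y → agree a x y
  agree_zero : ∀ x y, agree 0 x y
  agree_top : ∀ x y, agree L x y → x = y
  agree_mix : ∀ r a x y, r ≤ a → agree r x (mix a x y)
  mix_congr : ∀ a x x' y, agree a x x' → agree (a + 1) (mix a x y) (mix a x' y)

namespace Tower

variable {S : Type} [MeasurableSpace S] (T : Tower S)

instance : IsProbabilityMeasure T.μ := T.prob

/-- weight of the replicas that split at level `r` -/
def W (r : ℕ) : ℝ := T.e r - T.e (r - 1)

/-- one log-mean-exp step at level `a` -/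
noncomputable def step (a : ℕ) (F : S → ℝ) (x : S) : ℝ :=
  (T.e a)⁻¹ * log (∫ y, exp (T.e a * F (T.mix a x y)) ∂T.μ)

noncomputable def Xaux (H : S → ℝ) : ℕ → ℕ → S → ℝ
  | _, 0 => H
  | a, k + 1 => T.step a (Xaux H (a + 1) k)

/-- the value of the recursion at level `a` (`= H` for `a ≥ L`) -/
noncomputable def X (H : S → ℝ) (a : ℕ) : S → ℝ := T.Xaux H a (T.L - a)

/-- the untilted resampling kernel at level `a` -/
noncomputable def κ (a : ℕ) : Kernel S S :=
  (Kernel.id ×ₖ Kernel.const S T.μ).map (fun p => T.mix a p.1 p.2)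

instance (a : ℕ) : IsMarkovKernel (T.κ a) := by
  unfold κ
  exact Kernel.IsMarkovKernel.map _ (T.meas_mix a)

/-- density of the tilted one-step kernel -/
noncomputable def dens (H : S → ℝ) (a : ℕ) (x y : S) : ℝ≥0∞ :=
  ENNReal.ofReal (exp (T.e a * (T.X H (a + 1) y - T.X H a x)))

def Good (H : S → ℝ) (a : ℕ) : Prop :=
  Measurable (Function.uncurry (T.dens H a)) ∧ ∀ x, ∫⁻ y, T.dens H a x y ∂(T.κ a x) = 1

open Classical in
/-- the tilted one-step kernel (always Markov) -/
noncomputable def K1 (H : S → ℝ) (a : ℕ) : Kernel S S :=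
  if T.Good H a then (T.κ a).withDensity (T.dens H a) else T.κ a

instance (H : S → ℝ) (a : ℕ) : IsMarkovKernel (T.K1 H a) := by
  unfold K1
  split_ifs with h
  · refine ⟨fun x => ⟨?_⟩⟩
    rw [Kernel.withDensity_apply' _ h.1]
    simpa using h.2 x
  · infer_instance

noncomputable def Kaux (H : S → ℝ) : ℕ → ℕ → Kernel S S
  | _, 0 => Kernel.id
  | a, k + 1 => Kaux H (a + 1) k ∘ₖ T.K1 H a

instance Kaux_markov (H : S → ℝ) : ∀ (k a : ℕ), IsMarkovKernel (T.Kaux H a k)
  | 0, a => by unfold Kaux; infer_instance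
  | k + 1, a => by
    unfold Kaux
    have := Kaux_markov H k (a + 1)
    infer_instance

/-- the tilted kernel from level `a` to the end -/
noncomputable def K (H : S → ℝ) (a : ℕ) : Kernel S S := T.Kaux H a (T.L - a)

instance (H : S → ℝ) (a : ℕ) : IsMarkovKernel (T.K H a) := by unfold K; infer_instance

/-- conditional Gibbs expectation given the levels `< a` -/
noncomputable def E (H : S → ℝ) (a : ℕ) (φ : S → ℝ) (x : S) : ℝ := ∫ y, φ y ∂(T.K H a x)

/-- the Gibbs law of the whole tower -/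
noncomputable def PP (H : S → ℝ) : Measure S := T.K H 0 T.x0

instance (H : S → ℝ) : IsProbabilityMeasure (T.PP H) := by unfold PP; infer_instance

/-- the value at the root -/
noncomputable def A (H : S → ℝ) : ℝ := T.X H 0 T.x0

/-- measurable with linear growth -/
def LG (H : S → ℝ) : Prop := Measurable H ∧ ∃ C : ℝ, ∀ x, |H x| ≤ C * (1 + T.ν x)

/-- measurable, linearly bounded above -/
def UB (H : S → ℝ) : Prop := Measurable H ∧ ∃ C : ℝ, ∀ x, H x ≤ C * (1 + T.ν x)

/-- measurable with exponential growth -/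
def Gr (φ : S → ℝ) : Prop := Measurable φ ∧ ∃ C : ℝ, ∀ x, |φ x| ≤ exp (C * (1 + T.ν x))

/-- depends only on the levels `< r` -/
def Dep (r : ℕ) (ψ : S → ℝ) : Prop := ∀ x y, T.agree r x y → ψ x = ψ y

/-- overlap at level `r` of the vector observable `(s i)_{i ∈ J}` (for `r = L`: self-overlap) -/
noncomputable def ov {ι : Type} (H : S → ℝ) (s : ι → S → ℝ) (J : Finset ι) (r : ℕ) : ℝ :=
  ∫ x, ∑ i ∈ J, (T.E H r (s i) x) ^ 2 ∂(T.PP H)

/-- `L¹` distance to the constant `c` of the overlap of two replicas that split at level `r` -/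
noncomputable def Err2 {ι : Type} (H : S → ℝ) (s : ι → S → ℝ) (J : Finset ι) (r : ℕ) (c : ℝ) : ℝ :=
  ∫ x, (∫ y, (∫ y', |∑ i ∈ J, s i y * s i y' - c| ∂(T.K H r x)) ∂(T.K H r x)) ∂(T.PP H)

/-- A one-parameter family of Hamiltonians, differentiable on the open set `U`. -/
structure DerL (U : Set ℝ) (H H' : ℝ → S → ℝ) : Prop where
  meas : ∀ t ∈ U, Measurable (H t)
  meas' : ∀ t ∈ U, Measurable (H' t)
  bd : ∃ C : ℝ, ∀ t ∈ U, ∀ x, |H t x| ≤ C * (1 + T.ν x) ∧ |H' t x| ≤ exp (C * (1 + T.ν x))
  der : ∀ t ∈ U, ∀ x, HasDerivAt (fun t => H t x) (H' t x) t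

/-- A one-parameter family of observables, differentiable on the open set `U`. -/
structure DerG (U : Set ℝ) (φ φ' : ℝ → S → ℝ) : Prop where
  meas : ∀ t ∈ U, Measurable (φ t)
  meas' : ∀ t ∈ U, Measurable (φ' t)
  bd : ∃ C : ℝ, ∀ t ∈ U, ∀ x,
    |φ t x| ≤ exp (C * (1 + T.ν x)) ∧ |φ' t x| ≤ exp (C * (1 + T.ν x))
  der : ∀ t ∈ U, ∀ x, HasDerivAt (fun t => φ t x) (φ' t x) t

/-- The response of `E H a φ` to the perturbation `V` of the Hamiltonian. -/
noncomputable def resp (H V φ : S → ℝ) (a : ℕ) (x : S) : ℝ :=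
  T.E H a (fun y => φ y * V y) x -
    ∑ r ∈ Finset.Ioo a T.L, T.W r * T.E H a (fun y => T.E H r φ y * T.E H r V y) x -
    T.e a * (T.E H a φ x * T.E H a V x)

/-- `pm` intertwines the resampling operations of the levels `≥ a0`. -/
structure Mor {S' : Type} [MeasurableSpace S'] (T' : Tower S') (pm : S → S') (a0 : ℕ) : Prop where
  L_eq : T.L = T'.L
  e_eq : T.e = T'.e
  meas : Measurable pm
  growth : ∃ C : ℝ, ∀ x, T'.ν (pm x) ≤ C * (1 + T.ν x)
  map : ∀ a, a0 ≤ a → a < T.L → ∀ x,
    T.μ.map (fun y => pm (T.mix a x y)) = T'.μ.map (T'.mix a (pm x))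

/-- two morphisms with independent images -/
structure Indep {S1 S2 : Type} [MeasurableSpace S1] [MeasurableSpace S2] (T1 : Tower S1)
    (T2 : Tower S2) (p1 : S → S1) (p2 : S → S2) : Prop where
  m1 : T.Mor T1 p1 0
  m2 : T.Mor T2 p2 0
  map : ∀ a, a < T.L → ∀ x, T.μ.map (fun y => (p1 (T.mix a x y), p2 (T.mix a x y))) =
    (T1.μ.map (T1.mix a (p1 x))).prod (T2.μ.map (T2.mix a (p2 x)))

end Tower

end Crest.Agent.R164
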