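import Crest.Agent.R164.U0
import Crest.Agent.R164.S3
import Crest.Agent.R164.S5

/-! # The upper bound on the fractional moment: the contact argument at fixed size -/

set_option autoImplicit false
set_option linter.unusedVariables false
set_option linter.unusedSectionVars false

open MeasureTheory ProbabilityTheory Real Crest.ProbabilityR.InvariantGlass
open scoped ENNReal

namespace Crest.Agent.R164

/-- the penalised functional -/
noncomputable def u1F (S : Spec) (X : Expo) {N J : ℕ} (blk : Fin N → Fin (S.k + 1))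
    (lab : Fin N → Fin J) (mag : Fin J → ℝ) (f0 : (Fin N → Bool) → ℝ) (p g : ℝ → ℝ)
    (z : ℝ × (ℕ → ℝ)) (π' : PI X.n S.k J → ℝ) : ℝ :=
  (sys S z.1 z.2 blk lab mag 0 f0 (fun _ _ => 0) π').A X / N -
    (∑ l ∈ Finset.Icc 1 X.n, z.2 l ^ 2 * (1 - tl p (X.e l))) / 2 - g z.1

section

variable (S : Spec) (X : Expo) {N J : ℕ} (blk : Fin N → Fin (S.k + 1))
  (lab : Fin N → Fin J) (mag : Fin J → ℝ) (f0 : (Fin N → Bool) → ℝ) {p g : ℝ → ℝ}

theorem u1F_cont (hg : Continuous g) :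
    Continuous fun q : (ℝ × (ℕ → ℝ)) × (PI X.n S.k J → ℝ) =>
      u1F S X blk lab mag f0 p g q.1 q.2 := by
  have h := continuous_A (X := X) (fun q : (ℝ × (ℕ → ℝ)) × (PI X.n S.k J → ℝ) =>
    sys S q.1.1 q.1.2 blk lab mag 0 f0 (fun _ _ => 0) q.2)
    (fun i => by simp only [sys]; fun_prop) (fun a r => by simp only [sys]; fun_prop)
    (fun a r => by
      simp only [sys, vtOf]
      split_ifs
      · fun_prop
      · fun_prop)
    (fun a r => by simp only [sys]; fun_prop) (fun σ => by simp only [sys]; fun_prop)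
  unfold u1F
  refine ((h.div_const _).sub ?_).sub (hg.comp (continuous_fst.comp continuous_fst))
  fun_prop

/-- the value at the starting point -/
theorem u1_start (hN : 0 < N) (hp : IsTrialPath p) {η : ℝ} (hη : 0 ≤ η) :
    fm X.m (fun i => S.lam (blk i)) f0 / N - X.n * η ^ 2 / 2 - g 1 ≤
      u1F S X blk lab mag f0 p g (1, fun _ => η) (pc X.n S.k J η) := by
  have hN' : (0 : ℝ) < N := Nat.cast_pos.2 hN
  have hs := (small_of_mem (n := X.n) (k := S.k) (J := J) hη (Metric.mem_closedBall_self hη)).1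
  have h9 : 0 ≤ (X.n : ℝ) * η ^ 2 := by positivity
  have h1 := (A_noField (X := X) (sys S 1 (fun _ => η) blk lab mag 0 f0 (fun _ _ => 0)
    (pc X.n S.k J η)) (Θ := η + 9 * X.n * η ^ 2) (fun i => hs.v (blk i)) (fun r => by
      simp only [sys]
      simp only [ne_eq, OfNat.ofNat_ne_zero, not_false_eq_true, zero_pow, add_zero,
        Finset.sum_const, Nat.card_Icc, add_tsub_cancel_right, nsmul_eq_mul]
      nlinarith)).1
  have e1 : (sys S 1 (fun _ => η) blk lab mag 0 f0 (fun _ _ => 0) (pc X.n S.k J η)).lam =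
      fun i => S.lam (blk i) := by
    funext i
    simp [sys, pc]
  have e2 : (sys S 1 (fun _ => η) blk lab mag 0 f0 (fun _ _ => 0) (pc X.n S.k J η)).f = f0 := by
    funext σ
    simp [sys, pc]
  rw [e1, e2] at h1
  have h2 : ∑ l ∈ Finset.Icc 1 X.n, η ^ 2 * (1 - tl p (X.e l)) ≤ ∑ l ∈ Finset.Icc 1 X.n, η ^ 2 :=
    Finset.sum_le_sum fun l _ => mul_le_of_le_one_right (sq_nonneg _)
      (by linarith [tl_nonneg hp (X.e_pos l).le])
  simp only [Finset.sum_const, Nat.card_Icc, add_tsub_cancel_right, nsmul_eq_mul] at h2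
  have h3 := div_le_div_of_nonneg_right h1 hN'.le
  unfold u1F
  simp only
  linarith

/-- the first-order conditions in the site fields -/
theorem u1_theta (hN : 0 < N) {t Θ : ℝ} {θ : ℕ → ℝ} {π' : PI X.n S.k J → ℝ}
    (hθ : ∀ l, 1 ≤ l → l < X.n → 0 < θ l ∧ θ l < Θ)
    (hmax : ∀ l, 1 ≤ l → l < X.n → ∀ h, 0 < h → θ l + h ≤ Θ →
      u1F S X blk lab mag f0 p g (t, Function.update θ l (θ l + h)) π' ≤
        u1F S X blk lab mag f0 p g (t, θ) π') (l : ℕ) (h1 : 1 ≤ l) (h2 : l ≤ X.n) :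
    tl p (X.e l) ≤
      X.tau ((sys S t θ blk lab mag 0 f0 (fun _ _ => 0) π').Q X Finset.univ) l := by
  have hN' : (0 : ℝ) < N := Nat.cast_pos.2 hN
  rcases h2.eq_or_lt with rfl | h3
  · rw [X.en, s2_tl_one, X.s2_tau_top]
  obtain ⟨l, rfl⟩ : ∃ l', l = l' + 1 := ⟨l - 1, by omega⟩
  refine ub_foc_θ S X hN t θ blk lab mag 0 f0 (fun _ _ => 0) π' ⟨l, by omega⟩
    (hθ _ h1 h3).1 (h0 := Θ - θ (l + 1)) (sub_pos.2 (hθ _ h1 h3).2) fun h a b => ?_
  have h4 := hmax (l + 1) h1 h3 h a (by linarith)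
  have hm : l + 1 ∈ Finset.Icc 1 X.n := Finset.mem_Icc.2 ⟨h1, h2⟩
  have e : ∑ a ∈ Finset.Icc 1 X.n, Function.update θ (l + 1) (θ (l + 1) + h) a ^ 2 *
      (1 - tl p (X.e a)) = ∑ a ∈ Finset.Icc 1 X.n, θ a ^ 2 * (1 - tl p (X.e a)) +
        ((θ (l + 1) + h) ^ 2 - θ (l + 1) ^ 2) * (1 - tl p (X.e (l + 1))) := by
    rw [← Finset.add_sum_erase _ _ hm, ← Finset.add_sum_erase _ _ hm, Function.update_self,
      Finset.sum_congr rfl fun a ha => by
        rw [Function.update_of_ne (Finset.ne_of_mem_erase ha)]]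
    ring
  unfold u1F at h4
  simp only at h4 ⊢
  rw [e] at h4
  rw [← div_le_iff₀' hN', sub_div]
  linarith

end

/-- The contradiction at a contact point with positive time. -/
theorem u1_time (S : Spec) (X : Expo) {N J : ℕ} (hN : 0 < N) (blk : Fin N → Fin (S.k + 1))
    (lab : Fin N → Fin J) (mag : Fin J → ℝ) (f0 : (Fin N → Bool) → ℝ) {p g : ℝ → ℝ}
    {t g' η w μ δ δ0 ρ Lp E ε : ℝ} {θ : ℕ → ℝ} {π' : PI X.n S.k J → ℝ} (ht : 0 < t) (ht1 : t ≤ 1)
    (hg : HasDerivAt g g' t) (hη : 0 < η) (hw : 0 < w) (hw1 : w ≤ 1)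
    (hW : ∀ r, 2 ≤ r → r ≤ X.n → w ≤ X.W r ∧ X.W r ≤ μ) (hμ : 0 ≤ μ)
    (hθ : ∀ a, η ≤ θ a) (hδ : δ = η + 9 * X.n * η ^ 2) (hδ1 : δ ≤ 1)
    (hπ : π' ∈ Metric.closedBall (pc X.n S.k J η) (η / 2)) (hNη : 2 / η ≤ √N)
    (hρ : ∀ b, (N : ℝ) ≤ ρ * (fib blk b).card)
    (hγ : ∀ b, |((fib blk b).card : ℝ) / N - ((S.k : ℝ) + 1)⁻¹| ≤ δ0)
    (hE : 12 * (2 * √N * exp (X.m * Lp) / X.m) * (1 + η⁻¹) / w +
      N * (4 * √μ + 2 * √(μ / X.m)) + 2 * √(N * √N / (η * X.m)) ≤ E * N)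
    (hE0 : 400 * ρ ^ 2 * ((S.Λ + 1) * E + √δ) ≤ δ0)
    (hcore : ∀ (γ : Fin (S.k + 1) → ℝ) (Q : Fin (S.k + 1) → ℕ → ℝ), (∀ b, 0 ≤ γ b) →
        (∀ b, |γ b - ((S.k : ℝ) + 1)⁻¹| ≤ δ0) → (∀ b, X.Seq (Q b) ρ) →
        ∑ b, γ b * Q b (X.n + 1) = 1 →
        (∀ b, X.wn (fun l => |X.D (Q b) l -
          X.D (Q S.top) l / (1 + t * S.κ b * X.D (Q S.top) l)|) ≤ δ0) →
        (∀ l, 1 ≤ l → l ≤ X.n → tl p (X.e l) ≤ X.tau (fun r => ∑ b, γ b * Q b r) l) →
        (∑ b, γ b * S.lam b * Q b (X.n + 1)) / 2 < g')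
    (htl : ∀ l, 1 ≤ l → l ≤ X.n → tl p (X.e l) ≤
      X.tau ((sys S t θ blk lab mag 0 f0 (fun _ _ => 0) π').Q X Finset.univ) l)
    (hmπ : ∀ π'' ∈ Metric.closedBall (pc X.n S.k J η) η,
      u1F S X blk lab mag f0 p g (t, θ) π'' - Lp * ∑ d, (π'' d - pc X.n S.k J η d) ^ 2 ≤
        u1F S X blk lab mag f0 p g (t, θ) π' - Lp * ∑ d, (π' d - pc X.n S.k J η d) ^ 2)
    (hmt : ∀ h, 0 < h → h ≤ t → u1F S X blk lab mag f0 p g (t - h, θ) π' ≤
      u1F S X blk lab mag f0 p g (t, θ) π') : False := by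
  have hN' : (0 : ℝ) < N := Nat.cast_pos.2 hN
  have hπ' : π' ∈ Metric.closedBall (pc X.n S.k J η) η :=
    Metric.closedBall_subset_closedBall (by linarith) hπ
  obtain ⟨hs, hv⟩ := small_of_mem hη.le hπ'
  rw [← hδ] at hs
  have hδ0 : 0 ≤ δ := by rw [hδ]; positivity
  have ne : ∀ b, (fib blk b).Nonempty := fun b => by
    rw [Finset.nonempty_iff_ne_empty]
    intro h
    have := hρ b
    rw [h] at this
    simp only [Finset.card_empty, Nat.cast_zero, mul_zero] at this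
    linarith
  have hc := conc_of_contact (X := X) S t θ blk lab mag 0 f0 (fun _ _ => 0)
    (fun π'' => (sys S t θ blk lab mag 0 f0 (fun _ _ => 0) π'').A X) (pc X.n S.k J η) π'
    (Lp := Lp) (C := 0) hN' hNη hη hπ (fun π'' h => by
      have h1 := mul_le_mul_of_nonneg_left (hmπ π'' h) hN'.le
      unfold u1F at h1
      simp only [mul_sub, mul_div_cancel₀ _ hN'.ne'] at h1
      simp only [mul_assoc]
      linarith) (fun π'' _ => by simp)
  simp only [mul_zero, add_zero] at hc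
  have hsy := fun b => (sync (X := X) S t θ blk lab mag 0 f0 (fun _ _ => 0) π' _ hη hw hw1
    (fun a _ _ => hθ a) hv hW hμ hc b (ne b)).2
  have hres := fun b => (resolvent_rel (X := X) S ht.le ht1 θ blk lab mag 0 f0 (fun _ _ => 0) π'
    hδ0 hδ1 hs hN hρ (fun b => (hsy b).trans hE) b).trans hE0
  have h1 := hcore (fun b => ((fib blk b).card : ℝ) / N)
    (fun b => (sys S t θ blk lab mag 0 f0 (fun _ _ => 0) π').Q X (fib blk b))
    (fun b => by positivity) hγ (fun b => Q_seq _ (ne b) (hρ b))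
    (by rw [sum_Q_fib _ blk hN, Q_univ_top _ hN]) hres (fun l a b => by
      simp only [sum_Q_fib _ blk hN]
      exact htl l a b)
  have h2 := ub_foc_t S X hN t θ blk lab mag 0 f0 (fun _ _ => 0) π' hg ht fun h a b => by
    have := hmt h a b
    unfold u1F at this
    simp only at this
    linarith
  linarith

/-- sizes for large `N` -/
theorem u1_large {a c E : ℝ} (hc : 0 < c) (hE : 0 < E) :
    ∀ᶠ N : ℕ in Filter.atTop, a * √N + 2 * √(N * √N / c) ≤ E * N := by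
  have ht : Filter.Tendsto (fun N : ℕ => √(N : ℝ)) Filter.atTop Filter.atTop :=
    Real.tendsto_sqrt_atTop.comp tendsto_natCast_atTop_atTop
  filter_upwards [ht.eventually_ge_atTop (2 * a / E), ht.eventually_ge_atTop (16 / (c * E ^ 2))]
    with N h1 h2
  have hN : (0 : ℝ) ≤ N := Nat.cast_nonneg N
  have hs := Real.sqrt_nonneg (N : ℝ)
  have hq : √(N : ℝ) * √N = N := Real.mul_self_sqrt hN
  have a1 : a * √N ≤ E / 2 * N := by
    rw [div_le_iff₀ hE] at h1
    have := mul_le_mul_of_nonneg_right h1 hs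
    nlinarith
  have a2 : √(N * √N / c) ≤ E / 4 * N := by
    rw [Real.sqrt_le_left (by positivity), div_le_iff₀ hc]
    rw [div_le_iff₀ (by positivity)] at h2
    have := mul_le_mul_of_nonneg_right h2 (mul_nonneg hN hs)
    have e : √(N : ℝ) * (c * E ^ 2) * (N * √N) = 16 * ((E / 4 * N) ^ 2 * c) := by
      calc _ = (√(N : ℝ) * √N) * (c * E ^ 2 * N) := by ring
        _ = _ := by rw [hq]; ring
    linarith
  linarith

/-- a small parameter -/
theorem u1_small {f : ℝ → ℝ} (hf : ContinuousAt f 0) (h0 : f 0 = 0) {c : ℝ} (hc : 0 < c) :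
    ∀ᶠ x in nhdsWithin (0 : ℝ) (Set.Ioi 0), f x ≤ c := by
  have : ∀ᶠ x in nhds (0 : ℝ), f x < c := hf.eventually_lt continuousAt_const (by rw [h0]; exact hc)
  exact (this.filter_mono nhdsWithin_le_nhds).mono fun x hx => hx.le

end Crest.Agent.R164
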