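import Crest.Agent.R164.U0
import Crest.Agent.R164.S3
import Crest.Agent.R164.S5
import Crest.Agent.R164.U1Aux

/-! # The upper bound on the fractional moment

Order of the constants: `κ` from `G_cont` (`abs_deficit_sub_le`), `p' = (1-κ) p`
(`isTrialPath_scale`, `SLe.mono`); `ρ = 2 (k+1)`; `ub_core` for `p'` (accuracy `ε/2`) gives
`Gt, G', μ0`; `m = min μ0 ½`; `δ0`; a mesh `μ ≤ μ0` with
`400 ρ² (Λ+1) (4√μ + 2√(μ/m)) ≤ δ0/3`; `X, w` from `exists_expo`; `Hb` with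
`κ/4 · Hb ≥ 2Λ + 8 + 2 log 2/κ`, `Θ` with `w Θ² > Hb`, `Λb`; then `η` small, `δ = η + 9 n η²`;
`Lp = 6δ/(η/2)²`; `N` large.
Apply `exists_contact` on `K = [0,1] × [η,Θ]^n` (compact subset of `ℝ × (Fin n → ℝ)`) to
`F (t,θ) π = A(sys t θ π)/N - ½ Σ θ_l² (1 - tl p' e_l) - Gt t - ε t` (`continuous_A`, `osc_le`,
`small_of_mem`).  Suppose the claim fails with a suitable multiple of `ε`.  At `(1, η, pc)`,
`A ≥ fm` (`A_noField`), so the maximum is `> y + ε ≥ -log 2` (`SLe.ge`).  By `ub_coer`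
(`|Gt| ≤ Λ/2`) `Σ θ²(1-e) ≤ Hb` at the maximiser, so `θ_l < Θ` for `l < n` (`1 - e_l ≥ W_n ≥ w`),
and `ub_foc_θ` gives `tl p' e_l ≤ τ_l` (for `l = n` both sides vanish).  If `t > 0`:
`conc_of_contact` (`C = 0`, `M = N`), `sync`, `resolvent_rel`, `ub_core` (`γ_b = |fib b|/N`,
`card_per`, `Q_seq`, `sum_Q_fib`, `Q_univ_top`) contradict `ub_foc_t` (`g = Gt + ε t`).
If `t = 0`: `ub_zero`. -/

set_option autoImplicit false
set_option linter.unusedVariables false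
set_option linter.unusedSectionVars false

open MeasureTheory ProbabilityTheory Real Crest.ProbabilityR.InvariantGlass
open scoped ENNReal

namespace Crest.Agent.R164

theorem upper (S : Spec) {J : ℕ} {γ mag : Fin J → ℝ} (hγ : ∀ j, 0 ≤ γ j) (hγ1 : ∑ j, γ j = 1)
    (hm : ∀ j, |mag j| < 1) {p : ℝ → ℝ} (hp : IsTrialPath p) {y : ℝ} (hy : SLe γ mag p y) {ε : ℝ}
    (hε : 0 < ε) : ∃ m Λb : ℝ, 0 < m ∧ ∀ lab : (N : ℕ) → Fin N → Fin J,
    (∀ j, Filter.Tendsto (fun N : ℕ => ((fib (lab N) j).card : ℝ) / N) Filter.atTop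
      (nhds (γ j))) →
    ∀ᶠ N : ℕ in Filter.atTop, ∀ f0 : (Fin N → Bool) → ℝ, (∀ σ, f0 σ ≤ 0) →
      (∀ b, BOK mag Λb b → ∀ σ, f0 σ ≤ ∑ r, b (lab N r) * (spinVec σ r - mag (lab N r))) →
      fm m (fun i => S.lam (per S.k N i)) f0 ≤ N * (y + S.G p + ε) := by
  have hΛ := S.Λ_nonneg
  have hm' : ∀ j, |mag j| ≤ 1 := fun j => (hm j).le
  -- shrinking the path
  obtain ⟨κ0, hκ0, hG⟩ := S.G_cont (ε := ε / 4) (by positivity)
  obtain ⟨κ, hκ, hκ1, hκ2⟩ : ∃ κ : ℝ, 0 < κ ∧ κ ≤ 1 ∧ κ ≤ κ0 :=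
    ⟨min 1 κ0, lt_min one_pos hκ0, min_le_left _ _, min_le_right _ _⟩
  obtain ⟨p', hp', hy', hpκ, hGp⟩ : ∃ p' : ℝ → ℝ, IsTrialPath p' ∧ SLe γ mag p' y ∧
      (∀ s ∈ Set.Ioo (0 : ℝ) 1, p' s ≤ 1 - κ) ∧ S.G p' ≤ S.G p + ε / 4 := by
    have h1 := isTrialPath_scale hp (c := 1 - κ) (by linarith) (by linarith)
    refine ⟨_, h1, hy.mono hp h1 fun s hs => ?_, fun s hs => ?_, ?_⟩
    · nlinarith [hp.2.2 s hs]
    · nlinarith [hp.2.2 s hs]
    · have := hG p _ hp h1 fun r _ => abs_deficit_sub_le hp h1 (fun s hs => by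
        rw [abs_le]
        constructor <;> nlinarith [hp.2.2 s hs]) r
      linarith [(abs_le.1 this).1]
  obtain ⟨ρ, hρ⟩ : ∃ ρ : ℝ, ρ = 2 * ((S.k : ℝ) + 1) := ⟨_, rfl⟩
  have hρ0 : 0 < ρ := by rw [hρ]; positivity
  obtain ⟨Gt, G', hGd, hG0, hG1, hGb, μ0, hμ0, hcore⟩ := S.ub_core hp' (ε := ε / 8) (ρ0 := ρ)
    (by positivity) hρ0
  obtain ⟨m, hm0, hm1, hm2⟩ : ∃ m : ℝ, 0 < m ∧ m < 1 ∧ m ≤ μ0 :=
    ⟨min (1 / 2) μ0, lt_min (by norm_num) hμ0, (min_le_left _ _).trans_lt (by norm_num),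
      min_le_right _ _⟩
  obtain ⟨δ0, hδ0, hcore⟩ := hcore m hm0 hm2
  obtain ⟨E, hE, hE3⟩ : ∃ E : ℝ, 0 < E ∧ 400 * ρ ^ 2 * ((S.Λ + 1) * E) = δ0 / 3 :=
    ⟨δ0 / 3 / (400 * ρ ^ 2 * (S.Λ + 1)), by positivity, by field_simp⟩
  -- the mesh
  obtain ⟨μ, ⟨hμ1, hμ2⟩, hμ⟩ := (((u1_small (f := fun x => 4 * √x + 2 * √(x / m)) (by fun_prop)
    (by simp) hE).and (u1_small (f := fun x => x) (by fun_prop) rfl hμ0)).and
      self_mem_nhdsWithin).exists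
  have hμ' : 0 < μ := hμ
  obtain ⟨X, w, rfl, hw, hw1, hn, hW⟩ := exists_expo hm0 hm1 hμ'
  have hl2 : 0 ≤ log 2 := Real.log_nonneg one_le_two
  have hl1 : log 2 ≤ 1 := by linarith [Real.log_two_lt_d9]
  obtain ⟨Hb, hHb, hHb0⟩ : ∃ Hb : ℝ, κ / 4 * Hb = S.Λ + 7 + 2 * log 2 / κ ∧ 0 ≤ Hb :=
    ⟨4 / κ * (S.Λ + 7 + 2 * log 2 / κ), by field_simp, by positivity⟩
  obtain ⟨Θ, hΘ1, hΘ⟩ : ∃ Θ : ℝ, 1 ≤ Θ ∧ Hb < w * Θ ^ 2 := by
    have h1 : 0 ≤ Hb / w := by positivity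
    refine ⟨Hb / w + 1, by linarith, ?_⟩
    have h2 : w * (Hb / w + 1) = Hb + w := by field_simp
    have h3 : w * (Hb / w + 1) ≤ w * (Hb / w + 1) ^ 2 :=
      mul_le_mul_of_nonneg_left (by nlinarith) hw.le
    linarith
  obtain ⟨Λb, hΛb⟩ : ∃ Λb : ℝ, ∀ j, log 2 + Hb / 2 ≤ Λb * (1 - |mag j|) := by
    refine ⟨∑ j, (log 2 + Hb / 2) / (1 - |mag j|), fun j => ?_⟩
    rw [← div_le_iff₀ (sub_pos.2 (hm j))]
    exact Finset.single_le_sum (f := fun j => (log 2 + Hb / 2) / (1 - |mag j|))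
      (fun j _ => div_nonneg (by positivity) (sub_pos.2 (hm j)).le) (Finset.mem_univ j)
  refine ⟨X.m, Λb, hm0, fun lab hlab => ?_⟩
  -- the size of the perturbation
  obtain ⟨η, ⟨⟨hη1, hη2⟩, hη3⟩, hη⟩ :=
    ((((u1_small (f := fun x => x + 9 * X.n * x ^ 2) (by fun_prop) (by simp) one_pos).and
      (u1_small (f := fun x => 400 * ρ ^ 2 * √(x + 9 * X.n * x ^ 2)) (c := δ0 / 3) (by fun_prop)
        (by simp) (by positivity))).and
      (u1_small (f := fun x => (x + 9 * X.n * x ^ 2) * (7 + J * (2 + Hb))) (c := ε / 4)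
        (by fun_prop) (by simp) (by positivity))).and self_mem_nhdsWithin).exists
  have hη' : 0 < η := hη
  obtain ⟨δ, hδ⟩ : ∃ δ : ℝ, δ = η + 9 * X.n * η ^ 2 := ⟨_, rfl⟩
  rw [← hδ] at hη1 hη2 hη3
  have h9 : 0 ≤ (X.n : ℝ) * η ^ 2 := by positivity
  have hηδ : η ≤ δ := by rw [hδ]; linarith
  have hnδ : X.n * η ^ 2 ≤ δ := by rw [hδ]; linarith
  have hδ' : 0 < δ := hη'.trans_le hηδ
  have hδε : δ ≤ ε / 4 := by
    have : 0 ≤ δ * (J * (2 + Hb)) := by positivity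
    nlinarith
  obtain ⟨Lp, hLp, hLO⟩ : ∃ Lp : ℝ, 0 < Lp ∧ 6 * δ ≤ Lp * (η / 2) ^ 2 :=
    ⟨6 * δ / (η / 2) ^ 2, by positivity, by rw [div_mul_cancel₀ _ (by positivity)]⟩
  have hsq : Filter.Tendsto (fun N : ℕ => √(N : ℝ)) Filter.atTop Filter.atTop :=
    Real.tendsto_sqrt_atTop.comp tendsto_natCast_atTop_atTop
  have hlab' : ∀ᶠ N : ℕ in Filter.atTop, ∀ j, |((fib (lab N) j).card : ℝ) / N - γ j| < δ :=
    Filter.eventually_all.2 fun j => (Metric.tendsto_nhds.1 (hlab j) δ hδ').mono fun N h => by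
      rwa [Real.dist_eq] at h
  filter_upwards [hlab', hsq.eventually_ge_atTop (2 / η),
    (tendsto_natCast_atTop_atTop (R := ℝ)).eventually_ge_atTop ρ,
    (tendsto_natCast_atTop_atTop (R := ℝ)).eventually_ge_atTop (1 / δ0),
    u1_large (a := 12 * (2 * exp (X.m * Lp) / X.m) * (1 + η⁻¹) / w) (mul_pos hη' hm0) hE]
    with N n1 n2 n3 n4 n5 f0 hf0 hf
  have hN' : (0 : ℝ) < N := hρ0.trans_le n3
  have hN : 0 < N := Nat.cast_pos.1 hN'
  by_contra hcon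
  rw [not_le, mul_comm, ← lt_div_iff₀ hN'] at hcon
  -- the contact point
  obtain ⟨g, hg⟩ : ∃ g : ℝ → ℝ, g = fun t => Gt t + ε / 4 * t := ⟨_, rfl⟩
  have hgd : ∀ t, HasDerivAt g (G' t + ε / 4) t := fun t => by
    rw [hg]
    simpa using (hGd t).fun_add ((hasDerivAt_id' t).const_mul (ε / 4))
  have hsm : ∀ {π' : PI X.n S.k J → ℝ}, π' ∈ Metric.closedBall (pc X.n S.k J η) η → Small π' δ :=
    fun h => hδ ▸ (small_of_mem hη'.le h).1
  have hstart : ((1 : ℝ), fun _ : ℕ => η) ∈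
      Set.Icc (0 : ℝ) 1 ×ˢ Set.pi Set.univ fun _ : ℕ => Set.Icc η Θ :=
    ⟨⟨zero_le_one, le_rfl⟩, fun _ _ => ⟨le_rfl, by linarith⟩⟩
  obtain ⟨⟨t, θ⟩, ⟨⟨ht0, ht1⟩, hθ⟩, π', hπ, hmax⟩ := exists_contact
    (isCompact_Icc.prod (isCompact_univ_pi fun _ : ℕ => isCompact_Icc)) ⟨_, hstart⟩
    (u1F S X (per S.k N) (lab N) mag f0 p' g)
    (u1F_cont S X _ _ mag f0 (continuous_iff_continuousAt.2 fun t => (hgd t).continuousAt))
    (pc X.n S.k J η) hη' hLp hLO (fun z hz π' hπ => by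
      have h1 := div_le_div_of_nonneg_right (osc_le (X := X) S z.1 z.2 (per S.k N) (lab N) mag hm' 0
        f0 (fun _ _ => 0) (hsm hπ) (hsm (Metric.mem_closedBall_self hη'.le))) hN'.le
      rw [add_div, mul_div_cancel_right₀ _ hN'.ne'] at h1
      unfold u1F
      linarith)
  simp only at ht0 ht1
  have hθ' : ∀ a, η ≤ θ a ∧ θ a ≤ Θ := fun a => hθ a (Set.mem_univ a)
  have hπ' : π' ∈ Metric.closedBall (pc X.n S.k J η) η :=
    Metric.closedBall_subset_closedBall (by linarith) hπ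
  -- the maximal value is large
  have hval : y + ε / 4 < u1F S X (per S.k N) (lab N) mag f0 p' g (t, θ) π' := by
    have h1 := hmax _ hstart _ (Metric.mem_closedBall_self hη'.le)
    have h2 := u1_start S X (per S.k N) (lab N) mag f0 (g := g) hN hp' hη'.le
    have h3 : 0 ≤ Lp * ∑ d, (π' d - pc X.n S.k J η d) ^ 2 := by positivity
    have h4 : g 1 = S.G p' + ε / 4 := by rw [hg]; simp only [hG1, mul_one]
    simp only [sub_self, ne_eq, OfNat.ofNat_ne_zero, not_false_eq_true, zero_pow,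
      Finset.sum_const_zero, mul_zero, sub_zero] at h1
    linarith
  -- coercivity
  have hH : ∑ l ∈ Finset.Icc 1 X.n, θ l ^ 2 * (1 - X.e l) ≤ Hb := by
    have h1 := ub_coer S X ht0 ht1 θ (per S.k N) (lab N) hm' hp' hκ hκ1 hδ'.le hpκ f0 hf0
      (hsm hπ')
    rw [← div_le_iff₀' hN'] at h1
    have h2 := hy'.ge hγ hγ1 hm'
    have h3 : ‖Gt t - Gt 0‖ ≤ S.Λ / 2 * ‖t - 0‖ :=
      (convex_univ (𝕜 := ℝ)).norm_image_sub_le_of_norm_hasDerivWithin_le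
        (fun x _ => (hGd x).hasDerivWithinAt) (fun x _ => hGb x) (Set.mem_univ _) (Set.mem_univ _)
    rw [hG0, sub_zero, sub_zero, Real.norm_eq_abs, Real.norm_eq_abs, abs_of_nonneg ht0] at h3
    have h4 : S.Λ / 2 * t ≤ S.Λ / 2 := mul_le_of_le_one_right (by positivity) ht1
    have h5 : g t = Gt t + ε / 4 * t := by rw [hg]
    have h6 : 0 ≤ ε / 4 * t := by positivity
    unfold u1F at hval
    simp only at hval
    refine le_of_mul_le_mul_left ?_ (show 0 < κ / 4 by positivity)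
    linarith [(abs_le.1 h3).1]
  rcases ht0.eq_or_lt with rfl | ht
  · have h1 := ub_zero S X (fun l a b => hw.trans_le (hW l a b).1) θ (per S.k N) (lab N) hγ hγ1 hm
      hp' hy' hδ' hη1 hH hΛb (fun j => by
        have := (n1 j).le
        rwa [div_sub' hN'.ne', abs_div, abs_of_pos hN', div_le_iff₀ hN', mul_comm (N : ℝ)] at this)
      f0 hf (hsm hπ')
    rw [← div_le_iff₀' hN'] at h1
    have h2 : g 0 = 0 := by rw [hg]; simp only [hG0, mul_zero, add_zero]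
    unfold u1F at hval
    simp only at hval
    linarith
  have hθΘ : ∀ l, 1 ≤ l → l < X.n → 0 < θ l ∧ θ l < Θ := fun l a b => by
    refine ⟨hη'.trans_le (hθ' l).1, ?_⟩
    have h1 : θ l ^ 2 * (1 - X.e l) ≤ Hb := le_trans
      (Finset.single_le_sum (f := fun l => θ l ^ 2 * (1 - X.e l))
        (fun l _ => mul_nonneg (sq_nonneg _) (sub_nonneg.2 (X.le_one l)))
        (Finset.mem_Icc.2 ⟨a, b.le⟩)) hH
    have h2 : w ≤ 1 - X.e l := by
      have h3 := (hW X.n hn le_rfl).1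
      have h4 := X.mono (show l ≤ X.n - 1 by omega)
      unfold Expo.W at h3
      rw [X.en] at h3
      linarith
    have h3 := mul_le_mul_of_nonneg_left h2 (sq_nonneg (θ l))
    refine lt_of_pow_lt_pow_left₀ 2 (by linarith) (lt_of_mul_lt_mul_left ?_ hw.le)
    linarith
  have hcard : ∀ b, |((fib (per S.k N) b).card : ℝ) - N / ((S.k : ℝ) + 1)| ≤ 1 :=
    fun b => card_per S.k N b
  have hk : (0 : ℝ) < (S.k : ℝ) + 1 := by positivity
  refine u1_time S X hN (per S.k N) (lab N) mag f0 (ρ := ρ) (δ0 := δ0) (E := 2 * E) (ε := ε) ht ht1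
    (hgd t) hη' hw hw1 hW hμ'.le (fun a => (hθ' a).1) hδ hη1 hπ n2 (fun b => ?_) (fun b => ?_) ?_ ?_
    (fun γ' Q a1 a2 a3 a4 a5 a6 => ?_)
    (u1_theta S X _ _ mag f0 (g := g) hN hθΘ fun l a b h c d => ?_)
    (fun π'' h => hmax _ ⟨⟨ht0, ht1⟩, hθ⟩ π'' h) fun h a b => ?_
  · have h1 := mul_le_mul_of_nonneg_left (abs_le.1 (hcard b)).1 hρ0.le
    have h2 : ρ * (N / ((S.k : ℝ) + 1)) = 2 * N := by rw [hρ]; field_simp
    rw [mul_sub, h2] at h1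
    linarith
  · have e : ((fib (per S.k N) b).card : ℝ) / N - ((S.k : ℝ) + 1)⁻¹ =
        (((fib (per S.k N) b).card : ℝ) - N / ((S.k : ℝ) + 1)) / N := by field_simp
    rw [e, abs_div, abs_of_pos hN', div_le_iff₀ hN']
    rw [div_le_iff₀ hδ0] at n4
    linarith [hcard b]
  · have h1 := mul_le_mul_of_nonneg_left hμ1 hN'.le
    have e : 12 * (2 * √N * exp (X.m * Lp) / X.m) * (1 + η⁻¹) / w =
        12 * (2 * exp (X.m * Lp) / X.m) * (1 + η⁻¹) / w * √N := by ring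
    rw [e]
    linarith
  · have e : 400 * ρ ^ 2 * ((S.Λ + 1) * (2 * E) + √δ) =
        2 * (400 * ρ ^ 2 * ((S.Λ + 1) * E)) + 400 * ρ ^ 2 * √δ := by ring
    rw [e, hE3]
    linarith
  · have := hcore X rfl (fun l a b => (hW l a b).2.trans hμ2) t ht ht1 γ' Q a1 a2 a3 a4 a5 a6
    linarith
  · have := hmax (t, Function.update θ l (θ l + h)) ⟨⟨ht0, ht1⟩, fun i _ => by
      by_cases e : i = l
      · rw [e]
        simp only [Function.update_self]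
        exact ⟨by linarith [(hθ' l).1], d⟩
      · simp only [Function.update_of_ne e]
        exact hθ' i⟩ π' hπ'
    linarith
  · have := hmax (t - h, θ) ⟨⟨by simp only; linarith, by simp only; linarith⟩, hθ⟩ π' hπ'
    linarith

end Crest.Agent.R164
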