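import Crest.Agent.R164.XDefs
import Crest.Agent.R164.M2

/-! # The extended tower: projections, isotropy, exponential moments of the cavity coordinates -/

set_option autoImplicit false
set_option linter.unusedVariables false
set_option linter.unusedSectionVars false

open MeasureTheory ProbabilityTheory Real Crest.ProbabilityR.InvariantGlass
open scoped ENNReal

namespace Crest.Agent.R164

variable {M k : ℕ} {X : Expo}

@[simp] theorem xT_L : (xT X M k).L = X.n + 2 := rfl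
@[simp] theorem xT_e : (xT X M k).e = X.e := rfl
@[simp] theorem aT_L : (aT X k).L = X.n + 2 := rfl
@[simp] theorem aT_e : (aT X k).e = X.e := rfl

theorem indep_x : (xT X M k).Indep (mT X M) (aT X k) pM pA :=
  indep_inj (X := X) (lev := xlev) Sum.inl Sum.inl_injective (fun _ => rfl)
    (fun q => Sum.inr (Sum.inr q)) (Sum.inr_injective.comp Sum.inr_injective) (fun _ => rfl)
    (fun _ _ => Sum.inl_ne_inr)
theorem measurable_pM {n : ℕ} : Measurable (pM (n := n) (M := M) (k := k)) := by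
  unfold pM; fun_prop
theorem measurable_pA {n : ℕ} : Measurable (pA (n := n) (M := M) (k := k)) := by
  unfold pA; fun_prop
theorem sg_sq (ε : Bool) : sg ε ^ 2 = 1 := by cases ε <;> simp [sg]
theorem abs_sg (ε : Bool) : |sg ε| = 1 := by cases ε <;> simp [sg]
theorem lg_HA (θ ϑ : ℕ → ℝ) (b : ℝ) : (aT X k).LG (HA θ ϑ b) := by
  have h := ((Tower.LG.const (T := aT X k) b).add (Tower.LG.sum Finset.univ fun (l : Fin X.n) _ =>
    (lg_coord (Sum.inr (0, l))).const_mul (θ (l + 1)))).add (Tower.LG.sum Finset.univ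
      fun (l : Fin X.n) _ => (lg_coord (Sum.inr (2, l))).const_mul (ϑ (l + 1)))
  have hm : Measurable fun x : AS X.n k => sg x.2.2 :=
    (measurable_of_countable sg).comp measurable_snd.snd
  have h2 := h.mul_bdd hm fun x => (abs_sg _).le
  exact (funext fun x => mul_comm _ _ : _ = HA θ ϑ b) ▸ h2
theorem lg_zA (Q : ℕ → ℝ) (a : Fin k) : (aT X k).LG (fun x => zA Q x a) :=
  Tower.LG.sum Finset.univ fun (l : Fin X.n) _ => (lg_coord (Sum.inl (l, a))).const_mul _
theorem lg_HB (p : Par M) (θ ϑ : ℕ → ℝ) (b : ℝ) : (xT X M k).LG (HB p θ ϑ b) :=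
  (indep_x.m1.lg (lg_Ham p)).add (indep_x.m2.lg (lg_HA θ ϑ b))
theorem measurable_yS {n : ℕ} (sp : Fin k → Fin M) : Measurable (yS (n := n) sp) :=
  measurable_pi_lambda _ fun a => (measurable_sO (sp a)).comp measurable_pM
theorem measurable_yG {n : ℕ} (T : Finset (Fin M)) : Measurable (yG (n := n) (k := k) T) :=
  measurable_pi_lambda _ fun a => (Finset.measurable_sum _ fun i _ =>
    Measurable.mul (by fun_prop) ((measurable_sO i).comp measurable_pM)).div_const _
theorem QS_nonneg {n : ℕ} (sp : Fin k → Fin M) (x : XS n M k) : 0 ≤ QS sp x :=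
  Finset.sum_nonneg fun _ _ => sq_nonneg _
theorem QS_le {n : ℕ} {sp : Fin k → Fin M} (h : Function.Injective sp) (x : XS n M k) :
    QS sp x ≤ M := by
  have := Finset.sum_map Finset.univ ⟨sp, h⟩ fun i => sO i (pM x) ^ 2
  exact this.symm.trans_le ((Finset.sum_le_sum_of_subset_of_nonneg (Finset.subset_univ _)
    fun _ _ _ => sq_nonneg _).trans (sum_sO_sq (pM x)).le)
theorem lg_QS {sp : Fin k → Fin M} (h : Function.Injective sp) : (xT X M k).LG (QS sp) :=
  Tower.LG.of_bdd (Finset.measurable_sum _ fun a _ =>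
    ((measurable_pi_apply a).comp (measurable_yS sp)).pow_const 2)
    fun x => (abs_of_nonneg (QS_nonneg sp x)).trans_le (QS_le h x)

theorem xA_pM (p : Par M) : (xT X M k).A (fun x => Ham p (pM x)) = p.A X :=
  indep_x.m1.A (measurable_Ham p)

theorem xA_add (p : Par M) {H : AS X.n k → ℝ} (h : (aT X k).UB H) :
    (xT X M k).A (fun x => Ham p (pM x) + H (pA x)) = p.A X + (aT X k).A H :=
  indep_x.A (lg_Ham p).ub h

theorem integral_pM (p : Par M) (θ ϑ : ℕ → ℝ) (b : ℝ) {φ : MS X.n M → ℝ} (hφ : Measurable φ) :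
    ∫ x, φ (pM x) ∂((xT X M k).PP (HB p θ ϑ b)) = ∫ x, φ x ∂(p.PP X) :=
  indep_x.integral (lg_Ham p).ub (lg_HA θ ϑ b).ub hφ

theorem Err2_pM (p : Par M) (θ ϑ : ℕ → ℝ) (b : ℝ) (J : Finset (Fin M)) (r : ℕ) (c : ℝ) :
    (xT X M k).Err2 (HB p θ ϑ b) (fun i x => sO i (pM x)) J r c = p.Err2 X J r c :=
  indep_x.Err2 (lg_Ham p).ub (lg_HA θ ϑ b).ub J (fun i _ => measurable_sO i) r c

/-- the rotation of the family `c` -/
def x1W (O : Orth M) (c : Fin 3) : Orth M := if c = 1 then O else 1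

open Classical in
/-- the matrix of the rotation of the Gaussian coordinates -/
noncomputable def x1L {n : ℕ} (O : Orth M) : XI n M k → XI n M k → ℝ
  | Sum.inl q, Sum.inl q' =>
      if q'.1 = q.1 ∧ q'.2.1 = q.2.1 then (x1W O q.1).1 q.2.2 q'.2.2 else 0
  | Sum.inr a, Sum.inr b => if b = a then 1 else 0
  | _, _ => 0

theorem x1L_inl {n : ℕ} (O : Orth M) (q : MI n M) (g : XI n M k → ℝ) :
    ∑ b, x1L O (Sum.inl q) b * g b =
      (x1W O q.1).1.mulVec (fun j => g (Sum.inl (q.1, q.2.1, j))) q.2.2 := by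
  simp [x1L, Fintype.sum_sum_type, Fintype.sum_prod_type, ite_and, Matrix.mulVec, dotProduct,
    Finset.sum_ite_eq', Finset.sum_comm (γ := Fin M)]

theorem x1L_inr {n : ℕ} (O : Orth M) (a : (Fin k × Fin M) ⊕ AI n k) (g : XI n M k → ℝ) :
    ∑ b, x1L O (Sum.inr a) b * g b = g (Sum.inr a) := by
  rw [Fintype.sum_sum_type]
  simp [x1L]

/-- the rotation of the state -/
noncomputable def x1P {n : ℕ} (O : Orth M) (x : XS n M k) : XS n M k :=
  (O * x.1, fun a => ∑ i, x1L O a i * x.2.1 i, x.2.2)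

theorem x1_mor (O : Orth M) : (xT X M k).Mor (xT X M k) (x1P O) 0 := by
  classical
  refine mor_lin (X := X) (lev := xlev) (lev' := xlev) (ς := id) (measurable_orth_mul_left O)
    (fun _ => haar_map_mul_left O) (x1L O) ?_ ?_ Measure.map_id
  · rintro (q | a) b
    · rw [x1L_inl]
      rcases b with q' | b
      · obtain ⟨c, l, i⟩ := q
        obtain ⟨c', l', i'⟩ := q'
        by_cases h : c = c' ∧ l = l'
        · obtain ⟨rfl, rfl⟩ := h
          simp [x1L, Matrix.mulVec, dotProduct, orth_row]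
        · have : ¬ (c = c' ∧ l = l' ∧ i = i') := fun h' => h ⟨h'.1, h'.2.1⟩
          simp [x1L, Matrix.mulVec, dotProduct, h, this]
      · simp [x1L, Matrix.mulVec, dotProduct]
    · rw [x1L_inr]
      rcases b with q' | b <;> simp [x1L]
  · rintro (q | a) (q' | b) h
    · simp only [x1L, ne_eq, ite_eq_right_iff, Classical.not_imp] at h
      simp [xlev, mlev, h.1.2]
    · simp [x1L] at h
    · simp [x1L] at h
    · simp only [x1L, ne_eq, ite_eq_right_iff, Classical.not_imp] at h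
      rw [h.1]

theorem x1_s {n : ℕ} (O : Orth M) (x : XS n M k) :
    (fun i => sO i (pM (x1P O x))) = O.1.mulVec fun i => sO i (pM x) :=
  sv_mul O x.1 x.2.2.1

theorem OnT.off {T : Finset (Fin M)} {O : Orth M} (hO : OnT T O) (u : Fin M → ℝ) {i : Fin M}
    (hi : i ∉ T) : O.1.mulVec u i = u i := by
  simp [Matrix.mulVec, dotProduct, hO i _ (Or.inl hi)]

theorem OnT.inner {T : Finset (Fin M)} {O : Orth M} (hO : OnT T O) (hT : T.Nonempty)
    {w : Fin M → ℝ} (hw : ∀ i ∈ T, ∀ j ∈ T, w i = w j) (u v : Fin M → ℝ) :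
    ∑ i, w i * (O.1.mulVec u i * O.1.mulVec v i) = ∑ i, w i * (u i * v i) := by
  obtain ⟨i0, hi0⟩ := hT
  have h : ∀ i, w i * (O.1.mulVec u i * O.1.mulVec v i) =
      w i0 * (O.1.mulVec u i * O.1.mulVec v i) + (w i - w i0) * (u i * v i) := fun i => by
    by_cases hi : i ∈ T
    · rw [hw i hi i0 hi0]; ring
    · rw [hO.off u hi, hO.off v hi]; ring
  simp only [h, Finset.sum_add_distrib, ← Finset.mul_sum, orth_inner]
  rw [Finset.mul_sum, ← Finset.sum_add_distrib]
  exact Finset.sum_congr rfl fun i _ => by ring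

theorem x1_HB {n : ℕ} {p : Par M} {T : Finset (Fin M)} {sp : Fin k → Fin M} {ρ : ℝ}
    (h : TInv p T sp ρ) (θ ϑ : ℕ → ℝ) (b : ℝ) {O : Orth M} (hO : OnT T O) (x : XS n M k) :
    HB p θ ϑ b (x1P O x) = HB p θ ϑ b x := by
  have hA : pA (x1P O x) = pA x := by simp only [pA, x1P, x1L_inr]
  have hs := congrFun (x1_s O x)
  have h1 := hO.inner h.ne h.lam (fun i => sO i (pM x)) (fun i => sO i (pM x))
  have h2 := fun l : Fin n => hO.inner h.ne (h.vt (l + 1)) (fun i => (pM x).2.1 (1, l, i))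
    (fun i => sO i (pM x))
  have g0 : ∀ l r, (pM (x1P O x)).2.1 (0, l, r) = (pM x).2.1 (0, l, r) := fun l r => by
    simp only [pM, x1P, x1L_inl]
    simp [x1W]
  have g1 : ∀ l r, (pM (x1P O x)).2.1 (1, l, r) =
      O.1.mulVec (fun i => (pM x).2.1 (1, l, i)) r := fun l r => by
    simp only [pM, x1P, x1L_inl]
    simp [x1W]
  have g2 : ∀ l r, (pM (x1P O x)).2.1 (2, l, r) = (pM x).2.1 (2, l, r) := fun l r => by
    simp only [pM, x1P, x1L_inl]
    simp [x1W]
  simp only [HB, Ham, hA, hs, g0, g1, g2, sq, h1, h2]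
  rfl

theorem x1_meas {n : ℕ} : Measurable fun (x : XS n M k) (i : Fin M) => sO i (pM x) :=
  measurable_pi_lambda _ fun i => (measurable_sO i).comp measurable_pM

/-- Rotating the rows in `T`: `π (V, g, σ) = (O V, Λ g, σ)`, where `Λ` acts by `O` on the row fields
of every level and trivially elsewhere, is a morphism of `xT` to itself (`mor_lin`, left
invariance) with `HB ∘ π = HB` and `s ∘ π = O s`. -/
theorem iso_A {p : Par M} {T : Finset (Fin M)} {sp : Fin k → Fin M} {ρ : ℝ} (h : TInv p T sp ρ)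
    (θ ϑ : ℕ → ℝ) (b : ℝ) {O : Orth M} (hO : OnT T O) {F : (Fin M → ℝ) → Bool → ℝ}
    (hF : ∀ ε, Measurable (fun s => F s ε)) :
    (xT X M k).A (fun x => HB p θ ϑ b x + F (O.1.mulVec fun i => sO i (pM x)) x.2.2.2) =
      (xT X M k).A (fun x => HB p θ ϑ b x + F (fun i => sO i (pM x)) x.2.2.2) := by
  have hm : Measurable fun x : XS X.n M k => F (fun i => sO i (pM x)) x.2.2.2 :=
    (measurable_from_prod_countable_left (f := fun q : (Fin M → ℝ) × Bool => F q.1 q.2) hF).comp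
      (x1_meas.prodMk measurable_snd.snd.snd)
  rw [← (x1_mor O).A (H := fun x => HB p θ ϑ b x + F (fun i => sO i (pM x)) x.2.2.2)
    ((lg_HB p θ ϑ b).1.add hm)]
  simp only [x1_HB h θ ϑ b hO, x1_s]
  rfl

theorem iso_integral {p : Par M} {T : Finset (Fin M)} {sp : Fin k → Fin M} {ρ : ℝ}
    (h : TInv p T sp ρ) (θ ϑ : ℕ → ℝ) (b : ℝ) {O : Orth M} (hO : OnT T O) {F : (Fin M → ℝ) → ℝ}
    (hF : Measurable F) :
    ∫ x, F (O.1.mulVec fun i => sO i (pM x)) ∂((xT X M k).PP (HB p θ ϑ b)) =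
      ∫ x, F (fun i => sO i (pM x)) ∂((xT X M k).PP (HB p θ ϑ b)) := by
  rw [← (x1_mor O).integral (lg_HB p θ ϑ b).ub (φ := fun x => F fun i => sO i (pM x))
    (hF.comp x1_meas)]
  simp only [x1_HB h θ ϑ b hO, x1_s]

theorem x1_int {n : ℕ} (μ : Measure (XS n M k)) [IsFiniteMeasure μ] {F : (Fin M → ℝ) → ℝ}
    (hF : Continuous F) : Integrable (fun x => F fun i => sO i (pM x)) μ := by
  obtain ⟨C, hC⟩ := (isCompact_closedBall (0 : Fin M → ℝ) √M).exists_bound_of_continuousOn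
    hF.continuousOn
  refine Integrable.of_bound (hF.measurable.comp x1_meas).aestronglyMeasurable C
    (Filter.Eventually.of_forall fun x => hC _ ?_)
  rw [mem_closedBall_zero_iff]
  exact (pi_norm_le_iff_of_nonneg (sqrt_nonneg _)).2 fun i => abs_sO i _

theorem iso_unit {p : Par M} {T : Finset (Fin M)} {sp : Fin k → Fin M} {ρ : ℝ}
    (h : TInv p T sp ρ) (θ ϑ : ℕ → ℝ) (b : ℝ) {u : Fin M → ℝ} (hu : ∑ i ∈ T, u i ^ 2 = 1)
    {i0 : Fin M} (hi : i0 ∈ T) {f : ℝ → ℝ} (hf : Measurable f) :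
    ∫ x, f (∑ i ∈ T, u i * sO i (pM x)) ∂((xT X M k).PP (HB p θ ϑ b)) =
      ∫ x, f (sO i0 (pM x)) ∂((xT X M k).PP (HB p θ ϑ b)) := by
  obtain ⟨O, hO, hu'⟩ := exists_rowO T hi u hu
  rw [← iso_integral h θ ϑ b hO (F := fun s => f (s i0)) (hf.comp (measurable_pi_apply i0))]
  refine integral_congr_ae (Filter.Eventually.of_forall fun x => congrArg f ?_)
  simp only [Matrix.mulVec, dotProduct]
  rw [← Finset.sum_subset (Finset.subset_univ T) fun j _ hj => ?_]
  · exact Finset.sum_congr rfl fun j hj => by rw [hu' j hj]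
  · rw [hO i0 j (Or.inr hj), if_neg (by rintro rfl; exact hj hi), zero_mul]

theorem x1_sum_le {n : ℕ} (T : Finset (Fin M)) (x : MS n M) : ∑ i ∈ T, sO i x ^ 2 ≤ M :=
  (Finset.sum_le_sum_of_subset_of_nonneg (Finset.subset_univ T) fun _ _ _ => sq_nonneg _).trans
    (sum_sO_sq x).le

/-- by `exists_rowO` all unit linear statistics on `T` have the same law -/
theorem iso_sq {p : Par M} {T : Finset (Fin M)} {sp : Fin k → Fin M} {ρ : ℝ}
    (h : TInv p T sp ρ) (θ ϑ : ℕ → ℝ) (b : ℝ) (u : Fin M → ℝ) :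
    ∫ x, (∑ i ∈ T, u i * sO i (pM x)) ^ 2 ∂((xT X M k).PP (HB p θ ϑ b)) ≤
      ρ * ∑ i ∈ T, u i ^ 2 := by
  set c := ∑ i ∈ T, u i ^ 2 with hc
  have h2 : (0 : ℝ) < T.card := by exact_mod_cast h.ne.card_pos
  rcases (Finset.sum_nonneg fun i _ => sq_nonneg (u i) : 0 ≤ c).eq_or_lt with h0 | h0
  · have : ∀ i ∈ T, u i = 0 := fun i hi => pow_eq_zero_iff two_ne_zero |>.1
      ((Finset.sum_eq_zero_iff_of_nonneg fun i _ => sq_nonneg (u i)).1 h0.symm i hi)
    have h1 : ∀ x : XS X.n M k, ∑ i ∈ T, u i * sO i (pM x) = 0 := fun x =>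
      Finset.sum_eq_zero fun i hi => by rw [this i hi, zero_mul]
    simp [h1, hc, ← h0]
  rw [← hc] at h0
  have h1 : ∀ i0 ∈ T, ∫ x, (∑ i ∈ T, u i * sO i (pM x)) ^ 2 ∂((xT X M k).PP (HB p θ ϑ b)) =
      ∫ x, c * sO i0 (pM x) ^ 2 ∂((xT X M k).PP (HB p θ ϑ b)) := fun i0 hi => by
    rw [← iso_unit h θ ϑ b (u := fun i => (√c)⁻¹ * u i) ?_ hi (f := fun y => c * y ^ 2)
      (by fun_prop)]
    · simp only [mul_assoc, ← Finset.mul_sum, mul_pow, inv_pow, sq_sqrt h0.le,
        mul_inv_cancel_left₀ h0.ne']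
    · simp only [mul_pow, inv_pow, sq_sqrt h0.le, ← Finset.mul_sum, ← hc, inv_mul_cancel₀ h0.ne']
  have h3 := Finset.sum_congr rfl h1
  rw [Finset.sum_const, nsmul_eq_mul, ← integral_finset_sum _ fun i _ => x1_int _
    (F := fun s => c * s i ^ 2) (by fun_prop)] at h3
  refine le_of_mul_le_mul_left (h3.trans_le ?_) h2
  refine (integral_mono (x1_int _ (F := fun s => ∑ i ∈ T, c * s i ^ 2) (by fun_prop))
    (integrable_const (T.card * (ρ * c))) fun x => ?_).trans (by simp)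
  simp only [← Finset.mul_sum]
  nlinarith [x1_sum_le T (pM x), h.card]

theorem x1_gauss : Integrable (fun z : ℝ => exp (z ^ 2 / 4)) (gaussianReal 0 1) ∧
    ∫ z, exp (z ^ 2 / 4) ∂(gaussianReal 0 1) ≤ 2 := by
  have e : ∀ z : ℝ, gaussianPDFReal 0 1 z * exp (z ^ 2 / 4) =
      (√(2 * π))⁻¹ * exp (-(1 / 4) * z ^ 2) := fun z => by
    rw [gaussianPDFReal, mul_assoc, ← exp_add]
    simp only [NNReal.coe_one, mul_one, sub_zero]
    congr 2
    ring
  constructor
  · rw [gaussianReal_of_var_ne_zero _ one_ne_zero,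
      integrable_withDensity_iff_integrable_smul' (measurable_gaussianPDF _ _)
        (Filter.Eventually.of_forall fun _ => gaussianPDF_lt_top)]
    simp only [toReal_gaussianPDF, smul_eq_mul, e]
    exact (integrable_exp_neg_mul_sq (by norm_num)).const_mul _
  · rw [integral_gaussianReal_eq_integral_smul one_ne_zero]
    simp only [smul_eq_mul, e]
    rw [integral_const_mul, integral_gaussian, inv_mul_le_iff₀ (sqrt_pos.2 two_pi_pos),
      sqrt_le_iff]
    refine ⟨by positivity, ?_⟩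
    rw [mul_pow, sq_sqrt two_pi_pos.le]
    nlinarith [pi_pos]

theorem x1_rad (T : Finset (Fin M)) (s : Fin M → ℝ) (c : ℝ) :
    ∑ ε : Fin M → Bool, exp (c * ∑ i ∈ T, sg (ε i) * s i) ≤
      2 ^ M * exp (c ^ 2 * (∑ i ∈ T, s i ^ 2) / 2) := by
  classical
  let t : Fin M → ℝ := fun i => if i ∈ T then c * s i else 0
  have h1 : ∀ ε : Fin M → Bool, exp (c * ∑ i ∈ T, sg (ε i) * s i) =
      ∏ i, exp (sg (ε i) * t i) := fun ε => by
    rw [← exp_sum, Finset.mul_sum]
    simp only [t, mul_ite, mul_zero, Finset.sum_ite_mem, Finset.univ_inter]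
    exact congrArg exp (Finset.sum_congr rfl fun i _ => by ring)
  have h2 : c ^ 2 * (∑ i ∈ T, s i ^ 2) / 2 = ∑ i, t i ^ 2 / 2 := by
    rw [Finset.mul_sum, Finset.sum_div, ← Finset.sum_subset (Finset.subset_univ T)
      fun j _ hj => by simp [t, hj]]
    exact Finset.sum_congr rfl fun i hi => by simp only [t, if_pos hi]; ring
  simp only [h1]
  rw [← Fintype.piFinset_univ, ← Finset.prod_univ_sum (fun _ => Finset.univ)
    (fun i (e : Bool) => exp (sg e * t i)), h2, exp_sum,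
    show (2 : ℝ) ^ M = ∏ _i : Fin M, 2 by simp, ← Finset.prod_mul_distrib]
  refine Finset.prod_le_prod (fun i _ => Finset.sum_nonneg fun _ _ => (exp_pos _).le) fun i _ => ?_
  have := cosh_le_exp_half_sq (t i)
  rw [cosh_eq] at this
  simp only [Fintype.sum_bool, sg, if_true, one_mul, Bool.false_eq_true, if_false, neg_mul]
  linarith

theorem x1_det (T : Finset (Fin M)) (s : Fin M → ℝ) {t : ℝ} (ht : 0 ≤ t)
    (h : t * ∑ i ∈ T, s i ^ 2 ≤ 1 / 4) :
    ∑ ε : Fin M → Bool, exp (t * (∑ i ∈ T, sg (ε i) * s i) ^ 2) ≤ 2 ^ M * 2 := by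
  have h1 : ∀ y : ℝ, exp (t * y ^ 2) = ∫ z, exp (√(2 * t) * y * z) ∂(gaussianReal 0 1) := fun y => by
    have := congrFun (mgf_fun_id_gaussianReal (μ := 0) (v := 1)) (√(2 * t) * y)
    rw [mgf] at this
    rw [this, mul_pow, sq_sqrt (by positivity)]
    simp only [zero_mul, NNReal.coe_one, one_mul, zero_add]
    congr 1
    ring
  simp only [h1]
  rw [← integral_finset_sum _ fun ε _ => integrable_exp_mul_gaussianReal _]
  refine le_trans (integral_mono (integrable_finset_sum _ fun ε _ =>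
    integrable_exp_mul_gaussianReal _) (x1_gauss.1.const_mul (2 ^ M)) fun z => ?_) ?_
  · have := x1_rad T s (√(2 * t) * z)
    rw [mul_pow, sq_sqrt (by positivity)] at this
    simp only [mul_right_comm _ _ z]
    refine this.trans (mul_le_mul_of_nonneg_left (exp_le_exp.2 ?_) (by positivity))
    nlinarith [sq_nonneg z]
  · rw [integral_const_mul]
    exact mul_le_mul_of_nonneg_left x1_gauss.2 (by positivity)

theorem x1_one_le {p : Par M} {T : Finset (Fin M)} {sp : Fin k → Fin M} {ρ : ℝ}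
    (h : TInv p T sp ρ) : 1 ≤ ρ := by
  have h1 : (T.card : ℝ) ≤ M := by exact_mod_cast (by simpa using T.card_le_univ)
  have h2 : (0 : ℝ) < T.card := by exact_mod_cast h.ne.card_pos
  exact le_of_mul_le_mul_right (by linarith [h.card]) h2

theorem x1_exp {p : Par M} {T : Finset (Fin M)} {sp : Fin k → Fin M} {ρ : ℝ}
    (h : TInv p T sp ρ) (θ ϑ : ℕ → ℝ) (b : ℝ) {i0 : Fin M} (hi : i0 ∈ T) :
    ∫ x, exp ((4 * ρ)⁻¹ * sO i0 (pM x) ^ 2) ∂((xT X M k).PP (HB p θ ϑ b)) ≤ 2 := by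
  have h2 : (0 : ℝ) < T.card := by exact_mod_cast h.ne.card_pos
  have hρ : 0 < ρ := one_pos.trans_le (x1_one_le h)
  have h1 : ∀ ε : Fin M → Bool,
      ∫ x, exp ((4 * ρ * T.card)⁻¹ * (∑ i ∈ T, sg (ε i) * sO i (pM x)) ^ 2)
        ∂((xT X M k).PP (HB p θ ϑ b)) =
      ∫ x, exp ((4 * ρ)⁻¹ * sO i0 (pM x) ^ 2) ∂((xT X M k).PP (HB p θ ϑ b)) := fun ε => by
    rw [← iso_unit h θ ϑ b (u := fun i => (√T.card)⁻¹ * sg (ε i)) ?_ hi
      (f := fun y => exp ((4 * ρ)⁻¹ * y ^ 2)) (by fun_prop)]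
    · simp only [mul_assoc, ← Finset.mul_sum, mul_pow, inv_pow, sq_sqrt h2.le, mul_inv]
    · simp [mul_pow, sg_sq, sq_sqrt h2.le, h2.ne']
  have h3 := Finset.sum_congr rfl fun ε (_ : ε ∈ Finset.univ) => h1 ε
  rw [← integral_finset_sum _ fun ε _ => x1_int _
    (F := fun s => exp ((4 * ρ * T.card)⁻¹ * (∑ i ∈ T, sg (ε i) * s i) ^ 2)) (by fun_prop)] at h3
  simp only [Finset.sum_const, Finset.card_univ, Fintype.card_pi, Fintype.card_bool,
    Finset.prod_const, Fintype.card_fin, nsmul_eq_mul, Nat.cast_pow, Nat.cast_ofNat] at h3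
  refine le_of_mul_le_mul_left (h3.symm.trans_le ?_) (by positivity : (0 : ℝ) < 2 ^ M)
  refine (integral_mono (x1_int _ (F := fun s => ∑ ε : Fin M → Bool,
    exp ((4 * ρ * T.card)⁻¹ * (∑ i ∈ T, sg (ε i) * s i) ^ 2)) (by fun_prop))
    (integrable_const (2 ^ M * 2)) fun x => x1_det T _ (by positivity) ?_).trans (by simp)
  rw [inv_mul_le_iff₀ (by positivity)]
  linarith [x1_sum_le T (pM x), h.card]

/-- Let `φ(r) = ∫ exp (r s_{i}²)` (the same for all unit statistics on `T`, convex in `r`).  For a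
standard Gaussian vector `g` on `T`, `E_g φ(c |g|²/|T|) = ∫ E_g exp (c (g·s)²/|T|) =
∫ (1 - 2c|s_T|²/|T|)^{-1/2} ≤ √2` for `c ρ ≤ 1/4`, and Jensen gives `φ(c) ≤ √2`.  Then
`exp (c' Σ_a y_a²) ≤ 1 + Σ… ` or by convexity `≤ k⁻¹ Σ_a exp (k c' y_a²)`, and `X_sub_le_log`. -/
theorem exp_bound {p : Par M} {T : Finset (Fin M)} {sp : Fin k → Fin M} {ρ : ℝ}
    (h : TInv p T sp ρ) (θ ϑ : ℕ → ℝ) (b : ℝ) :
    (xT X M k).A (fun x => HB p θ ϑ b x + (4 * ρ * (k + 1))⁻¹ * QS sp x) ≤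
      (xT X M k).A (HB p θ ϑ b) + 1 := by
  have hρ : 0 < ρ := one_pos.trans_le (x1_one_le h)
  have hk : (0 : ℝ) < k + 1 := by positivity
  have h1 := Tower.X_sub_le_log (lg_HB (X := X) (k := k) p θ ϑ b)
    ((lg_QS h.inj).const_mul (4 * ρ * (k + 1))⁻¹) 0 (xT X M k).x0
  rw [Tower.E_zero_eq] at h1
  have hi : ∀ a, Integrable (fun x => exp ((4 * ρ)⁻¹ * sO (sp a) (pM x) ^ 2))
      ((xT X M k).PP (HB p θ ϑ b)) := fun a =>
    x1_int _ (F := fun s => exp ((4 * ρ)⁻¹ * s (sp a) ^ 2)) (by fun_prop)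
  have hI := ((lg_QS (X := X) h.inj).const_mul (4 * ρ * (k + 1))⁻¹).ub.exp.integrable_PP
    (lg_HB p θ ϑ b)
  have h2 := integral_mono hI (((integrable_const (1 : ℝ)).add
    (integrable_finset_sum Finset.univ fun a _ => hi a)).const_mul (k + 1 : ℝ)⁻¹) fun x => by
      have := convexOn_exp.map_add_sum_le (t := Finset.univ) (v := (k + 1 : ℝ)⁻¹) (q := 0)
        (w := fun _ : Fin k => (k + 1 : ℝ)⁻¹) (p := fun a => (4 * ρ)⁻¹ * sO (sp a) (pM x) ^ 2)
        (fun _ _ => by positivity) (by simp; field_simp; ring) (fun _ _ => trivial)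
        (by positivity) trivial
      simp only [smul_eq_mul, mul_zero, zero_add, exp_zero, ← Finset.mul_sum, ← mul_add] at this
      simp only [Pi.add_apply, QS, yS]
      rwa [mul_inv, mul_comm (4 * ρ)⁻¹, mul_assoc]
  rw [integral_const_mul, integral_add' (integrable_const _)
    (integrable_finset_sum Finset.univ fun a _ => hi a), integral_finset_sum _ fun a _ => hi a] at h2
  have h3 := Finset.sum_le_card_nsmul Finset.univ _ 2 fun a _ => x1_exp (X := X) h θ ϑ b (h.mem a)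
  simp only [Finset.card_univ, Fintype.card_fin, nsmul_eq_mul] at h3
  simp only [integral_const, probReal_univ, smul_eq_mul, one_mul] at h2
  have h4 := (log_le_iff_le_exp (integral_exp_pos hI)).2 (show _ ≤ exp 1 from h2.trans (by
    rw [inv_mul_le_iff₀ hk]
    nlinarith [add_one_le_exp 1]))
  unfold Tower.A
  linarith

theorem TInv.one_le {p : Par M} {T : Finset (Fin M)} {sp : Fin k → Fin M} {ρ : ℝ}
    (h : TInv p T sp ρ) : 1 ≤ ρ :=
  x1_one_le h

end Crest.Agent.R164
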