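import Crest.Agent.R164.X1

/-! # Interpolation between the projected field and the hierarchical field

`y(u) = sin u · yG + cos u · zA`, `f u = A (HB + ψ (y u))`, `u ∈ [0, π/2]`.  By
`DerL.hasDerivAt_A`, `f' = Σ_a ∫ ψ_a (cos u · yG_a - sin u · zA_a)`.  Integrate by parts (`ibp_PP`)
in `G_{a i}` (level `0`, `∂H = ψ_a sin u s_i/√n`, `n = |T|`) and in `ζ_{l a}` (level `l`,
`∂H = ψ_a cos u √v_l`).  Since `Σ_{l<r} v_l = Q r` (`Q 1 = 0`) and `W 1 = 0`,
`f' = sin u cos u Σ_a { ∫ (|s_T|²/n - Q(n+1)) (ψ_aa + ψ_a²) -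
Σ_{r=2}^n W_r ∫ [Σ_{i∈T} (E_r (s_i ψ_a))²/n - Q r (E_r ψ_a)²] }`, and the bracket is the two-replica
average of `ψ_a ψ_a' (s·s'/n - Q r)`.  Compare with the base system by `E_le_of_bdd`,
`Err2_le_of_bdd`, `Err2_pM`. -/

set_option autoImplicit false
set_option linter.unusedVariables false
set_option linter.unusedSectionVars false

open MeasureTheory ProbabilityTheory Real Crest.ProbabilityR.InvariantGlass
open scoped ENNReal

namespace Crest.Agent.R164

section two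

variable {S : Type} [MeasurableSpace S]

theorem x4_int {μ : Measure S} [IsProbabilityMeasure μ] {f : S → ℝ} (hf : StronglyMeasurable f)
    {C : ℝ} (h : ∀ x, |f x| ≤ C) : Integrable f μ :=
  (integrable_const C).mono' hf.aestronglyMeasurable (.of_forall h)

theorem x4_abs_le {μ : Measure S} {f g : S → ℝ} (hg : Integrable g μ) (h : ∀ x, |f x| ≤ g x) :
    |∫ x, f x ∂μ| ≤ ∫ x, g x ∂μ := norm_integral_le_of_norm_le (f := f) hg (.of_forall h)

theorem x4_mul_le {a b A B : ℝ} (ha : |a| ≤ A) (hb : |b| ≤ B) : |a * b| ≤ A * B := by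
  rw [abs_mul]
  exact mul_le_mul ha hb (abs_nonneg _) ((abs_nonneg _).trans ha)

theorem x4_ov_le {ι : Type} {s : ι → S → ℝ} (J : Finset ι) {C : ℝ}
    (hC : ∀ i ∈ J, ∀ x, |s i x| ≤ C) (c : ℝ) (y y' : S) :
    |(|∑ i ∈ J, s i y * s i y' - c|)| ≤ ∑ _i ∈ J, C * C + |c| := by
  rw [abs_abs]
  exact (abs_sub _ _).trans (add_le_add_left ((Finset.abs_sum_le_sum_abs _ _).trans
    (Finset.sum_le_sum fun i hi => x4_mul_le (hC i hi y) (hC i hi y'))) _)

theorem x4_two0 (μ : Measure S) [IsProbabilityMeasure μ] {ι : Type} {s : ι → S → ℝ} (J : Finset ι)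
    (hs : ∀ i ∈ J, Measurable (s i)) {C : ℝ} (hC : ∀ i ∈ J, ∀ x, |s i x| ≤ C) {φ : S → ℝ}
    (hφ : Measurable φ) {B : ℝ} (hB : ∀ x, |φ x| ≤ B) (hB0 : 0 ≤ B) (c : ℝ) :
    |∑ i ∈ J, (∫ y, s i y * φ y ∂μ) ^ 2 - c * (∫ y, φ y ∂μ) ^ 2| ≤
      B ^ 2 * ∫ y, (∫ y', |∑ i ∈ J, s i y * s i y' - c| ∂μ) ∂μ := by
  have m0 : Measurable fun q : S × S => |∑ i ∈ J, s i q.1 * s i q.2 - c| :=
    ((Finset.measurable_sum J fun i hi => ((hs i hi).comp measurable_fst).mul
      ((hs i hi).comp measurable_snd)).sub_const c).abs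
  have i0 : Integrable φ μ := x4_int hφ.stronglyMeasurable hB
  have i1 : ∀ i ∈ J, Integrable (fun y => s i y * φ y) μ := fun i hi =>
    x4_int ((hs i hi).mul hφ).stronglyMeasurable fun y => x4_mul_le (hC i hi y) (hB y)
  have e : ∀ (a : ι → ℝ) (d : ℝ), ∫ y, φ y * (∑ i ∈ J, a i * s i y - d) ∂μ =
      ∑ i ∈ J, a i * ∫ y, s i y * φ y ∂μ - d * ∫ y, φ y ∂μ := fun a d => by
    simp only [← integral_const_mul]
    rw [← integral_finsetSum _ fun i hi => (i1 i hi).const_mul _, ← integral_sub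
      (integrable_finsetSum _ fun i hi => (i1 i hi).const_mul _) (i0.const_mul _)]
    congr 1
    funext y
    rw [mul_sub, Finset.mul_sum, mul_comm (φ y) d]
    congr 1
    exact Finset.sum_congr rfl fun i _ => by ring
  have e2 : ∑ i ∈ J, (∫ y, s i y * φ y ∂μ) ^ 2 - c * (∫ y, φ y ∂μ) ^ 2 =
      ∫ y, φ y * ∫ y', φ y' * (∑ i ∈ J, s i y * s i y' - c) ∂μ ∂μ := by
    simp only [e, mul_comm (s _ _) (∫ y, _ ∂μ), sq, mul_assoc]
  rw [e2, ← integral_const_mul]
  refine x4_abs_le ((x4_int (m0.stronglyMeasurable.integral_prod_right' (ν := μ))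
    fun y => Tower.t2_bd (x4_ov_le J hC c y)).const_mul _) fun y => ?_
  rw [sq, mul_assoc]
  refine x4_mul_le (hB y) ?_
  rw [← integral_const_mul]
  exact x4_abs_le ((x4_int (m0.comp measurable_prodMk_left).stronglyMeasurable
    (x4_ov_le J hC c y)).const_mul _) fun y' => x4_mul_le (hB y') le_rfl

theorem x4_two (T : Tower S) (H : S → ℝ) {ι : Type} {s : ι → S → ℝ} (J : Finset ι)
    (hs : ∀ i ∈ J, Measurable (s i)) {C : ℝ} (hC : ∀ i ∈ J, ∀ x, |s i x| ≤ C) {φ : S → ℝ}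
    (hφ : Measurable φ) {B : ℝ} (hB : ∀ x, |φ x| ≤ B) (hB0 : 0 ≤ B) (r : ℕ) (c : ℝ) :
    |∫ x, (∑ i ∈ J, T.E H r (fun y => s i y * φ y) x ^ 2 - c * T.E H r φ x ^ 2) ∂(T.PP H)| ≤
      B ^ 2 * T.Err2 H s J r c := by
  have m0 : Measurable fun q : S × S => |∑ i ∈ J, s i q.1 * s i q.2 - c| :=
    ((Finset.measurable_sum J fun i hi => ((hs i hi).comp measurable_fst).mul
      ((hs i hi).comp measurable_snd)).sub_const c).abs
  have m1 : StronglyMeasurable fun q : S × S =>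
      ∫ y', |∑ i ∈ J, s i q.2 * s i y' - c| ∂(T.K H r q.1) :=
    StronglyMeasurable.integral_kernel_prod_right' (κ := (T.K H r).comap Prod.fst measurable_fst)
      (m0.comp (measurable_fst.snd.prodMk measurable_snd)).stronglyMeasurable
  rw [Tower.Err2, ← integral_const_mul]
  refine x4_abs_le ((x4_int (m1.integral_kernel_prod_right' (κ := T.K H r))
    fun x => Tower.t2_bd fun y => Tower.t2_bd (x4_ov_le J hC c y)).const_mul _) fun x => ?_
  exact x4_two0 (T.K H r x) J hs hC hφ hB hB0 c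

theorem x4_self (T : Tower S) (H : S → ℝ) {ι : Type} {s : ι → S → ℝ} (J : Finset ι)
    (hs : ∀ i ∈ J, Measurable (s i)) {C : ℝ} (hC : ∀ i ∈ J, ∀ x, |s i x| ≤ C) {χ : S → ℝ}
    {B : ℝ} (hB : ∀ x, |χ x| ≤ B) (c : ℝ) :
    |∫ x, χ x * (∑ i ∈ J, s i x ^ 2 - c) ∂(T.PP H)| ≤ B * T.Err2 H s J T.L c := by
  rw [Tower.Err2_of_ge H J hs le_rfl, ← integral_const_mul]
  refine x4_abs_le ((x4_int (((Finset.measurable_sum J fun i hi =>
    (hs i hi).pow_const 2).sub_const c).abs).stronglyMeasurable (C := ∑ _i ∈ J, C * C + |c|)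
    fun x => ?_).const_mul _) fun x => x4_mul_le (hB x) le_rfl
  simpa only [sq] using x4_ov_le J hC c x x

theorem x4_derL {T : Tower S} {H H' : ℝ → S → ℝ} {G V : S → ℝ} (hG : T.LG G) (hV : T.LG V)
    (m : ∀ t, Measurable (H t)) (m' : ∀ t, Measurable (H' t)) (b : ∀ t x, |H t x| ≤ G x)
    (b' : ∀ t x, |H' t x| ≤ V x) (d : ∀ t x, HasDerivAt (fun t => H t x) (H' t x) t) :
    T.DerL Set.univ H H' := by
  obtain ⟨C, hC⟩ := Tower.T1_common hG hV.gr
  exact ⟨fun t _ => m t, fun t _ => m' t, ⟨C, fun t _ x =>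
    ⟨(b t x).trans ((le_abs_self _).trans (hC.1 x)),
      (b' t x).trans ((le_abs_self _).trans (hC.2 x))⟩⟩, fun t _ => d t⟩

theorem x4_meas {k : ℕ} {F : (Fin k → ℝ) → Bool → ℝ} (hF : ∀ ε, Continuous fun y => F y ε)
    {y : S → Fin k → ℝ} (hy : Measurable y) {ε : S → Bool} (hε : Measurable ε) :
    Measurable fun x => F (y x) (ε x) :=
  (measurable_from_prod_countable_left (f := fun q : (Fin k → ℝ) × Bool => F q.1 q.2)
    fun ε => (hF ε).measurable).comp (hy.prodMk hε)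

end two

section psi

variable {k : ℕ} {ψ : (Fin k → ℝ) → Bool → ℝ} {B : ℝ}

/-- first partial derivative -/
noncomputable def x4d (F : (Fin k → ℝ) → Bool → ℝ) (a : Fin k) (y : Fin k → ℝ) (ε : Bool) : ℝ :=
  fderiv ℝ (fun y => F y ε) y (Pi.single a 1)

theorem x4_cd1 (hψ : Psi ψ B) (a : Fin k) (ε : Bool) : ContDiff ℝ 1 fun y => x4d ψ a y ε :=
  ((hψ.cd ε).fderiv_right (m := 1) le_rfl).clm_apply contDiff_const

theorem x4_c2 (hψ : Psi ψ B) (a : Fin k) (ε : Bool) : Continuous fun y => x4d (x4d ψ a) a y ε :=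
  ((x4_cd1 hψ a ε).continuous_fderiv one_ne_zero).clm_apply continuous_const

theorem x4_line {F : (Fin k → ℝ) → ℝ} (hF : Differentiable ℝ F) (y v : Fin k → ℝ) (c : ℝ) :
    HasDerivAt (fun t : ℝ => F (y + (t * c) • v)) (c * fderiv ℝ F y v) 0 := by
  have h1 : HasDerivAt (fun t : ℝ => y + (t * c) • v) (c • v) 0 := by
    simpa using (((hasDerivAt_id (0 : ℝ)).mul_const c).smul_const v).const_add y
  have h2 := (hF (y + (0 * c) • v)).hasFDerivAt.comp_hasDerivAt 0 h1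
  simpa [Function.comp_def] using h2

theorem x4_curve {F : (Fin k → ℝ) → ℝ} (hF : Differentiable ℝ F) {y : ℝ → Fin k → ℝ}
    {v : Fin k → ℝ} {u : ℝ} (hy : ∀ a, HasDerivAt (fun t => y t a) (v a) u) :
    HasDerivAt (fun t => F (y t)) (∑ a, v a * fderiv ℝ F (y u) (Pi.single a 1)) u := by
  have h2 := (hF (y u)).hasFDerivAt.comp_hasDerivAt u (hasDerivAt_pi.2 hy)
  have e : v = ∑ a, v a • (Pi.single a 1 : Fin k → ℝ) := by
    funext j
    simp [Finset.sum_apply, Pi.single_apply]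
  refine HasDerivAt.congr_deriv h2 ?_
  conv_lhs => rw [e]
  simp [map_sum]

variable {Ω I A : Type} [MeasurableSpace Ω] [Fintype I] [MeasurableSpace A] [Fintype A]
  [Nonempty A] [MeasurableSingletonClass A] [Nonempty Ω] {X : Expo} {P : Measure Ω}
  [IsProbabilityMeasure P] {lev : I → Fin (X.n + 1)} [DecidableEq I]

theorem x4_ibp (q : I) {H0 H w : Ω × (I → ℝ) × A → ℝ} {y : Ω × (I → ℝ) × A → Fin k → ℝ}
    {ε : Ω × (I → ℝ) × A → Bool} (hψ : Psi ψ B) (hH : (gT X P lev A).LG H0) (iH : Inv q H0)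
    (hy : Measurable y) (hε : Measurable ε) (iε : ∀ t x, ε (shift q t x) = ε x)
    (eH : H = fun x => H0 x + ψ (y x) (ε x))
    (hw : Measurable w) {C : ℝ} (bw : ∀ x, |w x| ≤ C) (iw : Inv q w) (a : Fin k) (κ : ℝ)
    (sy : ∀ t x, y (shift q t x) = y x + (t * (κ * w x)) • (Pi.single a 1 : Fin k → ℝ)) :
    ∫ x, x.2.1 q * (w x * x4d ψ a (y x) (ε x)) ∂((gT X P lev A).PP H) =
      κ * (∫ x, (x4d (x4d ψ a) a (y x) (ε x) + x4d ψ a (y x) (ε x) ^ 2) * w x ^ 2
        ∂((gT X P lev A).PP H) - X.tau (fun r => ∫ x, (gT X P lev A).E H r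
          (fun z => w z * x4d ψ a (y z) (ε z)) x ^ 2 ∂((gT X P lev A).PP H)) (lev q).val) := by
  have lH : (gT X P lev A).LG H := eH ▸ hH.add (Tower.LG.of_bdd
    (x4_meas (fun ε => (hψ.cd ε).continuous) hy hε) fun x => hψ.b0 _ _)
  have gw : (gT X P lev A).Gr w := Tower.Gr.of_bdd hw bw
  have g1 : (gT X P lev A).Gr fun z => w z * x4d ψ a (y z) (ε z) := gw.mul (Tower.Gr.of_bdd
    (x4_meas (fun ε => (x4_cd1 hψ a ε).continuous) hy hε) fun x => hψ.b1 _ _ a)
  have g2 : (gT X P lev A).Gr fun z => x4d (x4d ψ a) a (y z) (ε z) := Tower.Gr.of_bdd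
    (x4_meas (x4_c2 hψ a) hy hε) fun x => hψ.b2 _ _ a
  have pH : PD q H fun x => κ * (w x * x4d ψ a (y x) (ε x)) := fun x => by
    simp only [eH, iH _ x, iε, sy, ← mul_assoc]
    simp only [mul_assoc _ κ]
    exact (x4_line ((hψ.cd (ε x)).differentiable two_ne_zero) _ _ _).const_add _
  have pφ : PD q (fun z => w z * x4d ψ a (y z) (ε z))
      fun x => w x * (κ * w x * x4d (x4d ψ a) a (y x) (ε x)) := fun x => by
    simp only [iw _ x, iε, sy]
    exact (x4_line ((x4_cd1 hψ a (ε x)).differentiable one_ne_zero) _ _ _).const_mul _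
  rw [ibp_PP q lH (g1.const_mul κ) pH g1 (gw.mul ((gw.const_mul κ).mul g2)) pφ, mul_sub,
    ← X.g3_tau_mul, ← integral_const_mul]
  congr 2
  · funext x
    ring
  · funext r
    rw [← integral_const_mul]
    congr 1
    funext x
    rw [Tower.E_const_mul]
    ring

end psi

theorem Expo.x4_tau_le (X : Expo) {z z' : ℕ → ℝ} (h : ∀ r, |z r| ≤ z' r) (l : ℕ) :
    |X.tau z l| ≤ X.tau z' l :=
  (Finset.abs_sum_le_sum_abs _ _).trans (Finset.sum_le_sum fun r _ =>
    x4_mul_le (abs_of_nonneg (X.W_nonneg r)).le (h r))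

theorem Expo.x4_abel (X : Expo) {Q : ℕ → ℝ} (h1 : Q 1 = 0) (z : ℕ → ℝ) :
    ∑ l : Fin X.n, (Q (l + 2) - Q (l + 1)) * X.tau z (l + 1) = X.tau (fun r => Q r * z r) 1 := by
  rw [Fin.sum_univ_eq_sum_range (fun l => (Q (l + 2) - Q (l + 1)) * X.tau z (l + 1))]
  simp only [Expo.tau, Finset.mul_sum]
  rw [Finset.sum_comm' (t' := Finset.Icc (1 + 1) X.n) (s' := fun r => Finset.range (r - 1))
    (by simp only [Finset.mem_range, Finset.mem_Icc]; omega)]
  refine Finset.sum_congr rfl fun r hr => ?_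
  rw [← Finset.sum_mul, Finset.sum_range_sub (fun l => Q (l + 1)),
    Nat.sub_add_cancel (by have := (Finset.mem_Icc.1 hr).1; omega), zero_add, h1]
  ring

section main

variable {n M k : ℕ}

theorem x4_pM (q : (Fin k × Fin M) ⊕ AI n k) (t : ℝ) (x : XS n M k) :
    pM (shift (Sum.inr q) t x) = pM x := by
  simp [pM, shift]

theorem x4_pA (q : Fin k × Fin M) (t : ℝ) (x : XS n M k) :
    pA (shift (Sum.inr (Sum.inl q)) t x) = pA x := by
  simp [pA, shift]

theorem x4_HA (θ ϑ : ℕ → ℝ) (b : ℝ) (q : Fin n × Fin k) (t : ℝ) (x : XS n M k) :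
    HA θ ϑ b (pA (shift (Sum.inr (Sum.inr (Sum.inl q))) t x)) = HA θ ϑ b (pA x) := by
  simp [pA, shift, HA]

theorem x4_yG (T : Finset (Fin M)) (q : AI n k) (t : ℝ) (x : XS n M k) :
    yG T (shift (Sum.inr (Sum.inr q)) t x) = yG T x := by
  funext a
  simp only [yG, x4_pM]
  simp [shift]

theorem x4_yG' {T : Finset (Fin M)} {i : Fin M} (hi : i ∈ T) (a a' : Fin k) (t : ℝ) (x : XS n M k) :
    yG T (shift (Sum.inr (Sum.inl (a, i))) t x) a' =
      yG T x a' + if a' = a then t * sO i (pM x) / √(T.card) else 0 := by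
  have e : ∀ j, (shift (Sum.inr (Sum.inl (a, i)) : XI n M k) t x).2.1 (Sum.inr (Sum.inl (a', j))) =
      x.2.1 (Sum.inr (Sum.inl (a', j))) + if a' = a then (if j = i then t else 0) else 0 := by
    intro j
    by_cases h1 : a' = a <;> by_cases h2 : j = i <;> simp [shift, h1, h2]
  simp only [yG, x4_pM, e, add_mul, Finset.sum_add_distrib, add_div]
  split_ifs <;> simp [hi]

theorem x4_zA (Q : ℕ → ℝ) (l : Fin n) (a a' : Fin k) (t : ℝ) (x : XS n M k) :
    zA Q (pA (shift (Sum.inr (Sum.inr (Sum.inl (l, a)))) t x)) a' =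
      zA Q (pA x) a' + if a' = a then t * √(Q (l + 2) - Q (l + 1)) else 0 := by
  have e : ∀ j, (pA (shift (Sum.inr (Sum.inr (Sum.inl (l, a))) : XI n M k) t x)).2.1
      (Sum.inl (j, a')) = (pA x).2.1 (Sum.inl (j, a')) +
        if a' = a then (if j = l then t else 0) else 0 := by
    intro j
    by_cases h1 : a' = a <;> by_cases h2 : j = l <;> simp [pA, shift, h1, h2]
  simp only [zA, e, mul_add, Finset.sum_add_distrib]
  split_ifs <;> simp [mul_comm]

/-- the interpolating field -/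
noncomputable def x4y (T : Finset (Fin M)) (Q : ℕ → ℝ) (c d : ℝ) (x : XS n M k) (a : Fin k) : ℝ :=
  c * yG T x a + d * zA Q (pA x) a

variable {X : Expo}

theorem x4_lg_yG (T : Finset (Fin M)) (a : Fin k) : (xT X M k).LG fun x => yG T x a := by
  simp only [yG, div_eq_inv_mul]
  exact (Tower.LG.sum T fun i _ => (lg_coord _).mul_bdd ((measurable_sO i).comp measurable_pM)
    fun x => abs_sO i _).const_mul _

theorem x4_lg_zA (Q : ℕ → ℝ) (a : Fin k) : (xT X M k).LG fun x => zA Q (pA x) a :=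
  indep_x.m2.lg (lg_zA Q a)

theorem x4_lg_y (T : Finset (Fin M)) (Q : ℕ → ℝ) (c d : ℝ) (a : Fin k) :
    (xT X M k).LG fun x => x4y T Q c d x a :=
  ((x4_lg_yG T a).const_mul c).add ((x4_lg_zA Q a).const_mul d)

theorem x4_meas_y (T : Finset (Fin M)) (Q : ℕ → ℝ) (c d : ℝ) :
    Measurable (x4y (n := X.n) (k := k) T Q c d) :=
  measurable_pi_lambda _ fun a => (x4_lg_y T Q c d a).1

theorem x4_key (p : Par M) {T : Finset (Fin M)} (hT : T.Nonempty)
    (θ ϑ : ℕ → ℝ) (b : ℝ) {ψ : (Fin k → ℝ) → Bool → ℝ} {B : ℝ} (hψ : Psi ψ B) (hB : 0 ≤ B)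
    {Q : ℕ → ℝ} {ρ : ℝ} (hQ : X.Seq Q ρ) (c d : ℝ) (a : Fin k) {H : XS X.n M k → ℝ}
    (eH : H = fun x => HB p θ ϑ b x + ψ (x4y T Q c d x) x.2.2.2) :
    |∫ x, x4y T Q d (-c) x a * x4d ψ a (x4y T Q c d x) x.2.2.2 ∂((xT X M k).PP H)| ≤
      |c * d| * ((B + B ^ 2) * exp (6 * B) * (p.ErrQ X T Q / T.card)) := by
  have hn : (0 : ℝ) < T.card := Nat.cast_pos.2 hT.card_pos
  have hy := x4_meas_y (X := X) (k := k) T Q c d
  have hε : Measurable fun x : XS X.n M k => x.2.2.2 := by fun_prop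
  have mψ := x4_meas (fun ε => (hψ.cd ε).continuous) hy hε
  have lB := lg_HB (X := X) (k := k) p θ ϑ b
  have lH : (xT X M k).LG H := eH ▸ lB.add (Tower.LG.of_bdd mψ fun x => hψ.b0 _ _)
  have ms : ∀ i, Measurable fun x : XS X.n M k => sO i (pM x) := fun i =>
    (measurable_sO i).comp measurable_pM
  have bs : ∀ i (x : XS X.n M k), |sO i (pM x)| ≤ √M := fun i x => abs_sO i _
  have gs : ∀ i, (xT X M k).Gr fun x => sO i (pM x) := fun i => Tower.Gr.of_bdd (ms i) (bs i)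
  have hG := fun i (hi : i ∈ T) => x4_ibp (X := X) (P := haar M) (lev := xlev)
    (Sum.inr (Sum.inl (a, i))) hψ lB (fun t x => by simp only [HB, x4_pM, x4_pA]) hy hε
    (fun _ _ => rfl) eH (ms i) (bs i) (fun t x => by simp only [x4_pM]) a (c / √(T.card))
    fun t x => by
      funext a'
      simp only [x4y, x4_yG' hi, x4_pA, Pi.add_apply, Pi.smul_apply, Pi.single_apply, smul_eq_mul]
      split_ifs <;> ring
  have hZ := fun l : Fin X.n => x4_ibp (X := X) (P := haar M) (lev := xlev)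
    (Sum.inr (Sum.inr (Sum.inl (l, a)))) hψ lB (fun t x => by simp only [HB, x4_pM, x4_HA]) hy hε
    (fun _ _ => rfl) eH (w := fun _ => 1) measurable_const (fun _ => abs_one.le) (fun _ _ => rfl) a
    (d * √(Q (l + 2) - Q (l + 1))) fun t x => by
      funext a'
      simp only [x4y, x4_yG, x4_zA, Pi.add_apply, Pi.smul_apply, Pi.single_apply, smul_eq_mul]
      split_ifs <;> ring
  have m1 := x4_meas (fun ε => (x4_cd1 hψ a ε).continuous) hy hε
  have m2 := x4_meas (x4_c2 hψ a) hy hε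
  have b1 : ∀ x : XS X.n M k, |x4d ψ a (x4y T Q c d x) x.2.2.2| ≤ B := fun x => hψ.b1 _ _ a
  have b2 : ∀ x : XS X.n M k, |x4d (x4d ψ a) a (x4y T Q c d x) x.2.2.2 +
      x4d ψ a (x4y T Q c d x) x.2.2.2 ^ 2| ≤ B + B ^ 2 := fun x =>
    (abs_add_le _ _).trans (add_le_add (hψ.b2 _ _ a) (by simpa only [sq] using x4_mul_le (b1 x) (b1 x)))
  have m3 : Measurable fun x : XS X.n M k => x4d (x4d ψ a) a (x4y T Q c d x) x.2.2.2 +
      x4d ψ a (x4y T Q c d x) x.2.2.2 ^ 2 := m2.add (m1.pow_const 2)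
  have hE : ∀ r e, (xT X M k).Err2 H (fun i x => sO i (pM x)) T r e ≤
      exp (6 * B) * p.Err2 X T r e := fun r e => by
    rw [eH, ← Err2_pM (k := k) p θ ϑ b]
    exact Tower.Err2_le_of_bdd T lB mψ (fun x => hψ.b0 _ _) (fun i _ => ms i) (fun i _ => bs i) r e
  change ∀ i ∈ T, ∫ x, _ ∂((xT X M k).PP H) = _ * (∫ x, _ ∂((xT X M k).PP H) -
    X.tau (fun r => ∫ x, (xT X M k).E H r _ x ^ 2 ∂((xT X M k).PP H)) 0) at hG
  change ∀ l : Fin X.n, ∫ x, _ ∂((xT X M k).PP H) = _ * (∫ x, _ ∂((xT X M k).PP H) -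
    X.tau (fun r => ∫ x, (xT X M k).E H r _ x ^ 2 ∂((xT X M k).PP H)) (l + 1)) at hZ
  simp only [one_mul, one_pow, mul_one, X.tau_zero] at hG hZ
  obtain ⟨χ, hχ⟩ : ∃ χ : XS X.n M k → ℝ, ∀ x, x4d (x4d ψ a) a (x4y T Q c d x) x.2.2.2 +
      x4d ψ a (x4y T Q c d x) x.2.2.2 ^ 2 = χ x := ⟨_, fun _ => rfl⟩
  obtain ⟨φ, hφ⟩ : ∃ φ : XS X.n M k → ℝ, ∀ x, x4d ψ a (x4y T Q c d x) x.2.2.2 = φ x :=
    ⟨_, fun _ => rfl⟩
  simp only [hχ] at hG hZ b2 m3
  simp only [hφ] at hG hZ b1 m1 ⊢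
  have gφ : (xT X M k).Gr φ := Tower.Gr.of_bdd m1 b1
  have gχ : (xT X M k).Gr χ := Tower.Gr.of_bdd m3 b2
  have gc : ∀ q, (xT X M k).Gr fun x => x.2.1 q := fun q => (lg_coord q).gr
  have e1 : ∫ x, yG T x a * φ x ∂((xT X M k).PP H) =
      c / T.card * (∫ x, χ x * ∑ i ∈ T, sO i (pM x) ^ 2 ∂((xT X M k).PP H) -
        X.tau (fun r => ∫ x, ∑ i ∈ T, (xT X M k).E H r (fun z => sO i (pM z) * φ z) x ^ 2
          ∂((xT X M k).PP H)) 1) := by
    have e : ∀ x, yG T x a * φ x = (√(T.card))⁻¹ *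
        ∑ i ∈ T, x.2.1 (Sum.inr (Sum.inl (a, i))) * (sO i (pM x) * φ x) := fun x => by
      simp only [yG, ← mul_assoc, ← Finset.sum_mul]
      ring
    have e' : ∀ r, ∫ x, ∑ i ∈ T, (xT X M k).E H r (fun z => sO i (pM z) * φ z) x ^ 2
        ∂((xT X M k).PP H) = ∑ i ∈ T, ∫ x, (xT X M k).E H r (fun z => sO i (pM z) * φ z) x ^ 2
          ∂((xT X M k).PP H) := fun r => integral_finsetSum _ fun i _ =>
      (((((gs i).mul gφ).E lH r).pow 2).integrable_PP lH)
    simp only [e, e', Finset.mul_sum _ _ (χ _)]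
    rw [integral_const_mul, integral_finsetSum _ fun i _ =>
      ((gc _).mul ((gs i).mul gφ)).integrable_PP lH, Finset.sum_congr rfl hG, integral_finsetSum _
      fun i _ => (gχ.mul ((gs i).pow 2)).integrable_PP lH, X.g3_tau_sum, ← Finset.sum_sub_distrib,
      ← Finset.mul_sum, ← mul_assoc]
    congr 1
    rw [div_eq_mul_inv, mul_left_comm, ← mul_inv, mul_self_sqrt hn.le, div_eq_mul_inv]
  have e2 : ∫ x, zA Q (pA x) a * φ x ∂((xT X M k).PP H) =
      d * (Q (X.n + 1) * ∫ x, χ x ∂((xT X M k).PP H) -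
        X.tau (fun r => Q r * ∫ x, (xT X M k).E H r φ x ^ 2 ∂((xT X M k).PP H)) 1) := by
    have e : ∀ x, zA Q (pA x) a * φ x = ∑ l : Fin X.n, √(Q (l + 2) - Q (l + 1)) *
        (x.2.1 (Sum.inr (Sum.inr (Sum.inl (l, a)))) * φ x) := fun x => by
      simp only [zA, pA, ← mul_assoc, ← Finset.sum_mul]
    have e3 : Q (X.n + 1) = ∑ l : Fin X.n, (Q (l + 2) - Q (l + 1)) := by
      rw [Fin.sum_univ_eq_sum_range (fun l => Q (l + 2) - Q (l + 1)),
        Finset.sum_range_sub (fun l => Q (l + 1)), zero_add, hQ.one, sub_zero]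
    simp only [e]
    rw [integral_finsetSum _ fun l _ => (((gc _).mul gφ).const_mul _).integrable_PP lH,
      ← X.x4_abel hQ.one, e3, Finset.sum_mul, ← Finset.sum_sub_distrib, Finset.mul_sum]
    refine Finset.sum_congr rfl fun l _ => ?_
    have h := mul_self_sqrt (sub_nonneg.2 (hQ.mono (l + 1) (by omega) l.2))
    rw [integral_const_mul, hZ l]
    linear_combination d * (∫ x, χ x ∂((xT X M k).PP H) -
      X.tau (fun r => ∫ x, (xT X M k).E H r φ x ^ 2 ∂((xT X M k).PP H)) (l + 1)) * h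
  have e3 : ∫ x, x4y T Q d (-c) x a * φ x ∂((xT X M k).PP H) = c * d *
      ((∫ x, χ x * (∑ i ∈ T, sO i (pM x) ^ 2 - T.card * Q (X.n + 1)) ∂((xT X M k).PP H) -
        X.tau (fun r => ∫ x, (∑ i ∈ T, (xT X M k).E H r (fun z => sO i (pM z) * φ z) x ^ 2 -
          T.card * Q r * (xT X M k).E H r φ x ^ 2) ∂((xT X M k).PP H)) 1) / T.card) := by
    have e' : ∀ r, ∫ x, (∑ i ∈ T, (xT X M k).E H r (fun z => sO i (pM z) * φ z) x ^ 2 -
        T.card * Q r * (xT X M k).E H r φ x ^ 2) ∂((xT X M k).PP H) =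
        ∫ x, ∑ i ∈ T, (xT X M k).E H r (fun z => sO i (pM z) * φ z) x ^ 2 ∂((xT X M k).PP H) -
          T.card * (Q r * ∫ x, (xT X M k).E H r φ x ^ 2 ∂((xT X M k).PP H)) := fun r => by
      rw [integral_sub ((Tower.Gr.sum T fun i _ => (((gs i).mul gφ).E lH r).pow 2).integrable_PP lH)
        ((((gφ.E lH r).pow 2).const_mul _).integrable_PP lH), integral_const_mul, mul_assoc]
    simp only [e']
    simp only [x4y, add_mul, mul_assoc, mul_sub (χ _), mul_comm (χ _) (_ * Q _)]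
    rw [integral_add ((((x4_lg_yG T a).gr.mul gφ).const_mul _).integrable_PP lH)
      ((((x4_lg_zA Q a).gr.mul gφ).const_mul _).integrable_PP lH), integral_const_mul,
      integral_const_mul, e1, e2, X.g3_tau_sub, X.g3_tau_mul, integral_sub
      ((gχ.mul (Tower.Gr.sum T fun i _ => (gs i).pow 2)).integrable_PP lH)
      (((gχ.const_mul _).const_mul _).integrable_PP lH), integral_const_mul, integral_const_mul]
    field_simp
    ring
  have h1 := (x4_self (xT X M k) H T (fun i _ => ms i) (fun i _ => bs i) b2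
    (T.card * Q (X.n + 1))).trans (mul_le_mul_of_nonneg_left (hE _ _) (by positivity))
  have h2 := X.x4_tau_le (fun r => (x4_two (xT X M k) H T (fun i _ => ms i) (fun i _ => bs i) m1 b1
    hB r (T.card * Q r)).trans ((mul_le_mul_of_nonneg_right (le_add_of_nonneg_left hB)
    (Tower.Err2_nonneg _ _ _ _ _)).trans (mul_le_mul_of_nonneg_left (hE _ _) (by positivity)))) 1
  rw [X.g3_tau_mul, X.g3_tau_mul] at h2
  rw [e3, abs_mul, abs_div, abs_of_pos hn, ← mul_div_assoc (_ * exp _)]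
  refine mul_le_mul_of_nonneg_left (div_le_div_of_nonneg_right
    ((abs_sub _ _).trans ((add_le_add h1 h2).trans (le_of_eq ?_))) hn.le) (abs_nonneg _)
  rw [Par.ErrQ, xT_L]
  ring

end main

theorem interp {X : Expo} {M k : ℕ} (p : Par M) {T : Finset (Fin M)} (hT : T.Nonempty)
    (θ ϑ : ℕ → ℝ) (b : ℝ) {ψ : (Fin k → ℝ) → Bool → ℝ} {B : ℝ} (hψ : Psi ψ B) (hB : 0 ≤ B)
    {Q : ℕ → ℝ} {ρ : ℝ} (hQ : X.Seq Q ρ) :
    |(xT X M k).A (fun x => HB p θ ϑ b x + ψ (yG T x) x.2.2.2) -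
      (xT X M k).A (fun x => HB p θ ϑ b x + ψ (zA Q (pA x)) x.2.2.2)| ≤
      k * (B + B ^ 2) * exp (6 * B) * (p.ErrQ X T Q / T.card) := by
  have hε : Measurable fun x : XS X.n M k => x.2.2.2 := by fun_prop
  have lB := lg_HB (X := X) (k := k) p θ ϑ b
  have m1 := fun u a => x4_meas (fun ε => (x4_cd1 hψ a ε).continuous)
    (x4_meas_y (X := X) (k := k) T Q (sin u) (cos u)) hε
  have lt := fun u a => (x4_lg_y (X := X) T Q (cos u) (-sin u) a).mul_bdd (m1 u a)
    fun x => hψ.b1 _ _ a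
  have hD : (xT X M k).DerL Set.univ
      (fun u x => HB p θ ϑ b x + ψ (x4y T Q (sin u) (cos u) x) x.2.2.2)
      fun u x => ∑ a, x4y T Q (cos u) (-sin u) x a *
        x4d ψ a (x4y T Q (sin u) (cos u) x) x.2.2.2 := by
    refine x4_derL (lB.abs.add (Tower.LG.const B)) (Tower.LG.sum Finset.univ fun a _ =>
      (((x4_lg_yG T a).abs.add (x4_lg_zA Q a).abs).const_mul B))
      (fun u => lB.1.add (x4_meas (fun ε => (hψ.cd ε).continuous) (x4_meas_y T Q _ _) hε))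
      (fun u => Finset.measurable_sum _ fun a _ => (lt u a).1)
      (fun u x => (abs_add_le _ _).trans (add_le_add le_rfl (hψ.b0 _ _))) (fun u x => ?_)
      fun u x => (x4_curve ((hψ.cd _).differentiable two_ne_zero) fun a =>
        ((hasDerivAt_sin u).mul_const _).add ((hasDerivAt_cos u).mul_const _)).const_add _
    refine (Finset.abs_sum_le_sum_abs _ _).trans (Finset.sum_le_sum fun a _ => ?_)
    rw [mul_comm B]
    refine x4_mul_le ((abs_add_le _ _).trans (add_le_add ?_ ?_)) (hψ.b1 _ _ a)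
    · simpa using x4_mul_le (abs_cos_le_one u) le_rfl
    · simpa using x4_mul_le (abs_sin_le_one u) le_rfl
  have hder := fun u => hD.hasDerivAt_A isOpen_univ (Set.mem_univ u)
  obtain ⟨u, -, hu⟩ := exists_hasDerivAt_eq_slope _ _ pi_div_two_pos
    (fun u _ => (hder u).continuousAt.continuousWithinAt) fun u _ => hder u
  have e1 : ∀ x : XS X.n M k, x4y T Q 1 0 x = yG T x := fun x => by
    funext a
    simp [x4y]
  have e0 : ∀ x : XS X.n M k, x4y T Q 0 1 x = zA Q (pA x) := fun x => by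
    funext a
    simp [x4y]
  simp only [sin_pi_div_two, cos_pi_div_two, sin_zero, cos_zero, e1, e0, sub_zero] at hu
  rw [eq_div_iff pi_div_two_pos.ne', integral_finsetSum _ fun a _ =>
    (lt u a).gr.integrable_PP (hD.lg (Set.mem_univ u))] at hu
  have h1 := (Finset.abs_sum_le_sum_abs _ _).trans (Finset.sum_le_card_nsmul Finset.univ _ _
    fun a _ => x4_key p hT θ ϑ b hψ hB hQ (sin u) (cos u) a rfl)
  have h2 : |sin u * cos u| ≤ 1 / 2 := by
    have := abs_sin_le_one (2 * u)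
    rw [sin_two_mul, mul_assoc, abs_mul, abs_two] at this
    linarith
  have h3 : 0 ≤ (B + B ^ 2) * exp (6 * B) * (p.ErrQ X T Q / T.card) := by
    have := ErrQ_nonneg (X := X) p T Q
    positivity
  rw [Finset.card_univ, Fintype.card_fin, nsmul_eq_mul] at h1
  rw [← hu]
  refine (x4_mul_le (h1.trans (mul_le_mul_of_nonneg_left (mul_le_mul_of_nonneg_right h2 h3)
    (Nat.cast_nonneg k))) (B := 2) ?_).trans (le_of_eq (by ring))
  rw [abs_of_pos pi_div_two_pos]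
  linarith [pi_le_four]

end Crest.Agent.R164
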