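import Crest.Agent.R164.X1

/-! # The auxiliary tower: explicit Gaussian computation -/

set_option autoImplicit false
set_option linter.unusedVariables false
set_option linter.unusedSectionVars false

open MeasureTheory ProbabilityTheory Real Crest.ProbabilityR.InvariantGlass
open scoped ENNReal

namespace Crest.Agent.R164

/-- completing the square -/
theorem gauss_tilt {F : ℝ → ℝ} (hF : Measurable F) {a v : ℝ} (ha : 0 ≤ a) (hv : 0 ≤ v) (z : ℝ) :
    ∫ g, F (z + √v * g) * exp (-(a / 2) * (z + √v * g) ^ 2) ∂(gaussianReal 0 1) =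
      (√(1 + a * v))⁻¹ * exp (-(a / 2) * z ^ 2 / (1 + a * v)) *
        ∫ g, F (z / (1 + a * v) + √(v / (1 + a * v)) * g) ∂(gaussianReal 0 1) := by
  have hr : 0 < 1 + a * v := by positivity
  obtain ⟨s, hs0, rfl⟩ : ∃ s : ℝ, 0 ≤ s ∧ v = s ^ 2 := ⟨√v, sqrt_nonneg v, (sq_sqrt hv).symm⟩
  obtain ⟨r, hr0, hrr⟩ : ∃ r : ℝ, 0 < r ∧ 1 + a * s ^ 2 = r ^ 2 :=
    ⟨√(1 + a * s ^ 2), sqrt_pos.2 hr, (sq_sqrt hr.le).symm⟩
  rw [hrr, ← div_pow, sqrt_sq hs0, sqrt_sq hr0.le, sqrt_sq (by positivity),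
    integral_gaussianReal_eq_integral_smul one_ne_zero,
    integral_gaussianReal_eq_integral_smul one_ne_zero]
  set f : ℝ → ℝ := fun g => gaussianPDFReal 0 1 g • (F (z + s * g) * exp (-(a / 2) * (z + s * g) ^ 2))
    with hf
  have h1 : ∫ g, f g = r⁻¹ * ∫ t, f (t / r - a * z * s / r ^ 2) := by
    rw [Measure.integral_comp_div (fun u => f (u - a * z * s / r ^ 2)) r,
      integral_sub_right_eq_self f, abs_of_pos hr0, smul_eq_mul, ← mul_assoc,
      inv_mul_cancel₀ hr0.ne', one_mul]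
  rw [h1, mul_assoc r⁻¹, ← integral_const_mul (exp _)]
  congr 2
  funext t
  have ha' : a * s ^ 2 = r ^ 2 - 1 := by linarith
  have h2 : z + s * (t / r - a * z * s / r ^ 2) = z / r ^ 2 + s / r * t := by
    have : s * (a * z * s / r ^ 2) = z * (a * s ^ 2) / r ^ 2 := by ring
    rw [mul_sub, this, ha']
    field_simp
    ring
  simp only [hf, gaussianPDFReal, smul_eq_mul, h2, NNReal.coe_one, mul_one, sub_zero]
  have h3 : exp (-(t / r - a * z * s / r ^ 2) ^ 2 / 2) * exp (-(a / 2) * (z / r ^ 2 + s / r * t) ^ 2) =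
      exp (-(a / 2) * z ^ 2 / r ^ 2) * exp (-t ^ 2 / 2) := by
    rw [← exp_add, ← exp_add]
    congr 1
    field_simp
    linear_combination (-(t ^ 2 * r ^ 2) - a * z ^ 2) * hrr
  linear_combination (√(2 * π))⁻¹ * F (z / r ^ 2 + s / r * t) * h3

theorem x5_tilt {I : Type} [Fintype I] (a v z : I → ℝ) (ha : ∀ i, 0 ≤ a i) (hv : ∀ i, 0 ≤ v i)
    {G : (I → ℝ) → ℝ} (hG : Measurable G) :
    ∫ g, G (fun i => z i + √(v i) * g i) * ∏ i, exp (-(a i / 2) * (z i + √(v i) * g i) ^ 2)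
        ∂(gpi I) =
      (∏ i, (√(1 + a i * v i))⁻¹ * exp (-(a i / 2) * z i ^ 2 / (1 + a i * v i))) *
        ∫ g, G (fun i => z i / (1 + a i * v i) + √(v i / (1 + a i * v i)) * g i) ∂(gpi I) := by
  set c : I → ℝ := fun i => (√(1 + a i * v i))⁻¹ * exp (-(a i / 2) * z i ^ 2 / (1 + a i * v i))
    with hc
  have hc0 : ∀ i, 0 < c i := fun i => by
    have := ha i; have := hv i
    positivity
  set T : I → ℝ → ℝ := fun i t => z i + √(v i) * t with hT
  set T' : I → ℝ → ℝ := fun i t => z i / (1 + a i * v i) + √(v i / (1 + a i * v i)) * t with hT'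
  set ρ : I → ℝ → ℝ := fun i t => (c i)⁻¹ * exp (-(a i / 2) * (T i t) ^ 2) with hρ
  have mT : ∀ i, Measurable (T i) := fun i => by simp only [hT]; fun_prop
  have mT' : ∀ i, Measurable (T' i) := fun i => by simp only [hT']; fun_prop
  have mρ : ∀ i, Measurable (ρ i) := fun i => by have := mT i; simp only [hρ]; fun_prop
  have ρ0 : ∀ i t, 0 ≤ ρ i t := fun i t => by have := hc0 i; positivity
  have ρ1 : ∀ i t, ρ i t ≤ (c i)⁻¹ := fun i t => by
    refine mul_le_of_le_one_right (inv_nonneg.2 (hc0 i).le) (exp_le_one_iff.2 ?_)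
    have := ha i
    nlinarith [sq_nonneg (T i t)]
  have mTT : Measurable fun (g : I → ℝ) i => T i (g i) :=
    measurable_pi_lambda _ fun i => (mT i).comp (measurable_pi_apply i)
  have mTT' : Measurable fun (g : I → ℝ) i => T' i (g i) :=
    measurable_pi_lambda _ fun i => (mT' i).comp (measurable_pi_apply i)
  have mP : Measurable fun g : I → ℝ => ∏ i, ρ i (g i) :=
    Finset.measurable_prod _ fun i _ => (mρ i).comp (measurable_pi_apply i)
  have key : ((gpi I).withDensity fun g => ENNReal.ofReal (∏ i, ρ i (g i))).map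
      (fun g i => T i (g i)) = (gpi I).map (fun g i => T' i (g i)) := by
    have e1 : (gpi I).map (fun g i => T' i (g i)) =
        Measure.pi fun i => (gaussianReal 0 1).map (T' i) :=
      Measure.pi_map_pi fun i => (mT' i).aemeasurable
    rw [e1]
    refine (Measure.pi_eq fun S hS => ?_).symm
    have mS : MeasurableSet (Set.pi Set.univ S) := MeasurableSet.univ_pi hS
    set f : I → ℝ → ℝ := fun i t => (S i).indicator 1 (T i t) * ρ i t with hf
    have mf : ∀ i, Measurable (f i) := fun i =>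
      ((measurable_one.indicator (hS i)).comp (mT i)).mul (mρ i)
    have f0 : ∀ i t, 0 ≤ f i t := fun i t =>
      mul_nonneg (Set.indicator_nonneg (fun _ _ => zero_le_one) _) (ρ0 i t)
    have fi : ∀ i, Integrable (f i) (gaussianReal 0 1) := fun i => by
      refine Integrable.of_bound (mf i).aestronglyMeasurable (c i)⁻¹ (.of_forall fun t => ?_)
      rw [Real.norm_eq_abs, abs_of_nonneg (f0 i t)]
      refine le_trans (mul_le_of_le_one_left (ρ0 i t) ?_) (ρ1 i t)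
      by_cases h : T i t ∈ S i <;> simp [h]
    have e2 : ∀ i, ENNReal.ofReal (∫ t, f i t ∂(gaussianReal 0 1)) =
        (gaussianReal 0 1).map (T' i) (S i) := fun i => by
      have h1 := gauss_tilt (F := (S i).indicator 1) (measurable_one.indicator (hS i)) (ha i)
        (hv i) (z i)
      have h2 : ∫ t, f i t ∂(gaussianReal 0 1) = (c i)⁻¹ * ∫ t, (S i).indicator 1 (T i t) *
          exp (-(a i / 2) * (T i t) ^ 2) ∂(gaussianReal 0 1) := by
        rw [← integral_const_mul]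
        congr 1; funext t
        simp only [hf, hρ]; ring
      have h3 : ∫ t, (S i).indicator (1 : ℝ → ℝ) (T' i t) ∂(gaussianReal 0 1) =
          ((gaussianReal 0 1).map (T' i)).real (S i) := by
        rw [← integral_indicator_one (hS i), integral_map (mT' i).aemeasurable
          (measurable_one.indicator (hS i)).aestronglyMeasurable]
      rw [h2, h1, ← mul_assoc, inv_mul_cancel₀ (hc0 i).ne', one_mul, h3, ofReal_measureReal]
    rw [Measure.map_apply mTT mS, withDensity_apply _ (mTT mS), ← lintegral_indicator (mTT mS)]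
    simp_rw [← e2]
    rw [← ENNReal.ofReal_prod_of_nonneg fun i _ => integral_nonneg (f0 i),
      ← integral_fintype_prod_eq_prod, ofReal_integral_eq_lintegral_ofReal
        (Integrable.fintype_prod fi) (.of_forall fun g => Finset.prod_nonneg fun i _ => f0 i _)]
    refine lintegral_congr fun g => ?_
    by_cases h : ∀ i, T i (g i) ∈ S i
    · rw [Set.indicator_of_mem (by simpa using h)]
      simp [hf, h]
    · rw [Set.indicator_of_notMem (by simpa using h)]
      push Not at h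
      obtain ⟨i, hi⟩ := h
      rw [Finset.prod_eq_zero (Finset.mem_univ i) (by simp [hf, hi]), ENNReal.ofReal_zero]
  have e3 := congrArg (fun μ => ∫ y, G y ∂μ) key
  rw [integral_map mTT.aemeasurable hG.aestronglyMeasurable,
    integral_map mTT'.aemeasurable hG.aestronglyMeasurable,
    integral_withDensity_eq_integral_toReal_smul mP.ennreal_ofReal
      (.of_forall fun _ => ENNReal.ofReal_lt_top)] at e3
  rw [← e3, ← integral_const_mul]
  congr 1; funext g
  rw [ENNReal.toReal_ofReal (Finset.prod_nonneg fun i _ => ρ0 i _), smul_eq_mul, ← mul_assoc,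
    ← Finset.prod_mul_distrib, mul_comm]
  congr 2; funext i
  simp only [hρ]
  rw [← mul_assoc, mul_inv_cancel₀ (hc0 i).ne', one_mul]

theorem x5_lin {I : Type} [Fintype I] (w : I → ℝ) (h : ℝ) {G : ℝ → ℝ} (hG : Measurable G) :
    ∫ g, G (h + ∑ i, w i * g i) ∂(gpi I) =
      ∫ t, G (h + √(∑ i, w i ^ 2) * t) ∂(gaussianReal 0 1) := by
  have h1 := gauss_lin (I := I) (J := Unit) (fun _ => w) (fun _ => ∑ i, w i ^ 2)
    (fun a b => by simp [sq])
  have mG : Measurable fun y : Unit → ℝ => G (h + y ()) := by fun_prop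
  have e3 := congrArg (fun μ => ∫ y, G (h + y ()) ∂μ) h1
  rw [integral_map (Measurable.aemeasurable (by fun_prop)) mG.aestronglyMeasurable,
    integral_map (Measurable.aemeasurable (by fun_prop)) mG.aestronglyMeasurable] at e3
  rw [e3]
  have h2 : MeasurePreserving (fun z : Unit → ℝ => z ()) (gpi Unit) (gaussianReal 0 1) :=
    measurePreserving_eval (fun _ : Unit => gaussianReal 0 1) ()
  rw [← h2.map_eq, integral_map h2.measurable.aemeasurable
    (Measurable.aestronglyMeasurable (by fun_prop))]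

theorem x5_step {k : ℕ} (a z c : Fin k → ℝ) {v : ℝ} (h θ ϑ : ℝ) (ha : ∀ i, 0 ≤ a i) (hv : 0 ≤ v)
    {G : ℝ → ℝ} (hG : Measurable G) :
    ∫ g : Fin k ⊕ Bool → ℝ, G (h + θ * g (Sum.inr false) + ϑ * g (Sum.inr true) -
        ∑ i, c i * (z i + √v * g (Sum.inl i))) *
        exp (∑ i, -(a i / 2) * (z i + √v * g (Sum.inl i)) ^ 2) ∂(gpi (Fin k ⊕ Bool)) =
      (∏ i, (√(1 + a i * v))⁻¹) * exp (∑ i, -(a i / 2) * z i ^ 2 / (1 + a i * v)) *
        ∫ t, G (h - ∑ i, c i * (z i / (1 + a i * v)) +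
          √(θ ^ 2 + ϑ ^ 2 + ∑ i, c i ^ 2 * (v / (1 + a i * v))) * t) ∂(gaussianReal 0 1) := by
  have h1 := x5_tilt (I := Fin k ⊕ Bool) (Sum.elim a fun _ => 0) (Sum.elim (fun _ => v) fun _ => 1)
    (Sum.elim z fun _ => 0) (by rintro (i | i) <;> simp [ha]) (by rintro (i | i) <;> simp [hv])
    (G := fun y => G (h + θ * y (Sum.inr false) + ϑ * y (Sum.inr true) -
      ∑ i, c i * y (Sum.inl i))) (by fun_prop)
  have h2 := x5_lin (I := Fin k ⊕ Bool)
    (Sum.elim (fun i => -c i * √(v / (1 + a i * v))) fun j => if j then ϑ else θ)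
    (h - ∑ i, c i * (z i / (1 + a i * v))) hG
  simp only [Fintype.prod_sum_type, Sum.elim_inl, Sum.elim_inr, zero_div, neg_zero, zero_mul,
    exp_zero, Finset.prod_const_one, mul_one, sqrt_one, one_mul, zero_add, add_zero, inv_one,
    div_one] at h1
  simp only [Fintype.sum_sum_type, Sum.elim_inl, Sum.elim_inr, Fintype.sum_bool, if_true,
    Bool.false_eq_true, if_false] at h2
  simp only [exp_sum]
  rw [h1, Finset.prod_mul_distrib]
  congr 1
  have e1 : ∑ i, (-c i * √(v / (1 + a i * v))) ^ 2 + (ϑ ^ 2 + θ ^ 2) =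
      θ ^ 2 + ϑ ^ 2 + ∑ i, c i ^ 2 * (v / (1 + a i * v)) := by
    have : ∀ i, (-c i * √(v / (1 + a i * v))) ^ 2 = c i ^ 2 * (v / (1 + a i * v)) := fun i => by
      have := ha i
      rw [mul_pow, sq_sqrt (by positivity), neg_sq]
    simp only [this]; ring
  rw [← e1, ← h2]
  congr 1; funext g
  congr 1
  simp only [mul_add, Finset.sum_add_distrib, neg_mul, Finset.sum_neg_distrib, mul_assoc]
  ring

/-- partial sums over the levels `< l` -/
def x5ps {n : ℕ} (w u : Fin n → ℝ) (l : ℕ) : ℝ := ∑ j, if j.val + 1 < l then w j * u j else 0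

theorem x5ps_top {n : ℕ} (w u : Fin n → ℝ) : x5ps w u (n + 1) = ∑ j, w j * u j :=
  Finset.sum_congr rfl fun j _ => if_pos (by have := j.2; omega)

theorem x5ps_one {n : ℕ} (w u : Fin n → ℝ) : x5ps w u 1 = 0 :=
  Finset.sum_eq_zero fun j _ => if_neg (by omega)

theorem x5ps_mix {n : ℕ} (w u u' : Fin n → ℝ) (j0 : Fin n) :
    x5ps w (fun j => if j.val + 1 = j0.val + 1 then u' j else u j) (j0.val + 1 + 1) =
      x5ps w u (j0.val + 1) + w j0 * u' j0 := by
  have : w j0 * u' j0 = ∑ j, if j = j0 then w j * u' j else 0 := by simp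
  rw [this, x5ps, x5ps, ← Finset.sum_add_distrib]
  refine Finset.sum_congr rfl fun j _ => ?_
  rcases lt_trichotomy j.val j0.val with h | h | h
  · rw [if_pos (by omega), if_neg (by omega), if_pos (by omega),
      if_neg (fun e => by rw [e] at h; omega), add_zero]
  · obtain rfl := Fin.ext h
    simp
  · rw [if_neg (by omega), if_neg (by omega), if_neg (fun e => by rw [e] at h; omega), add_zero]

theorem x5_D_nonneg (X : Expo) {Q : ℕ → ℝ} {ρ : ℝ} (hQ : X.Seq Q ρ) {l : ℕ} (hl : 1 ≤ l) :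
    0 ≤ X.D Q l :=
  Finset.sum_nonneg fun c hc => by
    have := Finset.mem_Icc.1 hc
    exact mul_nonneg (X.e_pos c).le (sub_nonneg.2 (hQ.mono c (by omega) this.2))

/-- the explicit value at level `l` -/
noncomputable def x5val (X : Expo) {k : ℕ} (θ ϑ : ℕ → ℝ) (b : ℝ) (Q : ℕ → ℝ) (κ' c : Fin k → ℝ)
    (v : ℕ → ℝ) (l : ℕ) (g : AI X.n k → ℝ) : ℝ :=
  (∑ a, -(κ' a / (1 + κ' a * X.D Q l) / 2) *
      x5ps (fun j => √(Q (j + 2) - Q (j + 1))) (fun j => g (Sum.inl (j, a))) l ^ 2) -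
    (∑ l' ∈ Finset.Icc l X.n, ((∑ a, log (1 + κ' a * X.D Q l')) -
      ∑ a, log (1 + κ' a * X.D Q (l' + 1))) / X.e l') / 2 +
    fL (X.lst v l) (b + x5ps (fun j => θ (j + 1)) (fun j => g (Sum.inr (0, j))) l +
      x5ps (fun j => ϑ (j + 1)) (fun j => g (Sum.inr (2, j))) l -
      ∑ a, c a / (1 + κ' a * X.D Q l) *
        x5ps (fun j => √(Q (j + 2) - Q (j + 1))) (fun j => g (Sum.inl (j, a))) l)

theorem x5_var (X : Expo) {k : ℕ} {Q : ℕ → ℝ} {ρ : ℝ} (hQ : X.Seq Q ρ)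
    (κ' c : Fin k → ℝ) (hκ : ∀ a, 0 ≤ κ' a) {l : ℕ} (h1 : 1 ≤ l) (h2 : l ≤ X.n) :
    (∀ a, 1 + X.e l * (κ' a / (1 + κ' a * X.D Q (l + 1))) * (Q (l + 1) - Q l) =
      (1 + κ' a * X.D Q l) / (1 + κ' a * X.D Q (l + 1))) ∧
    (∑ a, c a ^ 2 * X.D Q l / (1 + κ' a * X.D Q l) -
          ∑ a, c a ^ 2 * X.D Q (l + 1) / (1 + κ' a * X.D Q (l + 1))) / X.e l =
      ∑ a, (c a / (1 + κ' a * X.D Q (l + 1))) ^ 2 * ((Q (l + 1) - Q l) /
        ((1 + κ' a * X.D Q l) / (1 + κ' a * X.D Q (l + 1)))) := by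
  have d1 := x5_D_nonneg X hQ h1
  have d2 := x5_D_nonneg X hQ (l := l + 1) (by omega)
  have hD := X.D_step Q h2
  have he := X.e_pos l
  constructor
  · intro a
    have := hκ a
    rw [hD]
    field_simp
    ring
  · rw [← Finset.sum_sub_distrib, Finset.sum_div]
    refine Finset.sum_congr rfl fun a _ => ?_
    have := hκ a
    have e : Q (l + 1) - Q l = (X.D Q l - X.D Q (l + 1)) / X.e l := by
      rw [hD]; field_simp; ring
    rw [e]
    field_simp
    ring

theorem x5_meas_sg {n k : ℕ} : Measurable fun x : AS n k => sg x.2.2 :=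
  (measurable_of_countable sg).comp (measurable_snd.comp measurable_snd)

theorem x5_X (X : Expo) {k : ℕ} (θ ϑ : ℕ → ℝ) (b : ℝ) {Q : ℕ → ℝ} {ρ : ℝ} (hQ : X.Seq Q ρ)
    (κ' c : Fin k → ℝ) (hκ : ∀ a, 0 ≤ κ' a) {H : AS X.n k → ℝ} (mH : Measurable H)
    (hH : ∀ x, H x = HA θ ϑ b x -
        (∑ a, κ' a * zA Q x a ^ 2 + 2 * sg x.2.2 * ∑ a, c a * zA Q x a) / 2)
    {v : ℕ → ℝ} (hv : ∀ l, v l = θ l ^ 2 + ϑ l ^ 2 +
      (∑ a, c a ^ 2 * X.D Q l / (1 + κ' a * X.D Q l) -
          ∑ a, c a ^ 2 * X.D Q (l + 1) / (1 + κ' a * X.D Q (l + 1))) / X.e l) (d : ℕ) :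
    ∀ l, l + d = X.n + 1 → 1 ≤ l → ∀ x : AS X.n k,
      (aT X k).X H l x = x5val X θ ϑ b Q κ' c v l x.2.1 := by
  have v0 : ∀ l, 1 ≤ l → l ≤ X.n → 0 ≤ v l := fun l h1 h2 => by
    rw [hv, (x5_var X hQ κ' c hκ h1 h2).2]
    have d1 := x5_D_nonneg X hQ h1
    have d2 := x5_D_nonneg X hQ (l := l + 1) (by omega)
    have d3 := sub_nonneg.2 (hQ.mono l h1 h2)
    have : 0 ≤ ∑ a, (c a / (1 + κ' a * X.D Q (l + 1))) ^ 2 * ((Q (l + 1) - Q l) /
        ((1 + κ' a * X.D Q l) / (1 + κ' a * X.D Q (l + 1)))) :=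
      Finset.sum_nonneg fun a _ => by have := hκ a; positivity
    positivity
  induction d with
  | zero =>
    intro l hl _ x
    obtain rfl : l = X.n + 1 := by omega
    refine (X_last mH x).trans ?_
    simp only [x5val, X.D_top, X.lst_top, x5ps_top, mul_zero, add_zero, div_one, fL,
      Finset.Icc_eq_empty (show ¬ (X.n + 1 ≤ X.n) by omega), Finset.sum_empty, zero_div, sub_zero,
      Fintype.card_bool, Fintype.sum_bool, hH, HA, zA, sg, if_true, Bool.false_eq_true, if_false]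
    set Z : Fin k → ℝ := fun a => ∑ j : Fin X.n, √(Q (j + 2) - Q (j + 1)) * x.2.1 (Sum.inl (j, a))
      with hZ
    set h0 := b + ∑ j : Fin X.n, θ (j + 1) * x.2.1 (Sum.inr (0, j)) +
      ∑ j : Fin X.n, ϑ (j + 1) * x.2.1 (Sum.inr (2, j))
    have e1 : ∑ a, -(κ' a / 2) * Z a ^ 2 = -(∑ a, κ' a * Z a ^ 2) / 2 := by
      rw [← Finset.sum_neg_distrib, Finset.sum_div]
      exact Finset.sum_congr rfl fun a _ => by ring
    change log (_ * (exp (1 * h0 - (∑ a, κ' a * Z a ^ 2 + 2 * 1 * ∑ a, c a * Z a) / 2) +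
      exp (-1 * h0 - (∑ a, κ' a * Z a ^ 2 + 2 * -1 * ∑ a, c a * Z a) / 2))) =
      ∑ a, -(κ' a / 2) * Z a ^ 2 + log (cosh (h0 - ∑ a, c a * Z a))
    rw [e1, ← log_exp (-(∑ a, κ' a * Z a ^ 2) / 2), ← log_mul (exp_pos _).ne' (cosh_pos _).ne',
      cosh_eq, ← mul_div_assoc, mul_add (exp _), ← exp_add, ← exp_add]
    have a1 : 1 * h0 - (∑ a, κ' a * Z a ^ 2 + 2 * 1 * ∑ a, c a * Z a) / 2 =
        -(∑ a, κ' a * Z a ^ 2) / 2 + (h0 - ∑ a, c a * Z a) := by ring
    have a2 : -1 * h0 - (∑ a, κ' a * Z a ^ 2 + 2 * -1 * ∑ a, c a * Z a) / 2 =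
        -(∑ a, κ' a * Z a ^ 2) / 2 + -(h0 - ∑ a, c a * Z a) := by ring
    rw [a1, a2]
    congr 1
    push_cast
    ring
  | succ d ih =>
    intro l hl h1 x
    have h2 : l ≤ X.n := by omega
    obtain ⟨j0, rfl⟩ : ∃ j0 : Fin X.n, l = j0.val + 1 := ⟨⟨l - 1, by omega⟩, by simp only; omega⟩
    have ih' := ih (j0.val + 1 + 1) (by omega) (by omega)
    have he := X.e_pos (j0.val + 1)
    obtain ⟨r1, r2⟩ := x5_var X hQ κ' c hκ h1 h2
    have d1 := x5_D_nonneg X hQ h1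
    have d2 := x5_D_nonneg X hQ (l := j0.val + 1 + 1) (by omega)
    have d3 := sub_nonneg.2 (hQ.mono _ h1 h2)
    have hlip : Lip1 (fL (X.lst v (j0.val + 1 + 1))) :=
      fL_lip (X.lst_ok fun l a b => v0 l (by omega) b)
    rw [(aT X k).X_step H (show j0.val + 1 < X.n + 2 by omega)]
    unfold Tower.step
    have mX := (aT X k).measurable_X mH (j0.val + 1 + 1)
    have e0 := integral_mix_mid (X := X) (P := Measure.dirac ()) (lev := alev) (A := Bool)
      (f := fun y : AS X.n k => exp (X.e (j0.val + 1) * (aT X k).X H (j0.val + 1 + 1) y))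
      (by fun_prop) h1 h2 x
    change (X.e (j0.val + 1))⁻¹ * log (∫ y, exp (X.e (j0.val + 1) * (aT X k).X H (j0.val + 1 + 1)
      ((gT X (Measure.dirac ()) alev Bool).mix (j0.val + 1) x y))
        ∂(gT X (Measure.dirac ()) alev Bool).μ) = _
    rw [e0]
    simp only [ih']
    set ι : Fin k ⊕ Bool → AI X.n k := Sum.elim (fun a => Sum.inl (j0, a))
      fun s => Sum.inr (if s then 2 else 0, j0) with hι
    have ιinj : Function.Injective ι := by
      rintro (a | a) (a' | a') h <;> simp only [hι, Sum.elim_inl, Sum.elim_inr] at h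
      · simp_all
      · simp at h
      · simp at h
      · cases a <;> cases a' <;> simp_all
    set ζ : Fin k → ℝ := fun a => x5ps (fun j : Fin X.n => √(Q (j + 2) - Q (j + 1)))
      (fun j => x.2.1 (Sum.inl (j, a))) (j0.val + 1) with hζ
    set h0 := b + x5ps (fun j : Fin X.n => θ (j + 1)) (fun j => x.2.1 (Sum.inr (0, j))) (j0.val + 1) +
      x5ps (fun j : Fin X.n => ϑ (j + 1)) (fun j => x.2.1 (Sum.inr (2, j))) (j0.val + 1) with hh0
    set C := (∑ l' ∈ Finset.Icc (j0.val + 1 + 1) X.n, ((∑ a, log (1 + κ' a * X.D Q l')) -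
      ∑ a, log (1 + κ' a * X.D Q (l' + 1))) / X.e l') / 2 with hC
    set e := X.e (j0.val + 1) with hee
    set w := Q (j0.val + 1 + 1) - Q (j0.val + 1) with hw
    set G : ℝ → ℝ := fun t => exp (e * fL (X.lst v (j0.val + 1 + 1)) t) with hG
    have mG : Measurable G := by
      have := hlip.continuous.measurable
      simp only [hG]; fun_prop
    set Ψ : (Fin k ⊕ Bool → ℝ) → ℝ := fun g => G (h0 + θ (j0.val + 1) * g (Sum.inr false) +
        ϑ (j0.val + 1) * g (Sum.inr true) - ∑ i, c i / (1 + κ' i * X.D Q (j0.val + 1 + 1)) *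
          (ζ i + √w * g (Sum.inl i))) *
        exp (∑ i, -(e * (κ' i / (1 + κ' i * X.D Q (j0.val + 1 + 1))) / 2) *
          (ζ i + √w * g (Sum.inl i)) ^ 2) with hΨ
    have mΨ : Measurable Ψ := by simp only [hΨ]; fun_prop
    have e1 : ∀ g : AI X.n k → ℝ, exp (e * x5val X θ ϑ b Q κ' c v (j0.val + 1 + 1)
        (mixg alev (j0.val + 1) x.2.1 g)) = exp (-(e * C)) * Ψ (fun a => g (ι a)) := by
      intro g
      have m1 : ∀ a, x5ps (fun j : Fin X.n => √(Q (j + 2) - Q (j + 1)))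
          (fun j => mixg alev (j0.val + 1) x.2.1 g (Sum.inl (j, a))) (j0.val + 1 + 1) =
          ζ a + √w * g (Sum.inl (j0, a)) := fun a =>
        x5ps_mix _ (fun j => x.2.1 (Sum.inl (j, a))) (fun j => g (Sum.inl (j, a))) j0
      have m2 : ∀ (i : Fin 3) (t : ℕ → ℝ), x5ps (fun j : Fin X.n => t (j + 1))
          (fun j => mixg alev (j0.val + 1) x.2.1 g (Sum.inr (i, j))) (j0.val + 1 + 1) =
          x5ps (fun j : Fin X.n => t (j + 1)) (fun j => x.2.1 (Sum.inr (i, j))) (j0.val + 1) +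
            t (j0.val + 1) * g (Sum.inr (i, j0)) := fun i t =>
        x5ps_mix _ (fun j => x.2.1 (Sum.inr (i, j))) (fun j => g (Sum.inr (i, j))) j0
      simp only [x5val, m1, m2, hΨ, hG, hι, Sum.elim_inl, Sum.elim_inr, if_true,
        Bool.false_eq_true, if_false, ← exp_add]
      congr 1
      rw [mul_add, mul_sub, Finset.mul_sum, ← hC]
      have s1 : ∑ i, e * (-(κ' i / (1 + κ' i * X.D Q (j0.val + 1 + 1)) / 2) *
          (ζ i + √w * g (Sum.inl (j0, i))) ^ 2) =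
          ∑ i, -(e * (κ' i / (1 + κ' i * X.D Q (j0.val + 1 + 1))) / 2) *
          (ζ i + √w * g (Sum.inl (j0, i))) ^ 2 := Finset.sum_congr rfl fun a _ => by ring
      have a3 : ∀ A B : ℝ, b + (x5ps (fun j : Fin X.n => θ (j + 1))
          (fun j => x.2.1 (Sum.inr (0, j))) (j0.val + 1) + A) + (x5ps (fun j : Fin X.n => ϑ (j + 1))
          (fun j => x.2.1 (Sum.inr (2, j))) (j0.val + 1) + B) = h0 + A + B := fun A B => by
        rw [hh0]; ring
      rw [s1, a3]
      ring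
    simp only [e1]
    rw [integral_const_mul, ← integral_map (f := Ψ) (φ := fun (g : AI X.n k → ℝ) a => g (ι a))
      (Measurable.aemeasurable (by fun_prop)) mΨ.aestronglyMeasurable, gpi_map_inj ι ιinj]
    simp only [hΨ]
    rw [x5_step (fun i => e * (κ' i / (1 + κ' i * X.D Q (j0.val + 1 + 1)))) ζ _ h0 _ _
      (fun i => by have := hκ i; positivity) d3 mG]
    simp only [r1]
    rw [← r2, ← hv]
    have p1 : ∀ a, 0 < 1 + κ' a * X.D Q (j0.val + 1) := fun a => by have := hκ a; positivity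
    have p2 : ∀ a, 0 < 1 + κ' a * X.D Q (j0.val + 1 + 1) := fun a => by have := hκ a; positivity
    have s2 : ∑ i, c i / (1 + κ' i * X.D Q (j0.val + 1 + 1)) * (ζ i /
        ((1 + κ' i * X.D Q (j0.val + 1)) / (1 + κ' i * X.D Q (j0.val + 1 + 1)))) =
        ∑ i, c i / (1 + κ' i * X.D Q (j0.val + 1)) * ζ i := Finset.sum_congr rfl fun a _ => by
      have := p1 a; have := p2 a
      field_simp
    have s3 : ∑ i, -(e * (κ' i / (1 + κ' i * X.D Q (j0.val + 1 + 1))) / 2) * ζ i ^ 2 /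
        ((1 + κ' i * X.D Q (j0.val + 1)) / (1 + κ' i * X.D Q (j0.val + 1 + 1))) =
        e * ∑ i, -(κ' i / (1 + κ' i * X.D Q (j0.val + 1)) / 2) * ζ i ^ 2 := by
      rw [Finset.mul_sum]
      refine Finset.sum_congr rfl fun a _ => ?_
      have := p1 a; have := p2 a
      field_simp
    have s4 : log (∏ i, (√((1 + κ' i * X.D Q (j0.val + 1)) /
        (1 + κ' i * X.D Q (j0.val + 1 + 1))))⁻¹) = -((∑ a, log (1 + κ' a * X.D Q (j0.val + 1))) -
          ∑ a, log (1 + κ' a * X.D Q (j0.val + 1 + 1))) / 2 := by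
      rw [log_prod fun a _ => by have := p1 a; have := p2 a; positivity,
        ← Finset.sum_sub_distrib, ← Finset.sum_neg_distrib, Finset.sum_div]
      refine Finset.sum_congr rfl fun a _ => ?_
      have := p1 a; have := p2 a
      rw [log_inv, log_sqrt (by positivity), log_div (p1 a).ne' (p2 a).ne']
      ring
    rw [s2, s3]
    have ipos : 0 < ∫ t, G (h0 - ∑ i, c i / (1 + κ' i * X.D Q (j0.val + 1)) * ζ i +
        √(v (j0.val + 1)) * t) ∂(gaussianReal 0 1) :=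
      integral_exp_pos (hlip.integrable_exp _ _ _)
    have ppos : 0 < ∏ i, (√((1 + κ' i * X.D Q (j0.val + 1)) /
        (1 + κ' i * X.D Q (j0.val + 1 + 1))))⁻¹ :=
      Finset.prod_pos fun a _ => by have := p1 a; have := p2 a; positivity
    rw [log_mul (exp_pos _).ne' (by positivity), log_mul (by positivity) ipos.ne',
      log_mul ppos.ne' (exp_pos _).ne', log_exp, log_exp, s4]
    simp only [x5val]
    rw [X.lst_step v h2, ← Finset.insert_Icc_add_one_left_eq_Icc h2,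
      Finset.sum_insert (by simp), fL, gaussOp, if_neg he.ne', add_div, ← hC]
    have fin : ∀ A B D : ℝ, e⁻¹ * (-(e * C) + (-A / 2 + e * B + D)) =
        B - (A / e / 2 + C) + e⁻¹ * D := fun A B D => by
      field_simp
      ring
    exact fin _ _ _

theorem x5_uniq {f : ℝ → ℝ} {d T C : ℝ} (hd : HasDerivAt f d 0)
    (h : ∀ δ, 0 < δ → δ ≤ 1 → |f δ - f 0 - δ * T| ≤ C * (δ * √δ)) : d = T := by
  have h1 := (hasDerivAt_iff_tendsto_slope_zero.1 hd).mono_left
    (nhdsWithin_mono (0 : ℝ) (show Set.Ioi (0 : ℝ) ⊆ {0}ᶜ from fun x hx => ne_of_gt hx))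
  refine tendsto_nhds_unique h1 ?_
  rw [tendsto_iff_norm_sub_tendsto_zero]
  have h2 : Filter.Tendsto (fun δ : ℝ => C * √δ) (nhdsWithin 0 (Set.Ioi 0)) (nhds 0) := by
    have : Continuous fun δ : ℝ => C * √δ := by fun_prop
    simpa using (this.tendsto 0).mono_left nhdsWithin_le_nhds
  refine squeeze_zero' (.of_forall fun _ => norm_nonneg _) ?_ h2
  filter_upwards [Ioo_mem_nhdsGT (show (0 : ℝ) < 1 by norm_num)] with δ hδ
  have h3 := h δ hδ.1 hδ.2.le
  have h0 := hδ.1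
  have h4 : δ⁻¹ • (f (0 + δ) - f 0) - T = δ⁻¹ * (f δ - f 0 - δ * T) := by
    rw [zero_add, smul_eq_mul]; field_simp
  rw [h4, Real.norm_eq_abs, abs_mul, abs_of_pos (inv_pos.2 h0), inv_mul_le_iff₀ h0]
  linarith

/-- With `β_l = D Q l`, `κ_l = κ'/(1+κ'β_l)`, `c_l = c/(1+κ'β_l)` and the partial sums `ζ, h` of the
fields over the levels `< l`, by downward induction on `1 ≤ l ≤ n+1`:
`X_l = -½ Σ_a κ_{l a} ζ_a² - ½ Σ_{l' ≥ l} (Σ_a log (1+κ'β_{l'}) - log (1+κ'β_{l'+1}))/e_{l'}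
+ fL (X.lst v l) (h - Σ_a c_{l a} ζ_a)`
(`X_last`; `integral_mix_mid`, the multidimensional version of `gauss_tilt` with `a = e_l κ_{l+1}`,
`1 + e_l v_l κ_{l+1} = (1+κ'β_l)/(1+κ'β_{l+1})`, and `gauss_lin` for the remaining linear form). -/
theorem aux_value (X : Expo) {k : ℕ} (θ ϑ : ℕ → ℝ) (b : ℝ) {Q : ℕ → ℝ} {ρ : ℝ} (hQ : X.Seq Q ρ)
    (κ' c : Fin k → ℝ) (hκ : ∀ a, 0 ≤ κ' a) :
    (aT X k).A (fun x => HA θ ϑ b x -
        (∑ a, κ' a * zA Q x a ^ 2 + 2 * sg x.2.2 * ∑ a, c a * zA Q x a) / 2) =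
      -X.Gam (fun l => ∑ a, log (1 + κ' a * X.D Q l)) / 2 +
        X.Phi (fun l => θ l ^ 2 + ϑ l ^ 2 + (∑ a, c a ^ 2 * X.D Q l / (1 + κ' a * X.D Q l) -
          ∑ a, c a ^ 2 * X.D Q (l + 1) / (1 + κ' a * X.D Q (l + 1))) / X.e l) b := by
  have mH : Measurable fun x : AS X.n k => HA θ ϑ b x -
      (∑ a, κ' a * zA Q x a ^ 2 + 2 * sg x.2.2 * ∑ a, c a * zA Q x a) / 2 := by
    have m1 := (lg_HA (X := X) (k := k) θ ϑ b).1
    have m2 := fun a => (lg_zA (X := X) (k := k) Q a).1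
    have m3 := x5_meas_sg (n := X.n) (k := k)
    fun_prop
  have h1 := x5_X X θ ϑ b hQ κ' c hκ mH (fun _ => rfl) (fun _ => rfl) X.n 1 (by omega) le_rfl
  have h2 := A_eq_of_lev_pos (X := X) (P := Measure.dirac ()) (lev := alev) (A := Bool) mH
    (by rintro (q | q) <;> simp [alev]) true
  refine h2.trans ?_
  rw [integral_dirac, log_exp, ← mul_assoc, inv_mul_cancel₀ X.m_pos.ne', one_mul]
  refine (h1 _).trans ?_
  simp only [x5val, x5ps_one, Expo.Gam, Expo.Phi, mul_zero, Finset.sum_const_zero, add_zero,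
    sub_zero, ne_eq, OfNat.ofNat_ne_zero, not_false_eq_true, zero_pow, zero_sub, neg_div]

theorem aux_value_zero (X : Expo) (k : ℕ) (θ ϑ : ℕ → ℝ) (b : ℝ) :
    (aT X k).A (HA θ ϑ b) = X.Phi (fun l => θ l ^ 2 + ϑ l ^ 2) b := by
  have h := aux_value X (k := k) θ ϑ b (Q := fun _ => 0) (ρ := 0)
    ⟨rfl, fun _ _ _ => le_rfl, le_rfl⟩ (fun _ => 0) (fun _ => 0) (fun _ => le_rfl)
  simpa [Expo.Gam] using h

theorem Phi_zero (X : Expo) : X.Phi (fun _ => 0) 0 = 0 := by
  have key : ∀ L : List (ℝ × ℝ), (∀ q ∈ L, q.2 = 0) → fL L = fun z => log (cosh z) := by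
    intro L
    induction L with
    | nil => intro _; rfl
    | cons q L ih =>
      intro h
      rw [fL, h q List.mem_cons_self, gaussOp_zero]
      exact ih fun q hq => h q (List.mem_cons_of_mem _ hq)
  rw [Expo.Phi, key]
  · simp
  · intro q hq
    obtain ⟨l, -, rfl⟩ := List.mem_map.1 hq
    rfl

theorem Phi_bound (X : Expo) {v : ℕ → ℝ} (hv : ∀ l, 1 ≤ l → l ≤ X.n → 0 ≤ v l) (b : ℝ) :
    |X.Phi v b| ≤ |b| + 1 + (∑ l ∈ Finset.Icc 1 X.n, v l) / 2 := by
  have hL := X.lst_ok (a := 1) hv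
  have h1 := fL_ge hL b
  have h2 := fL_le hL b
  rw [X.lst_sum v 1 (fun q => q.1 * q.2)] at h1
  rw [X.lst_sum v 1 (fun q => q.2)] at h2
  have h3 := o1_logcosh_le b 0
  have h4 : 0 ≤ ∑ l ∈ Finset.Icc 1 X.n, X.e l * v l := Finset.sum_nonneg fun l hl =>
    mul_nonneg (X.e_pos l).le (hv l (Finset.mem_Icc.1 hl).1 (Finset.mem_Icc.1 hl).2)
  have h5 : 0 ≤ ∑ l ∈ Finset.Icc 1 X.n, v l := Finset.sum_nonneg fun l hl =>
    hv l (Finset.mem_Icc.1 hl).1 (Finset.mem_Icc.1 hl).2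
  have h6 : log 2 ≤ 1 := by have := log_two_lt_d9; linarith
  have h7 := abs_nonneg b
  simp only [cosh_zero, log_one, sub_zero, zero_add] at h3 h1 h2
  rw [Expo.Phi, abs_le]
  constructor <;> linarith

/-- `taylor2` in the auxiliary tower (`θ = √v`, extra field at level `l`), and uniqueness of the
derivative -/
theorem Phi_taylor (X : Expo) {v : ℕ → ℝ} (hv : ∀ l, 1 ≤ l → l ≤ X.n → 0 ≤ v l) (b : ℝ) {l : ℕ}
    (h1 : 1 ≤ l) (h2 : l ≤ X.n) {d : ℝ}
    (hd : HasDerivAt (fun δ => X.Phi (Function.update v l (v l + δ)) b) d 0) {ϑ : ℝ}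
    (hϑ : |ϑ| ≤ 1) :
    |X.Phi (Function.update v l (v l + ϑ ^ 2)) b - X.Phi v b - ϑ ^ 2 * d| ≤ 10 * |ϑ| ^ 3 := by
  classical
  obtain ⟨j0, rfl⟩ : ∃ j0 : Fin X.n, l = j0.val + 1 := ⟨⟨l - 1, by omega⟩, by simp only; omega⟩
  have e0 : (aT X 0).A (HA (fun l => √(v l)) (fun _ => 0) b) = X.Phi v b := by
    rw [aux_value_zero, Expo.Phi, Expo.Phi, X.lst_congr (v' := v)]
    intro l h1 h2
    simp [sq_sqrt (hv l h1 h2)]
  have e1 : ∀ t : ℝ, (aT X 0).A (fun x => HA (fun l => √(v l)) (fun _ => 0) b x +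
      t * (x.2.1 (Sum.inr (2, j0)) * sg x.2.2)) =
      X.Phi (Function.update v (j0.val + 1) (v (j0.val + 1) + t ^ 2)) b := fun t => by
    have : (fun x : AS X.n 0 => HA (fun l => √(v l)) (fun _ => 0) b x +
        t * (x.2.1 (Sum.inr (2, j0)) * sg x.2.2)) =
        HA (fun l => √(v l)) (fun l => if l = j0.val + 1 then t else 0) b := by
      funext x
      have : ∑ l : Fin X.n, (if l.val + 1 = j0.val + 1 then t else 0) * x.2.1 (Sum.inr (2, l)) =
          t * x.2.1 (Sum.inr (2, j0)) := by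
        rw [Finset.sum_eq_single j0 (fun l _ hl => by
          rw [if_neg (fun e => hl (Fin.ext (by omega))), zero_mul]) (by simp), if_pos rfl]
      simp only [HA, this, zero_mul, Finset.sum_const_zero]
      ring
    rw [this, aux_value_zero, Expo.Phi, Expo.Phi]
    congr 1
    refine X.lst_congr fun l h1 h2 => ?_
    by_cases hl : l = j0.val + 1
    · subst hl; simp [sq_sqrt (hv _ h1 h2)]
    · simp [hl, sq_sqrt (hv l h1 h2)]
  obtain ⟨T, hT⟩ : ∃ T : ℝ, ∀ t : ℝ, |t| ≤ 1 →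
      |X.Phi (Function.update v (j0.val + 1) (v (j0.val + 1) + t ^ 2)) b - X.Phi v b -
        t ^ 2 * T| ≤ 10 * |t| ^ 3 := by
    refine ⟨(1 - X.tau (fun r => ∫ y, ((aT X 0).E (HA (fun l => √(v l)) (fun _ => 0) b) r
      (fun x => sg x.2.2) y) ^ 2 ∂((aT X 0).PP (HA (fun l => √(v l)) (fun _ => 0) b)))
        (j0.val + 1)) / 2, fun t ht => ?_⟩
    have h := taylor2 (X := X) (P := Measure.dirac ()) (lev := alev) (A := Bool)
      (Sum.inr (2, j0) : AI X.n 0) (lg_HA (fun l => √(v l)) (fun _ => 0) b) x5_meas_sg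
      (fun x => sg_sq _) (fun s x => by simp [HA, shift, Function.update_of_ne])
      (fun s x => rfl) ht
    rw [← e0, ← e1, mul_div_assoc', ← div_mul_eq_mul_div]
    exact h
  have : d = T := by
    refine x5_uniq (C := 10) hd fun δ h0 h1 => ?_
    have h3 := hT (√δ) (by rw [abs_of_nonneg (sqrt_nonneg _)]; exact sqrt_le_one.2 h1)
    rw [sq_sqrt h0.le, abs_of_nonneg (sqrt_nonneg _), pow_succ, sq_sqrt h0.le] at h3
    simpa using h3
  rw [this]
  exact hT ϑ hϑ

/-- `A_add_bdd` in the auxiliary tower, and uniqueness of the derivative (`fL_hasDerivAt`) -/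
theorem Phi_taylor_b (X : Expo) {v : ℕ → ℝ} (hv : ∀ l, 1 ≤ l → l ≤ X.n → 0 ≤ v l) (b : ℝ) {δ : ℝ}
    (hδ : |δ| ≤ 1) : |X.Phi v (b + δ) - X.Phi v b - δ * ML (X.lst v 1) b| ≤ δ ^ 2 := by
  have e0 : ∀ b : ℝ, (aT X 0).A (HA (fun l => √(v l)) (fun _ => 0) b) = X.Phi v b := fun b => by
    rw [aux_value_zero, Expo.Phi, Expo.Phi, X.lst_congr (v' := v)]
    intro l h1 h2
    simp [sq_sqrt (hv l h1 h2)]
  obtain ⟨T, hT⟩ : ∃ T : ℝ, ∀ t : ℝ, |t| ≤ 1 → |X.Phi v (b + t) - X.Phi v b - t * T| ≤ t ^ 2 := by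
    refine ⟨∫ y, sg y.2.2 ∂((aT X 0).PP (HA (fun l => √(v l)) (fun _ => 0) b)), fun t ht => ?_⟩
    have h := Tower.A_add_bdd (lg_HA (X := X) (k := 0) (fun l => √(v l)) (fun _ => 0) b) x5_meas_sg
      (fun x => (abs_sg _).le) ht
    have : (fun y : AS X.n 0 => HA (fun l => √(v l)) (fun _ => 0) b y + t * sg y.2.2) =
        HA (fun l => √(v l)) (fun _ => 0) (b + t) := by
      funext x
      simp only [HA]
      ring
    rw [this, e0, e0] at h
    rw [abs_of_nonneg h.1]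
    exact h.2
  have hd : HasDerivAt (fun t => X.Phi v (b + t)) (ML (X.lst v 1) b) 0 := by
    have h := (fL_hasDerivAt (X.lst_ok (a := 1) hv) (b + 0)).comp_const_add b 0
    rwa [add_zero] at h
  have : ML (X.lst v 1) b = T := by
    refine x5_uniq (C := 1) hd fun δ h0 h1 => ?_
    have h3 := hT δ (by rwa [abs_of_pos h0])
    rw [add_zero]
    refine h3.trans ?_
    rw [one_mul, sq]
    gcongr
    exact le_sqrt_of_sq_le (by nlinarith)
  rw [this]
  exact hT δ hδ

end Crest.Agent.R164
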