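import Crest.Agent.R164.X1

/-! # The cavity quadratic form with a floor -/

set_option autoImplicit false
set_option linter.unusedVariables false
set_option linter.unusedSectionVars false

open MeasureTheory ProbabilityTheory Real Crest.ProbabilityR.InvariantGlass
open scoped ENNReal

namespace Crest.Agent.R164

theorem Vq_nonpos {P k : ℕ} {κ : Fin P → ℝ} (hκ : ∀ b, 0 ≤ κ b) (Bm : Fin P → Fin k → ℝ)
    (w : Fin P → ℝ) (y : Fin k → ℝ) (ε : Bool) : Vq κ Bm w y ε ≤ 0 := by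
  have : 0 ≤ ∑ b, κ b * (∑ a, Bm b a * y a + w b * sg ε) ^ 2 :=
    Finset.sum_nonneg fun b _ => mul_nonneg (hκ b) (sq_nonneg _)
  unfold Vq
  linarith

theorem Vq_ge {P k : ℕ} {κ : Fin P → ℝ} {Λ : ℝ} (hΛ : 0 ≤ Λ) (hκ : ∀ b, 0 ≤ κ b ∧ κ b ≤ Λ)
    {Bm : Fin P → Fin k → ℝ} (hB : ∀ a, ∑ b, Bm b a ^ 2 ≤ 1) {w : Fin P → ℝ}
    (hw : ∑ b, w b ^ 2 ≤ 1) (y : Fin k → ℝ) (ε : Bool) :
    -(Λ * (k + 1) * (1 + ∑ a, y a ^ 2)) ≤ Vq κ Bm w y ε := by
  have h1 : ∀ b, κ b * (∑ a, Bm b a * y a + w b * sg ε) ^ 2 ≤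
      Λ * (2 * (k * ∑ a, Bm b a ^ 2 * y a ^ 2) + 2 * w b ^ 2) := fun b => by
    have e1 : (∑ a, Bm b a * y a) ^ 2 ≤ k * ∑ a, Bm b a ^ 2 * y a ^ 2 := by
      have := sq_sum_le_card_mul_sum_sq (s := (Finset.univ : Finset (Fin k)))
        (f := fun a => Bm b a * y a)
      simpa only [Finset.card_univ, Fintype.card_fin, mul_pow] using this
    have e2 : (w b * sg ε) ^ 2 = w b ^ 2 := by rw [mul_pow, sg_sq, mul_one]
    have e3 : (∑ a, Bm b a * y a + w b * sg ε) ^ 2 ≤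
        2 * (k * ∑ a, Bm b a ^ 2 * y a ^ 2) + 2 * w b ^ 2 := by
      nlinarith [sq_nonneg (∑ a, Bm b a * y a - w b * sg ε)]
    exact mul_le_mul (hκ b).2 e3 (sq_nonneg _) hΛ
  have h2 : ∑ b, ∑ a, Bm b a ^ 2 * y a ^ 2 ≤ ∑ a, y a ^ 2 := by
    rw [Finset.sum_comm]
    refine Finset.sum_le_sum fun a _ => ?_
    rw [← Finset.sum_mul]
    exact mul_le_of_le_one_left (sq_nonneg _) (hB a)
  have h3 := Finset.sum_le_sum fun b (_ : b ∈ Finset.univ) => h1 b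
  rw [← Finset.mul_sum, Finset.sum_add_distrib, ← Finset.mul_sum, ← Finset.mul_sum,
    ← Finset.mul_sum] at h3
  have hk : (0 : ℝ) ≤ k := Nat.cast_nonneg k
  have hy : 0 ≤ ∑ a, y a ^ 2 := Finset.sum_nonneg fun a _ => sq_nonneg _
  have h4 : 2 * (k * ∑ b, ∑ a, Bm b a ^ 2 * y a ^ 2) + 2 * ∑ b, w b ^ 2 ≤
      2 * ((k + 1) * (1 + ∑ a, y a ^ 2)) := by
    have := mul_le_mul_of_nonneg_left h2 hk
    nlinarith
  have h5 := mul_le_mul_of_nonneg_left h4 hΛ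
  unfold Vq
  nlinarith

theorem continuous_Vq {P k : ℕ} (κ : Fin P → ℝ) (Bm : Fin P → Fin k → ℝ) (w : Fin P → ℝ)
    (ε : Bool) : Continuous (fun y => Vq κ Bm w y ε) := by
  unfold Vq
  fun_prop

theorem X6_contDiff_Vq {P k : ℕ} (κ : Fin P → ℝ) (Bm : Fin P → Fin k → ℝ) (w : Fin P → ℝ)
    (ε : Bool) : ContDiff ℝ 2 (fun y => Vq κ Bm w y ε) := by
  unfold Vq
  fun_prop

/-- the linear part of the `b`-th form -/
noncomputable def X6_lin {P k : ℕ} (Bm : Fin P → Fin k → ℝ) (b : Fin P) :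
    (Fin k → ℝ) →L[ℝ] ℝ := ∑ a, Bm b a • ContinuousLinearMap.proj a

theorem X6_lin_apply {P k : ℕ} (Bm : Fin P → Fin k → ℝ) (b : Fin P) (y : Fin k → ℝ) :
    X6_lin Bm b y = ∑ a, Bm b a * y a := by
  simp [X6_lin]

theorem X6_lin_single {P k : ℕ} (Bm : Fin P → Fin k → ℝ) (b : Fin P) (a : Fin k) :
    X6_lin Bm b (Pi.single a 1) = Bm b a := by
  simp [X6_lin_apply, Pi.single_apply]

theorem X6_hasL {P k : ℕ} (Bm : Fin P → Fin k → ℝ) (b : Fin P) (c : ℝ) (y : Fin k → ℝ) :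
    HasFDerivAt (fun y : Fin k → ℝ => ∑ a, Bm b a * y a + c) (X6_lin Bm b) y := by
  have := (X6_lin Bm b).hasFDerivAt (x := y) |>.add_const c
  simpa only [X6_lin_apply] using this

theorem X6_hasV {P k : ℕ} (κ : Fin P → ℝ) (Bm : Fin P → Fin k → ℝ) (w : Fin P → ℝ) (ε : Bool)
    (y : Fin k → ℝ) : HasFDerivAt (fun y => Vq κ Bm w y ε)
      (∑ b, (-(κ b * (∑ a, Bm b a * y a + w b * sg ε))) • X6_lin Bm b) y := by
  have h1 : ∀ b ∈ (Finset.univ : Finset (Fin P)), HasFDerivAt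
      (fun y : Fin k → ℝ => -(1 / 2) * (κ b * (∑ a, Bm b a * y a + w b * sg ε) ^ 2))
      ((-(κ b * (∑ a, Bm b a * y a + w b * sg ε))) • X6_lin Bm b) y := fun b _ => by
    have h2 : HasDerivAt (fun t : ℝ => -(1 / 2) * (κ b * t ^ 2))
        (-(κ b * (∑ a, Bm b a * y a + w b * sg ε))) (∑ a, Bm b a * y a + w b * sg ε) := by
      refine (((hasDerivAt_pow 2 (∑ a, Bm b a * y a + w b * sg ε)).const_mul (κ b)).const_mul
        (-(1 / 2))).congr_deriv ?_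
      simp only [Nat.cast_ofNat, Nat.add_one_sub_one, pow_one]
      ring
    have h3 := h2.comp_hasFDerivAt y (X6_hasL Bm b (w b * sg ε) y)
    exact h3
  have h3 := HasFDerivAt.fun_sum h1
  simpa only [Vq, Finset.mul_sum] using h3

theorem X6_hasD {P k : ℕ} (κ : Fin P → ℝ) (Bm : Fin P → Fin k → ℝ) (w : Fin P → ℝ) (ε : Bool)
    (a : Fin k) (y : Fin k → ℝ) : HasFDerivAt
      (fun y : Fin k → ℝ => ∑ b, -(κ b * (∑ a, Bm b a * y a + w b * sg ε)) * Bm b a)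
      (∑ b, (-(κ b * Bm b a)) • X6_lin Bm b) y := by
  refine HasFDerivAt.fun_sum fun b _ => ?_
  have h2 : HasDerivAt (fun t : ℝ => -(κ b * t) * Bm b a) (-(κ b * Bm b a))
      (∑ a, Bm b a * y a + w b * sg ε) := by
    refine ((((hasDerivAt_id (∑ a, Bm b a * y a + w b * sg ε)).const_mul (κ b)).neg).mul_const
      (Bm b a)).congr_deriv ?_
    ring
  have h3 := h2.comp_hasFDerivAt y (X6_hasL Bm b (w b * sg ε) y)
  exact h3

theorem X6_hasPhi {τ : ℝ} (hτ : 0 < τ) (t : ℝ) :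
    HasDerivAt (fun t => log (exp t + τ)) (exp t / (exp t + τ)) t :=
  ((hasDerivAt_exp t).add_const τ).log (by positivity)

theorem X6_hasS {τ : ℝ} (hτ : 0 < τ) (t : ℝ) :
    HasDerivAt (fun t => exp t / (exp t + τ))
      (exp t / (exp t + τ) * (1 - exp t / (exp t + τ))) t := by
  have h0 : exp t + τ ≠ 0 := by positivity
  refine ((hasDerivAt_exp t).fun_div ((hasDerivAt_exp t).add_const τ) h0).congr_deriv ?_
  field_simp

theorem X6_s_mul {τ : ℝ} (hτ : 0 < τ) (t : ℝ) : exp t / (exp t + τ) * (-t) ≤ 1 / τ := by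
  have h1 : exp t * (-t) ≤ 1 := by
    have h2 : -t ≤ exp (-t) := by linarith [add_one_le_exp (-t)]
    calc exp t * (-t) ≤ exp t * exp (-t) := mul_le_mul_of_nonneg_left h2 (exp_pos t).le
      _ = 1 := by rw [← exp_add]; simp
  rw [div_mul_eq_mul_div, div_le_div_iff₀ (by positivity) hτ]
  nlinarith [exp_pos t]

/-- `ψ = log (e^V + τ)`, `∂ψ = s ∂V`, `∂²ψ = s ∂²V + s (1 - s) (∂V)²` with `s = e^V/(e^V + τ)`,
`|∂²V| ≤ Λ`, `(∂V)² ≤ 2 Λ (-V)`, `(-V) s ≤ (-V) e^V/τ ≤ 1/τ`. -/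
theorem psi_floor {Λ τ : ℝ} (hΛ : 0 ≤ Λ) (hτ : 0 < τ) : ∃ B : ℝ, 0 ≤ B ∧
    ∀ (P k : ℕ) (κ : Fin P → ℝ) (Bm : Fin P → Fin k → ℝ) (w : Fin P → ℝ),
    (∀ b, 0 ≤ κ b ∧ κ b ≤ Λ) → (∀ a, ∑ b, Bm b a ^ 2 ≤ 1) →
    Psi (fun y ε => log (exp (Vq κ Bm w y ε) + τ)) B := by
  have hq : 0 ≤ 2 * Λ * (1 / τ) := by positivity
  refine ⟨|log τ| + |log (1 + τ)| + 1 + Λ + 2 * Λ * (1 / τ), by positivity, ?_⟩
  intro P k κ Bm w hκ hB
  have hV0 := Vq_nonpos (fun b => (hκ b).1) Bm w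
  have hl1 := abs_nonneg (log τ)
  have hl2 := abs_nonneg (log (1 + τ))
  -- the first derivative
  have hd1 : ∀ ε a, (fun y => fderiv ℝ (fun y => log (exp (Vq κ Bm w y ε) + τ)) y (Pi.single a 1))
      = fun y => exp (Vq κ Bm w y ε) / (exp (Vq κ Bm w y ε) + τ) *
        ∑ b, -(κ b * (∑ a, Bm b a * y a + w b * sg ε)) * Bm b a := fun ε a => by
    funext y
    have h := (X6_hasPhi hτ (Vq κ Bm w y ε)).comp_hasFDerivAt y (X6_hasV κ Bm w ε y)
    have h' : HasFDerivAt (fun y => log (exp (Vq κ Bm w y ε) + τ)) _ y := h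
    rw [h'.fderiv]
    simp only [smul_apply, sum_apply, X6_lin_single,
      smul_eq_mul]
  have hκB : ∀ a, 0 ≤ ∑ b, κ b * Bm b a ^ 2 ∧ ∑ b, κ b * Bm b a ^ 2 ≤ Λ := fun a => by
    refine ⟨Finset.sum_nonneg fun b _ => mul_nonneg (hκ b).1 (sq_nonneg _), ?_⟩
    calc ∑ b, κ b * Bm b a ^ 2 ≤ ∑ b, Λ * Bm b a ^ 2 :=
          Finset.sum_le_sum fun b _ => mul_le_mul_of_nonneg_right (hκ b).2 (sq_nonneg _)
      _ ≤ Λ := by
          rw [← Finset.mul_sum]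
          exact mul_le_of_le_one_right hΛ (hB a)
  have hD : ∀ y ε a, (∑ b, -(κ b * (∑ a, Bm b a * y a + w b * sg ε)) * Bm b a) ^ 2 ≤
      2 * Λ * (-Vq κ Bm w y ε) := fun y ε a => by
    have h1 := Finset.sum_sq_le_sum_mul_sum_of_sq_le_mul (Finset.univ : Finset (Fin P))
      (r := fun b => -(κ b * (∑ a, Bm b a * y a + w b * sg ε)) * Bm b a)
      (f := fun b => κ b * (∑ a, Bm b a * y a + w b * sg ε) ^ 2)
      (g := fun b => κ b * Bm b a ^ 2)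
      (fun b _ => mul_nonneg (hκ b).1 (sq_nonneg _))
      (fun b _ => mul_nonneg (hκ b).1 (sq_nonneg _)) (fun b _ => le_of_eq (by ring))
    have h2 : ∑ b, κ b * (∑ a, Bm b a * y a + w b * sg ε) ^ 2 = 2 * (-Vq κ Bm w y ε) := by
      unfold Vq
      ring
    rw [h2] at h1
    have h3 := mul_le_mul_of_nonneg_left (hκB a).2 (by linarith [hV0 y ε] :
      0 ≤ 2 * (-Vq κ Bm w y ε))
    linarith
  have hs : ∀ t, 0 ≤ exp t / (exp t + τ) ∧ exp t / (exp t + τ) ≤ 1 := fun t =>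
    ⟨by positivity, (div_le_one (by positivity)).2 (by linarith)⟩
  have hsD : ∀ y ε a, exp (Vq κ Bm w y ε) / (exp (Vq κ Bm w y ε) + τ) *
      (∑ b, -(κ b * (∑ a, Bm b a * y a + w b * sg ε)) * Bm b a) ^ 2 ≤ 2 * Λ * (1 / τ) :=
    fun y ε a => by
      have h1 := mul_le_mul_of_nonneg_left (hD y ε a) (hs (Vq κ Bm w y ε)).1
      have h2 := mul_le_mul_of_nonneg_left (X6_s_mul hτ (Vq κ Bm w y ε))
        (by positivity : 0 ≤ 2 * Λ)
      linarith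
  refine ⟨fun ε => ?_, fun y ε => ?_, fun y ε a => ?_, fun y ε a => ?_⟩
  · exact ((X6_contDiff_Vq κ Bm w ε).exp.add contDiff_const).log fun y => by positivity
  · have h1 : log τ ≤ log (exp (Vq κ Bm w y ε) + τ) :=
      log_le_log hτ (by linarith [exp_pos (Vq κ Bm w y ε)])
    have h2 : log (exp (Vq κ Bm w y ε) + τ) ≤ log (1 + τ) :=
      log_le_log (by positivity) (by linarith [exp_le_one_iff.2 (hV0 y ε)])
    rw [abs_le]
    constructor
    · linarith [neg_abs_le (log τ)]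
    · linarith [le_abs_self (log (1 + τ))]
  · rw [congrFun (hd1 ε a) y]
    have h1 := hsD y ε a
    obtain ⟨h2, h3⟩ := hs (Vq κ Bm w y ε)
    generalize exp (Vq κ Bm w y ε) / (exp (Vq κ Bm w y ε) + τ) = s at h1 h2 h3
    generalize ∑ b, -(κ b * (∑ a, Bm b a * y a + w b * sg ε)) * Bm b a = D at h1
    have h4 : 0 ≤ s * (D - 1) ^ 2 := by positivity
    have h5 : 0 ≤ s * (D + 1) ^ 2 := by positivity
    have h6 : 0 ≤ s * D ^ 2 := by positivity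
    rw [abs_le]
    constructor <;> nlinarith
  · rw [hd1 ε a]
    have h := ((X6_hasS hτ (Vq κ Bm w y ε)).comp_hasFDerivAt y (X6_hasV κ Bm w ε y)).fun_mul
      (X6_hasD κ Bm w ε a y)
    have h' : HasFDerivAt (fun y => exp (Vq κ Bm w y ε) / (exp (Vq κ Bm w y ε) + τ) *
        ∑ b, -(κ b * (∑ a, Bm b a * y a + w b * sg ε)) * Bm b a) _ y := h
    rw [h'.fderiv]
    simp only [add_apply, smul_apply,
      sum_apply, X6_lin_single, smul_eq_mul, Function.comp_apply]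
    have h1 := hsD y ε a
    obtain ⟨h2, h3⟩ := hs (Vq κ Bm w y ε)
    have e : ∑ b, -(κ b * Bm b a) * Bm b a = -∑ b, κ b * Bm b a ^ 2 := by
      rw [← Finset.sum_neg_distrib]
      exact Finset.sum_congr rfl fun b _ => by ring
    rw [e]
    obtain ⟨h7, h8⟩ := hκB a
    generalize ∑ b, κ b * Bm b a ^ 2 = K at h7 h8
    generalize exp (Vq κ Bm w y ε) / (exp (Vq κ Bm w y ε) + τ) = s at h1 h2 h3
    generalize ∑ b, -(κ b * (∑ a, Bm b a * y a + w b * sg ε)) * Bm b a = D at h1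
    have h4 : 0 ≤ s * D ^ 2 := by positivity
    have h5 : 0 ≤ (1 - s) * (s * D ^ 2) := mul_nonneg (by linarith) h4
    have h6 : 0 ≤ s * (s * D ^ 2) := mul_nonneg h2 h4
    have h9 : 0 ≤ s * K := mul_nonneg h2 h7
    have h10 : s * K ≤ K := mul_le_of_le_one_left h7 h3
    rw [abs_le]
    constructor <;> nlinarith

end Crest.Agent.R164
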