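import Crest.Agent.R164.X3
import Crest.Agent.R164.X4
import Crest.Agent.R164.X5
import Crest.Agent.R164.X6

/-! # The chain of approximations for a quadratic tilt of the reference system

Choose `τ` small.  (1) `floor_le` for the base `HB + R` (the constant `D` comes from `quad_crude`,
`exp_bound` and `|R| ≤ CR`, `Vq_ge`).  (2) Remove `R` by `pert` and `integral_pM`.  (3) `frames`.
(4) `interp`.  (5) `xA_add`.  (6) `floor_le` in the auxiliary tower; `D` from the explicit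
formulas `aux_value`, `aux_value_zero`, `Phi_mono`: the `Γ`-term is at most
`k log (1 + Λ ρ)/m` (its summands are `≥ 0` and telescope after `1/e_l ≤ 1/m`).  (7) `aux_value`,
`X_add_const`. -/

set_option autoImplicit false
set_option linter.unusedVariables false
set_option linter.unusedSectionVars false

open MeasureTheory ProbabilityTheory Real Crest.ProbabilityR.InvariantGlass
open scoped ENNReal

namespace Crest.Agent.R164

theorem x7_meas {Z : Type} [MeasurableSpace Z] {k : ℕ} {F : (Fin k → ℝ) → Bool → ℝ}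
    (hF : ∀ ε, Measurable (fun y => F y ε)) {y : Z → Fin k → ℝ} (hy : Measurable y)
    {e : Z → Bool} (he : Measurable e) : Measurable (fun x => F (y x) (e x)) := by
  have : (fun x => F (y x) (e x)) =
      fun x => if e x = true then F (y x) true else F (y x) false := by
    funext x
    cases e x <;> simp
  rw [this]
  exact Measurable.ite (he (measurableSet_singleton true)) ((hF true).comp hy)
    ((hF false).comp hy)

theorem x7_tele (z : ℕ → ℝ) (n : ℕ) :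
    ∑ l ∈ Finset.Icc 1 n, (z l - z (l + 1)) = z 1 - z (n + 1) := by
  induction n with
  | zero => simp
  | succ n ih => rw [Finset.sum_Icc_succ_top (by omega), ih]; ring

theorem x7_Gam_le (X : Expo) {z : ℕ → ℝ} (hz : ∀ l, 1 ≤ l → z (l + 1) ≤ z l)
    (h0 : 0 ≤ z (X.n + 1)) : X.Gam z ≤ z 1 / X.m := by
  have hm : 0 < X.m := X.pos
  calc X.Gam z ≤ ∑ l ∈ Finset.Icc 1 X.n, (z l - z (l + 1)) / X.m := by
        refine Finset.sum_le_sum fun l hl => ?_
        have h1 := hz l (Finset.mem_Icc.1 hl).1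
        exact div_le_div_of_nonneg_left (by linarith) hm (X.mono (Nat.zero_le l))
    _ = (z 1 - z (X.n + 1)) / X.m := by rw [← Finset.sum_div, x7_tele]
    _ ≤ z 1 / X.m := div_le_div_of_nonneg_right (by linarith) hm.le

theorem x7_frac {κ c s t : ℝ} (hκ : 0 ≤ κ) (hs : 0 ≤ s) (hst : s ≤ t) :
    c ^ 2 * s / (1 + κ * s) ≤ c ^ 2 * t / (1 + κ * t) := by
  have h1 : 0 < 1 + κ * s := by positivity
  have h2 : 0 < 1 + κ * t := by have := mul_nonneg hκ (hs.trans hst); linarith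
  rw [div_le_div_iff₀ h1 h2]
  have := mul_nonneg (sq_nonneg c) (sub_nonneg.2 hst)
  nlinarith

/-- the auxiliary side: exact value of the quadratic tilt, and comparison with the base value -/
theorem x7_aux (X : Expo) {k : ℕ} {Λ ρ : ℝ} (hΛ : 0 ≤ Λ) (θ ϑ : ℕ → ℝ) (b : ℝ) {Q : ℕ → ℝ}
    (hQ : X.Seq Q ρ) {V : (Fin k → ℝ) → Bool → ℝ} (hVm : ∀ ε, Measurable (fun y => V y ε))
    (hV0 : ∀ y ε, V y ε ≤ 0) (κ' c : Fin k → ℝ) (k0 : ℝ) (hκ' : ∀ a, 0 ≤ κ' a ∧ κ' a ≤ Λ)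
    (hk0 : k0 ≤ Λ)
    (hV : ∀ y ε', V y ε' = -(∑ a, κ' a * y a ^ 2 + 2 * sg ε' * ∑ a, c a * y a + k0) / 2) :
    (aT X k).A (fun x => HA θ ϑ b x + V (zA Q x) x.2.2) =
      -X.Gam (fun l => ∑ a, log (1 + κ' a * X.D Q l)) / 2 - k0 / 2 +
        X.Phi (fun l => θ l ^ 2 + ϑ l ^ 2 + (∑ a, c a ^ 2 * X.D Q l / (1 + κ' a * X.D Q l) -
          ∑ a, c a ^ 2 * X.D Q (l + 1) / (1 + κ' a * X.D Q (l + 1))) / X.e l) b ∧
    (aT X k).A (HA θ ϑ b) ≤ (aT X k).A (fun x => HA θ ϑ b x + V (zA Q x) x.2.2) +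
      (k * Λ * ρ / (2 * X.m) + Λ / 2) := by
  have hm : 0 < X.m := X.pos
  have hz : Measurable (fun x : AS X.n k => zA Q x) :=
    measurable_pi_lambda _ fun a => (lg_zA (X := X) Q a).1
  have hVz : Measurable (fun x : AS X.n k => V (zA Q x) x.2.2) :=
    x7_meas hVm hz (measurable_snd.comp measurable_snd)
  have hA := lg_HA (X := X) (k := k) θ ϑ b
  have e1 : (fun x : AS X.n k => HA θ ϑ b x -
      (∑ a, κ' a * zA Q x a ^ 2 + 2 * sg x.2.2 * ∑ a, c a * zA Q x a) / 2) =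
      fun x => (HA θ ϑ b x + V (zA Q x) x.2.2) + k0 / 2 := by
    funext x
    rw [hV]
    ring
  have hub : (aT X k).UB (fun x => HA θ ϑ b x + V (zA Q x) x.2.2) :=
    Tower.UB.of_le (hA.1.add hVz) (Tower.LG.ub hA) fun x => by linarith [hV0 (zA Q x) x.2.2]
  have e2 := aux_value X θ ϑ b hQ κ' c fun a => (hκ' a).1
  rw [e1] at e2
  have e3 : (aT X k).A (fun x => (HA θ ϑ b x + V (zA Q x) x.2.2) + k0 / 2) =
      (aT X k).A (fun x => HA θ ϑ b x + V (zA Q x) x.2.2) + k0 / 2 :=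
    Tower.X_add_const hub (k0 / 2) 0 _
  have e4 : (aT X k).A (fun x => HA θ ϑ b x + V (zA Q x) x.2.2) =
      -X.Gam (fun l => ∑ a, log (1 + κ' a * X.D Q l)) / 2 - k0 / 2 +
        X.Phi (fun l => θ l ^ 2 + ϑ l ^ 2 + (∑ a, c a ^ 2 * X.D Q l / (1 + κ' a * X.D Q l) -
          ∑ a, c a ^ 2 * X.D Q (l + 1) / (1 + κ' a * X.D Q (l + 1))) / X.e l) b := by
    linarith
  refine ⟨e4, ?_⟩
  have hpos : ∀ a l, 1 ≤ l → 0 < 1 + κ' a * X.D Q l := fun a l hl => by
    have := mul_nonneg (hκ' a).1 (hQ.D_nonneg hl).1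
    linarith
  have hG : X.Gam (fun l => ∑ a, log (1 + κ' a * X.D Q l)) ≤ k * Λ * ρ / X.m := by
    refine (x7_Gam_le X (fun l hl => Finset.sum_le_sum fun a _ => ?_)
      (Finset.sum_nonneg fun a _ => ?_)).trans (div_le_div_of_nonneg_right ?_ hm.le)
    · refine log_le_log (hpos a _ (by omega)) ?_
      have := mul_le_mul_of_nonneg_left (hQ.D_anti hl) (hκ' a).1
      linarith
    · refine log_nonneg ?_
      have := mul_nonneg (hκ' a).1 (hQ.D_nonneg (l := X.n + 1) (by omega)).1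
      linarith
    · calc ∑ a, log (1 + κ' a * X.D Q 1) ≤ ∑ _a : Fin k, Λ * ρ := by
            refine Finset.sum_le_sum fun a _ => ?_
            have h1 := log_le_sub_one_of_pos (hpos a 1 le_rfl)
            have h2 := hQ.D_nonneg (l := 1) le_rfl
            have h3 := mul_le_mul (hκ' a).2 h2.2 h2.1 hΛ
            linarith
        _ = k * Λ * ρ := by simp [mul_assoc]
  have hP : X.Phi (fun l => θ l ^ 2 + ϑ l ^ 2) b ≤
      X.Phi (fun l => θ l ^ 2 + ϑ l ^ 2 + (∑ a, c a ^ 2 * X.D Q l / (1 + κ' a * X.D Q l) -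
        ∑ a, c a ^ 2 * X.D Q (l + 1) / (1 + κ' a * X.D Q (l + 1))) / X.e l) b := by
    refine X.Phi_mono (fun l hl _ => ⟨by positivity, le_add_of_nonneg_right ?_⟩) b
    refine div_nonneg (sub_nonneg.2 (Finset.sum_le_sum fun a _ => ?_))
      (X.pos.trans_le (X.mono (Nat.zero_le l))).le
    exact x7_frac (hκ' a).1 (hQ.D_nonneg (by omega)).1 (hQ.D_anti hl)
  have e5 : k * Λ * ρ / (2 * X.m) = k * Λ * ρ / X.m / 2 := by
    field_simp
  rw [aux_value_zero, e4, e5]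
  linarith

theorem chain (k : ℕ) {Λ ρ m CR ε : ℝ} (hΛ : 0 ≤ Λ) (hm : 0 < m) (hCR : 0 ≤ CR) (hε : 0 < ε) :
    ∃ δ0 > 0, ∃ n0 : ℕ, ∀ (X : Expo), X.m = m →
    ∀ (M : ℕ) (p : Par M) (T : Finset (Fin M)) (sp : Fin k → Fin M), TInv p T sp ρ →
    n0 ≤ T.card → ∀ (θ ϑ : ℕ → ℝ) (b : ℝ) (P : ℕ) (κ : Fin P → ℝ) (Bm : Fin P → Fin k → ℝ)
      (w : Fin P → ℝ) (κ' c : Fin k → ℝ) (k0 : ℝ),
    (∀ b, 0 ≤ κ b ∧ κ b ≤ Λ) → (∀ a, ∑ b, Bm b a ^ 2 ≤ 1) → ∑ b, w b ^ 2 ≤ 1 →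
    (∀ a, 0 ≤ κ' a ∧ κ' a ≤ Λ) → k0 ≤ Λ →
    (∀ y ε', Vq κ Bm w y ε' =
      -(∑ a, κ' a * y a ^ 2 + 2 * sg ε' * ∑ a, c a * y a + k0) / 2) →
    ∀ Q : ℕ → ℝ, X.Seq Q ρ → p.ErrQ X T Q ≤ δ0 * T.card →
    ∀ (R : XS X.n M k → ℝ) (R0 : MS X.n M → ℝ), Measurable R → Measurable R0 →
    (∀ x, |R x| ≤ R0 (pM x)) → (∀ x, R0 x ≤ CR) → ∫ x, R0 x ∂(p.PP X) ≤ δ0 →
    |(xT X M k).A (fun x => HB p θ ϑ b x + Vq κ Bm w (yS sp x) x.2.2.2 + R x) -
      (p.A X - X.Gam (fun l => ∑ a, log (1 + κ' a * X.D Q l)) / 2 - k0 / 2 +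
        X.Phi (fun l => θ l ^ 2 + ϑ l ^ 2 + (∑ a, c a ^ 2 * X.D Q l / (1 + κ' a * X.D Q l) -
          ∑ a, c a ^ 2 * X.D Q (l + 1) / (1 + κ' a * X.D Q (l + 1))) / X.e l) b)| ≤ ε := by
  by_cases hρ : 1 ≤ ρ
  swap
  · exact ⟨1, one_pos, 0, fun X _ M p T sp h => absurd h.one_le hρ⟩
  have hc0 : 0 < (4 * ρ * (k + 1))⁻¹ := by positivity
  set c0 := (4 * ρ * (k + 1))⁻¹ with hc0def
  set C0 := Λ * (k + 1) + CR with hC0def
  have hC0 : 0 ≤ C0 := by positivity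
  set D1 := CR + (C0 + 1 + C0 * 1 / c0) with hD1def
  set D2 := k * Λ * ρ / (2 * m) + Λ / 2 with hD2def
  have hD1 : 0 ≤ D1 := by positivity
  have hD2 : 0 ≤ D2 := by positivity
  set τ := (ε / 5 * m * exp (-(m * (D1 + D2)))) ^ m⁻¹ with hτdef
  have hτ : 0 < τ := rpow_pos_of_pos (by positivity) _
  have hτm : τ ^ m * exp (m * (D1 + D2)) / m = ε / 5 := by
    rw [hτdef, rpow_inv_rpow (by positivity) hm.ne', mul_assoc, ← exp_add, neg_add_cancel,
      exp_zero, mul_one, mul_div_assoc, div_self hm.ne', mul_one]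
  obtain ⟨B, hB, hψ⟩ := psi_floor hΛ hτ
  obtain ⟨n0, hn0⟩ := frames k B ρ (ε := ε / 5) (by positivity)
  set E1 := exp (2 * (B + CR)) with hE1def
  set E2 := k * (B + B ^ 2) * exp (6 * B) with hE2def
  have hE1 : 0 < E1 := exp_pos _
  have hE2 : 0 ≤ E2 := by positivity
  refine ⟨ε / 5 / (E1 + E2), by positivity, n0, ?_⟩
  intro X hX M p T sp hT hn θ ϑ b P κ Bm w κ' c k0 hκ hBm hw hκ' hk0 hV Q hQ hErr R R0 mR mR0
    hR hR0 hI
  set δ0 := ε / 5 / (E1 + E2) with hδ0def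
  have hδ0 : E1 * δ0 + E2 * δ0 = ε / 5 := by
    rw [← add_mul, hδ0def, mul_div_cancel₀ _ (by positivity)]
  have he0 : X.e 0 = m := hX
  have hΨ := hψ P k κ Bm w hκ hBm
  have mV : ∀ ε', Measurable (fun y => Vq κ Bm w y ε') := fun ε' =>
    (continuous_Vq κ Bm w ε').measurable
  have hV0 := Vq_nonpos (fun b => (hκ b).1) Bm w
  have mΨ : ∀ ε', Measurable (fun y => log (exp (Vq κ Bm w y ε') + τ)) := fun ε' =>
    (hΨ.cd ε').continuous.measurable
  have me : Measurable (fun x : XS X.n M k => x.2.2.2) :=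
    measurable_snd.comp (measurable_snd.comp measurable_snd)
  have mVS : Measurable (fun x : XS X.n M k => Vq κ Bm w (yS sp x) x.2.2.2) :=
    x7_meas mV (measurable_yS sp) me
  have mΨS : Measurable (fun x : XS X.n M k => log (exp (Vq κ Bm w (yS sp x) x.2.2.2) + τ)) :=
    x7_meas (F := fun y ε' => log (exp (Vq κ Bm w y ε') + τ)) mΨ (measurable_yS sp) me
  have bR : ∀ x, |R x| ≤ CR := fun x => (hR x).trans (hR0 _)
  have lH := lg_HB (X := X) (k := k) p θ ϑ b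
  have lR : (xT X M k).LG R := Tower.LG.of_bdd mR bR
  have lQ := lg_QS (X := X) hT.inj
  have hVge : ∀ x : XS X.n M k, -(Λ * (k + 1) * (1 + QS sp x)) ≤ Vq κ Bm w (yS sp x) x.2.2.2 :=
    fun x => Vq_ge hΛ hκ hBm hw _ _
  have lV : (xT X M k).LG (fun x => Vq κ Bm w (yS sp x) x.2.2.2) := by
    refine Tower.LG.of_le mVS
      (Tower.LG.const_mul (Tower.LG.add (Tower.LG.const 1) lQ) (Λ * (k + 1))) fun x => ?_
    rw [abs_of_nonpos (hV0 _ _)]
    linarith [hVge x]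
  -- step 1
  have q1 := Tower.quad_crude lH lQ (Tower.LG.add lV lR) hc0 hC0 (QS_nonneg sp)
    (exp_bound hT θ ϑ b) (fun x => by
      have h1 := hVge x
      have h2 := (abs_le.1 (bR x)).1
      have h3 := mul_nonneg hCR (QS_nonneg sp x)
      rw [hC0def]
      nlinarith) (fun x => by
      have h1 := hV0 (yS sp x) x.2.2.2
      have h2 := (abs_le.1 (bR x)).2
      have h3 := mul_nonneg hc0.le (QS_nonneg sp x)
      have h4 : 0 ≤ Λ * (k + 1) := by positivity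
      rw [hC0def]
      linarith)
  have q2 : |(xT X M k).A (fun x => HB p θ ϑ b x + R x) - (xT X M k).A (HB p θ ϑ b)| ≤ CR :=
    Tower.abs_X_sub_le (Tower.LG.ub (Tower.LG.add lH lR)) (Tower.LG.ub lH)
      (fun x => by simpa using bR x) 0 _
  have r1 : (fun x => HB p θ ϑ b x + (Vq κ Bm w (yS sp x) x.2.2.2 + R x)) =
      fun x : XS X.n M k => HB p θ ϑ b x + R x + Vq κ Bm w (yS sp x) x.2.2.2 := by
    funext x; ring
  have r2 : (fun x => HB p θ ϑ b x + Vq κ Bm w (yS sp x) x.2.2.2 + R x) =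
      fun x : XS X.n M k => HB p θ ϑ b x + R x + Vq κ Bm w (yS sp x) x.2.2.2 := by
    funext x; ring
  have r3 : (fun x => HB p θ ϑ b x + log (exp (Vq κ Bm w (yS sp x) x.2.2.2) + τ) + R x) =
      fun x : XS X.n M k => HB p θ ϑ b x + R x + log (exp (Vq κ Bm w (yS sp x) x.2.2.2) + τ) := by
    funext x; ring
  rw [r1] at q1
  have s1 := Tower.floor_le (T := xT X M k) (H := fun x => HB p θ ϑ b x + R x)
    (V := fun x => Vq κ Bm w (yS sp x) x.2.2.2) (Tower.LG.ub (Tower.LG.add lH lR))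
    (Tower.LG.ub (Tower.LG.add (Tower.LG.add lH lR) lV)) mVS hτ (D := D1 + D2) (by
      have h1 := (abs_le.1 q1).1
      have h2 := (abs_le.1 q2).2
      rw [hD1def]
      linarith)
  rw [xT_e, he0, hτm] at s1
  -- step 2
  have s2 := Tower.pert lH mΨS mR (fun x => hΨ.b0 _ _) bR
  rw [r3] at s2
  have i2 : ∫ x, |R x| ∂((xT X M k).PP (HB p θ ϑ b)) ≤ δ0 := by
    refine le_trans ?_ hI
    rw [← integral_pM (k := k) p θ ϑ b mR0]
    have mR0' : Measurable (fun x : XS X.n M k => R0 (pM x)) := mR0.comp measurable_pM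
    refine integral_mono ((Tower.Gr.of_bdd mR.abs (C := CR) fun x => by
      rw [abs_abs]; exact bR x).integrable_PP lH)
      ((Tower.Gr.of_bdd mR0' (C := CR) fun x => ?_).integrable_PP lH) hR
    rw [abs_of_nonneg ((abs_nonneg _).trans (hR x))]
    exact hR0 _
  have s2' := s2.trans (mul_le_mul_of_nonneg_left i2 hE1.le)
  -- steps 3 and 4
  have s3 := hn0 X M p T sp hT hn θ ϑ b _ hΨ
  have s4 := interp p hT.ne θ ϑ b hΨ hB hQ
  have hcard : (0 : ℝ) < T.card := Nat.cast_pos.2 hT.ne.card_pos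
  have s4' := s4.trans (mul_le_mul_of_nonneg_left ((div_le_iff₀ hcard).2 hErr) hE2)
  -- steps 5, 6 and 7
  obtain ⟨a1, a2⟩ := x7_aux X hΛ θ ϑ b hQ mV hV0 κ' c k0 hκ' hk0 hV
  have hz : Measurable (fun x : AS X.n k => zA Q x) :=
    measurable_pi_lambda _ fun a => (lg_zA (X := X) Q a).1
  have mVz : Measurable (fun x : AS X.n k => Vq κ Bm w (zA Q x) x.2.2) :=
    x7_meas mV hz (measurable_snd.comp measurable_snd)
  have mΨz : Measurable (fun x : AS X.n k => log (exp (Vq κ Bm w (zA Q x) x.2.2) + τ)) :=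
    x7_meas (F := fun y ε' => log (exp (Vq κ Bm w y ε') + τ)) mΨ hz
      (measurable_snd.comp measurable_snd)
  have lA := lg_HA (X := X) (k := k) θ ϑ b
  have s6 := Tower.floor_le (T := aT X k) (H := HA θ ϑ b)
    (V := fun x => Vq κ Bm w (zA Q x) x.2.2) (Tower.LG.ub lA)
    (Tower.UB.of_le (lA.1.add mVz) (Tower.LG.ub lA) fun x => by
      linarith [hV0 (zA Q x) x.2.2]) mVz hτ (D := D1 + D2) (by
      rw [hX] at a2
      linarith)
  rw [aT_e, he0, hτm] at s6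
  have s5 := xA_add (k := k) p
    (H := fun x => HA θ ϑ b x + log (exp (Vq κ Bm w (zA Q x) x.2.2) + τ))
    (Tower.LG.ub (Tower.LG.add lA (Tower.LG.of_bdd mΨz fun x => hΨ.b0 _ _)))
  have r4 : (fun x : XS X.n M k => Ham p (pM x) +
      (HA θ ϑ b (pA x) + log (exp (Vq κ Bm w (zA Q (pA x)) (pA x).2.2) + τ))) =
      fun x => HB p θ ϑ b x + log (exp (Vq κ Bm w (zA Q (pA x)) x.2.2.2) + τ) := by
    funext x
    rw [HB, add_assoc]
    rfl
  rw [r4] at s5
  rw [r2]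
  rw [a1] at s6
  have t2 := abs_le.1 s2'
  have t3 := abs_le.1 s3
  have t4 := abs_le.1 s4'
  rw [abs_le]
  constructor <;> linarith [s1.1, s1.2, s6.1, s6.2, t2.1, t2.2, t3.1, t3.2, t4.1, t4.2]

end Crest.Agent.R164
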