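import Crest.Agent.R164.X2
import Crest.Agent.R164.X7
import Crest.Agent.R164.M6

/-! # The system of size `M` compared with the reference system

`ref = sys … (blkR blk sp top) …`, `T = fib (blkR blk sp top) top`.  The Hamiltonian of the system
with blocks `blk` is `HB (ref.off sp) 0 0 0 + V⁰ + R_q + Σ (row fields on the special rows)`, with
`V⁰ = -½ Σ_a κ (j.succAbove a) y_a² = Vq κ' 1 0` (take `P = k`, `Bm = 1`, `w = 0`, `c = 0`,
`k0 = 0`) and `|R_q| ≤ δ Q`.  By `off_sandwich` (for the system itself; its `off` version has the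
same row fields as `ref.off sp`) and monotonicity its value lies between the two values of
`off_compare` (with `2δ`); then `chain` with `R = 0`, `xA_pM`, `xA_add`, `aux_value_zero`,
`Phi_zero`. -/

set_option autoImplicit false
set_option linter.unusedVariables false
set_option linter.unusedSectionVars false

open MeasureTheory ProbabilityTheory Real Crest.ProbabilityR.InvariantGlass
open scoped ENNReal

namespace Crest.Agent.R164

theorem tinv_ref (S : Spec) {n M J : ℕ} (t : ℝ) (θ : ℕ → ℝ) {blk : Fin M → Fin (S.k + 1)}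
    {j : Fin (S.k + 1)} {sp : Fin S.k → Fin M} (h : Cav blk j sp) (lab : Fin M → Fin J)
    (mag : Fin J → ℝ) (Kp : ℝ) (f0 : (Fin M → Bool) → ℝ) (tx : ℕ → Fin M → ℝ)
    (π' : PI n S.k J → ℝ) {ρ : ℝ} (hne : (fib (blkR blk sp S.top) S.top).Nonempty)
    (hρ : (M : ℝ) ≤ ρ * (fib (blkR blk sp S.top) S.top).card) :
    TInv (sys S t θ (blkR blk sp S.top) lab mag Kp f0 tx π') (fib (blkR blk sp S.top) S.top) sp ρ := by
  have hm : ∀ i, i ∈ fib (blkR blk sp S.top) S.top → blkR blk sp S.top i = S.top := fun i hi =>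
    (Finset.mem_filter.1 hi).2
  refine ⟨h.inj, fun a => ?_, fun i hi i' hi' => ?_, fun a i hi i' hi' => ?_, hne, hρ⟩
  · exact Finset.mem_filter.2 ⟨Finset.mem_univ _, if_pos ⟨a, rfl⟩⟩
  · simp only [sys, hm i hi, hm i' hi']
  · simp only [sys, hm i hi, hm i' hi']

/-- the quadratic tilt -/
noncomputable def x9V (S : Spec) {M : ℕ} (j : Fin (S.k + 1)) (sp : Fin S.k → Fin M) (U : Orth M)
    (σ : (Fin M → Bool) × Bool) : ℝ :=
  Vq (fun a => S.κ (j.succAbove a)) (fun b a => if b = a then 1 else 0) (fun _ => 0)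
    (fun a => sv U σ.1 (sp a)) σ.2

theorem x9_Vq {k : ℕ} (κ y : Fin k → ℝ) (ε : Bool) :
    Vq κ (fun b a => if b = a then 1 else 0) (fun _ => 0) y ε = -(1 / 2) * ∑ a, κ a * y a ^ 2 := by
  simp [Vq]

theorem x9_Λ (S : Spec) : 0 ≤ 2 * S.Λ := (S.κ_nonneg S.top).trans (S.κ_le S.top)

theorem x9_meas (S : Spec) {M : ℕ} (j : Fin (S.k + 1)) (sp : Fin S.k → Fin M)
    (σ : (Fin M → Bool) × Bool) : Measurable (fun U => x9V S j sp U σ) := by
  refine (continuous_Vq _ _ _ σ.2).measurable.comp (measurable_pi_lambda _ fun a => ?_)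
  exact (measurable_sO (n := 0) (sp a)).comp
    (f := fun U : Orth M => ((U, 0, σ.1) : MS 0 M)) (by fun_prop)

theorem x9_bd (S : Spec) {n M : ℕ} (j : Fin (S.k + 1)) (sp : Fin S.k → Fin M) (x : XS n M S.k) :
    -(2 * S.Λ * (S.k + 1) * (1 + QS sp x)) ≤ x9V S j sp x.1 x.2.2 ∧ x9V S j sp x.1 x.2.2 ≤ 0 :=
  ⟨Vq_ge (x9_Λ S) (fun _ => ⟨S.κ_nonneg _, S.κ_le _⟩) (fun a => by simp) (by simp) _ _,
    Vq_nonpos (fun _ => S.κ_nonneg _) _ _ _ _⟩

theorem x9_lg (S : Spec) (X : Expo) {M : ℕ} (j : Fin (S.k + 1)) {sp : Fin S.k → Fin M}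
    (hsp : Function.Injective sp) : (xT X M S.k).LG (fun x => x9V S j sp x.1 x.2.2) := by
  refine Tower.LG.of_le ?_ (((Tower.LG.const 1).add (lg_QS hsp)).const_mul (2 * S.Λ * (S.k + 1)))
    fun x => ?_
  · have : (fun x : XS X.n M S.k => x9V S j sp x.1 x.2.2) =
        fun x => -(1 / 2) * ∑ a, S.κ (j.succAbove a) * yS sp x a ^ 2 := funext fun x => x9_Vq _ _ _
    rw [this]
    have h := measurable_yS (n := X.n) sp
    exact (Finset.measurable_sum _ fun a _ =>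
      (((measurable_pi_apply a).comp h).pow_const 2).const_mul _).const_mul _
  · have h := x9_bd S j sp x
    rw [abs_of_nonpos h.2]
    linarith [h.1]

theorem x9_A0 {M : ℕ} (k : ℕ) (X : Expo) (p : Par M) :
    (xT X M k).A (HB p (fun _ => 0) (fun _ => 0) 0) = p.A X := by
  have h := xA_add (X := X) p (lg_HA (X := X) (k := k) (fun _ => 0) (fun _ => 0) 0).ub
  rw [aux_value_zero] at h
  simp only [ne_eq, OfNat.ofNat_ne_zero, not_false_eq_true, zero_pow, add_zero, Phi_zero] at h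
  exact h

theorem x9_diff (S : Spec) {n M J : ℕ} (θ : ℕ → ℝ) {blk : Fin M → Fin (S.k + 1)}
    {j : Fin (S.k + 1)} {sp : Fin S.k → Fin M} (h : Cav blk j sp) (lab : Fin M → Fin J)
    (mag : Fin J → ℝ) (Kp : ℝ) {π' : PI n S.k J → ℝ} {δ : ℝ} (hs : Small π' δ) (x : XS n M S.k) :
    |HB ((sys S 1 θ blk lab mag Kp (fun _ => 0) (fun _ _ => 0) π').off sp) (fun _ => 0)
        (fun _ => 0) 0 x -
      (HB ((sys S 1 θ (blkR blk sp S.top) lab mag Kp (fun _ => 0) (fun _ _ => 0) π').off sp)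
        (fun _ => 0) (fun _ => 0) 0 x + x9V S j sp x.1 x.2.2)| ≤ δ * QS sp x := by
  classical
  have hvt : ((sys S 1 θ blk lab mag Kp (fun _ => 0) (fun _ _ => 0) π').off sp).vt =
      ((sys S 1 θ (blkR blk sp S.top) lab mag Kp (fun _ => 0) (fun _ _ => 0) π').off sp).vt := by
    funext a i
    simp only [Par.off, sys, blkR]
    split_ifs <;> rfl
  have hsum : ∑ i, (1 * S.lam (blk i) + π' (Sum.inl (blk i))) * sO i (pM x) ^ 2 -
      ∑ i, (1 * S.lam (blkR blk sp S.top i) + π' (Sum.inl (blkR blk sp S.top i))) *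
        sO i (pM x) ^ 2 =
      ∑ a, (-S.κ (j.succAbove a) + (π' (Sum.inl (j.succAbove a)) - π' (Sum.inl S.top))) *
        yS sp x a ^ 2 := by
    rw [← Finset.sum_sub_distrib]
    symm
    refine Finset.sum_of_injOn sp (h.inj.injOn) (fun _ _ => Finset.mem_coe.2 (Finset.mem_univ _))
      (fun i _ hi => ?_) (fun a _ => ?_)
    · have : ¬ ∃ a, sp a = i := fun ⟨a, ha⟩ => hi ⟨a, Finset.mem_coe.2 (Finset.mem_univ _), ha⟩
      rw [blkR, if_neg this, sub_self]
    · rw [blkR, if_pos ⟨a, rfl⟩, h.blk a, Spec.κ, yS]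
      ring
  have e : HB ((sys S 1 θ blk lab mag Kp (fun _ => 0) (fun _ _ => 0) π').off sp) (fun _ => 0)
        (fun _ => 0) 0 x -
      (HB ((sys S 1 θ (blkR blk sp S.top) lab mag Kp (fun _ => 0) (fun _ _ => 0) π').off sp)
        (fun _ => 0) (fun _ => 0) 0 x + x9V S j sp x.1 x.2.2) =
      ∑ a, (1 / 2) * (π' (Sum.inl (j.succAbove a)) - π' (Sum.inl S.top)) * yS sp x a ^ 2 := by
    have hV : x9V S j sp x.1 x.2.2 = -(1 / 2) * ∑ a, S.κ (j.succAbove a) * yS sp x a ^ 2 :=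
      x9_Vq _ _ _
    have h2 : ∑ a, (-S.κ (j.succAbove a) + (π' (Sum.inl (j.succAbove a)) - π' (Sum.inl S.top))) *
        yS sp x a ^ 2 = -∑ a, S.κ (j.succAbove a) * yS sp x a ^ 2 +
        2 * ∑ a, (1 / 2) * (π' (Sum.inl (j.succAbove a)) - π' (Sum.inl S.top)) * yS sp x a ^ 2 := by
      rw [Finset.mul_sum, ← Finset.sum_neg_distrib, ← Finset.sum_add_distrib]
      exact Finset.sum_congr rfl fun a _ => by ring
    unfold HB Ham
    rw [hvt, hV]
    simp only [Par.off, sys]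
    linarith
  rw [e, QS, Finset.mul_sum]
  refine (Finset.abs_sum_le_sum_abs _ _).trans (Finset.sum_le_sum fun a _ => ?_)
  rw [abs_mul, abs_of_nonneg (sq_nonneg (yS sp x a))]
  refine mul_le_mul_of_nonneg_right ?_ (sq_nonneg _)
  have h1 := abs_le.1 (hs.a (j.succAbove a))
  have h2 := abs_le.1 (hs.a S.top)
  rw [abs_le]
  constructor <;> linarith [h1.1, h1.2, h2.1, h2.2]

theorem x9_main (S : Spec) {ρ : ℝ} (hρ : 1 ≤ ρ) : ∃ C δ1 : ℝ, 0 < δ1 ∧ 0 ≤ C ∧
    ∀ (X : Expo) (M J : ℕ) (θ : ℕ → ℝ) (blk : Fin M → Fin (S.k + 1)) (j : Fin (S.k + 1))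
      (sp : Fin S.k → Fin M), Cav blk j sp → ∀ (lab : Fin M → Fin J) (mag : Fin J → ℝ) (Kp : ℝ)
      (π' : PI X.n S.k J → ℝ) (δ : ℝ), δ ≤ δ1 → Small π' δ →
      (fib (blkR blk sp S.top) S.top).Nonempty →
      (M : ℝ) ≤ ρ * (fib (blkR blk sp S.top) S.top).card →
      |(sys S 1 θ blk lab mag Kp (fun _ => 0) (fun _ _ => 0) π').A X -
        (xT X M S.k).A (fun x =>
          HB (sys S 1 θ (blkR blk sp S.top) lab mag Kp (fun _ => 0) (fun _ _ => 0) π')
            (fun _ => 0) (fun _ => 0) 0 x + x9V S j sp x.1 x.2.2)| ≤ C * δ ∧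
      |(sys S 1 θ blk lab mag Kp (fun _ => 0) (fun _ _ => 0) π').A X -
        (sys S 1 θ (blkR blk sp S.top) lab mag Kp (fun _ => 0) (fun _ _ => 0) π').A X| ≤ C := by
  have hC0 : 0 ≤ 2 * S.Λ * (S.k + 1) := mul_nonneg (x9_Λ S) (by positivity)
  obtain ⟨C, δ1, hδ1, hC, H⟩ := off_compare S.k ρ (2 * S.Λ * (S.k + 1)) hρ hC0
  refine ⟨2 * C, δ1 / 2, by positivity, by positivity, ?_⟩
  intro X M J θ blk j sp h lab mag Kp π' δ hδ hs hne hM
  have hδ0 : 0 ≤ δ := (abs_nonneg _).trans (hs.a S.top)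
  have hT := tinv_ref S 1 θ h lab mag Kp (fun _ => 0) (fun _ _ => 0) π' hne hM
  have hd := x9_diff S θ h lab mag Kp hs
  set p := sys S 1 θ blk lab mag Kp (fun _ => 0) (fun _ _ => 0) π' with hp
  set q := sys S 1 θ (blkR blk sp S.top) lab mag Kp (fun _ => 0) (fun _ _ => 0) π' with hq
  obtain ⟨s1, s2⟩ := off_sandwich (X := X) p h.inj (fun _ => 0) (fun _ => 0) 0 (Θ := δ)
    (fun c => hs.v (blk (sp c))) (V := fun _ _ => 0) (fun _ => measurable_const) (C := 0)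
    (fun _ _ => by simp)
  simp only [add_zero] at s1 s2
  have e0 : (xT X M S.k).A (fun x => HB p (fun _ => 0) (fun _ => 0) 0 x) = p.A X := x9_A0 S.k X p
  rw [e0] at s1 s2
  have l1 := lg_HB (X := X) (k := S.k) (p.off sp) (fun _ => 0) (fun _ => 0) 0
  have l2 := (lg_HB (X := X) (k := S.k) (q.off sp) (fun _ => 0) (fun _ => 0) 0).add
    (x9_lg S X j h.inj)
  have l3 := lg_QS (X := X) h.inj
  have l4 := ((Tower.LG.const 1).add l3).const_mul (2 * δ)
  have key := H X M q _ sp hT (fun _ => 0) (fun _ => 0) 0 (2 * δ) (by positivity) (by linarith)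
    (fun c => (hs.v (blkR blk sp S.top (sp c))).trans (by linarith)) (x9V S j sp) (x9_meas S j sp)
    (fun x => ⟨(x9_bd S j sp x).1, (x9_bd S j sp x).2.trans hC0⟩) (p.A X)
    (le_trans (Tower.X_mono (l2.sub l4).ub l1.ub (fun x => by
      have h1 := abs_le.1 (hd x)
      have h2 := mul_nonneg hδ0 (QS_nonneg sp x)
      linarith [h1.1]) 0 _) s1)
    (s2.trans (Tower.X_mono (l1.add (l3.const_mul (δ / 2))).ub (l2.add l4).ub (fun x => by
      have h1 := abs_le.1 (hd x)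
      have h2 := mul_nonneg hδ0 (QS_nonneg sp x)
      linarith [h1.2]) 0 _))
  rw [x9_A0] at key
  exact ⟨key.1.trans (le_of_eq (by ring)), key.2.trans (by linarith)⟩

theorem cav_same_crude (S : Spec) {ρ : ℝ} (hρ : 1 ≤ ρ) : ∃ C δ1 : ℝ, 0 < δ1 ∧
    ∀ (X : Expo) (M J : ℕ) (θ : ℕ → ℝ) (blk : Fin M → Fin (S.k + 1)) (j : Fin (S.k + 1))
      (sp : Fin S.k → Fin M), Cav blk j sp → ∀ (lab : Fin M → Fin J) (mag : Fin J → ℝ) (Kp : ℝ)
      (π' : PI X.n S.k J → ℝ), Small π' δ1 → (fib (blkR blk sp S.top) S.top).Nonempty →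
      (M : ℝ) ≤ ρ * (fib (blkR blk sp S.top) S.top).card →
      |(sys S 1 θ blk lab mag Kp (fun _ => 0) (fun _ _ => 0) π').A X -
        (sys S 1 θ (blkR blk sp S.top) lab mag Kp (fun _ => 0) (fun _ _ => 0) π').A X| ≤ C := by
  obtain ⟨C, δ1, hδ1, -, H⟩ := x9_main S hρ
  exact ⟨C, δ1, hδ1, fun X M J θ blk j sp h lab mag Kp π' hs hne hM =>
    (H X M J θ blk j sp h lab mag Kp π' δ1 le_rfl hs hne hM).2⟩

theorem cav_same (S : Spec) {ρ m ε : ℝ} (hρ : 1 ≤ ρ) (hm : 0 < m) (hε : 0 < ε) :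
    ∃ δ0 > 0, ∃ n0 : ℕ, ∀ (X : Expo), X.m = m →
    ∀ (M J : ℕ) (θ : ℕ → ℝ) (blk : Fin M → Fin (S.k + 1)) (j : Fin (S.k + 1))
      (sp : Fin S.k → Fin M), Cav blk j sp → ∀ (lab : Fin M → Fin J) (mag : Fin J → ℝ) (Kp : ℝ)
      (π' : PI X.n S.k J → ℝ), Small π' δ0 → n0 < (fib (blkR blk sp S.top) S.top).card →
      (M : ℝ) ≤ ρ * (fib (blkR blk sp S.top) S.top).card →
      ∀ Q : ℕ → ℝ, X.Seq Q ρ →
      (sys S 1 θ (blkR blk sp S.top) lab mag Kp (fun _ => 0) (fun _ _ => 0) π').ErrQ X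
        (fib (blkR blk sp S.top) S.top) Q ≤ δ0 * (fib (blkR blk sp S.top) S.top).card →
      |(sys S 1 θ blk lab mag Kp (fun _ => 0) (fun _ _ => 0) π').A X -
        ((sys S 1 θ (blkR blk sp S.top) lab mag Kp (fun _ => 0) (fun _ _ => 0) π').A X -
          X.Gam (fun l => ∑ a, log (1 + S.κ (j.succAbove a) * X.D Q l)) / 2)| ≤ ε := by
  obtain ⟨C, δ1, hδ1, hC, H⟩ := x9_main S hρ
  obtain ⟨δ2, hδ2, n0, H2⟩ := chain S.k (ρ := ρ) (x9_Λ S) hm le_rfl (half_pos hε)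
  refine ⟨min δ2 (min δ1 (ε / 2 / (C + 1))), by positivity, n0, ?_⟩
  intro X hX M J θ blk j sp h lab mag Kp π' hs hn hM Q hQ hE
  have hne : (fib (blkR blk sp S.top) S.top).Nonempty := Finset.card_pos.1 (by omega)
  have h1 := (H X M J θ blk j sp h lab mag Kp π' _
    ((min_le_right _ _).trans (min_le_left _ _)) hs hne hM).1
  have h2 := H2 X hX M _ _ sp (tinv_ref S 1 θ h lab mag Kp (fun _ => 0) (fun _ _ => 0) π' hne hM)
    hn.le (fun _ => 0) (fun _ => 0) 0 S.k (fun a => S.κ (j.succAbove a))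
    (fun b a => if b = a then 1 else 0) (fun _ => 0) (fun a => S.κ (j.succAbove a)) (fun _ => 0) 0
    (fun _ => ⟨S.κ_nonneg _, S.κ_le _⟩) (fun a => by simp) (by simp)
    (fun _ => ⟨S.κ_nonneg _, S.κ_le _⟩) (x9_Λ S) (fun y ε' => by rw [x9_Vq]; simp; ring) Q hQ
    (hE.trans (mul_le_mul_of_nonneg_right (min_le_left _ _) (Nat.cast_nonneg _)))
    (fun _ => 0) (fun _ => 0) measurable_const measurable_const (fun _ => by simp)
    (fun _ => le_rfl) (by simpa using hδ2.le)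
  simp only [ne_eq, OfNat.ofNat_ne_zero, not_false_eq_true, zero_pow, add_zero, zero_mul, zero_div,
    Finset.sum_const_zero, sub_self, Phi_zero, sub_zero] at h2
  have h3 : C * min δ2 (min δ1 (ε / 2 / (C + 1))) ≤ ε / 2 := by
    refine (mul_le_mul_of_nonneg_left ((min_le_right _ _).trans (min_le_right _ _)) hC).trans ?_
    rw [mul_div_assoc', div_le_iff₀ (by positivity)]
    nlinarith
  have h4 := abs_sub_le _ _ _ |>.trans (add_le_add (h1.trans h3) h2)
  linarith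

end Crest.Agent.R164
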