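import Crest.Agent.R164.X10Aux2
import Crest.Agent.R164.X9
import Crest.Agent.R164.H2

/-! # Auxiliary facts for `X10`: reduction to the representative rows -/

set_option autoImplicit false
set_option linter.unusedVariables false
set_option linter.unusedSectionVars false

open MeasureTheory ProbabilityTheory Real Crest.ProbabilityR.InvariantGlass
open scoped ENNReal

namespace Crest.Agent.R164

variable {M k : ℕ} {X : Expo}

/-- deviation of the block weights of the last column -/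
noncomputable def Zc (blk' : Fin (M + 1) → Fin (k + 1)) (U : Orth (M + 1)) : ℝ :=
  ∑ b, (∑ i ∈ fib blk' b, U.1 i (Fin.last M) ^ 2 - ((k : ℝ) + 1)⁻¹) ^ 2

theorem x10_vq {P : ℕ} {κ x x' : Fin P → ℝ} {Λ η q : ℝ} (hΛ : 0 ≤ Λ)
    (hκ : ∀ b, 0 ≤ κ b ∧ κ b ≤ 2 * Λ) (hη : 0 < η) (h1 : ∑ b, x b ^ 2 = q)
    (h2 : ∑ b, x' b ^ 2 = q) (h3 : ∑ b, (x b - x' b) ^ 2 ≤ 4 * η ^ 2 * q) :
    |-(1 / 2) * ∑ b, κ b * x b ^ 2 - -(1 / 2) * ∑ b, κ b * x' b ^ 2| ≤ 4 * Λ * η * q := by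
  have a1 : η * ∑ b, |x b ^ 2 - x' b ^ 2| ≤ η * (4 * η * q) := by
    rw [Finset.mul_sum]
    calc ∑ b, η * |x b ^ 2 - x' b ^ 2|
        ≤ ∑ b, (η ^ 2 * x b ^ 2 + η ^ 2 * x' b ^ 2 + (1 / 2) * (x b - x' b) ^ 2) := by
          refine Finset.sum_le_sum fun b _ => ?_
          rw [← abs_of_pos hη, ← abs_mul, abs_of_pos hη, abs_le]
          constructor
          · nlinarith [sq_nonneg (η * (x b + x' b) + (x b - x' b)), sq_nonneg (η * (x b - x' b))]
          · nlinarith [sq_nonneg (η * (x b + x' b) - (x b - x' b)), sq_nonneg (η * (x b - x' b))]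
      _ = η ^ 2 * q + η ^ 2 * q + (1 / 2) * ∑ b, (x b - x' b) ^ 2 := by
          rw [Finset.sum_add_distrib, Finset.sum_add_distrib, ← Finset.mul_sum, ← Finset.mul_sum,
            ← Finset.mul_sum, h1, h2]
      _ ≤ η * (4 * η * q) := by nlinarith
  have a2 := le_of_mul_le_mul_left a1 hη
  have a3 : |∑ b, κ b * x b ^ 2 - ∑ b, κ b * x' b ^ 2| ≤ 2 * Λ * ∑ b, |x b ^ 2 - x' b ^ 2| := by
    rw [← Finset.sum_sub_distrib, Finset.mul_sum]
    refine (Finset.abs_sum_le_sum_abs _ _).trans (Finset.sum_le_sum fun b _ => ?_)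
    rw [← mul_sub, abs_mul, abs_of_nonneg (hκ b).1]
    exact mul_le_mul_of_nonneg_right (hκ b).2 (abs_nonneg _)
  have a4 : 2 * Λ * ∑ b, |x b ^ 2 - x' b ^ 2| ≤ 2 * Λ * (4 * η * q) :=
    mul_le_mul_of_nonneg_left a2 (by positivity)
  rw [← mul_sub, abs_mul, show |-(1 / 2 : ℝ)| = 1 / 2 by norm_num [abs_of_neg]]
  nlinarith

theorem x10_dist {P : ℕ} {w w' : Fin P → ℝ} (h : ∀ b, 0 ≤ w b) (h' : ∀ b, 0 ≤ w' b) {η : ℝ}
    (hZ : P * ∑ b, (w' b ^ 2 - w b ^ 2) ^ 2 ≤ η ^ 4) : ∑ b, (w b - w' b) ^ 2 ≤ η ^ 2 := by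
  have a1 : ∑ b, (w b - w' b) ^ 2 ≤ ∑ b, |w' b ^ 2 - w b ^ 2| := by
    refine Finset.sum_le_sum fun b _ => ?_
    have := h b
    have := h' b
    rcases le_total (w b) (w' b) with hh | hh
    · exact le_trans (by nlinarith) (le_abs_self _)
    · exact le_trans (by nlinarith) (neg_le_abs _)
  have a2 := sq_sum_le_card_mul_sum_sq (s := Finset.univ) (f := fun b => |w' b ^ 2 - w b ^ 2|)
  simp only [sq_abs, Finset.card_univ, Fintype.card_fin] at a2
  refine a1.trans (abs_le_of_sq_le_sq' ?_ (sq_nonneg _)).2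
  calc _ ≤ _ := a2
    _ ≤ η ^ 4 := hZ
    _ = _ := by ring

theorem exists_emb (S : Spec) (p : Par (M + 1)) {blk : Fin M → Fin (S.k + 1)} {j : Fin (S.k + 1)}
    {sp : Fin S.k → Fin M} (h : Cav blk j sp)
    (hp : ∀ i i', (Fin.snoc blk j : Fin (M + 1) → Fin (S.k + 1)) i =
      (Fin.snoc blk j : Fin (M + 1) → Fin (S.k + 1)) i' →
      p.lam i = p.lam i' ∧ ∀ a, p.vt a i = p.vt a i')
    (Os : Orth (S.k + 1)) (hOs : ∀ b, Os.1 b j = √(((S.k : ℝ) + 1)⁻¹)) (U : Orth (M + 1)) :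
    ∃ (O : Orth (S.k + 1)) (E : Orth (M + 1)), Emb j sp O E ∧
      (xT X M S.k).A (fun x => Ham p (up U x)) = (xT X M S.k).A (fun x => Ham p (up E x)) ∧
      ∀ η : ℝ, 0 < η → ((S.k : ℝ) + 1) * Zc (Fin.snoc blk j) U ≤ η ^ 4 → ∀ y ε,
        |Vq S.κ (fun b a => O.1 b (j.succAbove a)) (fun b => O.1 b j) y ε -
          Vq S.κ (fun b a => Os.1 b (j.succAbove a)) (fun b => Os.1 b j) y ε| ≤
          4 * S.Λ * η * (1 + ∑ a, y a ^ 2) := by
  set blk' : Fin (M + 1) → Fin (S.k + 1) := Fin.snoc blk j with hblk'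
  set w : Fin (S.k + 1) → ℝ := fun b => √(∑ i ∈ fib blk' b, U.1 i (Fin.last M) ^ 2) with hw
  have hw2 : ∀ b, w b ^ 2 = ∑ i ∈ fib blk' b, U.1 i (Fin.last M) ^ 2 := fun b =>
    sq_sqrt (Finset.sum_nonneg fun _ _ => sq_nonneg _)
  have hw1 : ∑ b, w b ^ 2 = 1 := by
    simp only [hw2, fib]
    rw [Finset.sum_fiberwise Finset.univ blk' (fun i => U.1 i (Fin.last M) ^ 2)]
    simp only [sq]
    rw [orth_col, if_pos rfl]
  have hs1 : ∑ b, Os.1 b j ^ 2 = 1 := by simp only [sq]; rw [orth_col, if_pos rfl]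
  obtain ⟨R, hR1, hR2⟩ := exists_rotO (fun b => Os.1 b j) w hs1 hw1
    (Finset.sum_nonneg fun b _ => by rw [hOs]; exact mul_nonneg (sqrt_nonneg _) (sqrt_nonneg _))
  obtain ⟨E, hE1, hE2⟩ := exists_embO (rep j sp) (rep_inj h) (R * Os)
  obtain ⟨D, hD1, hD2⟩ := exists_blockO blk' (rep j sp) (blk_rep h) (fun i => U.1 i (Fin.last M))
  have hcol : ∀ b, (R * Os).1 b j = w b := fun b => by
    rw [← hR1]
    rfl
  refine ⟨R * Os, E, ⟨hE1, hE2⟩, ?_, fun η hη hZ y ε => ?_⟩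
  · rw [← dec_block p D E (fun i i' hi => hp i i' (hD1 i i' hi))]
    refine dec_col p fun i => ?_
    have e0 : ∀ i', E.1 i' (Fin.last M) = E.1.mulVec (Pi.single (Fin.last M) 1) i' := fun i' => by
      simp
    have e1 : ∀ b, E.1 (rep j sp b) (Fin.last M) = w b := fun b => by
      rw [e0, hE1, Fin.sum_univ_succAbove _ j, rep_j, ← hcol]
      simp [rep_succ, (Fin.castSucc_lt_last _).ne]
    have e2 : ∀ i' ∈ nsp sp, E.1 i'.castSucc (Fin.last M) = 0 := fun i' hi' => by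
      rw [e0, hE2 _ _ (rep_ne_of_nsp j hi')]
      simp [(Fin.castSucc_lt_last _).ne]
    have e3 : (D * E).1 i (Fin.last M) = ∑ i', D.1 i i' * E.1 i' (Fin.last M) := rfl
    rw [e3, sum_split h.inj j, Finset.sum_eq_zero (s := nsp sp) fun i' hi' => by
      rw [e2 i' hi', mul_zero], add_zero, ← hD2 i]
    exact Finset.sum_congr rfl fun b _ => by rw [e1]
  · have hd : ∑ b, (Os.1 b j - w b) ^ 2 ≤ η ^ 2 := by
      refine x10_dist (w' := w) (fun b => by rw [hOs]; exact sqrt_nonneg _)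
        (fun b => sqrt_nonneg _) ?_
      have : ∀ b, Os.1 b j ^ 2 = ((S.k : ℝ) + 1)⁻¹ := fun b => by
        rw [hOs, sq_sqrt (by positivity)]
      simp only [hw2, this]
      push_cast
      exact hZ
    have h3 := hR2 (xv Os j y ε)
    rw [← xv_mul, sum_xv_sq] at h3
    have hq : 0 ≤ 1 + ∑ a, y a ^ 2 := by positivity
    exact x10_vq S.Λ_nonneg (fun b => ⟨S.κ_nonneg b, S.κ_le b⟩) hη (sum_xv_sq (R * Os) j y ε)
      (sum_xv_sq Os j y ε) (h3.trans (by nlinarith))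

theorem abs_Rf {J : ℕ} (lab : Fin M → Fin J) {mag : Fin J → ℝ} (hm : ∀ j, |mag j| ≤ 1)
    (js : Fin J) {Kp : ℝ} (hK : 0 ≤ Kp) (yb : ℝ) (σ : (Fin M → Bool) × Bool) :
    |Rf lab mag js Kp yb σ| ≤ 4 * Kp * |yv lab mag js σ.1 - yb| + 4 * Kp := by
  have h1 : |sg σ.2 - mag js| ≤ 2 := by
    have := abs_sub (sg σ.2) (mag js)
    rw [abs_sg] at this
    linarith [hm js]
  have h2 : |2 * Kp * (yv lab mag js σ.1 - yb) * (sg σ.2 - mag js)| ≤
      4 * Kp * |yv lab mag js σ.1 - yb| := by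
    rw [abs_mul, abs_mul, abs_of_nonneg (by positivity : 0 ≤ 2 * Kp)]
    have : 0 ≤ 2 * Kp * |yv lab mag js σ.1 - yb| := by positivity
    nlinarith
  have h3 : (sg σ.2 - mag js) ^ 2 ≤ 4 := by
    rw [← sq_abs]; nlinarith [abs_nonneg (sg σ.2 - mag js)]
  have h4 := sq_nonneg (sg σ.2 - mag js)
  rw [abs_le] at h2 ⊢
  unfold Rf
  constructor <;> nlinarith

theorem R0_le {J : ℕ} (lab : Fin M → Fin J) {mag : Fin J → ℝ} (hm : ∀ j, |mag j| ≤ 1)
    (js : Fin J) {Kp K yb : ℝ} (hK : 0 ≤ Kp) (hKM : Kp * M ≤ K) (hM : 1 ≤ M)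
    (hy : Kp * |yb| ≤ 3 * K) (σ : Fin M → Bool) :
    4 * Kp * |yv lab mag js σ - yb| + 4 * Kp ≤ 24 * K := by
  have h1 := abs_yv_le lab mag hm js σ
  have h2 : ((fib lab js).card : ℝ) ≤ M := by
    have := Finset.card_le_univ (fib lab js)
    rw [Fintype.card_fin] at this
    exact_mod_cast this
  have h3 : (1 : ℝ) ≤ M := by exact_mod_cast hM
  have h4 := abs_sub (yv lab mag js σ) yb
  have h5 : Kp * |yv lab mag js σ - yb| ≤ Kp * (2 * M + |yb|) :=
    mul_le_mul_of_nonneg_left (by linarith) hK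
  nlinarith

/-- the comparison at a fixed matrix -/
theorem cav_U (S : Spec) {ρ K : ℝ} (hρ : 1 ≤ ρ) (hK : 0 ≤ K) : ∃ C δ1 : ℝ, 0 < δ1 ∧ δ1 ≤ 1 ∧
    0 ≤ C ∧ ∀ (X : Expo) (M J : ℕ) (θ ϑ : ℕ → ℝ) (δ : ℝ) (blk : Fin M → Fin (S.k + 1))
      (j : Fin (S.k + 1)) (sp : Fin S.k → Fin M), Cav blk j sp →
      ∀ (lab' : Fin (M + 1) → Fin J) (mag : Fin J → ℝ) (Kp yb : ℝ) (π' : PI X.n S.k J → ℝ)
      (tx : ℕ → Fin (M + 1) → ℝ), (∀ a r, tx a r = if r = Fin.last M then ϑ a else 0) →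
      ∀ (δ0 η : ℝ) (Os : Orth (S.k + 1)), Small π' δ0 → 0 < η → 4 * S.Λ * η + 2 * δ0 ≤ δ1 →
      (∀ j, |mag j| ≤ 1) → 0 ≤ Kp → Kp * M ≤ K → Kp * |yb| ≤ 3 * K →
      (fib (blkR blk sp S.top) S.top).Nonempty →
      (M : ℝ) ≤ ρ * (fib (blkR blk sp S.top) S.top).card →
      (∀ b, Os.1 b j = √(((S.k : ℝ) + 1)⁻¹)) →
      ∀ (a0 a1 : ℝ) (F : Orth (M + 1) → ℝ),
      a0 = (xT X M S.k).A (HB (sys S 1 θ (blkR blk sp S.top) (fun r => lab' r.castSucc) mag Kp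
        (fun _ => 0) (fun _ _ => 0) π') θ ϑ
          (π' (Sum.inr (Sum.inr (lab' (Fin.last M)))) - 2 * Kp * yb + δ)) →
      a1 = (xT X M S.k).A (fun x => HB (sys S 1 θ (blkR blk sp S.top) (fun r => lab' r.castSucc)
        mag Kp (fun _ => 0) (fun _ _ => 0) π') θ ϑ
          (π' (Sum.inr (Sum.inr (lab' (Fin.last M)))) - 2 * Kp * yb + δ) x +
          VV S Os j sp (S.lam S.top / 2 -
            (π' (Sum.inr (Sum.inr (lab' (Fin.last M)))) - 2 * Kp * yb) * mag (lab' (Fin.last M)))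
          (Rf (fun r => lab' r.castSucc) mag (lab' (Fin.last M)) Kp yb) x.1 x.2.2) →
      (∀ U, F U = (xT X M S.k).A (fun x => Ham (sys S 1 θ (Fin.snoc blk j) lab' mag Kp
        (fun σ => δ * spinVec σ (Fin.last M)) tx π') (up U x))) →
      |a1 - a0| ≤ 2 * C ∧ ∀ U, |F U - a0| ≤ C ∧
        (((S.k : ℝ) + 1) * Zc (Fin.snoc blk j) U ≤ η ^ 4 →
          |F U - a1| ≤ C * (4 * S.Λ * η + 2 * δ0)) := by
  have hΛ := S.Λ_nonneg
  obtain ⟨C, δ1, hδ1, hC, H⟩ := off_compare S.k ρ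
    ((S.Λ + 1 + 30 * K) + 2 * S.Λ * (S.k + 1)) hρ (by positivity)
  refine ⟨C, min δ1 1, lt_min hδ1 one_pos, min_le_right _ _, hC, ?_⟩
  intro X M J θ ϑ δ blk j sp h lab' mag Kp yb π' tx htx δ0 η Os hs hη hd hm hKp hKM hy hne hcard
    hOs a0 a1 F ha0 ha1 hF
  have hδ0 : 0 ≤ δ0 := (abs_nonneg _).trans (hs.a j)
  have hΛη : 0 ≤ 4 * S.Λ * η := by positivity
  have hd1 := hd.trans (min_le_left _ _)
  have hd2 := hd.trans (min_le_right _ _)
  have hM : 1 ≤ M := by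
    obtain ⟨i, -⟩ := hne
    exact Nat.succ_le_of_lt (lt_of_le_of_lt (Nat.zero_le _) i.2)
  have hT := tinv_ref S 1 θ h (fun r => lab' r.castSucc) mag Kp (fun _ => 0) (fun _ _ => 0) π'
    hne hcard
  have hb : ∀ σ, |(S.lam S.top / 2 -
      (π' (Sum.inr (Sum.inr (lab' (Fin.last M)))) - 2 * Kp * yb) * mag (lab' (Fin.last M))) +
      Rf (fun r => lab' r.castSucc) mag (lab' (Fin.last M)) Kp yb σ| ≤ S.Λ + 1 + 30 * K := by
    intro σ
    have b1 := (abs_Rf (fun r => lab' r.castSucc) hm (lab' (Fin.last M)) hKp yb σ).trans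
      (R0_le _ hm _ hKp hKM hM hy σ.1)
    have b2 := S.abs_lam_le S.top
    have b3 : |π' (Sum.inr (Sum.inr (lab' (Fin.last M)))) - 2 * Kp * yb| ≤ 1 + 6 * K := by
      have c1 := abs_sub (π' (Sum.inr (Sum.inr (lab' (Fin.last M))))) (2 * Kp * yb)
      have c2 := hs.h (lab' (Fin.last M))
      rw [abs_mul, abs_of_nonneg (by positivity : 0 ≤ 2 * Kp)] at c1
      linarith
    have b4 : |(π' (Sum.inr (Sum.inr (lab' (Fin.last M)))) - 2 * Kp * yb) *
        mag (lab' (Fin.last M))| ≤ 1 + 6 * K := by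
      rw [abs_mul]
      exact (mul_le_of_le_one_right (abs_nonneg _) (hm _)).trans b3
    rw [abs_le] at b1 b2 b4 ⊢
    constructor <;> linarith
  have hv : ∀ c, ∑ a ∈ Finset.Icc 1 X.n, (sys S 1 θ (blkR blk sp S.top)
      (fun r => lab' r.castSucc) mag Kp (fun _ => 0) (fun _ _ => 0) π').vt a (sp c) ^ 2 ≤
      4 * S.Λ * η + 2 * δ0 := fun c => (hs.v _).trans (by linarith)
  -- the generic comparison
  have G : ∀ (O O' : Orth (S.k + 1)) (E : Orth (M + 1)), Emb j sp O E →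
      (∀ y ε, |Vq S.κ (fun b a => O.1 b (j.succAbove a)) (fun b => O.1 b j) y ε -
          Vq S.κ (fun b a => O'.1 b (j.succAbove a)) (fun b => O'.1 b j) y ε| ≤
          4 * S.Λ * η * (1 + ∑ a, y a ^ 2)) →
      |F E - (xT X M S.k).A (fun x => HB (sys S 1 θ (blkR blk sp S.top) (fun r => lab' r.castSucc)
        mag Kp (fun _ => 0) (fun _ _ => 0) π') θ ϑ
          (π' (Sum.inr (Sum.inr (lab' (Fin.last M)))) - 2 * Kp * yb + δ) x +
          VV S O' j sp (S.lam S.top / 2 -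
            (π' (Sum.inr (Sum.inr (lab' (Fin.last M)))) - 2 * Kp * yb) * mag (lab' (Fin.last M)))
          (Rf (fun r => lab' r.castSucc) mag (lab' (Fin.last M)) Kp yb) x.1 x.2.2)| ≤
        C * (4 * S.Λ * η + 2 * δ0) ∧ |F E - a0| ≤ C := by
    intro O O' E hE hO
    have sq := squeeze (X := X) S θ ϑ δ h lab' mag Kp yb π' tx htx hE (δ' := 4 * S.Λ * η) hs
      (measurable_VV S O' j sp _ _) (VV_bound S O' j sp hb) (fun x => by
        have := hO (fun a => sv x.1 x.2.2.1 (sp a)) x.2.2.2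
        unfold VV
        rw [add_sub_add_right_eq_sub, add_sub_add_left_eq_sub]
        exact this)
    rw [hF, ha0]
    exact H X M _ _ sp hT θ ϑ _ _ (by positivity) hd1 hv _ (measurable_VV S O' j sp _ _)
      (VV_bound S O' j sp hb) _ sq.1 sq.2
  have hz : ∀ (O : Orth (S.k + 1)) y ε,
      |Vq S.κ (fun b a => O.1 b (j.succAbove a)) (fun b => O.1 b j) y ε -
          Vq S.κ (fun b a => O.1 b (j.succAbove a)) (fun b => O.1 b j) y ε| ≤
          4 * S.Λ * η * (1 + ∑ a, y a ^ 2) := fun O y ε => by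
    rw [sub_self, abs_zero]; positivity
  refine ⟨?_, fun U => ?_⟩
  · obtain ⟨E, hE⟩ := exists_embO (rep j sp) (rep_inj h) Os
    obtain ⟨g1, g2⟩ := G Os Os E hE (hz Os)
    rw [← ha1] at g1
    have g3 : C * (4 * S.Λ * η + 2 * δ0) ≤ C := mul_le_of_le_one_right hC hd2
    rw [abs_le] at g1 g2 ⊢
    constructor <;> linarith
  · obtain ⟨O, E, hE, e, hO⟩ := exists_emb (X := X) S (sys S 1 θ (Fin.snoc blk j) lab' mag Kp
      (fun σ => δ * spinVec σ (Fin.last M)) tx π') h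
      (fun i i' hi => by simp only [sys, hi]; exact ⟨trivial, fun _ => trivial⟩) Os hOs U
    have e' : F U = F E := by rw [hF, hF, e]
    rw [e']
    refine ⟨(G O O E hE (hz O)).2, fun hZ => ?_⟩
    rw [ha1]
    exact (G O Os E hE (hO η hη hZ)).1

theorem measurable_Zc (blk' : Fin (M + 1) → Fin (k + 1)) : Measurable (Zc blk') := by
  unfold Zc
  exact Finset.measurable_sum _ fun b _ => ((Finset.measurable_sum _ fun i _ =>
    (measurable_entry _ _).pow_const 2).sub measurable_const).pow_const 2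

theorem x10_col (U : Orth (M + 1)) (J : Finset (Fin (M + 1))) :
    0 ≤ ∑ i ∈ J, U.1 i (Fin.last M) ^ 2 ∧ ∑ i ∈ J, U.1 i (Fin.last M) ^ 2 ≤ 1 := by
  refine ⟨Finset.sum_nonneg fun _ _ => sq_nonneg _, ?_⟩
  have : ∑ i, U.1 i (Fin.last M) ^ 2 = 1 := by simp only [sq]; rw [orth_col, if_pos rfl]
  rw [← this]
  exact Finset.sum_le_sum_of_subset_of_nonneg (Finset.subset_univ _) fun _ _ _ => sq_nonneg _

theorem x10_int (J : Finset (Fin (M + 1))) (c : ℝ) : Integrable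
    (fun U : Orth (M + 1) => (∑ i ∈ J, U.1 i (Fin.last M) ^ 2 - c) ^ 2) (haar (M + 1)) := by
  refine Integrable.of_bound (((Finset.measurable_sum _ fun i _ =>
    (measurable_entry _ _).pow_const 2).sub measurable_const).pow_const 2).aestronglyMeasurable
    ((1 + |c|) ^ 2) (Filter.Eventually.of_forall fun U => ?_)
  have h := x10_col U J
  have := le_abs_self c
  have := neg_abs_le c
  rw [Real.norm_eq_abs, abs_of_nonneg (sq_nonneg _)]
  exact sq_le_sq' (by linarith) (by linarith)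

theorem integrable_Zc (blk' : Fin (M + 1) → Fin (k + 1)) : Integrable (Zc blk') (haar (M + 1)) :=
  integrable_finsetSum _ fun b _ => x10_int _ _

theorem integral_Zc (blk' : Fin (M + 1) → Fin (k + 1)) {δ : ℝ}
    (h : ∀ b, |((fib blk' b).card : ℝ) / (M + 1) - ((k : ℝ) + 1)⁻¹| ≤ δ) :
    ∫ U, Zc blk' U ∂(haar (M + 1)) ≤ (k + 1) * (4 / (M + 1) + 2 * δ ^ 2) := by
  unfold Zc
  rw [integral_finsetSum _ fun b _ => x10_int _ _]
  have key : ∀ b, ∫ U : Orth (M + 1), (∑ i ∈ fib blk' b, U.1 i (Fin.last M) ^ 2 -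
      ((k : ℝ) + 1)⁻¹) ^ 2 ∂(haar (M + 1)) ≤ 4 / (M + 1) + 2 * δ ^ 2 := by
    intro b
    have h1 := haar_col_var (fib blk' b) (Fin.last M)
    push_cast at h1
    have h2 : (((fib blk' b).card : ℝ) / (M + 1) - ((k : ℝ) + 1)⁻¹) ^ 2 ≤ δ ^ 2 :=
      sq_le_sq' (abs_le.1 (h b)).1 (abs_le.1 (h b)).2
    calc _ ≤ ∫ U : Orth (M + 1), (2 * (∑ i ∈ fib blk' b, U.1 i (Fin.last M) ^ 2 -
            ((fib blk' b).card : ℝ) / (M + 1)) ^ 2 + 2 * δ ^ 2) ∂(haar (M + 1)) := by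
          refine integral_mono (x10_int _ _) (((x10_int _ _).const_mul 2).add (integrable_const _))
            fun U => ?_
          dsimp only
          nlinarith [sq_nonneg (∑ i ∈ fib blk' b, U.1 i (Fin.last M) ^ 2 -
            ((fib blk' b).card : ℝ) / (M + 1) -
            (((fib blk' b).card : ℝ) / (M + 1) - ((k : ℝ) + 1)⁻¹))]
      _ ≤ _ := by
          rw [integral_add ((x10_int _ _).const_mul 2) (integrable_const _), integral_const_mul]
          simp only [integral_const, probReal_univ, smul_eq_mul, one_mul]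
          have : (4 : ℝ) / (M + 1) = 2 * (2 / (M + 1)) := by ring
          linarith
  calc _ ≤ ∑ _b : Fin (k + 1), (4 / ((M : ℝ) + 1) + 2 * δ ^ 2) := Finset.sum_le_sum fun b _ => key b
    _ = _ := by simp; ring

end Crest.Agent.R164
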