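import Crest.Agent.R164.X1

/-! # Decomposition of the system of size `M + 1` along the last column

Let `F U = X_1 (Ham p') (U, 0, σ0)` in `mT X (M+1)`.  The map `up U` is a morphism from `xT` to
`mT X (M+1)` for the levels `≥ 1` (`mor_inj`, `unif_map_equiv`), so (with `integral_mix_zero`,
`dep_X`) `exp (m A_x (Ham p' ∘ up U)) = ∫ exp (m F (U (V ⊕ 1))) dV`, and
`exp (m A p') = ∫ exp (m F U) dU` (`A_eq_of_lev_pos`).  Right invariance and Fubini give `dec`,
left invariance on `Orth M` gives `dec_col`; `F (D U) = F U` for block diagonal `D` (`mor_lin` on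
the levels `≥ 1`, rotating the row fields) gives `dec_block`. -/

set_option autoImplicit false
set_option linter.unusedVariables false
set_option linter.unusedSectionVars false

open MeasureTheory ProbabilityTheory Real Crest.ProbabilityR.InvariantGlass
open scoped ENNReal

namespace Crest.Agent.R164

variable {M k : ℕ} {X : Expo}

/-- the coordinates of the system of size `M + 1` inside the extended system -/
def x8_ι {n : ℕ} (M k : ℕ) (q : MI n (M + 1)) : XI n M k :=
  Fin.lastCases (motive := fun _ => XI n M k) (Sum.inr (Sum.inr (Sum.inr (q.1, q.2.1))))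
    (fun i => Sum.inl (q.1, q.2.1, i)) q.2.2

theorem x8_ι_inj {n : ℕ} : Function.Injective (x8_ι (n := n) M k) := by
  rintro ⟨c, l, i⟩ ⟨c', l', i'⟩ h
  induction i using Fin.lastCases <;> induction i' using Fin.lastCases <;>
    simp_all [x8_ι]

theorem x8_ι_lev {n : ℕ} (q : MI n (M + 1)) : xlev (x8_ι M k q) = mlev q := by
  obtain ⟨c, l, i⟩ := q
  induction i using Fin.lastCases <;> simp [x8_ι, xlev, alev, mlev]

/-- the spin map -/
def x8_ς (M : ℕ) : (Fin M → Bool) × Bool ≃ (Fin (M + 1) → Bool) :=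
  (Equiv.prodComm _ _).trans (Fin.snocEquiv fun _ => Bool)

theorem x8_up {n : ℕ} (U : Orth (M + 1)) (x : XS n M k) :
    up U x = (U * ext1 x.1, fun a => x.2.1 (x8_ι M k a), x8_ς M x.2.2) := by
  refine Prod.ext rfl (Prod.ext (funext fun q => ?_) rfl)
  obtain ⟨c, l, i⟩ := q
  induction i using Fin.lastCases <;> simp [up, x8_ι]

theorem x8_mor (U : Orth (M + 1)) : (xT X M k).Mor (mT X (M + 1)) (up U) 1 := by
  have e : (up U : XS X.n M k → MS X.n (M + 1)) =
      fun x => (U * ext1 x.1, fun a => x.2.1 (x8_ι M k a), x8_ς M x.2.2) := funext (x8_up U)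
  rw [e]
  exact mor_inj (f := fun V : Orth M => U * ext1 V)
    ((measurable_orth_mul_left U).comp measurable_ext1) (fun h => absurd h one_ne_zero)
    (x8_ι M k) x8_ι_inj x8_ι_lev (unif_map_equiv (x8_ς M))

/-- the value at level `1` as a function of the matrix -/
noncomputable def x8_F {N : ℕ} (X : Expo) (p : Par N) (U : Orth N) : ℝ :=
  (mT X N).X (Ham p) 1 (U, 0, fun _ => true)

theorem x8_dep {N : ℕ} (p : Par N) (x : MS X.n N) : (mT X N).X (Ham p) 1 x = x8_F X p x.1 := by
  refine Tower.dep_X (T := mT X N) (Ham p) 1 _ _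
    ⟨fun _ => rfl, fun i hi => ?_, fun h => absurd h (by omega)⟩
  simp [mlev] at hi

theorem x8_measF {N : ℕ} (p : Par N) : Measurable (x8_F X p) :=
  (Tower.measurable_X (mT X N) (measurable_Ham p) 1).comp (measurable_id.prodMk measurable_const)

theorem x8_bdF {N : ℕ} (p : Par N) : ∃ C : ℝ, ∀ U, |x8_F X p U| ≤ C := by
  obtain ⟨-, C, hC⟩ := (lg_Ham (X := X) p).X 1
  refine ⟨C, fun U => ?_⟩
  have h := hC (U, 0, fun _ => true)
  have h0 : (mT X N).ν (U, 0, fun _ => true) = 0 := norm_zero
  rwa [h0, add_zero, mul_one] at h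

theorem x8_int {N : ℕ} (p : Par N) {α : Type} [MeasurableSpace α] (μ : Measure α)
    [IsFiniteMeasure μ] {f : α → Orth N} (hf : Measurable f) :
    Integrable (fun a => exp (X.m * x8_F X p (f a))) μ := by
  obtain ⟨C, hC⟩ := x8_bdF (X := X) p
  refine Integrable.of_bound (((x8_measF p).comp hf).const_mul _).exp.aestronglyMeasurable
    (exp (X.m * C)) (Filter.Eventually.of_forall fun a => ?_)
  rw [Real.norm_eq_abs, abs_of_pos (exp_pos _)]
  exact exp_le_exp.2 (mul_le_mul_of_nonneg_left ((le_abs_self _).trans (hC _)) X.m_pos.le)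

theorem x8_A (p : Par (M + 1)) (U : Orth (M + 1)) :
    (xT X M k).A (fun x => Ham p (up U x)) =
      X.m⁻¹ * log (∫ V, exp (X.m * x8_F X p (U * ext1 V)) ∂(haar M)) := by
  have hm : Measurable (fun x : XS X.n M k => Ham p (up U x)) :=
    (measurable_Ham p).comp (x8_mor (X := X) U).meas
  have h1 : ∀ x, (xT X M k).X (fun x => Ham p (up U x)) 1 x = x8_F X p (U * ext1 x.1) := by
    intro x
    rw [(x8_mor U).X (measurable_Ham p) le_rfl, x8_dep]
    rfl
  have h2 := A_eq_of_lev_pos_aux (X := X) (P := haar M) (lev := xlev) hm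
  refine h2.trans ?_
  congr 2
  refine Eq.trans (integral_congr_ae (Filter.Eventually.of_forall fun q => ?_))
    ((integral_fun_fst (μ := haar M) (ν := gpi (XI X.n M k))
      (fun V => exp (X.m * x8_F X p (U * ext1 V)))).trans (by simp))
  exact congrArg (fun t => exp (X.m * t)) (h1 _)

theorem x8_expA (p : Par (M + 1)) (U : Orth (M + 1)) :
    exp (X.m * (xT X M k).A (fun x => Ham p (up U x))) =
      ∫ V, exp (X.m * x8_F X p (U * ext1 V)) ∂(haar M) := by
  rw [x8_A, mul_inv_cancel_left₀ X.m_pos.ne', exp_log (integral_exp_pos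
    (x8_int (X := X) p (haar M) (f := fun V => U * ext1 V)
      ((measurable_orth_mul_left U).comp measurable_ext1)))]

theorem x8_comm {N : ℕ} (D : Orth N) {c : Fin N → ℝ} (h : ∀ i j, D.1 i j ≠ 0 → c i = c j)
    (u w : Fin N → ℝ) :
    ∑ i, c i * (D.1.mulVec u i * D.1.mulVec w i) = ∑ i, c i * (u i * w i) := by
  have e : ∀ i, c i * D.1.mulVec u i = D.1.mulVec (fun j => c j * u j) i := by
    intro i
    simp only [Matrix.mulVec, dotProduct, Finset.mul_sum]
    refine Finset.sum_congr rfl fun j _ => ?_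
    by_cases h0 : D.1 i j = 0
    · simp [h0]
    · rw [h i j h0]; ring
  simp_rw [← mul_assoc, e]
  exact orth_inner D _ _

/-- the matrix acting on the family `c` -/
noncomputable def x8_E {N : ℕ} (D : Orth N) (c : Fin 3) : Orth N := if c = 1 then D else 1

noncomputable def x8_Λ {n N : ℕ} (D : Orth N) (a b : MI n N) : ℝ :=
  if b.1 = a.1 then (if b.2.1 = a.2.1 then (x8_E D a.1).1 a.2.2 b.2.2 else 0) else 0

theorem x8_Λ_sum {n N : ℕ} (D : Orth N) (a : MI n N) (g : MI n N → ℝ) :
    ∑ b, x8_Λ D a b * g b = (x8_E D a.1).1.mulVec (fun j => g (a.1, a.2.1, j)) a.2.2 := by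
  simp only [Fintype.sum_prod_type, x8_Λ, ite_mul, zero_mul, Finset.sum_ite_irrel,
    Finset.sum_const_zero, Finset.sum_ite_eq', Finset.mem_univ, if_true, Matrix.mulVec, dotProduct]

theorem x8_Λ_orth {n N : ℕ} (D : Orth N) (a b : MI n N) :
    ∑ i, x8_Λ D a i * x8_Λ D b i = if a = b then 1 else 0 := by
  rw [x8_Λ_sum]
  obtain ⟨c, l, i⟩ := a
  obtain ⟨c', l', i'⟩ := b
  simp only [Matrix.mulVec, dotProduct, x8_Λ, Prod.mk.injEq]
  by_cases hc : c = c'
  · by_cases hl : l = l'
    · subst hc hl
      simp only [if_true, true_and]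
      exact orth_row _ _ _
    · simp [hl]
  · simp [hc]

theorem x8_block {N : ℕ} (p : Par N) (D U : Orth N)
    (h : ∀ i j, D.1 i j ≠ 0 → p.lam i = p.lam j ∧ ∀ a, p.vt a i = p.vt a j) :
    x8_F X p (D * U) = x8_F X p U := by
  have mor : (mT X N).Mor (mT X N)
      (fun x => (D * x.1, fun a => ∑ i, x8_Λ D a i * x.2.1 i, x.2.2)) 1 :=
    mor_lin (f := fun V : Orth N => D * V) (measurable_orth_mul_left D)
      (fun h => absurd h one_ne_zero) (x8_Λ D) (x8_Λ_orth D) (fun a i hi => by
        by_contra hne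
        apply hi
        unfold x8_Λ
        split_ifs with h1 h2
        · exact absurd (by simp only [mlev, h2]) hne
        · rfl
        · rfl) (ς := id) Measure.map_id
  have e : (fun y : MS X.n N => Ham p
      ((D * y.1, fun a => ∑ i, x8_Λ D a i * y.2.1 i, y.2.2) : MS X.n N)) = Ham p := by
    funext y
    have e0 : x8_E D 0 = 1 := if_neg (by decide)
    have e1 : x8_E D 1 = D := if_pos rfl
    have e2 : x8_E D 2 = 1 := if_neg (by decide)
    have h1 := x8_comm D (c := p.lam) (fun i j hij => (h i j hij).1) (sv y.1 y.2.2) (sv y.1 y.2.2)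
    have h2 := fun l : Fin X.n => x8_comm D (c := p.vt (l + 1)) (fun i j hij => (h i j hij).2 _)
      (fun j => y.2.1 (1, l, j)) (sv y.1 y.2.2)
    simp only [Ham, sO, σO, x8_Λ_sum, e0, e1, e2, sv_mul, pow_two, h1, h2, OneMemClass.coe_one,
      Matrix.one_mulVec]
  have h3 := mor.X (measurable_Ham p) le_rfl (U, 0, fun _ => true)
  rw [e, x8_dep, x8_dep] at h3
  exact h3.symm

theorem measurable_up {n : ℕ} :
    Measurable (fun q : Orth (M + 1) × XS n M k => up q.1 q.2) := by
  simp only [x8_up]
  refine Measurable.prodMk ?_ (Measurable.prodMk ?_ ?_)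
  · exact measurable_orth_mul.comp
      (measurable_fst.prodMk (measurable_ext1.comp (measurable_fst.comp measurable_snd)))
  · exact measurable_pi_lambda _ fun a => by fun_prop
  · exact (measurable_of_finite (x8_ς M)).comp (by fun_prop)

theorem lg_up (p : Par (M + 1)) (U : Orth (M + 1)) :
    (xT X M k).LG (fun x => Ham p (up U x)) := (x8_mor U).lg (lg_Ham p)

theorem dec (p : Par (M + 1)) :
    Measurable (fun U => (xT X M k).A (fun x => Ham p (up U x))) ∧
    p.A X = X.m⁻¹ * log (∫ U, exp (X.m * (xT X M k).A (fun x => Ham p (up U x)))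
      ∂(haar (M + 1))) := by
  have hm : Measurable (fun q : Orth (M + 1) × Orth M => q.1 * ext1 q.2) :=
    measurable_orth_mul.comp (measurable_fst.prodMk (measurable_ext1.comp measurable_snd))
  constructor
  · simp only [x8_A]
    refine (Measurable.log ?_).const_mul _
    exact ((((x8_measF p).comp hm).const_mul X.m).exp.stronglyMeasurable.integral_prod_right'
      (ν := haar M)).measurable
  · simp only [x8_expA]
    rw [integral_integral_swap (x8_int p _ hm)]
    have e : ∀ V : Orth M, ∫ U, exp (X.m * x8_F X p (U * ext1 V)) ∂(haar (M + 1)) =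
        ∫ U, exp (X.m * x8_F X p U) ∂(haar (M + 1)) := by
      intro V
      conv_rhs => rw [← haar_map_mul_right (ext1 V)]
      rw [integral_map (measurable_orth_mul_right _).aemeasurable
        ((x8_measF p).const_mul _).exp.aestronglyMeasurable]
    simp only [e, integral_const, probReal_univ, one_smul]
    exact A_eq_of_lev_pos (X := X) (P := haar (M + 1)) (lev := mlev) (measurable_Ham p)
      (fun i => by simp [mlev]) (fun _ => true)

theorem dec_col (p : Par (M + 1)) {U U' : Orth (M + 1)}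
    (h : ∀ i, U.1 i (Fin.last M) = U'.1 i (Fin.last M)) :
    (xT X M k).A (fun x => Ham p (up U x)) = (xT X M k).A (fun x => Ham p (up U' x)) := by
  obtain ⟨V, rfl⟩ := exists_ext1 U U' h
  rw [x8_A, x8_A]
  congr 2
  have hm : Measurable (fun W : Orth M => exp (X.m * x8_F X p (U * ext1 W))) :=
    (((x8_measF p).comp ((measurable_orth_mul_left U).comp measurable_ext1)).const_mul _).exp
  conv_lhs => rw [← haar_map_mul_left V]
  rw [integral_map (measurable_orth_mul_left _).aemeasurable hm.aestronglyMeasurable]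
  simp only [ext1_mul, mul_assoc]

theorem dec_block (p : Par (M + 1)) (D U : Orth (M + 1))
    (h : ∀ i j, D.1 i j ≠ 0 → p.lam i = p.lam j ∧ ∀ a, p.vt a i = p.vt a j) :
    (xT X M k).A (fun x => Ham p (up (D * U) x)) = (xT X M k).A (fun x => Ham p (up U x)) := by
  rw [x8_A, x8_A]
  simp only [mul_assoc, x8_block p D _ h]

end Crest.Agent.R164
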