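import Crest.Agent.R164.X9
import Crest.Agent.R164.X8
import Crest.Agent.R164.H2
import Crest.Agent.R164.X10Aux3
import Crest.Agent.R164.S3

/-! # The system of size `M + 1` compared with the reference system

`p' = sys … (snoc blk j) lab' …` with an extra field `ϑ` and an extra constant field `δ` on the last
site; `js = lab' last`, `lab = lab' ∘ castSucc`.  Let `rep j = last`,
`rep (j.succAbove a) = castSucc (sp a)` (`Fin.insertNth`/`Fin.succAboveCases`).  For `U` let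
`w_b = (Σ_{blk' i = b} U_{i,last}²)^{1/2}`, `O*` from `exists_diag`, `w* = O* · j`,
`O = R O*` with `R` from `exists_rotO` (`R w* = w`), `E` from `exists_embO rep O`, `D` from
`exists_blockO`.  `D E` has the same last column as `U`, so by `dec_col`, `dec_block` the value at
`U` is the value of `Ham p' ∘ up E`.  With `x_b = Σ_a O b (succAbove a) y_a + O b j ε`
(`sv_mul`, `sv_ext1`; `Σ x_b² = Q + 1`) one has pointwise
`Ham p' (up E ·) = HB (ref.off sp) θ ϑ (b+δ) + V + R_q + Σ_{l,b} vt l b · g(1,l,rep b) x_b`, where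
`b = h_{js} - 2 Kp ȳ`, `V = lam top/2 - b mag + Vq κ O* + R`,
`R = - 2 Kp (y_{js} - ȳ)(ε - mag) - Kp (ε - mag)²`, `|R| ≤ 4 Kp |y_{js} - ȳ| + 4 Kp`, and
`|R_q| ≤ (δ0 + 8 Λ |w - w*|)(1 + Q)` (eigenvalue shifts and `Vq κ O - Vq κ O*`).  `sandwich`
removes the row fields at the cost `½ δ0 (1+Q)`; `off_compare`, `chain`.  For the crude bound put
`Vq κ O` itself into `V` (no smallness of `w - w*` needed) and use `Phi_bound`.  Finally `dec`,
`lme_close` and `haar_col_var` (`|w - w*|² ≤ Σ_b |w_b² - 1/P|`, Markov/Cauchy–Schwarz). -/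

set_option autoImplicit false
set_option linter.unusedVariables false
set_option linter.unusedSectionVars false

open MeasureTheory ProbabilityTheory Real Crest.ProbabilityR.InvariantGlass
open scoped ENNReal

namespace Crest.Agent.R164

/-- extra fields on the last site only -/
def lastOnly {M : ℕ} (ϑ : ℕ → ℝ) (a : ℕ) (r : Fin (M + 1)) : ℝ := if r = Fin.last M then ϑ a else 0

theorem x10_final {Ω : Type} [MeasurableSpace Ω] (P : Measure Ω) [IsProbabilityMeasure P]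
    {F Z : Ω → ℝ} (hF : Measurable F) (hZ : Integrable Z P) (Z0 : ∀ ω, 0 ≤ Z ω)
    {a B m e1 t z : ℝ} (hm : 0 < m) (hm1 : m ≤ 1) (hB0 : 0 ≤ B) (hB : ∀ ω, |F ω - a| ≤ B)
    (ht : 0 < t) (he1 : 0 ≤ e1) (hg : ∀ ω, Z ω ≤ t → |F ω - a| ≤ e1) (hz : ∫ ω, Z ω ∂P ≤ z) :
    |m⁻¹ * log (∫ ω, exp (m * F ω) ∂P) - a| ≤ exp B * (e1 + B / t * z) := by
  refine (lme_close P hF hm hm1 hB).1.trans (mul_le_mul_of_nonneg_left ?_ (exp_pos _).le)
  have hBt : 0 ≤ B / t := div_nonneg hB0 ht.le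
  calc ∫ ω, |F ω - a| ∂P ≤ ∫ ω, (e1 + B / t * Z ω) ∂P := by
        refine integral_mono_of_nonneg (Filter.Eventually.of_forall fun ω => abs_nonneg _)
          ((integrable_const _).add (hZ.const_mul _)) (Filter.Eventually.of_forall fun ω => ?_)
        dsimp only
        rcases le_total (Z ω) t with h | h
        · have := mul_nonneg hBt (Z0 ω)
          linarith [hg ω h]
        · have h1 : B / t * t ≤ B / t * Z ω := mul_le_mul_of_nonneg_left h hBt
          rw [div_mul_cancel₀ _ ht.ne'] at h1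
          linarith [hB ω]
    _ ≤ _ := by
        rw [integral_add (integrable_const _) (hZ.const_mul _), integral_const_mul]
        simp only [integral_const, probReal_univ, smul_eq_mul, one_mul]
        have := mul_le_mul_of_nonneg_left hz hBt
        linarith

theorem cav_up_crude (S : Spec) {ρ K : ℝ} (hρ : 1 ≤ ρ) (hK : 0 ≤ K) : ∃ C δ1 : ℝ, 0 < δ1 ∧
    ∀ (X : Expo) (M J : ℕ) (θ ϑ : ℕ → ℝ) (δ : ℝ) (blk : Fin M → Fin (S.k + 1)) (j : Fin (S.k + 1))
      (sp : Fin S.k → Fin M), Cav blk j sp → ∀ (lab' : Fin (M + 1) → Fin J) (mag : Fin J → ℝ)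
      (Kp : ℝ) (π' : PI X.n S.k J → ℝ), Small π' δ1 → (∀ j, |mag j| ≤ 1) → 0 ≤ Kp → Kp * M ≤ K →
      ∑ a ∈ Finset.Icc 1 X.n, (θ a ^ 2 + ϑ a ^ 2) ≤ 2 → |δ| ≤ 1 →
      (fib (blkR blk sp S.top) S.top).Nonempty →
      (M : ℝ) ≤ ρ * (fib (blkR blk sp S.top) S.top).card →
      |(sys S 1 θ (Fin.snoc blk j) lab' mag Kp (fun σ => δ * spinVec σ (Fin.last M))
          (lastOnly ϑ) π').A X -
        (sys S 1 θ (blkR blk sp S.top) (fun r => lab' r.castSucc) mag Kp (fun _ => 0)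
          (fun _ _ => 0) π').A X| ≤ C := by
  have hΛ := S.Λ_nonneg
  obtain ⟨C, δ1, hδ1, hδ11, hC, H⟩ := cav_U S hρ hK
  refine ⟨C + 4, δ1 / 4, by positivity, ?_⟩
  intro X M J θ ϑ δ blk j sp h lab' mag Kp π' hs hm hKp hKM hθ hδ hne hcard
  obtain ⟨Os, κ', c, hOs, -⟩ := exists_diag S j
  have hη : 4 * S.Λ * (δ1 / (8 * (S.Λ + 1))) + 2 * (δ1 / 4) ≤ δ1 := by
    have : 4 * S.Λ * (δ1 / (8 * (S.Λ + 1))) ≤ δ1 / 2 := by
      rw [← mul_div_assoc, div_le_div_iff₀ (by positivity) (by positivity)]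
      nlinarith
    linarith
  obtain ⟨-, H2⟩ := H X M J θ ϑ δ blk j sp h lab' mag Kp 0 π' (lastOnly ϑ) (fun _ _ => rfl)
    (δ1 / 4) (δ1 / (8 * (S.Λ + 1))) Os hs (by positivity) hη hm hKp hKM
    (by rw [abs_zero, mul_zero]; positivity) hne hcard hOs _ _ _ rfl rfl (fun _ => rfl)
  obtain ⟨d1, d2⟩ := dec (X := X) (k := S.k) (sys S 1 θ (Fin.snoc blk j) lab' mag Kp
    (fun σ => δ * spinVec σ (Fin.last M)) (lastOnly ϑ) π')
  have l := (lme_close (haar (M + 1)) d1 X.m_pos ((X.m_le 0).trans (X.le_one 0))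
    (fun U => (H2 U).1)).2
  rw [← d2] at l
  have e := xA_add (X := X) (k := S.k) (sys S 1 θ (blkR blk sp S.top) (fun r => lab' r.castSucc)
    mag Kp (fun _ => 0) (fun _ _ => 0) π') (lg_HA θ ϑ
      (π' (Sum.inr (Sum.inr (lab' (Fin.last M)))) - 2 * Kp * 0 + δ)).ub
  rw [aux_value_zero] at e
  have e' : (xT X M S.k).A (HB (sys S 1 θ (blkR blk sp S.top) (fun r => lab' r.castSucc) mag Kp
      (fun _ => 0) (fun _ _ => 0) π') θ ϑ
      (π' (Sum.inr (Sum.inr (lab' (Fin.last M)))) - 2 * Kp * 0 + δ)) = _ := e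
  rw [e'] at l
  have b := Phi_bound X (v := fun l => θ l ^ 2 + ϑ l ^ 2) (fun l _ _ => by positivity)
    (π' (Sum.inr (Sum.inr (lab' (Fin.last M)))) - 2 * Kp * 0 + δ)
  have b1 : |π' (Sum.inr (Sum.inr (lab' (Fin.last M)))) - 2 * Kp * 0 + δ| ≤ 2 := by
    have := abs_add_le (π' (Sum.inr (Sum.inr (lab' (Fin.last M))))) δ
    have := hs.h (lab' (Fin.last M))
    rw [mul_zero, sub_zero]
    linarith
  rw [abs_le] at l b ⊢
  constructor <;> linarith

set_option maxHeartbeats 1000000 in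
theorem cav_up (S : Spec) {ρ K m ε : ℝ} (hρ : 1 ≤ ρ) (hK : 0 ≤ K) (hm : 0 < m) (hε : 0 < ε) :
    ∃ δ0 > 0, ∃ n0 : ℕ, ∀ (X : Expo), X.m = m →
    ∀ (M J : ℕ) (θ ϑ : ℕ → ℝ) (δ : ℝ) (blk : Fin M → Fin (S.k + 1)) (j : Fin (S.k + 1))
      (sp : Fin S.k → Fin M), Cav blk j sp → ∀ (lab' : Fin (M + 1) → Fin J) (mag : Fin J → ℝ)
      (Kp : ℝ) (π' : PI X.n S.k J → ℝ), Small π' δ0 → (∀ j, |mag j| ≤ 1) → 0 ≤ Kp → Kp * M ≤ K →
      ∑ a ∈ Finset.Icc 1 X.n, (θ a ^ 2 + ϑ a ^ 2) ≤ 2 → |δ| ≤ 1 →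
      n0 < (fib (blkR blk sp S.top) S.top).card →
      (M : ℝ) ≤ ρ * (fib (blkR blk sp S.top) S.top).card →
      (∀ b, |((fib (Fin.snoc blk j : Fin (M + 1) → Fin (S.k + 1)) b).card : ℝ) / (M + 1) -
        ((S.k : ℝ) + 1)⁻¹| ≤ δ0) →
      ∀ Q : ℕ → ℝ, X.Seq Q ρ →
      (sys S 1 θ (blkR blk sp S.top) (fun r => lab' r.castSucc) mag Kp (fun _ => 0)
        (fun _ _ => 0) π').ErrQ X (fib (blkR blk sp S.top) S.top) Q ≤
          δ0 * (fib (blkR blk sp S.top) S.top).card →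
      ∀ yb : ℝ, Kp * |yb| ≤ 3 * K →
      Kp * ∫ x, |yv (fun r => lab' r.castSucc) mag (lab' (Fin.last M)) x.2.2 - yb|
        ∂((sys S 1 θ (blkR blk sp S.top) (fun r => lab' r.castSucc) mag Kp (fun _ => 0)
          (fun _ _ => 0) π').PP X) ≤ δ0 →
      |(sys S 1 θ (Fin.snoc blk j) lab' mag Kp (fun σ => δ * spinVec σ (Fin.last M))
          (lastOnly ϑ) π').A X -
        ((sys S 1 θ (blkR blk sp S.top) (fun r => lab' r.castSucc) mag Kp (fun _ => 0)
          (fun _ _ => 0) π').A X + S.Rh 0 / 2 -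
          X.Gam (fun l => ∑ b, log (1 + S.κ b * X.D Q l) +
            log (S.av fun b => 1 / (1 + S.κ b * X.D Q l))) / 2 +
          X.Phi (fun l => θ l ^ 2 + ϑ l ^ 2 + vst S X Q l)
            (π' (Sum.inr (Sum.inr (lab' (Fin.last M)))) - 2 * Kp * yb + δ) -
          (π' (Sum.inr (Sum.inr (lab' (Fin.last M)))) - 2 * Kp * yb) * mag (lab' (Fin.last M)))|
        ≤ ε := by
  have hΛ := S.Λ_nonneg
  obtain ⟨C, δ1, hδ1, hδ11, hC, H⟩ := cav_U S hρ hK
  obtain ⟨B, hB⟩ : ∃ B, B = 3 * C + ε := ⟨_, rfl⟩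
  have hB0 : 0 < B := by rw [hB]; positivity
  obtain ⟨e, he⟩ : ∃ e, e = ε / (4 * exp B) := ⟨_, rfl⟩
  have he0 : 0 < e := by rw [he]; positivity
  have he1 : exp B * (4 * e) = ε := by rw [he]; field_simp
  have he2 : e ≤ ε := by nlinarith [one_le_exp hB0.le]
  obtain ⟨δc, hδc, nc, Hc⟩ := chain S.k (Λ := 2 * S.Λ) (ρ := ρ) (m := m) (CR := 24 * K) (ε := e)
    (by positivity) hm (by positivity) he0
  obtain ⟨η, hη0, hη1, hη2⟩ : ∃ η : ℝ, 0 < η ∧ 4 * S.Λ * η ≤ δ1 / 2 ∧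
      C * (4 * S.Λ * η) ≤ e / 2 := by
    refine ⟨min (δ1 / (8 * (S.Λ + 1))) (e / (8 * (S.Λ + 1) * (C + 1))), by positivity, ?_, ?_⟩
    · refine (mul_le_mul_of_nonneg_left (min_le_left _ _) (by positivity)).trans ?_
      rw [← mul_div_assoc, div_le_div_iff₀ (by positivity) (by positivity)]
      nlinarith
    · rw [← mul_assoc]
      refine (mul_le_mul_of_nonneg_left (min_le_right _ _) (by positivity)).trans ?_
      rw [← mul_div_assoc, div_le_div_iff₀ (by positivity) (by positivity)]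
      have : C * S.Λ ≤ (S.Λ + 1) * (C + 1) := by nlinarith
      nlinarith
  obtain ⟨G, hG⟩ : ∃ G, G = B / η ^ 4 * ((S.k : ℝ) + 1) ^ 2 := ⟨_, rfl⟩
  have hG0 : 0 < G := by rw [hG]; positivity
  obtain ⟨δ0, hδ0, d1, d2, d3, d4⟩ : ∃ δ0 : ℝ, 0 < δ0 ∧ δ0 ≤ δ1 / 4 ∧ C * (2 * δ0) ≤ e / 2 ∧
      δ0 ≤ δc / 8 ∧ G * (2 * δ0) ≤ e := by
    refine ⟨min (min (δ1 / 4) (e / (4 * (C + 1)))) (min (δc / 8) (e / (2 * G))), by positivity,
      (min_le_left _ _).trans (min_le_left _ _), ?_, (min_le_right _ _).trans (min_le_left _ _), ?_⟩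
    · rw [← mul_assoc]
      refine (mul_le_mul_of_nonneg_left ((min_le_left _ _).trans (min_le_right _ _))
        (by positivity)).trans ?_
      rw [← mul_div_assoc, div_le_div_iff₀ (by positivity) (by positivity)]
      nlinarith
    · rw [← mul_assoc]
      refine (mul_le_mul_of_nonneg_left ((min_le_right _ _).trans (min_le_right _ _))
        (by positivity)).trans (le_of_eq ?_)
      field_simp
  refine ⟨δ0, hδ0, max nc (max ⌈4 * G / e⌉₊ ⌈8 * K / δc⌉₊), ?_⟩
  intro X hX M J θ ϑ δ blk j sp h lab' mag Kp π' hs hmag hKp hKM hθ hδ hn hcard hblk Q hQ hErr yb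
    hy hint
  have hTM : (fib (blkR blk sp S.top) S.top).card ≤ M := by
    have := Finset.card_le_univ (fib (blkR blk sp S.top) S.top)
    rwa [Fintype.card_fin] at this
  have hne : (fib (blkR blk sp S.top) S.top).Nonempty := Finset.card_pos.1 (by omega)
  have hM1 : 1 ≤ M := by omega
  have hM2 : 4 * G / e ≤ M := Nat.ceil_le.1 (by omega)
  have hM3 : 8 * K / δc ≤ M := Nat.ceil_le.1 (by omega)
  have hMpos : (0 : ℝ) < M := by exact_mod_cast hM1
  obtain ⟨Os, κ', c, hOs, hκ', hdiag, hc, hlog⟩ := exists_diag S j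
  obtain ⟨H1, H2⟩ := H X M J θ ϑ δ blk j sp h lab' mag Kp yb π' (lastOnly ϑ) (fun _ _ => rfl)
    δ0 η Os hs hη0 (by linarith) hmag hKp hKM hy hne hcard hOs _ _ _ rfl rfl (fun _ => rfl)
  obtain ⟨m1, m2⟩ := dec (X := X) (k := S.k) (sys S 1 θ (Fin.snoc blk j) lab' mag Kp
    (fun σ => δ * spinVec σ (Fin.last M)) (lastOnly ϑ) π')
  rw [m2]
  have hT := tinv_ref S 1 θ h (fun r => lab' r.castSucc) mag Kp (fun _ => 0) (fun _ _ => 0) π'
    hne hcard
  set p := sys S 1 θ (blkR blk sp S.top) (fun r => lab' r.castSucc) mag Kp (fun _ => 0)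
    (fun _ _ => 0) π' with hp
  set b := π' (Sum.inr (Sum.inr (lab' (Fin.last M)))) - 2 * Kp * yb with hb
  set js := lab' (Fin.last M) with hjs
  set lab : Fin M → Fin J := fun r => lab' r.castSucc with hlab
  have mR : Measurable (fun x : XS X.n M S.k => Rf lab mag js Kp yb x.2.2) :=
    (measurable_of_countable (Rf lab mag js Kp yb)).comp (measurable_snd.comp measurable_snd)
  have my : Measurable (fun x : MS X.n M => |yv lab mag js x.2.2 - yb|) :=
    (measurable_of_countable (fun σ => |yv lab mag js σ - yb|)).comp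
      (measurable_snd.comp measurable_snd)
  have hKp2 : 4 * Kp ≤ δc / 2 := by
    rw [div_le_iff₀ hδc] at hM3
    have : Kp * M * 8 ≤ M * δc := by linarith
    have : Kp * 8 ≤ δc := by
      refine le_of_mul_le_mul_left ?_ hMpos
      linarith
    linarith
  have c1 := Hc X hX M p _ sp hT (by omega) θ ϑ (b + δ) (S.k + 1) S.κ
    (fun b a => Os.1 b (j.succAbove a)) (fun b => Os.1 b j) κ' c (S.lam S.top - S.Rh 0)
    (fun b => ⟨S.κ_nonneg b, S.κ_le b⟩)
    (fun a => by simp only [sq]; rw [orth_col, if_pos rfl])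
    (by simp only [sq]; rw [orth_col, if_pos rfl]) hκ'
    (by
      have := abs_le.1 (S.abs_lam_le S.top)
      have := abs_le.1 (S.abs_Rh_le le_rfl)
      linarith)
    (fun y ε' => by unfold Vq; rw [hdiag]; ring) Q hQ
    (hErr.trans (mul_le_mul_of_nonneg_right (by linarith) (Nat.cast_nonneg _)))
    (fun x => Rf lab mag js Kp yb x.2.2) (fun x => 4 * Kp * |yv lab mag js x.2.2 - yb| + 4 * Kp)
    mR ((my.const_mul _).add measurable_const) (fun x => abs_Rf lab hmag js hKp yb x.2.2)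
    (fun x => R0_le lab hmag js hKp hKM hM1 hy x.2.2)
    (by
      have hi : Integrable (fun x : MS X.n M => |yv lab mag js x.2.2 - yb|) (p.PP X) := by
        refine Integrable.of_bound my.aestronglyMeasurable (2 * (fib lab js).card + |yb|)
          (Filter.Eventually.of_forall fun x => ?_)
        rw [Real.norm_eq_abs, abs_abs]
        exact (abs_sub _ _).trans (add_le_add (abs_yv_le lab mag hmag js x.2.2) le_rfl)
      rw [integral_add (hi.const_mul _) (integrable_const _), integral_const_mul]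
      simp only [integral_const, probReal_univ, smul_eq_mul, one_mul]
      linarith)
  -- identify the target
  have hD : ∀ l, 1 ≤ l → 0 ≤ X.D Q l := fun l hl => (hQ.D_nonneg hl).1
  rw [X.s3_Gam_congr (z' := fun l => ∑ b, log (1 + S.κ b * X.D Q l) +
      log (S.av fun b => 1 / (1 + S.κ b * X.D Q l))) (fun l hl => hlog _ (hD l hl))] at c1
  have ePhi : X.Phi (fun l => θ l ^ 2 + ϑ l ^ 2 +
      (∑ a, c a ^ 2 * X.D Q l / (1 + κ' a * X.D Q l) -
        ∑ a, c a ^ 2 * X.D Q (l + 1) / (1 + κ' a * X.D Q (l + 1))) / X.e l) (b + δ) =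
      X.Phi (fun l => θ l ^ 2 + ϑ l ^ 2 + vst S X Q l) (b + δ) := by
    unfold Expo.Phi
    rw [X.lst_congr fun l h1 h2 => ?_]
    rw [hc _ (hD l h1), hc _ (hD (l + 1) (by omega)), vst]
    ring
  rw [ePhi] at c1
  have lVq : (xT X M S.k).UB (fun x => HB p θ ϑ (b + δ) x +
      Vq S.κ (fun b a => Os.1 b (j.succAbove a)) (fun b => Os.1 b j) (yS sp x) x.2.2.2 +
      Rf lab mag js Kp yb x.2.2) := by
    have mV : Measurable (fun x : XS X.n M S.k => VV S Os j sp 0 (Rf lab mag js Kp yb) x.1 x.2.2) :=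
      x10_meas (measurable_VV S Os j sp _ _)
    have u : (xT X M S.k).UB (fun x => VV S Os j sp 0 (Rf lab mag js Kp yb) x.1 x.2.2) :=
      Tower.UB.of_le mV (Tower.LG.const (24 * K + 2 * S.Λ * (S.k + 1))).ub fun x =>
        (VV_bound S Os j sp (C := 24 * K) (fun σ => by
          rw [zero_add]
          exact (abs_Rf lab hmag js hKp yb σ).trans (R0_le lab hmag js hKp hKM hM1 hy σ.1)) x).2
    have := (lg_HB (X := X) (k := S.k) p θ ϑ (b + δ)).ub.add u
    simp only [VV, zero_add, ← add_assoc] at this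
    exact this
  have eA : (xT X M S.k).A (fun x => HB p θ ϑ (b + δ) x +
      VV S Os j sp (S.lam S.top / 2 - b * mag js) (Rf lab mag js Kp yb) x.1 x.2.2) =
      (xT X M S.k).A (fun x => HB p θ ϑ (b + δ) x +
        Vq S.κ (fun b a => Os.1 b (j.succAbove a)) (fun b => Os.1 b j) (yS sp x) x.2.2.2 +
        Rf lab mag js Kp yb x.2.2) + (S.lam S.top / 2 - b * mag js) := by
    have := Tower.X_add_const lVq (S.lam S.top / 2 - b * mag js) 0 (xT X M S.k).x0
    unfold Tower.A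
    rw [← this]
    congr 1
    funext x
    have : (fun a => sv x.1 x.2.2.1 (sp a)) = yS sp x := rfl
    simp only [VV, this]
    ring
  rw [eA] at H1 H2
  set a1 := (xT X M S.k).A (fun x => HB p θ ϑ (b + δ) x +
        Vq S.κ (fun b a => Os.1 b (j.succAbove a)) (fun b => Os.1 b j) (yS sp x) x.2.2.2 +
        Rf lab mag js Kp yb x.2.2) with ha1
  set tg := p.A X + S.Rh 0 / 2 -
          X.Gam (fun l => ∑ b, log (1 + S.κ b * X.D Q l) +
            log (S.av fun b => 1 / (1 + S.κ b * X.D Q l))) / 2 +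
          X.Phi (fun l => θ l ^ 2 + ϑ l ^ 2 + vst S X Q l) (b + δ) - b * mag js with htg
  have c2 : |a1 + (S.lam S.top / 2 - b * mag js) - tg| ≤ e := by
    refine le_trans (le_of_eq ?_) c1
    congr 1
    rw [htg]
    ring
  have hZ := integral_Zc (Fin.snoc blk j : Fin (M + 1) → Fin (S.k + 1)) hblk
  have fin := x10_final (haar (M + 1)) m1
    ((integrable_Zc (Fin.snoc blk j : Fin (M + 1) → Fin (S.k + 1))).const_mul ((S.k : ℝ) + 1))
    (fun U => mul_nonneg (by positivity) (Finset.sum_nonneg fun _ _ => sq_nonneg _))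
    (a := tg) (B := B) (e1 := 2 * e) (t := η ^ 4)
    (z := ((S.k : ℝ) + 1) * ((S.k + 1) * (4 / (M + 1) + 2 * δ0 ^ 2)))
    X.m_pos ((X.m_le 0).trans (X.le_one 0)) hB0.le
    (fun U => by
      have := (H2 U).1
      rw [abs_le] at this H1 c2 ⊢
      constructor <;> linarith)
    (by positivity) (by positivity)
    (fun U hU => by
      have := (H2 U).2 hU
      rw [mul_add] at this
      rw [abs_le] at this c2 ⊢
      constructor <;> linarith)
    (by rw [integral_const_mul]; exact mul_le_mul_of_nonneg_left hZ (by positivity))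
  refine fin.trans ?_
  rw [← he1]
  refine mul_le_mul_of_nonneg_left ?_ (exp_pos _).le
  have f1 : B / η ^ 4 * (((S.k : ℝ) + 1) * ((S.k + 1) * (4 / (M + 1) + 2 * δ0 ^ 2))) =
      4 * G / (M + 1) + G * (2 * δ0) * δ0 := by rw [hG]; ring
  have f2 : 4 * G / (M + 1) ≤ e := by
    rw [div_le_iff₀ he0] at hM2
    rw [div_le_iff₀ (by positivity), mul_add, mul_comm e, mul_one]
    linarith
  have f3 : G * (2 * δ0) * δ0 ≤ e :=
    (mul_le_of_le_one_right (by positivity) (by linarith)).trans d4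
  rw [f1]
  linarith

end Crest.Agent.R164
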