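import Crest.Agent.R164.X2
import Crest.Agent.R164.X6
import Crest.Agent.R164.M6

/-! # Auxiliary facts for `X10`: the Hamiltonian of the system of size `M + 1` -/

set_option autoImplicit false
set_option linter.unusedVariables false
set_option linter.unusedSectionVars false

open MeasureTheory ProbabilityTheory Real Crest.ProbabilityR.InvariantGlass
open scoped ENNReal

namespace Crest.Agent.R164

variable {n M k : ℕ}

/-- one representative row of each block -/
def rep (j : Fin (k + 1)) (sp : Fin k → Fin M) : Fin (k + 1) → Fin (M + 1) :=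
  Fin.insertNth (α := fun _ => Fin (M + 1)) j (Fin.last M) (fun a => (sp a).castSucc)

theorem rep_j (j : Fin (k + 1)) (sp : Fin k → Fin M) : rep j sp j = Fin.last M := by
  simp [rep]

theorem rep_succ (j : Fin (k + 1)) (sp : Fin k → Fin M) (a : Fin k) :
    rep j sp (j.succAbove a) = (sp a).castSucc := by
  simp [rep]

theorem blk_rep {blk : Fin M → Fin (k + 1)} {j : Fin (k + 1)} {sp : Fin k → Fin M}
    (h : Cav blk j sp) (b : Fin (k + 1)) :
    (Fin.snoc blk j : Fin (M + 1) → Fin (k + 1)) (rep j sp b) = b := by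
  refine Fin.succAboveCases j ?_ (fun a => ?_) b
  · rw [rep_j]; simp
  · rw [rep_succ]; simp [h.blk a]

theorem rep_inj {blk : Fin M → Fin (k + 1)} {j : Fin (k + 1)} {sp : Fin k → Fin M}
    (h : Cav blk j sp) : Function.Injective (rep j sp) := fun a b hab => by
  rw [← blk_rep h a, hab, blk_rep h b]

/-- the rows that are not special -/
def nsp (sp : Fin k → Fin M) : Finset (Fin M) := Finset.univ.filter fun i => ¬ ∃ a, sp a = i

theorem mem_nsp {sp : Fin k → Fin M} {i : Fin M} : i ∈ nsp sp ↔ ¬ ∃ a, sp a = i := by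
  simp [nsp]

theorem sum_split_M {sp : Fin k → Fin M} (hsp : Function.Injective sp) (G : Fin M → ℝ) :
    ∑ i, G i = ∑ a, G (sp a) + ∑ i ∈ nsp sp, G i := by
  rw [← Finset.sum_filter_add_sum_filter_not Finset.univ (fun i => ∃ a, sp a = i) G]
  congr 1
  have : Finset.univ.filter (fun i => ∃ a, sp a = i) = Finset.univ.map ⟨sp, hsp⟩ := by
    ext i; simp
  rw [this, Finset.sum_map]
  rfl

theorem sum_split {sp : Fin k → Fin M} (hsp : Function.Injective sp) (j : Fin (k + 1))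
    (F : Fin (M + 1) → ℝ) :
    ∑ i, F i = ∑ b, F (rep j sp b) + ∑ i ∈ nsp sp, F i.castSucc := by
  rw [Fin.sum_univ_castSucc, Fin.sum_univ_succAbove _ j, rep_j,
    sum_split_M hsp (fun i => F i.castSucc)]
  simp only [rep_succ]
  ring

theorem rep_ne_of_nsp {sp : Fin k → Fin M} (j : Fin (k + 1)) {i : Fin M} (hi : i ∈ nsp sp)
    (b : Fin (k + 1)) : rep j sp b ≠ i.castSucc := by
  refine Fin.succAboveCases j ?_ (fun a => ?_) b
  · rw [rep_j]; exact (Fin.castSucc_lt_last i).ne'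
  · rw [rep_succ]
    intro h
    exact mem_nsp.1 hi ⟨a, Fin.castSucc_injective _ h⟩

/-- the rotated cavity vector -/
noncomputable def xv (O : Orth (k + 1)) (j : Fin (k + 1)) (y : Fin k → ℝ) (ε : Bool)
    (b : Fin (k + 1)) : ℝ := ∑ a, O.1 b (j.succAbove a) * y a + O.1 b j * sg ε

theorem xv_eq (O : Orth (k + 1)) (j : Fin (k + 1)) (y : Fin k → ℝ) (ε : Bool) :
    xv O j y ε = O.1.mulVec (Fin.insertNth (α := fun _ => ℝ) j (sg ε) y) := by
  funext b
  simp only [xv, Matrix.mulVec, dotProduct]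
  rw [Fin.sum_univ_succAbove _ j]
  simp [add_comm]

theorem sum_xv_sq (O : Orth (k + 1)) (j : Fin (k + 1)) (y : Fin k → ℝ) (ε : Bool) :
    ∑ b, xv O j y ε b ^ 2 = 1 + ∑ a, y a ^ 2 := by
  have h := orth_inner O (Fin.insertNth (α := fun _ => ℝ) j (sg ε) y)
    (Fin.insertNth (α := fun _ => ℝ) j (sg ε) y)
  rw [← xv_eq, Fin.sum_univ_succAbove (fun i => Fin.insertNth (α := fun _ => ℝ) j (sg ε) y i *
    Fin.insertNth (α := fun _ => ℝ) j (sg ε) y i) j] at h
  simp only [Fin.insertNth_apply_same, Fin.insertNth_apply_succAbove] at h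
  simp only [sq]
  rw [h, ← sq, sg_sq]

theorem xv_mul (R O : Orth (k + 1)) (j : Fin (k + 1)) (y : Fin k → ℝ) (ε : Bool) :
    xv (R * O) j y ε = R.1.mulVec (xv O j y ε) := by
  rw [xv_eq, xv_eq, Matrix.mulVec_mulVec]
  rfl

/-- `E` acts as `O` on the representative rows -/
def Emb (j : Fin (k + 1)) (sp : Fin k → Fin M) (O : Orth (k + 1)) (E : Orth (M + 1)) : Prop :=
  (∀ (x : Fin (M + 1) → ℝ) b, E.1.mulVec x (rep j sp b) = ∑ b', O.1 b b' * x (rep j sp b')) ∧
    (∀ (x : Fin (M + 1) → ℝ) i, (∀ b, rep j sp b ≠ i) → E.1.mulVec x i = x i)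

theorem sO_up (E : Orth (M + 1)) (x : XS n M k) (i : Fin (M + 1)) :
    sO i (up E x) = E.1.mulVec (Fin.snoc (sv x.1 x.2.2.1) (sg x.2.2.2)) i := by
  simp only [sO, up]
  rw [sv_mul, sv_ext1]

theorem sO_up_rep {j : Fin (k + 1)} {sp : Fin k → Fin M} {O : Orth (k + 1)} {E : Orth (M + 1)}
    (h : Emb j sp O E) (x : XS n M k) (b : Fin (k + 1)) :
    sO (rep j sp b) (up E x) = xv O j (yS sp x) x.2.2.2 b := by
  rw [sO_up, h.1, Fin.sum_univ_succAbove _ j, rep_j]
  simp only [rep_succ, Fin.snoc_last, Fin.snoc_castSucc, xv]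
  rw [add_comm]
  rfl

theorem sO_up_nsp {j : Fin (k + 1)} {sp : Fin k → Fin M} {O : Orth (k + 1)} {E : Orth (M + 1)}
    (h : Emb j sp O E) (x : XS n M k) {i : Fin M} (hi : i ∈ nsp sp) :
    sO i.castSucc (up E x) = sO i (pM x) := by
  rw [sO_up, h.2 _ _ (rep_ne_of_nsp j hi)]
  simp only [Fin.snoc_castSucc]
  rfl

theorem σO_up_last (E : Orth (M + 1)) (x : XS n M k) :
    σO (Fin.last M) (up E x) = sg x.2.2.2 := by
  simp only [σO, up]
  rw [spinVec_snoc]; simp

theorem σO_up_cast (E : Orth (M + 1)) (x : XS n M k) (r : Fin M) :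
    σO r.castSucc (up E x) = σO r (pM x) := by
  simp only [σO, up, pM]
  rw [spinVec_snoc]; simp

/-- the Gaussian coordinates of the system of size `M + 1` inside the extended tower -/
def cx (q : MI n (M + 1)) : XI n M k :=
  Fin.lastCases (motive := fun _ => XI n M k) (Sum.inr (Sum.inr (Sum.inr (q.1, q.2.1))))
    (fun i => Sum.inl (q.1, q.2.1, i)) q.2.2

theorem cx_last (c : Fin 3) (l : Fin n) :
    (cx (c, l, Fin.last M) : XI n M k) = Sum.inr (Sum.inr (Sum.inr (c, l))) := by simp [cx]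

theorem cx_cast (c : Fin 3) (l : Fin n) (i : Fin M) :
    (cx (c, l, i.castSucc) : XI n M k) = Sum.inl (c, l, i) := by simp [cx]

theorem up_field (E : Orth (M + 1)) (x : XS n M k) (q : MI n (M + 1)) :
    (up E x).2.1 q = x.2.1 (cx q) := by
  obtain ⟨c, l, i⟩ := q
  refine Fin.lastCases ?_ (fun i => ?_) i
  · rw [cx_last]; simp [up]
  · rw [cx_cast]; simp [up]

theorem cx_inj : Function.Injective (cx : MI n (M + 1) → XI n M k) := by
  rintro ⟨c, l, i⟩ ⟨c', l', i'⟩ h
  induction i using Fin.lastCases with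
  | last =>
    induction i' using Fin.lastCases with
    | last => rw [cx_last, cx_last] at h; simp at h; simp [h.1, h.2]
    | cast i' => rw [cx_last, cx_cast] at h; simp at h
  | cast i =>
    induction i' using Fin.lastCases with
    | last => rw [cx_last, cx_cast] at h; simp at h
    | cast i' => rw [cx_cast, cx_cast] at h; simp at h; simp [h.1, h.2.1, h.2.2]

theorem yv_snoc {J : ℕ} (lab' : Fin (M + 1) → Fin J) (mag : Fin J → ℝ) (j' : Fin J)
    (σ : Fin M → Bool) (ε : Bool) :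
    yv lab' mag j' (Fin.snoc σ ε) = yv (fun r => lab' r.castSucc) mag j' σ +
      if lab' (Fin.last M) = j' then sg ε - mag j' else 0 := by
  simp only [yv, fib, Finset.sum_filter]
  rw [Fin.sum_univ_castSucc, spinVec_snoc]
  simp

/-- the correction coming from the magnetisation constraint -/
noncomputable def Rf {J : ℕ} (lab : Fin M → Fin J) (mag : Fin J → ℝ) (js : Fin J) (Kp yb : ℝ)
    (σ : (Fin M → Bool) × Bool) : ℝ :=
  -(2 * Kp * (yv lab mag js σ.1 - yb) * (sg σ.2 - mag js)) - Kp * (sg σ.2 - mag js) ^ 2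

/-- the tilt -/
noncomputable def VV (S : Spec) (O : Orth (S.k + 1)) (j : Fin (S.k + 1)) (sp : Fin S.k → Fin M)
    (c0 : ℝ) (R : (Fin M → Bool) × Bool → ℝ) (U : Orth M) (σ : (Fin M → Bool) × Bool) : ℝ :=
  c0 + Vq S.κ (fun b a => O.1 b (j.succAbove a)) (fun b => O.1 b j)
    (fun a => sv U σ.1 (sp a)) σ.2 + R σ

/-- the eigenvalue shifts -/
noncomputable def Rα {J : ℕ} (O : Orth (k + 1)) (j top : Fin (k + 1)) (sp : Fin k → Fin M)
    (π' : PI n k J → ℝ) (x : XS n M k) : ℝ :=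
  (1 / 2) * (∑ b, π' (Sum.inl b) * xv O j (yS sp x) x.2.2.2 b ^ 2) -
    (1 / 2) * π' (Sum.inl top) * QS sp x

/-- the last-site field (a copy of `lastOnly`, which lives in `X10`) -/
theorem ham_up (S : Spec) {J : ℕ} (θ ϑ : ℕ → ℝ) (δ : ℝ) {blk : Fin M → Fin (S.k + 1)}
    {j : Fin (S.k + 1)} {sp : Fin S.k → Fin M} (h : Cav blk j sp) (lab' : Fin (M + 1) → Fin J)
    (mag : Fin J → ℝ) (Kp yb : ℝ) (π' : PI n S.k J → ℝ) (tx : ℕ → Fin (M + 1) → ℝ)
    (htx : ∀ a r, tx a r = if r = Fin.last M then ϑ a else 0)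
    {O : Orth (S.k + 1)} {E : Orth (M + 1)} (hE : Emb j sp O E) (x : XS n M S.k) :
    Ham (sys S 1 θ (Fin.snoc blk j) lab' mag Kp (fun σ => δ * spinVec σ (Fin.last M)) tx π')
        (up E x) =
      HB ((sys S 1 θ (blkR blk sp S.top) (fun r => lab' r.castSucc) mag Kp (fun _ => 0)
          (fun _ _ => 0) π').off sp) θ ϑ
          (π' (Sum.inr (Sum.inr (lab' (Fin.last M)))) - 2 * Kp * yb + δ) x +
        VV S O j sp (S.lam S.top / 2 -
            (π' (Sum.inr (Sum.inr (lab' (Fin.last M)))) - 2 * Kp * yb) * mag (lab' (Fin.last M)))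
          (Rf (fun r => lab' r.castSucc) mag (lab' (Fin.last M)) Kp yb) x.1 x.2.2 +
        Rα O j S.top sp π' x +
        ∑ q : Fin n × Fin (S.k + 1), x.2.1 (cx (1, q.1, rep j sp q.2)) *
          (vtOf π' (q.1 + 1) q.2 * xv O j (yS sp x) x.2.2.2 q.2) := by
  have hsp := h.inj
  have hR1 : ∀ a, blkR blk sp S.top (sp a) = S.top := fun a => if_pos ⟨a, rfl⟩
  have hR2 : ∀ i ∈ nsp sp, blkR blk sp S.top i = blk i := fun i hi => if_neg (mem_nsp.1 hi)
  -- quadratic part
  have e1 : ∑ i, (1 * S.lam ((Fin.snoc blk j : Fin (M + 1) → Fin (S.k + 1)) i) +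
        π' (Sum.inl ((Fin.snoc blk j : Fin (M + 1) → Fin (S.k + 1)) i))) * sO i (up E x) ^ 2 =
      ∑ b, (S.lam b + π' (Sum.inl b)) * xv O j (yS sp x) x.2.2.2 b ^ 2 +
      ∑ i ∈ nsp sp, (S.lam (blk i) + π' (Sum.inl (blk i))) * sO i (pM x) ^ 2 := by
    rw [sum_split hsp j]
    congr 1
    · exact Finset.sum_congr rfl fun b _ => by rw [blk_rep h, sO_up_rep hE, one_mul]
    · exact Finset.sum_congr rfl fun i hi => by
        rw [sO_up_nsp hE x hi, one_mul]; simp only [Fin.snoc_castSucc]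
  have e1' : ∑ i, (1 * S.lam (blkR blk sp S.top i) + π' (Sum.inl (blkR blk sp S.top i))) *
        sO i (pM x) ^ 2 = (S.lam S.top + π' (Sum.inl S.top)) * QS sp x +
      ∑ i ∈ nsp sp, (S.lam (blk i) + π' (Sum.inl (blk i))) * sO i (pM x) ^ 2 := by
    rw [sum_split_M hsp]
    congr 1
    · rw [QS, Finset.mul_sum]
      exact Finset.sum_congr rfl fun a _ => by rw [hR1, one_mul]; rfl
    · exact Finset.sum_congr rfl fun i hi => by rw [hR2 i hi, one_mul]
  have e1'' : ∑ b, (S.lam b + π' (Sum.inl b)) * xv O j (yS sp x) x.2.2.2 b ^ 2 =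
      S.lam S.top * (1 + QS sp x) - ∑ b, S.κ b * xv O j (yS sp x) x.2.2.2 b ^ 2 +
        ∑ b, π' (Sum.inl b) * xv O j (yS sp x) x.2.2.2 b ^ 2 := by
    rw [QS, ← sum_xv_sq O j (yS sp x) x.2.2.2, Finset.mul_sum, ← Finset.sum_sub_distrib,
      ← Finset.sum_add_distrib]
    exact Finset.sum_congr rfl fun b _ => by rw [Spec.κ]; ring
  -- site fields
  have e2 : ∑ l : Fin n, ∑ r, θ (l + 1) * ((up E x).2.1 (0, l, r) * σO r (up E x)) =
      ∑ l : Fin n, ∑ r, θ (l + 1) * ((pM x).2.1 (0, l, r) * σO r (pM x)) +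
      sg x.2.2.2 * ∑ l : Fin n, θ (l + 1) * (pA x).2.1 (Sum.inr (0, l)) := by
    rw [Finset.mul_sum, ← Finset.sum_add_distrib]
    refine Finset.sum_congr rfl fun l _ => ?_
    rw [Fin.sum_univ_castSucc]
    simp only [up_field, cx_last, cx_cast, σO_up_last, σO_up_cast]
    simp only [pM, pA]
    ring
  -- row fields
  have e3 : ∑ l : Fin n, ∑ i, vtOf π' (l + 1) ((Fin.snoc blk j : Fin (M + 1) → Fin (S.k + 1)) i) *
        ((up E x).2.1 (1, l, i) * sO i (up E x)) =
      ∑ l : Fin n, ∑ i, (if ∃ c, sp c = i then 0 else vtOf π' (l + 1) (blkR blk sp S.top i)) *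
        ((pM x).2.1 (1, l, i) * sO i (pM x)) +
      ∑ q : Fin n × Fin (S.k + 1), x.2.1 (cx (1, q.1, rep j sp q.2)) *
          (vtOf π' (q.1 + 1) q.2 * xv O j (yS sp x) x.2.2.2 q.2) := by
    rw [Fintype.sum_prod_type, ← Finset.sum_add_distrib]
    refine Finset.sum_congr rfl fun l _ => ?_
    rw [sum_split hsp j, sum_split_M hsp, add_comm]
    congr 1
    · rw [Finset.sum_eq_zero (s := Finset.univ) fun a _ => by rw [if_pos ⟨a, rfl⟩, zero_mul],
        zero_add]
      refine Finset.sum_congr rfl fun i hi => ?_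
      rw [if_neg (mem_nsp.1 hi), hR2 i hi, sO_up_nsp hE x hi, up_field, cx_cast]
      simp only [Fin.snoc_castSucc, pM]
    · refine Finset.sum_congr rfl fun b _ => ?_
      rw [blk_rep h, sO_up_rep hE, up_field]
      ring
  -- extra fields
  have e4 : ∑ l : Fin n, ∑ r, tx (l + 1) r * ((up E x).2.1 (2, l, r) * σO r (up E x)) =
      sg x.2.2.2 * ∑ l : Fin n, ϑ (l + 1) * (pA x).2.1 (Sum.inr (2, l)) := by
    rw [Finset.mul_sum]
    refine Finset.sum_congr rfl fun l _ => ?_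
    rw [Fin.sum_univ_castSucc, Finset.sum_eq_zero fun r _ => by
      rw [htx, if_neg (Fin.castSucc_lt_last r).ne, zero_mul], htx, if_pos rfl, up_field, cx_last,
      σO_up_last]
    simp only [pA]
    ring
  -- spin term
  have e5 : ∑ j', (π' (Sum.inr (Sum.inr j')) * yv lab' mag j' (up E x).2.2 -
        Kp * yv lab' mag j' (up E x).2.2 ^ 2) =
      ∑ j', (π' (Sum.inr (Sum.inr j')) * yv (fun r => lab' r.castSucc) mag j' (pM x).2.2 -
        Kp * yv (fun r => lab' r.castSucc) mag j' (pM x).2.2 ^ 2) +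
      (π' (Sum.inr (Sum.inr (lab' (Fin.last M)))) * (sg x.2.2.2 - mag (lab' (Fin.last M))) -
        Kp * (2 * yv (fun r => lab' r.castSucc) mag (lab' (Fin.last M)) x.2.2.1 *
          (sg x.2.2.2 - mag (lab' (Fin.last M))) + (sg x.2.2.2 - mag (lab' (Fin.last M))) ^ 2)) := by
    have := Finset.sum_ite_eq Finset.univ (lab' (Fin.last M)) (fun j' =>
      π' (Sum.inr (Sum.inr j')) * (sg x.2.2.2 - mag j') -
        Kp * (2 * yv (fun r => lab' r.castSucc) mag j' x.2.2.1 *
          (sg x.2.2.2 - mag j') + (sg x.2.2.2 - mag j') ^ 2))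
    rw [if_pos (Finset.mem_univ _)] at this
    rw [← this, ← Finset.sum_add_distrib]
    refine Finset.sum_congr rfl fun j' _ => ?_
    have e : (up E x).2.2 = Fin.snoc x.2.2.1 x.2.2.2 := rfl
    have e' : (pM x).2.2 = x.2.2.1 := rfl
    rw [e, e', yv_snoc]
    split_ifs <;> ring
  have e6 : spinVec (up E x).2.2 (Fin.last M) = sg x.2.2.2 := σO_up_last E x
  have e7 : Vq S.κ (fun b a => O.1 b (j.succAbove a)) (fun b => O.1 b j)
      (fun a => sv x.1 x.2.2.1 (sp a)) x.2.2.2 =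
      -(1 / 2) * ∑ b, S.κ b * xv O j (yS sp x) x.2.2.2 b ^ 2 := rfl
  simp only [Ham, HB, HA, sys, Par.off, VV, Rα, Rf, zero_mul, Finset.sum_const_zero]
  rw [e1, e1', e1'', e2, e3, e4, e5, e6, e7]
  have e8 : (pA x).2.2 = x.2.2.2 := rfl
  rw [e8]
  ring

end Crest.Agent.R164
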