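import Crest.Agent.R164.X10Aux1
import Crest.Agent.R164.X8

/-! # Auxiliary facts for `X10`: squeezing the value at a fixed matrix -/

set_option autoImplicit false
set_option linter.unusedVariables false
set_option linter.unusedSectionVars false

open MeasureTheory ProbabilityTheory Real Crest.ProbabilityR.InvariantGlass
open scoped ENNReal

namespace Crest.Agent.R164

variable {M k : ℕ} {X : Expo}

theorem x10_sandwich {κ : Type} [Fintype κ] (ι : κ → XI X.n M k) (hι : Function.Injective ι)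
    {H : XS X.n M k → ℝ} {a : κ → XS X.n M k → ℝ} (hH : (xT X M k).LG H)
    (hm : ∀ c, Measurable (a c)) {B : ℝ} (hB : ∀ c x, |a c x| ≤ B) (iH : ∀ c, Inv (ι c) H)
    (ia : ∀ c c', Inv (ι c) (a c')) :
    (xT X M k).A H ≤ (xT X M k).A (fun x => H x + ∑ c, x.2.1 (ι c) * a c x) ∧
    (xT X M k).A (fun x => H x + ∑ c, x.2.1 (ι c) * a c x) ≤
      (xT X M k).A (fun x => H x + (1 / 2) * ∑ c, a c x ^ 2) := by
  have he : ∀ c, Function.extend ι a (fun _ _ => 0) (ι c) = a c := fun c => hι.extend_apply _ _ c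
  have h := sandwich (X := X) (P := haar M) (lev := xlev) (A := (Fin M → Bool) × Bool)
    (Finset.univ.map ⟨ι, hι⟩) (H := H) (a := Function.extend ι a (fun _ _ => 0)) hH
    (fun i hi => by
      obtain ⟨c, -, rfl⟩ := Finset.mem_map.1 hi
      simp only [Function.Embedding.coeFn_mk, he]; exact hm c) (B := B)
    (fun i hi => by
      obtain ⟨c, -, rfl⟩ := Finset.mem_map.1 hi
      simp only [Function.Embedding.coeFn_mk, he]; exact hB c)
    (fun i hi => by
      obtain ⟨c, -, rfl⟩ := Finset.mem_map.1 hi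
      exact iH c)
    (fun i hi i' hi' => by
      obtain ⟨c, -, rfl⟩ := Finset.mem_map.1 hi
      obtain ⟨c', -, rfl⟩ := Finset.mem_map.1 hi'
      simp only [Function.Embedding.coeFn_mk, he]; exact ia c c')
  simp only [Finset.sum_map, Function.Embedding.coeFn_mk, he] at h
  exact h

theorem inv_HB_off (p : Par M) (sp : Fin k → Fin M) (j : Fin (k + 1)) (θ ϑ : ℕ → ℝ) (b : ℝ)
    (l : Fin X.n) (c : Fin (k + 1)) :
    Inv (cx (1, l, rep j sp c) : XI X.n M k) (HB (p.off sp) θ ϑ b) := by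
  intro t x
  refine Fin.succAboveCases j ?_ (fun a => ?_) c
  · rw [rep_j, cx_last]
    simp [HB, Ham, HA, pM, pA, shift, sO, σO, Function.update_of_ne]
  · rw [rep_succ, cx_cast]
    have e : ∀ (l' : Fin X.n) (i : Fin M), (p.off sp).vt (l' + 1) i *
        (Function.update x.2.1 (Sum.inl (1, l, sp a)) (x.2.1 (Sum.inl (1, l, sp a)) + t)
          (Sum.inl (1, l', i)) * sv x.1 x.2.2.1 i) =
        (p.off sp).vt (l' + 1) i * (x.2.1 (Sum.inl (1, l', i)) * sv x.1 x.2.2.1 i) := by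
      intro l' i
      by_cases hi : ∃ c, sp c = i
      · simp only [Par.off]
        rw [if_pos hi, zero_mul, zero_mul]
      · rw [Function.update_of_ne]
        intro h
        simp only [Sum.inl.injEq, Prod.mk.injEq] at h
        exact hi ⟨a, h.2.2.symm⟩
    simp only [HB, Ham, HA, pM, pA, shift, sO, σO, e]
    simp [Function.update_of_ne]

theorem x10_sum_Icc (n : ℕ) (f : ℕ → ℝ) : ∑ l : Fin n, f (l + 1) = ∑ a ∈ Finset.Icc 1 n, f a := by
  rw [Fin.sum_univ_eq_sum_range (fun l => f (l + 1)) n]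
  induction n with
  | zero => simp
  | succ n ih => rw [Finset.sum_range_succ, Finset.sum_Icc_succ_top (by omega), ih]

theorem measurable_xv (O : Orth (k + 1)) (j : Fin (k + 1)) (sp : Fin k → Fin M) {n : ℕ}
    (b : Fin (k + 1)) : Measurable (fun x : XS n M k => xv O j (yS sp x) x.2.2.2 b) := by
  have h1 : ∀ a, Measurable (fun x : XS n M k => yS sp x a) := fun a =>
    (measurable_pi_apply a).comp (measurable_yS sp)
  have h2 : Measurable (fun x : XS n M k => sg x.2.2.2) :=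
    (measurable_of_countable sg).comp (by fun_prop)
  unfold xv
  exact (Finset.measurable_sum _ fun a _ => (h1 a).const_mul _).add (h2.const_mul _)

theorem xv_sq_le (O : Orth (k + 1)) (j : Fin (k + 1)) (y : Fin k → ℝ) (ε : Bool)
    (b : Fin (k + 1)) : xv O j y ε b ^ 2 ≤ 1 + ∑ a, y a ^ 2 := by
  rw [← sum_xv_sq O j y ε]
  exact Finset.single_le_sum (f := fun b => xv O j y ε b ^ 2) (fun _ _ => sq_nonneg _)
    (Finset.mem_univ b)

theorem measurable_QS {n : ℕ} (sp : Fin k → Fin M) : Measurable (QS (n := n) sp) := by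
  unfold QS
  exact Finset.measurable_sum _ fun a _ =>
    ((measurable_pi_apply a).comp (measurable_yS sp)).pow_const 2

theorem abs_Rα {n J : ℕ} (O : Orth (k + 1)) (j top : Fin (k + 1)) (sp : Fin k → Fin M)
    {π' : PI n k J → ℝ} {δ : ℝ} (h : Small π' δ) (x : XS n M k) :
    |Rα O j top sp π' x| ≤ δ * (1 + QS sp x) := by
  have hδ : 0 ≤ δ := (abs_nonneg _).trans (h.a top)
  have hQ := QS_nonneg sp x
  have h1 : |∑ b, π' (Sum.inl b) * xv O j (yS sp x) x.2.2.2 b ^ 2| ≤ δ * (1 + QS sp x) := by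
    rw [QS, ← sum_xv_sq O j (yS sp x) x.2.2.2, Finset.mul_sum]
    refine (Finset.abs_sum_le_sum_abs _ _).trans (Finset.sum_le_sum fun b _ => ?_)
    rw [abs_mul, abs_of_nonneg (sq_nonneg (xv O j (yS sp x) x.2.2.2 b))]
    exact mul_le_mul_of_nonneg_right (h.a b) (sq_nonneg _)
  have h2 : |π' (Sum.inl top) * QS sp x| ≤ δ * QS sp x := by
    rw [abs_mul, abs_of_nonneg hQ]
    exact mul_le_mul_of_nonneg_right (h.a top) hQ
  rw [abs_le] at h1 h2 ⊢
  unfold Rα
  constructor <;> nlinarith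

theorem measurable_Rα {n J : ℕ} (O : Orth (k + 1)) (j top : Fin (k + 1)) (sp : Fin k → Fin M)
    (π' : PI n k J → ℝ) : Measurable (Rα (M := M) O j top sp π') := by
  unfold Rα
  exact ((Finset.measurable_sum _ fun b _ =>
    ((measurable_xv O j sp b).pow_const 2).const_mul _).const_mul _).sub
    ((measurable_QS sp).const_mul _)

theorem measurable_VV (S : Spec) (O : Orth (S.k + 1)) (j : Fin (S.k + 1)) (sp : Fin S.k → Fin M)
    (c0 : ℝ) (R : (Fin M → Bool) × Bool → ℝ) (σ : (Fin M → Bool) × Bool) :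
    Measurable (fun U => VV S O j sp c0 R U σ) := by
  unfold VV
  refine (measurable_const.add ?_).add measurable_const
  exact (continuous_Vq _ _ _ _).measurable.comp
    (measurable_pi_lambda _ fun a => measurable_sv _ _)

theorem x10_meas {n : ℕ} {V : Orth M → (Fin M → Bool) × Bool → ℝ}
    (hV : ∀ σ, Measurable (fun U => V U σ)) : Measurable (fun x : XS n M k => V x.1 x.2.2) := by
  have h : Measurable (fun q : Orth M × ((Fin M → Bool) × Bool) => V q.1 q.2) :=
    measurable_from_prod_countable_left hV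
  exact h.comp (measurable_fst.prodMk (measurable_snd.comp measurable_snd))

theorem VV_bound (S : Spec) (O : Orth (S.k + 1)) (j : Fin (S.k + 1)) (sp : Fin S.k → Fin M)
    {c0 C : ℝ} {R : (Fin M → Bool) × Bool → ℝ} (h : ∀ σ, |c0 + R σ| ≤ C) {n : ℕ}
    (x : XS n M S.k) :
    -((C + 2 * S.Λ * (S.k + 1)) * (1 + QS sp x)) ≤ VV S O j sp c0 R x.1 x.2.2 ∧
      VV S O j sp c0 R x.1 x.2.2 ≤ C + 2 * S.Λ * (S.k + 1) := by
  have hΛ := S.Λ_nonneg
  have hC : 0 ≤ C := (abs_nonneg _).trans (h x.2.2)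
  have h1 := Vq_nonpos S.κ_nonneg (fun b a => O.1 b (j.succAbove a)) (fun b => O.1 b j)
    (fun a => sv x.1 x.2.2.1 (sp a)) x.2.2.2
  have h2 := Vq_ge (κ := S.κ) (Λ := 2 * S.Λ) (by positivity) (fun b => ⟨S.κ_nonneg b, S.κ_le b⟩)
    (Bm := fun b a => O.1 b (j.succAbove a))
    (fun a => by simp only [sq]; rw [orth_col, if_pos rfl]) (w := fun b => O.1 b j)
    (by simp only [sq]; rw [orth_col, if_pos rfl]) (fun a => sv x.1 x.2.2.1 (sp a)) x.2.2.2
  have hQ := QS_nonneg sp x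
  have e : ∑ a, sv x.1 x.2.2.1 (sp a) ^ 2 = QS sp x := rfl
  rw [e] at h2
  have h3 := abs_le.1 (h x.2.2)
  have h4 : 0 ≤ 2 * S.Λ * (S.k + 1) := by positivity
  unfold VV
  constructor <;> nlinarith

/-- the value at the matrix `E` is squeezed -/
theorem squeeze (S : Spec) {J : ℕ} (θ ϑ : ℕ → ℝ) (δ : ℝ) {blk : Fin M → Fin (S.k + 1)}
    {j : Fin (S.k + 1)} {sp : Fin S.k → Fin M} (h : Cav blk j sp) (lab' : Fin (M + 1) → Fin J)
    (mag : Fin J → ℝ) (Kp yb : ℝ) (π' : PI X.n S.k J → ℝ) (tx : ℕ → Fin (M + 1) → ℝ)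
    (htx : ∀ a r, tx a r = if r = Fin.last M then ϑ a else 0)
    {O : Orth (S.k + 1)} {E : Orth (M + 1)} (hE : Emb j sp O E) {δ0 δ' C0 : ℝ} (hs : Small π' δ0)
    {V : Orth M → (Fin M → Bool) × Bool → ℝ} (hV : ∀ σ, Measurable (fun U => V U σ))
    (bV : ∀ x : XS X.n M S.k, -(C0 * (1 + QS sp x)) ≤ V x.1 x.2.2 ∧ V x.1 x.2.2 ≤ C0)
    (hd : ∀ x : XS X.n M S.k, |VV S O j sp (S.lam S.top / 2 -
            (π' (Sum.inr (Sum.inr (lab' (Fin.last M)))) - 2 * Kp * yb) * mag (lab' (Fin.last M)))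
          (Rf (fun r => lab' r.castSucc) mag (lab' (Fin.last M)) Kp yb) x.1 x.2.2 - V x.1 x.2.2| ≤
          δ' * (1 + QS sp x)) :
    (xT X M S.k).A (fun x => HB ((sys S 1 θ (blkR blk sp S.top) (fun r => lab' r.castSucc) mag Kp
        (fun _ => 0) (fun _ _ => 0) π').off sp) θ ϑ
          (π' (Sum.inr (Sum.inr (lab' (Fin.last M)))) - 2 * Kp * yb + δ) x + V x.1 x.2.2 -
          (δ' + 2 * δ0) * (1 + QS sp x)) ≤
      (xT X M S.k).A (fun x => Ham (sys S 1 θ (Fin.snoc blk j) lab' mag Kp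
        (fun σ => δ * spinVec σ (Fin.last M)) tx π') (up E x)) ∧
    (xT X M S.k).A (fun x => Ham (sys S 1 θ (Fin.snoc blk j) lab' mag Kp
        (fun σ => δ * spinVec σ (Fin.last M)) tx π') (up E x)) ≤
      (xT X M S.k).A (fun x => HB ((sys S 1 θ (blkR blk sp S.top) (fun r => lab' r.castSucc) mag Kp
        (fun _ => 0) (fun _ _ => 0) π').off sp) θ ϑ
          (π' (Sum.inr (Sum.inr (lab' (Fin.last M)))) - 2 * Kp * yb + δ) x + V x.1 x.2.2 +
          (δ' + 2 * δ0) * (1 + QS sp x)) := by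
  have hsp := h.inj
  have hδ0 : 0 ≤ δ0 := (abs_nonneg _).trans (hs.a j)
  simp only [ham_up S θ ϑ δ h lab' mag Kp yb π' tx htx hE]
  set H0 : XS X.n M S.k → ℝ := HB ((sys S 1 θ (blkR blk sp S.top) (fun r => lab' r.castSucc) mag
    Kp (fun _ => 0) (fun _ _ => 0) π').off sp) θ ϑ
    (π' (Sum.inr (Sum.inr (lab' (Fin.last M)))) - 2 * Kp * yb + δ) with hH0
  set W : Orth M → (Fin M → Bool) × Bool → ℝ := VV S O j sp (S.lam S.top / 2 -
    (π' (Sum.inr (Sum.inr (lab' (Fin.last M)))) - 2 * Kp * yb) * mag (lab' (Fin.last M)))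
    (Rf (fun r => lab' r.castSucc) mag (lab' (Fin.last M)) Kp yb) with hW
  have l0 : (xT X M S.k).LG H0 := lg_HB _ _ _ _
  have lQ : (xT X M S.k).LG (fun x => 1 + QS sp x) := (Tower.LG.const 1).add (lg_QS hsp)
  have hQ : ∀ x : XS X.n M S.k, 0 ≤ QS sp x := QS_nonneg sp
  have lV : (xT X M S.k).LG (fun x => V x.1 x.2.2) := by
    refine Tower.LG.of_le (x10_meas hV) (lQ.const_mul |C0|) fun x => ?_
    have := bV x
    have h1 := hQ x
    have h2 := le_abs_self C0
    have h3 := abs_nonneg C0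
    rw [abs_le]
    constructor <;> nlinarith
  have lW : (xT X M S.k).LG (fun x => W x.1 x.2.2) := by
    have : (xT X M S.k).LG (fun x => W x.1 x.2.2 - V x.1 x.2.2) :=
      Tower.LG.of_le ((x10_meas (measurable_VV S O j sp _ _)).sub (x10_meas hV))
        (lQ.const_mul δ') hd
    simpa using this.add lV
  have lR : (xT X M S.k).LG (Rα O j S.top sp π') :=
    Tower.LG.of_le (measurable_Rα O j S.top sp π') (lQ.const_mul δ0) (abs_Rα O j S.top sp hs)
  have lH : (xT X M S.k).LG (fun x => H0 x + W x.1 x.2.2 + Rα O j S.top sp π' x) :=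
    (l0.add lW).add lR
  have hv1 : ∀ (l : Fin X.n) b, vtOf π' (l + 1) b ^ 2 ≤ δ0 := fun l b =>
    (Finset.single_le_sum (f := fun a => vtOf π' a b ^ 2) (fun _ _ => sq_nonneg _)
      (Finset.mem_Icc.2 ⟨by omega, by omega⟩)).trans (hs.v b)
  have key := x10_sandwich (X := X) (fun q : Fin X.n × Fin (S.k + 1) =>
      (cx (1, q.1, rep j sp q.2) : XI X.n M S.k))
    (fun q q' e => by
      have := cx_inj e
      simp only [Prod.mk.injEq, true_and] at this
      exact Prod.ext this.1 (rep_inj h this.2))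
    (a := fun q x => vtOf π' (q.1 + 1) q.2 * xv O j (yS sp x) x.2.2.2 q.2) lH
    (fun q => (measurable_xv O j sp q.2).const_mul _) (B := δ0 + (1 + M))
    (fun q x => by
      have h1 := hv1 q.1 q.2
      have h2 := xv_sq_le O j (yS sp x) x.2.2.2 q.2
      have h3 : ∑ a, yS sp x a ^ 2 ≤ M := QS_le hsp x
      have h4 : (0 : ℝ) ≤ M := Nat.cast_nonneg M
      rw [abs_le]
      constructor <;> nlinarith [sq_nonneg (vtOf π' (q.1 + 1) q.2 + xv O j (yS sp x) x.2.2.2 q.2),
        sq_nonneg (vtOf π' (q.1 + 1) q.2 - xv O j (yS sp x) x.2.2.2 q.2)])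
    (fun q t x => by
      have := inv_HB_off (X := X) (sys S 1 θ (blkR blk sp S.top) (fun r => lab' r.castSucc) mag
        Kp (fun _ => 0) (fun _ _ => 0) π') sp j θ ϑ
        (π' (Sum.inr (Sum.inr (lab' (Fin.last M)))) - 2 * Kp * yb + δ) q.1 q.2 t x
      rw [← hH0] at this
      rw [this]
      rfl)
    (fun q q' t x => rfl)
  have hsq : ∀ x : XS X.n M S.k, ∑ q : Fin X.n × Fin (S.k + 1),
      (vtOf π' (q.1 + 1) q.2 * xv O j (yS sp x) x.2.2.2 q.2) ^ 2 ≤ δ0 * (1 + QS sp x) := by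
    intro x
    rw [Fintype.sum_prod_type_right, QS, ← sum_xv_sq O j (yS sp x) x.2.2.2, Finset.mul_sum]
    refine Finset.sum_le_sum fun b _ => ?_
    simp only [mul_pow]
    rw [← Finset.sum_mul, x10_sum_Icc X.n (fun a => vtOf π' a b ^ 2)]
    exact mul_le_mul_of_nonneg_right (hs.v b) (sq_nonneg _)
  constructor
  · refine le_trans ?_ key.1
    refine Tower.X_mono ((l0.add lV).sub (lQ.const_mul _)).ub lH.ub (fun x => ?_) 0 _
    have h1 := abs_le.1 (hd x)
    have h2 := abs_le.1 (abs_Rα O j S.top sp hs x)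
    have h3 := hQ x
    nlinarith
  · refine key.2.trans ?_
    have lS : (xT X M S.k).LG (fun x => ∑ q : Fin X.n × Fin (S.k + 1),
        (vtOf π' (q.1 + 1) q.2 * xv O j (yS sp x) x.2.2.2 q.2) ^ 2) := by
      refine Tower.LG.of_le (Finset.measurable_sum _ fun q _ =>
        ((measurable_xv O j sp q.2).const_mul _).pow_const 2) (lQ.const_mul δ0) fun x => ?_
      rw [abs_of_nonneg (Finset.sum_nonneg fun _ _ => sq_nonneg _)]
      exact hsq x
    refine Tower.X_mono (lH.add (lS.const_mul _)).ub ((l0.add lV).add (lQ.const_mul _)).ub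
      (fun x => ?_) 0 _
    have h1 := abs_le.1 (hd x)
    have h2 := abs_le.1 (abs_Rα O j S.top sp hs x)
    have h3 := hQ x
    have h4 := hsq x
    nlinarith

end Crest.Agent.R164
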