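import Crest.Agent.R164.X1

/-! # The extended tower: removing the row fields on the special rows -/

set_option autoImplicit false
set_option linter.unusedVariables false
set_option linter.unusedSectionVars false

open MeasureTheory ProbabilityTheory Real Crest.ProbabilityR.InvariantGlass
open scoped ENNReal

namespace Crest.Agent.R164

variable {M k : ℕ} {X : Expo}

/-- the row fields on the special rows are switched off -/
noncomputable def Par.off (p : Par M) (sp : Fin k → Fin M) : Par M :=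
  { p with vt := fun a i => if ∃ c, sp c = i then 0 else p.vt a i }

theorem x2_sum {sp : Fin k → Fin M} (hsp : Function.Injective sp) (u w : Fin M → ℝ) :
    ∑ i, u i * w i = ∑ i, (if ∃ c, sp c = i then 0 else u i) * w i + ∑ c, u (sp c) * w (sp c) := by
  rw [← Finset.sum_image (s := Finset.univ) (g := sp) (f := fun i => u i * w i)
    (fun _ _ _ _ h => hsp h), ← Finset.univ_inter (Finset.image _ _), ← Finset.sum_ite_mem,
    ← Finset.sum_add_distrib]
  refine Finset.sum_congr rfl fun i _ => ?_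
  by_cases h : ∃ c, sp c = i <;> simp [h]

theorem x2_Icc (n : ℕ) (f : ℕ → ℝ) : ∑ l : Fin n, f (l + 1) = ∑ a ∈ Finset.Icc 1 n, f a := by
  rw [Fin.sum_univ_eq_sum_range (fun l => f (l + 1)), Finset.range_eq_Ico, Finset.sum_Ico_add' f 0 n 1]
  rfl

theorem x2_HB {n : ℕ} (p : Par M) {sp : Fin k → Fin M} (hsp : Function.Injective sp) (θ ϑ : ℕ → ℝ)
    (b : ℝ) (x : XS n M k) : HB p θ ϑ b x = HB (p.off sp) θ ϑ b x + ∑ l : Fin n, ∑ c,
      p.vt (l + 1) (sp c) * (x.2.1 (Sum.inl (1, l, sp c)) * sO (sp c) (pM x)) := by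
  have h : ∀ l : Fin n, _ := fun l => x2_sum hsp (p.vt (l + 1))
    fun i => (pM x).2.1 (1, l, i) * sO i (pM x)
  simp only [HB, Ham, h, Finset.sum_add_distrib, Par.off]
  simp only [pM]
  ring

theorem x2_inv {n : ℕ} (p : Par M) (sp : Fin k → Fin M) (θ ϑ : ℕ → ℝ) (b : ℝ) (l : Fin n)
    (c : Fin k) : Inv (Sum.inl (1, l, sp c) : XI n M k) (HB (p.off sp) θ ϑ b) := by
  intro t x
  have h1 : pA (shift (Sum.inl (1, l, sp c) : XI n M k) t x) = pA x := by
    simp [pA, shift]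
  have h2 : ∀ (l' : Fin n) (i : Fin M), (p.off sp).vt (l' + 1) i *
      ((pM (shift (Sum.inl (1, l, sp c) : XI n M k) t x)).2.1 (1, l', i) *
        sO i (pM (shift (Sum.inl (1, l, sp c) : XI n M k) t x))) =
      (p.off sp).vt (l' + 1) i * ((pM x).2.1 (1, l', i) * sO i (pM x)) := fun l' i => by
    by_cases h : ∃ c, sp c = i
    · simp [Par.off, h]
    · have h3 : (Sum.inl (1, l', i) : XI n M k) ≠ Sum.inl (1, l, sp c) := fun e =>
        h ⟨c, by simp at e; exact e.2.symm⟩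
      simp only [pM, shift, Function.update_of_ne h3]
      rfl
  have h4 : ∀ (j : Fin 3) (l' : Fin n) (i : Fin M), j ≠ 1 →
      (pM (shift (Sum.inl (1, l, sp c) : XI n M k) t x)).2.1 (j, l', i) = (pM x).2.1 (j, l', i) :=
    fun j l' i hj => Function.update_of_ne (by simp [hj]) _ _
  simp only [HB, Ham, h1, h2, h4 0 _ _ (by decide), h4 2 _ _ (by decide)]
  rfl

theorem x2_lg {V : Orth M → (Fin M → Bool) × Bool → ℝ} (hV : ∀ σ, Measurable (fun U => V U σ))
    {C : ℝ} (bV : ∀ U σ, |V U σ| ≤ C) : (xT X M k).LG (fun x => V x.1 x.2.2) :=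
  Tower.LG.of_bdd ((measurable_from_prod_countable_left (f := fun q => V q.1 q.2) hV).comp
    (measurable_fst.prodMk measurable_snd.snd)) fun _ => bV _ _

/-- `sandwich` for the coordinates `(1, l, sp a)`, for a tilt `V` without Gaussian coordinates -/
theorem off_sandwich (p : Par M) {sp : Fin k → Fin M} (hsp : Function.Injective sp) (θ ϑ : ℕ → ℝ)
    (b : ℝ) {Θ : ℝ} (hv : ∀ c, ∑ a ∈ Finset.Icc 1 X.n, p.vt a (sp c) ^ 2 ≤ Θ)
    {V : Orth M → (Fin M → Bool) × Bool → ℝ} (hV : ∀ σ, Measurable (fun U => V U σ)) {C : ℝ}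
    (bV : ∀ U σ, |V U σ| ≤ C) :
    (xT X M k).A (fun x => HB (p.off sp) θ ϑ b x + V x.1 x.2.2) ≤
      (xT X M k).A (fun x => HB p θ ϑ b x + V x.1 x.2.2) ∧
    (xT X M k).A (fun x => HB p θ ϑ b x + V x.1 x.2.2) ≤
      (xT X M k).A (fun x => HB (p.off sp) θ ϑ b x + V x.1 x.2.2 + Θ / 2 * QS sp x) := by
  let e : Fin X.n × Fin k ↪ XI X.n M k := ⟨fun q => Sum.inl (1, q.1, sp q.2), fun q q' h => by
    simp only [Sum.inl.injEq, Prod.mk.injEq, true_and] at h
    exact Prod.ext h.1 (hsp h.2)⟩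
  let a : XI X.n M k → XS X.n M k → ℝ :=
    Sum.elim (fun q x => p.vt (q.2.1 + 1) q.2.2 * sO q.2.2 (pM x)) (fun _ _ => 0)
  have hH := (lg_HB (X := X) (k := k) (p.off sp) θ ϑ b).add (x2_lg hV bV)
  have hm : ∀ i, Measurable (a i) := by
    rintro (q | q)
    · exact ((measurable_sO _).comp measurable_pM).const_mul _
    · exact measurable_const
  have hB : ∀ i x, |a i x| ≤ (∑ q : Fin X.n × Fin M, |p.vt (q.1 + 1) q.2|) * √M := by
    rintro (q | q) x
    · show |_ * _| ≤ _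
      rw [abs_mul]
      exact mul_le_mul (Finset.single_le_sum (f := fun q : Fin X.n × Fin M => |p.vt (q.1 + 1) q.2|)
        (fun _ _ => abs_nonneg _) (Finset.mem_univ q.2)) (abs_sO _ _) (abs_nonneg _)
        (Finset.sum_nonneg fun _ _ => abs_nonneg _)
    · show |(0 : ℝ)| ≤ _
      rw [abs_zero]
      positivity
  obtain ⟨h1, h2⟩ := sandwich (Finset.univ.map e) (a := a) hH (fun i _ => hm i) (fun i _ => hB i)
    (fun i hi => by
      obtain ⟨q, -, rfl⟩ := Finset.mem_map.1 hi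
      exact fun t x => congrArg (· + V x.1 x.2.2) (x2_inv p sp θ ϑ b q.1 q.2 t x))
    (by rintro i - (q | q) - t x <;> rfl)
  have e1 : (fun x : XS X.n M k => HB (p.off sp) θ ϑ b x + V x.1 x.2.2 +
      ∑ i ∈ Finset.univ.map e, x.2.1 i * a i x) = fun x => HB p θ ϑ b x + V x.1 x.2.2 := by
    funext x
    rw [x2_HB p hsp, Finset.sum_map, Fintype.sum_prod_type, add_right_comm]
    congr 2
    exact Finset.sum_congr rfl fun l _ => Finset.sum_congr rfl fun c _ => mul_left_comm _ _ _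
  rw [e1] at h1 h2
  refine ⟨h1, h2.trans ?_⟩
  have lq : (xT X M k).LG fun x => ∑ i ∈ Finset.univ.map e, a i x ^ 2 :=
    Tower.LG.sum _ fun i _ => by
      simpa only [sq] using (Tower.LG.of_bdd (T := xT X M k) (hm i) (hB i)).mul_bdd (hm i) (hB i)
  refine Tower.X_mono (hH.add (lq.const_mul _)).ub (hH.add ((lg_QS hsp).const_mul _)).ub
    (fun x => ?_) 0 _
  have h3 : ∑ i ∈ Finset.univ.map e, a i x ^ 2 ≤ Θ * QS sp x := by
    rw [Finset.sum_map, Fintype.sum_prod_type_right, QS, Finset.mul_sum]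
    refine Finset.sum_le_sum fun c _ => ?_
    refine le_trans (le_of_eq ?_) (mul_le_mul_of_nonneg_right (hv c) (sq_nonneg _))
    rw [← x2_Icc, Finset.sum_mul]
    exact Finset.sum_congr rfl fun l _ => mul_pow _ _ _
  linarith

/-- With `d = A (H⁰ + cQ) - A H⁰`: `A (H⁰ + cQ) ≤ A (H + cQ) ≤ A H + 1 ≤ A (H⁰ + ½ΘQ) + 1 ≤
A H⁰ + d/2 + 1` by convexity. -/
theorem exp_bound_off {p : Par M} {T : Finset (Fin M)} {sp : Fin k → Fin M} {ρ : ℝ}
    (h : TInv p T sp ρ) (θ ϑ : ℕ → ℝ) (b : ℝ) {Θ : ℝ} (hΘ : Θ ≤ (4 * ρ * (k + 1))⁻¹)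
    (hv : ∀ c, ∑ a ∈ Finset.Icc 1 X.n, p.vt a (sp c) ^ 2 ≤ Θ) :
    (xT X M k).A (fun x => HB (p.off sp) θ ϑ b x + (4 * ρ * (k + 1))⁻¹ * QS sp x) ≤
      (xT X M k).A (HB (p.off sp) θ ϑ b) + 2 := by
  have hρ := h.one_le
  set c := (4 * ρ * (k + 1))⁻¹ with hc
  have hc0 : 0 < c := by positivity
  have hH := lg_HB (X := X) (k := k) (p.off sp) θ ϑ b
  have hQ := lg_QS (X := X) h.inj
  have h1 := (off_sandwich p h.inj θ ϑ b hv
    (V := fun U σ => c * QS sp ((U, 0, σ) : XS X.n M k))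
    (fun σ => (hQ.1.comp (measurable_id.prodMk measurable_const)).const_mul c) (C := c * M)
    fun U σ => by
      rw [abs_of_nonneg (mul_nonneg hc0.le (QS_nonneg _ _))]
      exact mul_le_mul_of_nonneg_left (QS_le h.inj _) hc0.le).1
  have h2 := exp_bound (X := X) h θ ϑ b
  have h3 := (off_sandwich p h.inj θ ϑ b hv (V := fun _ _ => 0) (fun _ => measurable_const)
    (C := 0) fun _ _ => by simp).2
  simp only [add_zero] at h3
  have h4 := Tower.t3_mono (hH.add (hQ.const_mul (Θ / 2))) (hH.add (hQ.const_mul (c / 2))) (c := 0)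
    fun x => by nlinarith [QS_nonneg sp x]
  have h5 := Tower.t3_up hH hQ hc0 (s := c / 2) (by positivity) (by linarith)
    (d := (xT X M k).A (fun x => HB (p.off sp) θ ϑ b x + c * QS sp x) -
      (xT X M k).A (HB (p.off sp) θ ϑ b)) (by linarith)
  rw [show c / 2 / c = 1 / 2 by field_simp] at h5
  have h6 : (xT X M k).A (fun x => HB (p.off sp) θ ϑ b x + c * QS sp x) ≤
      (xT X M k).A (fun x => HB p θ ϑ b x + c * QS sp x) := h1
  have h7 : (xT X M k).A (HB p θ ϑ b) ≤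
      (xT X M k).A (fun x => HB (p.off sp) θ ϑ b x + Θ / 2 * QS sp x) := h3
  linarith

/-- The master comparison.  `H'` is any Hamiltonian squeezed between `H⁰ + V ± δ (1 + Q)` in the
sense of values; then it has almost the value of `H + V` (`quad`, `off_sandwich`,
`exp_bound_off`, monotonicity). -/
theorem off_compare (k : ℕ) (ρ C0 : ℝ) (hρ : 1 ≤ ρ) (hC0 : 0 ≤ C0) : ∃ C δ1 : ℝ, 0 < δ1 ∧ 0 ≤ C ∧
    ∀ (X : Expo) (M : ℕ) (p : Par M) (T : Finset (Fin M)) (sp : Fin k → Fin M), TInv p T sp ρ →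
    ∀ (θ ϑ : ℕ → ℝ) (b δ : ℝ), 0 ≤ δ → δ ≤ δ1 →
    (∀ c, ∑ a ∈ Finset.Icc 1 X.n, p.vt a (sp c) ^ 2 ≤ δ) →
    ∀ V : Orth M → (Fin M → Bool) × Bool → ℝ, (∀ σ, Measurable (fun U => V U σ)) →
    (∀ x : XS X.n M k, -(C0 * (1 + QS sp x)) ≤ V x.1 x.2.2 ∧ V x.1 x.2.2 ≤ C0) →
    ∀ a : ℝ,
    (xT X M k).A (fun x => HB (p.off sp) θ ϑ b x + V x.1 x.2.2 - δ * (1 + QS sp x)) ≤ a →
    a ≤ (xT X M k).A (fun x => HB (p.off sp) θ ϑ b x + V x.1 x.2.2 + δ * (1 + QS sp x)) →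
    |a - (xT X M k).A (fun x => HB p θ ϑ b x + V x.1 x.2.2)| ≤ C * δ ∧
    |a - (xT X M k).A (HB p θ ϑ b)| ≤ C := by
  set c := (4 * ρ * (k + 1))⁻¹ with hc
  have hc0 : 0 < c := by positivity
  set D := 1 + (2 + 2 * C0 + C0 * 2 / c) / c with hD
  set E := C0 + 1 + C0 * 1 / c with hE
  have hD0 : 0 ≤ D := by positivity
  have hE0 : 0 ≤ E := by positivity
  refine ⟨2 * D + E, min c 1, lt_min hc0 one_pos, by positivity, ?_⟩
  intro X M p T sp h θ ϑ b δ hδ hδ1 hv V hV bV a h1 h2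
  have hδc : δ ≤ c := hδ1.trans (min_le_left _ _)
  have hδ2 : δ ≤ 1 := hδ1.trans (min_le_right _ _)
  have bV' : ∀ U σ, |V U σ| ≤ C0 * (1 + M) := fun U σ => by
    obtain ⟨b1, b2⟩ := bV (U, 0, σ)
    have b3 := mul_le_mul_of_nonneg_left (QS_le h.inj ((U, 0, σ) : XS X.n M k)) hC0
    have b4 : 0 ≤ C0 * M := by positivity
    exact abs_le.2 ⟨by linarith, by linarith⟩
  have hH := lg_HB (X := X) (k := k) (p.off sp) θ ϑ b
  have hQ := lg_QS (X := X) h.inj
  have lV : (xT X M k).LG (fun x => V x.1 x.2.2) := x2_lg hV bV'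
  have q0 := QS_nonneg (n := X.n) sp
  have key : ∀ R : XS X.n M k → ℝ, (xT X M k).LG R → (∀ x, |R x| ≤ δ * (1 + QS sp x)) →
      |(xT X M k).A (fun x => HB (p.off sp) θ ϑ b x + V x.1 x.2.2 + R x) -
        (xT X M k).A (fun x => HB (p.off sp) θ ϑ b x + V x.1 x.2.2)| ≤ δ * D := fun R r r1 =>
    Tower.quad hH hQ lV r hc0 hC0 hδ hδc q0 (exp_bound_off h θ ϑ b hδc hv) (fun x => (bV x).1)
      (fun x => (bV x).2) r1
  have r0 : ∀ x : XS X.n M k, 0 ≤ δ * (1 + QS sp x) := fun x => mul_nonneg hδ (by linarith [q0 x])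
  have lR := ((Tower.LG.const (T := xT X M k) 1).add hQ).const_mul δ
  have k1 := abs_le.1 (key _ lR fun x => (abs_of_nonneg (r0 x)).le)
  have k2 := abs_le.1 (key _ lR.neg fun x => by rw [abs_neg, abs_of_nonneg (r0 x)])
  have k3 := abs_le.1 (key _ (hQ.const_mul (δ / 2)) fun x => by
    rw [abs_of_nonneg (mul_nonneg (by linarith) (q0 x))]
    nlinarith [q0 x])
  simp only [← sub_eq_add_neg] at k2
  obtain ⟨s1, s2⟩ := off_sandwich p h.inj θ ϑ b hv hV bV'
  have k4 := abs_le.1 (Tower.quad_crude (lg_HB (X := X) (k := k) p θ ϑ b) hQ lV hc0 hC0 q0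
    (exp_bound h θ ϑ b) (fun x => (bV x).1)
    fun x => by linarith [(bV x).2, mul_nonneg hc0.le (q0 x)])
  have k5 : δ * D ≤ D := mul_le_of_le_one_left hD0 hδ2
  have k6 : 0 ≤ E * δ := mul_nonneg hE0 hδ
  exact ⟨abs_le.2 ⟨by linarith, by linarith⟩, abs_le.2 ⟨by linarith, by linarith⟩⟩

end Crest.Agent.R164
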