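import Crest.Agent.R164.X1
import Crest.Agent.R164.H4

/-! # Replacing the cavity coordinates by Gaussian projections

For a fixed `k × M` matrix `Y = G/√|T|` let `O` be given by `exists_frame`.  By `iso_A` the value
with `ψ (y_S)` equals the value with `ψ ((O s)_{sp})`; by `pert`, the Lipschitz bound on `ψ` and
`iso_sq` it differs from the value with `ψ (Y s)` by at most
`min (2B, e^{6B} B √k √ρ ‖Y - F‖)`.  Use `A_freeze` (the family
`H g x = HB x + ψ (G(g) s(x)/√|T|)`), `lme_close`, and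
`E Σ_{ab} ((G Gᵀ)_{ab}/|T| - δ_{ab})² = (k² + k)/|T|` (any bound `C_k/|T|` will do). -/

set_option autoImplicit false
set_option linter.unusedVariables false
set_option linter.unusedSectionVars false

open MeasureTheory ProbabilityTheory Real Crest.ProbabilityR.InvariantGlass
open scoped ENNReal

namespace Crest.Agent.R164

theorem Psi.lip {k : ℕ} {ψ : (Fin k → ℝ) → Bool → ℝ} {B : ℝ} (h : Psi ψ B) (y y' : Fin k → ℝ)
    (ε : Bool) : |ψ y ε - ψ y' ε| ≤ B * ∑ a, |y a - y' a| := by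
  have hd : Differentiable ℝ (fun y => ψ y ε) := (h.cd ε).differentiable (by norm_num)
  have h1 : ∀ t : ℝ, HasDerivAt (fun t : ℝ => ψ (y' + t • (y - y')) ε)
      (fderiv ℝ (fun y => ψ y ε) (y' + t • (y - y')) (y - y')) t := fun t => by
    have h2 : HasDerivAt (fun t : ℝ => y' + t • (y - y')) (y - y') t := by
      simpa using ((hasDerivAt_id t).smul_const (y - y')).const_add y'
    exact (hd _).hasFDerivAt.comp_hasDerivAt t h2
  have h3 := norm_image_sub_le_of_norm_deriv_le_segment_01' (C := B * ∑ a, |y a - y' a|)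
    (fun t _ => (h1 t).hasDerivWithinAt) fun t _ => by
      conv_lhs => enter [1, 2]; rw [pi_eq_sum_univ' (y - y')]
      rw [map_sum, Finset.mul_sum]
      refine norm_sum_le_of_le _ fun a _ => ?_
      rw [map_smul, norm_smul, mul_comm]
      exact mul_le_mul_of_nonneg_right (h.b1 _ ε a) (norm_nonneg _)
  simpa using h3

theorem x3_mp {I : Type} [Fintype I] (i : I) :
    MeasurePreserving (fun g : I → ℝ => g i) (gpi I) (gaussianReal 0 1) :=
  measurePreserving_eval _ i

theorem x3_int4 : Integrable (fun x : ℝ => x ^ 4) (gaussianReal 0 1) := by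
  refine (memLp_id_gaussianReal' (μ := 0) (v := 1) (4 : ℕ) (by simp)).integrable_norm_pow'.congr
    (.of_forall fun x => ?_)
  exact (by decide : Even 4).pow_abs x

/-- the fourth moment -/
noncomputable def x3c : ℝ := ∫ x, x ^ 4 ∂(gaussianReal 0 1)

theorem x3_ind (I : Type) [Fintype I] : iIndepFun (fun i (g : I → ℝ) => g i) (gpi I) :=
  iIndepFun_pi (X := fun _ x => x) fun _ => aemeasurable_id

theorem x3_prod {I : Type} [Fintype I] (i j : I) :
    MemLp (fun g : I → ℝ => g i * g j) 2 (gpi I) ∧ ∫ g, (g i * g j) ^ 2 ∂(gpi I) ≤ x3c := by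
  have h : ∀ i : I, Integrable (fun g : I → ℝ => g i ^ 4) (gpi I) := fun i =>
    (x3_mp i).integrable_comp_of_integrable x3_int4
  have e : ∀ i : I, ∫ g, g i ^ 4 ∂(gpi I) = x3c := fun i => by
    rw [x3c, ← (x3_mp i).map_eq, integral_map (x3_mp i).aemeasurable (by fun_prop)]
  have b : ∀ g : I → ℝ, (g i * g j) ^ 2 ≤ (g i ^ 4 + g j ^ 4) / 2 := fun g => by
    nlinarith [sq_nonneg (g i ^ 2 - g j ^ 2)]
  have i1 := ((h i).add (h j)).div_const 2
  refine ⟨(memLp_two_iff_integrable_sq (by fun_prop)).2 (i1.mono' (by fun_prop)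
    (.of_forall fun g => by rw [Real.norm_of_nonneg (sq_nonneg _)]; exact b g)), ?_⟩
  refine (integral_mono_of_nonneg (.of_forall fun _ => sq_nonneg _) i1 (.of_forall b)).trans_eq ?_
  rw [integral_div, integral_add' (h i) (h j), e, e]
  ring

theorem x3_mean {I : Type} [Fintype I] [DecidableEq I] (i j : I) :
    ∫ g, g i * g j ∂(gpi I) = if i = j then 1 else 0 := by
  have e : ∀ i : I, ∫ g, g i ∂(gpi I) = 0 := fun i => by
    rw [← integral_id_gaussianReal (μ := 0) (v := 1), ← (x3_mp i).map_eq,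
      integral_map (x3_mp i).aemeasurable (by fun_prop)]
  split_ifs with h
  · subst h
    have h1 := variance_fun_id_gaussianReal (μ := 0) (v := 1)
    rw [variance_eq_integral (by fun_prop), integral_id_gaussianReal, ← (x3_mp i).map_eq,
      integral_map (x3_mp i).aemeasurable (by fun_prop)] at h1
    simpa [sq] using h1
  · rw [((x3_ind I).indepFun h).integral_fun_mul_eq_mul_integral
      (measurable_pi_apply i).aestronglyMeasurable (measurable_pi_apply j).aestronglyMeasurable, e,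
      zero_mul]

theorem x3_var {I κ : Type} [Fintype I] (T : Finset κ) (hT : T.Nonempty) (u w : κ → I) (δ : ℝ)
    (hδ : ∀ i, ∫ g, g (u i) * g (w i) ∂(gpi I) = δ)
    (hd : ∀ i j, i ≠ j → u i ≠ u j ∧ u i ≠ w j ∧ w i ≠ u j ∧ w i ≠ w j) :
    Integrable (fun g : I → ℝ => (∑ i ∈ T, g (u i) / √(T.card) * (g (w i) / √(T.card)) - δ) ^ 2)
      (gpi I) ∧
    ∫ g, (∑ i ∈ T, g (u i) / √(T.card) * (g (w i) / √(T.card)) - δ) ^ 2 ∂(gpi I) ≤
      x3c / T.card := by
  have hn : (0 : ℝ) < T.card := by exact_mod_cast hT.card_pos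
  let Z : κ → (I → ℝ) → ℝ := fun i g => g (u i) * g (w i)
  have hZ : ∀ i ∈ T, MemLp (Z i) 2 (gpi I) := fun i _ => (x3_prod _ _).1
  have e : ∀ g : I → ℝ, (∑ i ∈ T, g (u i) / √(T.card) * (g (w i) / √(T.card)) - δ) ^ 2 =
      ((∑ i ∈ T, Z i) g - T.card * δ) ^ 2 / T.card ^ 2 := fun g => by
    simp only [div_mul_div_comm, Real.mul_self_sqrt hn.le, ← Finset.sum_div, Finset.sum_apply, Z]
    field_simp
  have m := memLp_finsetSum' T hZ
  have e1 : ∫ g, (∑ i ∈ T, Z i) g ∂(gpi I) = T.card * δ := by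
    simp only [Finset.sum_apply]
    rw [integral_finsetSum _ fun i hi => (hZ i hi).integrable one_le_two]
    simp [Z, hδ]
  simp only [e]
  refine ⟨((m.sub (memLp_const _)).integrable_sq).div_const _, ?_⟩
  rw [integral_div, ← e1, ← variance_eq_integral m.aemeasurable, IndepFun.variance_sum hZ
    fun i _ j _ hij => (x3_ind I).indepFun_mul_mul (by fun_prop) _ _ _ _ (hd i j hij).1
      (hd i j hij).2.1 (hd i j hij).2.2.1 (hd i j hij).2.2.2]
  have : ∑ i ∈ T, Var[Z i; gpi I] ≤ T.card * x3c :=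
    (Finset.sum_le_sum fun i hi => (variance_le_expectation_sq (hZ i hi).1).trans
      (x3_prod _ _).2).trans_eq (by simp)
  rw [div_le_div_iff₀ (by positivity) hn]
  nlinarith

theorem x3_meas {k : ℕ} {ψ : (Fin k → ℝ) → Bool → ℝ} {B : ℝ} (h : Psi ψ B) {α : Type}
    [MeasurableSpace α] {y : α → Fin k → ℝ} {e : α → Bool} (hy : Measurable y) (he : Measurable e) :
    Measurable fun x => ψ (y x) (e x) :=
  (measurable_from_prod_countable_left (f := fun q : (Fin k → ℝ) × Bool => ψ q.1 q.2)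
    fun ε => (h.cd ε).continuous.measurable).comp (hy.prodMk he)

theorem x3_mY {n M k : ℕ} (T : Finset (Fin M)) (Y : Fin k → Fin M → ℝ) :
    Measurable fun (x : XS n M k) a => ∑ i ∈ T, Y a i * sO i (pM x) :=
  measurable_pi_lambda _ fun a => Finset.measurable_sum _ fun i _ =>
    ((measurable_sO i).comp measurable_pM).const_mul _

theorem x3_det {X : Expo} {M k : ℕ} {p : Par M} {T : Finset (Fin M)} {sp : Fin k → Fin M} {ρ B : ℝ}
    (h : TInv p T sp ρ) (θ ϑ : ℕ → ℝ) (b : ℝ) {ψ : (Fin k → ℝ) → Bool → ℝ} (hψ : Psi ψ B)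
    {O : Orth M} (hO : OnT T O) (Y : Fin k → Fin M → ℝ) {η : ℝ} (hη : 0 < η) :
    |(xT X M k).A (fun x => HB p θ ϑ b x + ψ (fun a => ∑ i ∈ T, Y a i * sO i (pM x)) x.2.2.2) -
      (xT X M k).A (fun x => HB p θ ϑ b x + ψ (yS sp x) x.2.2.2)| ≤
    exp (2 * (B + 2 * B)) * (B * (k * η + ρ / η * ∑ a, ∑ i ∈ T, (Y a i - O.1 (sp a) i) ^ 2)) := by
  have hB : 0 ≤ B := (abs_nonneg _).trans (hψ.b0 0 true)
  have lH := lg_HB (X := X) (k := k) p θ ϑ b
  have e1 := iso_A (X := X) h θ ϑ b hO (F := fun s ε => ψ (fun a => s (sp a)) ε)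
    fun ε => x3_meas hψ (by fun_prop) measurable_const
  have e2 : ∀ (s : Fin M → ℝ) a, O.1.mulVec s (sp a) = ∑ i ∈ T, O.1 (sp a) i * s i := fun s a =>
    (Finset.sum_subset T.subset_univ fun i _ hi => by
      change O.1 (sp a) i * s i = 0
      rw [hO _ _ (Or.inr hi), if_neg fun e : sp a = i => hi (e ▸ h.mem a), zero_mul]).symm
  simp only [e2] at e1
  have m1 := x3_meas hψ (x3_mY (n := X.n) T Y) (e := fun x => x.2.2.2) (by fun_prop)
  have m2 := x3_meas hψ (x3_mY (n := X.n) T fun a => O.1 (sp a)) (e := fun x => x.2.2.2)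
    (by fun_prop)
  have h1 := Tower.pert lH m2 (m1.sub m2) (fun _ => hψ.b0 _ _) (C' := 2 * B) fun x =>
    (abs_sub _ _).trans ((add_le_add (hψ.b0 _ _) (hψ.b0 _ _)).trans_eq (two_mul B).symm)
  simp only [Pi.sub_apply, add_add_sub_cancel, e1] at h1
  refine h1.trans (mul_le_mul_of_nonneg_left ?_ (exp_pos _).le)
  have iz : ∀ a, Integrable (fun x => (∑ i ∈ T, (Y a i - O.1 (sp a) i) * sO i (pM x)) ^ 2)
      ((xT X M k).PP (HB p θ ϑ b)) := fun a =>
    ((Tower.Gr.sum T fun i _ => (Tower.Gr.of_bdd ((measurable_sO i).comp measurable_pM)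
      fun x => abs_sO i _).const_mul _).pow 2).integrable_PP lH
  have iz' := integrable_finsetSum Finset.univ fun a _ => iz a
  refine (integral_mono_of_nonneg (.of_forall fun _ => abs_nonneg _)
    (((integrable_const (k * η)).add (iz'.const_mul η⁻¹)).const_mul B)
    (.of_forall fun x => (hψ.lip _ _ _).trans (mul_le_mul_of_nonneg_left ?_ hB))).trans ?_
  · simp only [Pi.add_apply, ← Finset.sum_sub_distrib, ← sub_mul]
    refine (Finset.sum_le_sum (g := fun a => η + η⁻¹ *
      (∑ i ∈ T, (Y a i - O.1 (sp a) i) * sO i (pM x)) ^ 2) fun a _ => ?_).trans_eq (by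
        simp [Finset.sum_add_distrib, Finset.mul_sum])
    generalize ∑ i ∈ T, (Y a i - O.1 (sp a) i) * sO i (pM x) = z
    rw [← sq_abs, ← sub_le_iff_le_add', le_inv_mul_iff₀ hη]
    nlinarith [sq_nonneg (|z| - η), abs_nonneg z]
  · rw [integral_const_mul, integral_add' (integrable_const _) (iz'.const_mul _), integral_const,
      integral_const_mul, probReal_univ, one_smul, integral_finsetSum _ fun a _ => iz a]
    refine mul_le_mul_of_nonneg_left (add_le_add le_rfl ?_) hB
    rw [div_eq_inv_mul, mul_assoc, Finset.mul_sum _ _ ρ]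
    exact mul_le_mul_of_nonneg_left (Finset.sum_le_sum fun a _ => iso_sq h θ ϑ b _) (by positivity)

theorem frames (k : ℕ) (B ρ : ℝ) {ε : ℝ} (hε : 0 < ε) : ∃ n0 : ℕ,
    ∀ (X : Expo) (M : ℕ) (p : Par M) (T : Finset (Fin M)) (sp : Fin k → Fin M), TInv p T sp ρ →
    n0 ≤ T.card → ∀ (θ ϑ : ℕ → ℝ) (b : ℝ) (ψ : (Fin k → ℝ) → Bool → ℝ), Psi ψ B →
    |(xT X M k).A (fun x => HB p θ ϑ b x + ψ (yS sp x) x.2.2.2) -
      (xT X M k).A (fun x => HB p θ ϑ b x + ψ (yG T x) x.2.2.2)| ≤ ε := by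
  obtain ⟨C, hC, hfr⟩ := exists_frame k
  set K := exp (2 * B) * exp (2 * (B + 2 * B)) * |B| with hK
  have K0 : 0 ≤ K := by positivity
  set η := ε / (2 * (K * k + 1)) with hη
  have η0 : 0 < η := by positivity
  have hηε : K * k * η ≤ ε / 2 := by
    rw [hη, ← mul_div_assoc, div_le_div_iff₀ (by positivity) two_pos]
    nlinarith
  obtain ⟨n0, hn0⟩ := exists_nat_ge (K * (ρ * C / η * (k * (k * x3c))) / (ε / 2))
  refine ⟨n0, fun X M p T sp h hn θ ϑ b ψ hψ => ?_⟩
  have hB : 0 ≤ B := (abs_nonneg _).trans (hψ.b0 0 true)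
  have hρ : 0 ≤ ρ := zero_le_one.trans h.one_le
  have hT : (0 : ℝ) < T.card := by exact_mod_cast h.ne.card_pos
  let Y : (XI X.n M k → ℝ) → Fin k → Fin M → ℝ := fun g a i =>
    g (Sum.inr (Sum.inl (a, i))) / √(T.card)
  let H : (XI X.n M k → ℝ) → XS X.n M k → ℝ := fun g x =>
    HB p θ ϑ b x + ψ (fun a => ∑ i ∈ T, Y g a i * sO i (pM x)) x.2.2.2
  obtain ⟨mH, C0, hC0⟩ := lg_HB (X := X) (k := k) p θ ϑ b
  have hm : Measurable (Function.uncurry H) := (mH.comp measurable_snd).add (x3_meas hψ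
    (measurable_pi_lambda _ fun a => Finset.measurable_sum _ fun i _ =>
      (((measurable_pi_apply _).comp measurable_fst).div_const _).mul
        ((measurable_sO i).comp (measurable_pM.comp measurable_snd))) (by fun_prop))
  obtain ⟨mA, eA⟩ := A_freeze (X := X) (P := haar M) (lev := xlev) (H := H) hm (C := |C0| + B)
    (fun g x => by
      have h1 : |HB p θ ϑ b x| ≤ C0 * (1 + ‖x.2.1‖) := hC0 x
      have h2 := norm_nonneg g
      have h3 := norm_nonneg x.2.1
      refine (abs_add_le _ _).trans ((add_le_add h1 (hψ.b0 _ _)).trans ?_)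
      nlinarith [mul_le_mul_of_nonneg_right (le_abs_self C0) (show 0 ≤ 1 + ‖x.2.1‖ by linarith),
        mul_nonneg (abs_nonneg C0) h2, mul_nonneg hB h2, mul_nonneg hB h3])
    (fun g g' x hg => by
      have : Y g = Y g' := funext fun a => funext fun i => by
        simp only [Y]; rw [hg _ rfl]
      simp only [H, this])
    (fun g ω z z' σ hz => by
      have e1 : pM (ω, z, σ) = pM (ω, z', σ) :=
        Prod.ext rfl (Prod.ext (funext fun q => hz _ (Nat.succ_ne_zero _)) rfl)
      have e2 : pA (ω, z, σ) = pA (ω, z', σ) :=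
        Prod.ext rfl (Prod.ext (funext fun q => hz _ (by
          rcases q with q | q <;> exact Nat.succ_ne_zero _)) rfl)
      simp only [H, HB, e1, e2])
  have e0 : (fun x : XS X.n M k => HB p θ ϑ b x + ψ (yG T x) x.2.2.2) = fun x => H x.2.1 x := by
    funext x
    simp only [H, Y]
    congr 2
    funext a
    rw [yG, Finset.sum_div]
    exact Finset.sum_congr rfl fun i _ => by ring
  set a0 := (xT X M k).A (fun x => HB p θ ϑ b x + ψ (yS sp x) x.2.2.2) with ha0
  have lH := lg_HB (X := X) (k := k) p θ ϑ b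
  have me : Measurable fun x : XS X.n M k => x.2.2.2 := by fun_prop
  have hb : ∀ g, |(xT X M k).A (H g) - a0| ≤ 2 * B := fun g => by
    refine Tower.abs_X_sub_le
      (lH.add (Tower.LG.of_bdd (x3_meas hψ (x3_mY T (Y g)) me) fun _ => hψ.b0 _ _)).ub
      (lH.add (Tower.LG.of_bdd (x3_meas hψ (measurable_yS sp) me) fun _ => hψ.b0 _ _)).ub
      (fun x => ?_) 0 _
    rw [add_sub_add_left_eq_sub]
    exact (abs_sub _ _).trans ((add_le_add (hψ.b0 _ _) (hψ.b0 _ _)).trans_eq (two_mul B).symm)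
  have hv : ∀ a a' : Fin k, _ := fun a a' => x3_var (I := XI X.n M k) T h.ne
    (fun i => Sum.inr (Sum.inl (a, i))) (fun i => Sum.inr (Sum.inl (a', i)))
    (if a = a' then 1 else 0) (fun i => by rw [x3_mean]; simp) fun i j hij => by simp [hij]
  have iD : Integrable (fun g => ∑ a, ∑ a', (∑ i ∈ T, Y g a i * Y g a' i -
      if a = a' then 1 else 0) ^ 2) (gpi (XI X.n M k)) :=
    integrable_finsetSum _ fun a _ => integrable_finsetSum _ fun a' _ => (hv a a').1
  have bD : ∫ g, ∑ a, ∑ a', (∑ i ∈ T, Y g a i * Y g a' i - if a = a' then 1 else 0) ^ 2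
      ∂(gpi (XI X.n M k)) ≤ k * (k * x3c) / T.card := by
    rw [integral_finsetSum _ fun a _ => integrable_finsetSum _ fun a' _ => (hv a a').1]
    refine (Finset.sum_le_sum (g := fun _ => k * (x3c / T.card)) fun a _ => ?_).trans_eq (by
      simp; ring)
    rw [integral_finsetSum _ fun a' _ => (hv a a').1]
    exact (Finset.sum_le_sum fun a' _ => (hv a a').2).trans_eq (by simp)
  rw [abs_sub_comm, e0]
  change |(gT X (haar M) xlev _).A _ - _| ≤ _
  rw [eA]
  refine (lme_close _ mA X.m_pos ((X.m_le 0).trans (X.le_one 0)) hb).1.trans ?_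
  have hi : ∫ g, |(xT X M k).A (H g) - a0| ∂(gpi (XI X.n M k)) ≤
      ∫ g, exp (2 * (B + 2 * B)) * B * (k * η + ρ * C / η * ∑ a, ∑ a',
        (∑ i ∈ T, Y g a i * Y g a' i - if a = a' then 1 else 0) ^ 2) ∂(gpi (XI X.n M k)) := by
    refine integral_mono_of_nonneg (.of_forall fun _ => abs_nonneg _)
      (((integrable_const _).add (iD.const_mul _)).const_mul _) (.of_forall fun g => ?_)
    obtain ⟨O, hO, hY⟩ := hfr M T sp h.inj h.mem (Y g)
    refine (x3_det h θ ϑ b hψ hO (Y g) η0).trans ?_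
    have := mul_le_mul_of_nonneg_left hY (show 0 ≤ ρ / η by positivity)
    refine (mul_le_mul_of_nonneg_left (mul_le_mul_of_nonneg_left ?_ hB) (exp_pos _).le).trans_eq
      (mul_assoc _ _ _).symm
    rw [← mul_assoc, div_mul_eq_mul_div ρ η C] at this
    linarith
  rw [integral_const_mul, integral_add (integrable_const _) (iD.const_mul _), integral_const,
    integral_const_mul, probReal_univ, one_smul] at hi
  refine (mul_le_mul_of_nonneg_left hi (exp_pos _).le).trans ?_
  rw [← mul_assoc, ← mul_assoc, show exp (2 * B) *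
    exp (2 * (B + 2 * B)) * B = K by rw [hK, abs_of_nonneg hB]]
  have h1 := mul_le_mul_of_nonneg_left bD (show 0 ≤ K * (ρ * C / η) by positivity)
  have h2 : K * (ρ * C / η) * (k * (k * x3c) / T.card) ≤ ε / 2 := by
    rw [div_le_iff₀ (by positivity)] at hn0
    rw [← mul_div_assoc, div_le_iff₀ hT]
    have : (n0 : ℝ) ≤ T.card := by exact_mod_cast hn
    nlinarith
  nlinarith

end Crest.Agent.R164
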