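import Crest.Agent.R164.H3

/-! # The extended tower of the cavity step (definitions)

The model of size `M` together with a Gaussian matrix `G` (level `0`), hierarchical fields `ζ`
for `k` cavity coordinates, the three fields of one new site/row, and one new spin. -/

set_option autoImplicit false
set_option linter.unusedVariables false
set_option linter.unusedSectionVars false

open MeasureTheory ProbabilityTheory Real Crest.ProbabilityR.InvariantGlass
open scoped ENNReal

namespace Crest.Agent.R164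

/-- coordinates of the auxiliary system -/
abbrev AI (n k : ℕ) : Type := (Fin n × Fin k) ⊕ (Fin 3 × Fin n)

def alev {n k : ℕ} : AI n k → Fin (n + 1)
  | Sum.inl q => q.1.succ
  | Sum.inr q => q.2.succ

abbrev AS (n k : ℕ) : Type := Unit × (AI n k → ℝ) × Bool

/-- the auxiliary tower -/
noncomputable def aT (X : Expo) (k : ℕ) : Tower (AS X.n k) := gT X (Measure.dirac ()) alev Bool

abbrev XI (n M k : ℕ) : Type := MI n M ⊕ ((Fin k × Fin M) ⊕ AI n k)

def xlev {n M k : ℕ} : XI n M k → Fin (n + 1)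
  | Sum.inl q => mlev q
  | Sum.inr (Sum.inl _) => 0
  | Sum.inr (Sum.inr q) => alev q

abbrev XS (n M k : ℕ) : Type := Orth M × (XI n M k → ℝ) × ((Fin M → Bool) × Bool)

/-- the extended tower -/
noncomputable def xT (X : Expo) (M k : ℕ) : Tower (XS X.n M k) :=
  gT X (haar M) xlev ((Fin M → Bool) × Bool)

section
variable {n M k : ℕ}

def pM (x : XS n M k) : MS n M := (x.1, fun q => x.2.1 (Sum.inl q), x.2.2.1)

def pA (x : XS n M k) : AS n k := ((), fun q => x.2.1 (Sum.inr (Sum.inr q)), x.2.2.2)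

/-- the new spin with its fields -/
noncomputable def HA (θ ϑ : ℕ → ℝ) (b : ℝ) (x : AS n k) : ℝ :=
  sg x.2.2 * (b + ∑ l : Fin n, θ (l + 1) * x.2.1 (Sum.inr (0, l)) +
    ∑ l : Fin n, ϑ (l + 1) * x.2.1 (Sum.inr (2, l)))

/-- hierarchical Gaussian field with variance increments `Q (l+1) - Q l` at the levels `l` -/
noncomputable def zA (Q : ℕ → ℝ) (x : AS n k) (a : Fin k) : ℝ :=
  ∑ l : Fin n, √(Q (l + 2) - Q (l + 1)) * x.2.1 (Sum.inl (l, a))

/-- the base Hamiltonian: the model of size `M` and an independent spin -/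
noncomputable def HB (p : Par M) (θ ϑ : ℕ → ℝ) (b : ℝ) (x : XS n M k) : ℝ :=
  Ham p (pM x) + HA θ ϑ b (pA x)

/-- the cavity coordinates: the special rows of `s` -/
noncomputable def yS (sp : Fin k → Fin M) (x : XS n M k) (a : Fin k) : ℝ := sO (sp a) (pM x)

/-- their Gaussian surrogate `G s / √|T|` -/
noncomputable def yG (T : Finset (Fin M)) (x : XS n M k) (a : Fin k) : ℝ :=
  (∑ i ∈ T, x.2.1 (Sum.inr (Sum.inl (a, i))) * sO i (pM x)) / √(T.card)

/-- `|y|²` -/
noncomputable def QS (sp : Fin k → Fin M) (x : XS n M k) : ℝ := ∑ a, yS sp x a ^ 2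

/-- the state of the system of size `M + 1` with matrix `U (V ⊕ 1)` -/
noncomputable def up (U : Orth (M + 1)) (x : XS n M k) : MS n (M + 1) :=
  (U * ext1 x.1,
    fun q => Fin.lastCases (motive := fun _ => ℝ) (x.2.1 (Sum.inr (Sum.inr (Sum.inr (q.1, q.2.1)))))
      (fun i => x.2.1 (Sum.inl (q.1, q.2.1, i))) q.2.2,
    Fin.snoc x.2.2.1 x.2.2.2)

end

/-- the parameters are invariant under rotations of the rows in `T`, which contains the special
rows and a fraction `1/ρ` of all rows -/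
structure TInv {M k : ℕ} (p : Par M) (T : Finset (Fin M)) (sp : Fin k → Fin M) (ρ : ℝ) : Prop where
  inj : Function.Injective sp
  mem : ∀ a, sp a ∈ T
  lam : ∀ i ∈ T, ∀ j ∈ T, p.lam i = p.lam j
  vt : ∀ a, ∀ i ∈ T, ∀ j ∈ T, p.vt a i = p.vt a j
  ne : T.Nonempty
  card : (M : ℝ) ≤ ρ * T.card

/-- bounded smooth tilts -/
structure Psi {k : ℕ} (ψ : (Fin k → ℝ) → Bool → ℝ) (B : ℝ) : Prop where
  cd : ∀ ε, ContDiff ℝ 2 (fun y => ψ y ε)
  b0 : ∀ y ε, |ψ y ε| ≤ B
  b1 : ∀ y ε a, |fderiv ℝ (fun y => ψ y ε) y (Pi.single a 1)| ≤ B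
  b2 : ∀ y ε a, |fderiv ℝ (fun y => fderiv ℝ (fun y => ψ y ε) y (Pi.single a 1)) y
    (Pi.single a 1)| ≤ B

/-- the cavity quadratic form -/
noncomputable def Vq {P k : ℕ} (κ : Fin P → ℝ) (Bm : Fin P → Fin k → ℝ) (w : Fin P → ℝ)
    (y : Fin k → ℝ) (ε : Bool) : ℝ :=
  -(1 / 2) * ∑ b, κ b * (∑ a, Bm b a * y a + w b * sg ε) ^ 2

/-- the special rows: one row of each block other than `j` -/
structure Cav {M k : ℕ} (blk : Fin M → Fin (k + 1)) (j : Fin (k + 1)) (sp : Fin k → Fin M) :
    Prop where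
  inj : Function.Injective sp
  blk : ∀ a, blk (sp a) = j.succAbove a

/-- the blocks of the reference system: the special rows are moved to the top block -/
def blkR {M k : ℕ} (blk : Fin M → Fin (k + 1)) (sp : Fin k → Fin M) (top : Fin (k + 1))
    (i : Fin M) : Fin (k + 1) := if ∃ a, sp a = i then top else blk i

/-- effective variances of the cavity field -/
noncomputable def vst (S : Spec) (X : Expo) (Q : ℕ → ℝ) (l : ℕ) : ℝ :=
  (S.Rh (X.D Q l) - S.Rh (X.D Q (l + 1))) / X.e l

end Crest.Agent.R164
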